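import Crest.Agent.R300U.GQ

/-!
Row 300, upper bound, task GPT (part Q): polynomial-time operations on integers (`ZT`, division) and
rational numbers.
-/

set_option autoImplicit false

namespace Crest.Agent.R300U

open Crest.Agent.PT Crest.Agent.QC Crest.Agent.R317 Finset

variable {α β γ : Type} [Enc α] [Enc β] [Enc γ]

/-! ### Integers -/

/-- Cast of a binary natural number to `ℤ`. -/
@[fun_prop] theorem pt_icast {f : α → ℕ} (hf : BT f) : PT (fun a => (f a : ℤ)) := hf.int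

@[fun_prop] theorem bt_natAbs {f : α → ℤ} (hf : PT f) : BT (fun a => (f a).natAbs) := hf.intNatAbs

@[fun_prop] theorem pt_iabs {f : α → ℤ} (hf : PT f) : PT (fun a => |f a|) :=
  (bt_natAbs hf).int.congr (fun a => by simp)

@[fun_prop] theorem dt_ine {f g : α → ℤ} (hf : PT f) (hg : PT g) : DT (fun a => f a ≠ g a) :=
  (dt_ieq hf hg).not

theorem pt_idiv_nat {f : α → ℤ} {g : α → ℕ} (hf : PT f) (hg : BT g) :
    PT (fun a => f a / (g a : ℤ)) := by
  have h : PT (fun a => if g a = 0 then (0 : ℤ) else if 0 ≤ f a then bz ((f a).toNat / g a) else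
      -bz (((-f a).toNat + g a - 1) / g a)) := by fun_prop
  refine h.congr (fun a => ?_)
  generalize f a = x
  generalize g a = d
  split_ifs with h0 h1
  · simp [h0]
  · obtain ⟨n, rfl⟩ := Int.eq_ofNat_of_zero_le h1
    simp [bz]
  · obtain ⟨n, rfl⟩ : ∃ n : ℕ, x = -(n : ℤ) := ⟨(-x).toNat, by omega⟩
    have hd : 0 < d := Nat.pos_of_ne_zero h0
    simp only [neg_neg, Int.toNat_natCast, bz]
    have e1 := Nat.div_add_mod (n + d - 1) d
    have e2 := Nat.mod_lt (n + d - 1) hd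
    generalize (n + d - 1) / d = q at e1 ⊢
    generalize (n + d - 1) % d = r at e1 e2
    have e3 : (d : ℤ) * q + r + 1 = n + d := by
      have : d * q + r + 1 = n + d := by omega
      exact_mod_cast this
    symm
    rw [Int.ediv_eq_iff_of_pos (by exact_mod_cast hd)]
    have e4 : (r : ℤ) < d := by exact_mod_cast e2
    constructor <;> nlinarith

@[fun_prop] theorem pt_idiv {f g : α → ℤ} (hf : PT f) (hg : PT g) : PT (fun a => f a / g a) := by
  have h1 := pt_idiv_nat hf (bt_natAbs hg)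
  have h : PT (fun a => if 0 ≤ g a then f a / ((g a).natAbs : ℤ) else
      -(f a / ((g a).natAbs : ℤ))) := PT.iteD (by fun_prop) h1 h1.intNegate
  refine h.congr (fun a => ?_)
  split_ifs with h0
  · rw [Int.natAbs_of_nonneg h0]
  · rw [← Int.ediv_neg]; congr 1; omega

@[fun_prop] theorem pt_imod {f g : α → ℤ} (hf : PT f) (hg : PT g) : PT (fun a => f a % g a) :=
  (hf.intSub (hg.intMul (pt_idiv hf hg))).congr (fun a => by rw [Int.emod_def])

/-! ### Integers in unary -/

theorem ZT.congr {f g : α → ℤ} (hf : ZT f) (h : ∀ a, f a = g a) : ZT g :=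
  ⟨hf.1.congr (fun a => by rw [h a]), hf.2.congr (fun a => by rw [h a])⟩

@[fun_prop] theorem ZT.const (c : ℤ) : ZT (fun _ : α => c) := ⟨PT.const _, PT.const _⟩

@[fun_prop] theorem ZT.comp {g : β → ℤ} {f : α → β} (hg : ZT g) (hf : PT f) :
    ZT (fun a => g (f a)) :=
  ⟨PT.comp (g := fun b => (g b).toNat) hg.1 hf, PT.comp (g := fun b => (-g b).toNat) hg.2 hf⟩

theorem ZT.ofSub {f g : α → ℕ} (hf : PT f) (hg : PT g) : ZT (fun a => (f a : ℤ) - g a) :=
  ⟨(hf.sub hg).congr (fun a => by dsimp only; omega),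
   (hg.sub hf).congr (fun a => by dsimp only; omega)⟩

@[fun_prop] theorem ZT.natCast {f : α → ℕ} (hf : PT f) : ZT (fun a => (f a : ℤ)) :=
  (ZT.ofSub hf (PT.const 0)).congr (fun a => by simp)

@[fun_prop] theorem ZT.add {f g : α → ℤ} (hf : ZT f) (hg : ZT g) : ZT (fun a => f a + g a) :=
  (ZT.ofSub (hf.1.add hg.1) (hf.2.add hg.2)).congr (fun a => by omega)

@[fun_prop] theorem ZT.neg {f : α → ℤ} (hf : ZT f) : ZT (fun a => -f a) :=
  ⟨hf.2, hf.1.congr (fun a => by simp)⟩

@[fun_prop] theorem ZT.sub {f g : α → ℤ} (hf : ZT f) (hg : ZT g) : ZT (fun a => f a - g a) :=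
  (hf.add hg.neg).congr (fun a => by ring)

@[fun_prop] theorem ZT.mul {f g : α → ℤ} (hf : ZT f) (hg : ZT g) : ZT (fun a => f a * g a) :=
  (ZT.ofSub ((hf.1.mul hg.1).add (hf.2.mul hg.2)) ((hf.1.mul hg.2).add (hf.2.mul hg.1))).congr
    (fun a => by
      push_cast
      have h1 := Int.toNat_sub_toNat_neg (f a)
      have h2 := Int.toNat_sub_toNat_neg (g a)
      generalize ((f a).toNat : ℤ) = x at *
      generalize ((-f a).toNat : ℤ) = y at *
      generalize ((g a).toNat : ℤ) = z at *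
      generalize ((-g a).toNat : ℤ) = w at *
      rw [← h1, ← h2]; ring)

@[fun_prop] theorem ZT.ite {p : α → Prop} [∀ a, Decidable (p a)] {f g : α → ℤ} (hp : DT p)
    (hf : ZT f) (hg : ZT g) : ZT (fun a => if p a then f a else g a) :=
  ⟨(PT.iteD hp hf.1 hg.1).congr (fun a => by by_cases h : p a <;> simp [h]),
   (PT.iteD hp hf.2 hg.2).congr (fun a => by by_cases h : p a <;> simp [h])⟩

@[fun_prop] theorem ZT.pt {f : α → ℤ} (hf : ZT f) : PT f :=
  (hf.1.intCast.intSub hf.2.intCast).congr (fun a => by omega)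

@[fun_prop] theorem ZT.toNat {f : α → ℤ} (hf : ZT f) : PT (fun a => (f a).toNat) := hf.1

@[fun_prop] theorem ZT.natAbs {f : α → ℤ} (hf : ZT f) : PT (fun a => (f a).natAbs) :=
  (hf.1.add hf.2).congr (fun a => by omega)

@[fun_prop] theorem ZT.abs {f : α → ℤ} (hf : ZT f) : ZT (fun a => |f a|) :=
  (ZT.natCast hf.natAbs).congr (fun a => by simp)

@[fun_prop] theorem ZT.max {f g : α → ℤ} (hf : ZT f) (hg : ZT g) :
    ZT (fun a => max (f a) (g a)) :=
  (ZT.ite (dt_ile hf.pt hg.pt) hg hf).congr (fun a => by rw [max_def])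

@[fun_prop] theorem ZT.min {f g : α → ℤ} (hf : ZT f) (hg : ZT g) :
    ZT (fun a => min (f a) (g a)) :=
  (ZT.ite (dt_ile hf.pt hg.pt) hf hg).congr (fun a => by rw [min_def])

/-- A binary natural number with a unary bound is computable in unary. -/
theorem pt_of_bt_le {f L : α → ℕ} (hf : BT f) (hL : PT L) (h : ∀ a, f a ≤ L a) : PT f :=
  (pt_un hL hf).congr (fun a => min_eq_left (h a))

/-- A binary integer with a unary bound is computable in unary. -/
theorem ZT.ofBound {f : α → ℤ} {L : α → ℕ} (hf : PT f) (hL : PT L) (h : ∀ a, |f a| ≤ L a) :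
    ZT f :=
  ⟨pt_of_bt_le (bt_toNat hf) hL (fun a => by have := abs_le.1 (h a); omega),
   pt_of_bt_le (bt_toNat hf.intNegate) hL (fun a => by have := abs_le.1 (h a); omega)⟩

@[fun_prop] theorem ZT.div {f g : α → ℤ} (hf : ZT f) (hg : PT g) : ZT (fun a => f a / g a) :=
  ZT.ofBound (pt_idiv hf.pt hg) hf.natAbs (fun a => by
    rw [Int.natCast_natAbs]; exact Int.abs_ediv_le_abs _ _)

/-! ### Rational numbers -/

theorem q_parts {f : α → ℚ} (hf : PT f) : PT (fun a => ((f a).num, (⟨(f a).den⟩ : Bin))) :=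
  hf.of_enc_eq (fun _ => enc_q _)

@[fun_prop] theorem pt_qnum {f : α → ℚ} (hf : PT f) : PT (fun a => (f a).num) := (q_parts hf).fst

@[fun_prop] theorem bt_qden {f : α → ℚ} (hf : PT f) : BT (fun a => (f a).den) := (q_parts hf).snd

theorem sz_q (q : ℚ) : sz q = 2 * sz q.num + q.den.size + 1 := by
  have : sz q = sz (q.num, (⟨q.den⟩ : Bin)) := congrArg List.length (enc_q q)
  simp [this]

theorem pt_mkRat {n : α → ℤ} {d : α → ℕ} (hn : PT n) (hd : BT d) :
    PT (fun a => mkRat (n a) (d a)) := by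
  have h1 : PT (fun a => if d a = 0 then (0 : ℤ) else n a / ((d a).gcd (n a).natAbs : ℕ)) := by
    fun_prop
  have h2 : BT (fun a => if d a = 0 then 1 else d a / (d a).gcd (n a).natAbs) := by fun_prop
  refine (h1.pair h2).of_enc_eq (fun a => ?_)
  rw [enc_q, Rat.num_mkRat, Rat.den_mkRat]

theorem pt_qmk {n : α → ℤ} {d : α → ℕ} (hn : PT n) (hd : BT d) :
    PT (fun a => (n a : ℚ) / (d a : ℚ)) :=
  (pt_mkRat hn hd).congr (fun a => by rw [Rat.mkRat_eq_div])

@[fun_prop] theorem pt_qint {f : α → ℤ} (hf : PT f) : PT (fun a => (f a : ℚ)) :=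
  (pt_qmk hf (BT.const 1)).congr (fun a => by simp)

@[fun_prop] theorem pt_qnat {f : α → ℕ} (hf : BT f) : PT (fun a => (f a : ℚ)) :=
  (pt_qint hf.int).congr (fun a => by simp)

@[fun_prop] theorem pt_qadd {f g : α → ℚ} (hf : PT f) (hg : PT g) : PT (fun a => f a + g a) := by
  refine (pt_qmk (n := fun a => (f a).num * (g a).den + (g a).num * (f a).den)
    (d := fun a => (f a).den * (g a).den) (by fun_prop) (by fun_prop)).congr (fun a => ?_)
  conv_rhs => rw [← Rat.num_div_den (f a), ← Rat.num_div_den (g a)]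
  have h1 : ((f a).den : ℚ) ≠ 0 := by exact_mod_cast (f a).den_nz
  have h2 : ((g a).den : ℚ) ≠ 0 := by exact_mod_cast (g a).den_nz
  push_cast
  field_simp

@[fun_prop] theorem pt_qneg {f : α → ℚ} (hf : PT f) : PT (fun a => -f a) := by
  refine (pt_qmk (n := fun a => -(f a).num) (d := fun a => (f a).den) (by fun_prop)
    (by fun_prop)).congr (fun a => ?_)
  conv_rhs => rw [← Rat.num_div_den (f a)]
  push_cast
  ring

@[fun_prop] theorem pt_qsub {f g : α → ℚ} (hf : PT f) (hg : PT g) : PT (fun a => f a - g a) :=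
  (pt_qadd hf (pt_qneg hg)).congr (fun a => by ring)

@[fun_prop] theorem pt_qmul {f g : α → ℚ} (hf : PT f) (hg : PT g) : PT (fun a => f a * g a) := by
  refine (pt_qmk (n := fun a => (f a).num * (g a).num)
    (d := fun a => (f a).den * (g a).den) (by fun_prop) (by fun_prop)).congr (fun a => ?_)
  conv_rhs => rw [← Rat.num_div_den (f a), ← Rat.num_div_den (g a)]
  push_cast
  ring

@[fun_prop] theorem pt_qinv {f : α → ℚ} (hf : PT f) : PT (fun a => (f a)⁻¹) := by
  refine (pt_qmk (n := fun a => (f a).den * (f a).num)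
    (d := fun a => (f a).num.natAbs * (f a).num.natAbs) (by fun_prop) (by fun_prop)).congr
    (fun a => ?_)
  conv_rhs => rw [← Rat.num_div_den (f a)]
  have h : (((f a).num.natAbs * (f a).num.natAbs : ℕ) : ℚ) = (f a).num * (f a).num := by
    rw [← Int.cast_natCast, Int.natAbs_mul_self]; push_cast; ring
  rw [h]
  by_cases h0 : ((f a).num : ℚ) = 0
  · simp [h0]
  · push_cast
    field_simp

@[fun_prop] theorem pt_qdiv {f g : α → ℚ} (hf : PT f) (hg : PT g) : PT (fun a => f a / g a) :=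
  (pt_qmul hf (pt_qinv hg)).congr (fun a => by rw [div_eq_mul_inv])

theorem pt_qpow {f : α → ℚ} {k : α → ℕ} (hf : PT f) (hk : PT k) :
    PT (fun a => f a ^ k a) := by
  refine (pt_qmk (n := fun a => (f a).num ^ k a)
    (d := fun a => (f a).den ^ k a) (by fun_prop) (by fun_prop)).congr (fun a => ?_)
  conv_rhs => rw [← Rat.num_div_den (f a)]
  push_cast
  rw [div_pow]

theorem pt_qzpow {f : α → ℚ} {k : α → ℤ} (hf : PT f) (hk : ZT k) :
    PT (fun a => f a ^ k a) := by
  have h : PT (fun a => if 0 ≤ k a then f a ^ (k a).toNat else (f a ^ (-k a).toNat)⁻¹) :=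
    PT.iteD (dt_ile (PT.const _) hk.pt) (pt_qpow hf hk.1) (pt_qinv (pt_qpow hf hk.2))
  refine h.congr (fun a => ?_)
  split_ifs with h0
  · rw [← zpow_natCast, Int.toNat_of_nonneg h0]
  · rw [← zpow_natCast, Int.toNat_of_nonneg (by omega), zpow_neg, inv_inv]

/-- Exponent types (`ℕ` or `ℤ`): a single `fun_prop` rule covers both kinds of powers. -/
class ExpZ (E : Type) where
  /-- the exponent as an integer -/
  toZ : E → ℤ

instance expZ_nat : ExpZ ℕ := ⟨fun k => k⟩

instance expZ_int : ExpZ ℤ := ⟨fun k => k⟩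

@[fun_prop] theorem ZT.toZ_nat {k : α → ℕ} (hk : PT k) : ZT (fun a => ExpZ.toZ (k a)) :=
  ZT.natCast hk

@[fun_prop] theorem ZT.toZ_int {k : α → ℤ} (hk : ZT k) : ZT (fun a => ExpZ.toZ (k a)) := hk

/-- A power operation that agrees with the integer power. -/
class PowZ (M E : Type) [DivInvMonoid M] [ExpZ E] (inst : HPow M E M) : Prop where
  /-- the power is the integer power -/
  pow_eq : ∀ (x : M) (k : E), x ^ k = x ^ (ExpZ.toZ k : ℤ)

instance powZ_nat (M : Type) [DivInvMonoid M] : PowZ M ℕ (@instHPow M ℕ _) :=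
  ⟨fun x k => (zpow_natCast x k).symm⟩

instance powZ_int (M : Type) [DivInvMonoid M] : PowZ M ℤ (@instHPow M ℤ _) := ⟨fun _ _ => rfl⟩

instance powZ_qnat : PowZ ℚ ℕ (@instHPow ℚ ℕ _) := ⟨fun x k => (zpow_natCast x k).symm⟩

instance powZ_qint : PowZ ℚ ℤ (@instHPow ℚ ℤ _) := ⟨fun _ _ => rfl⟩

@[fun_prop] theorem pt_qgpow {E : Type} [ExpZ E] {inst : HPow ℚ E ℚ} [c : PowZ ℚ E inst]
    {f : α → ℚ} {k : α → E} (hf : PT f) (hk : ZT (fun a => ExpZ.toZ (k a))) :
    PT (fun a => f a ^ k a) :=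
  (pt_qzpow hf hk).congr (fun a => (c.pow_eq _ _).symm)

@[fun_prop] theorem dt_qle {f g : α → ℚ} (hf : PT f) (hg : PT g) : DT (fun a => f a ≤ g a) :=
  (dt_ile (PT.const 0) (pt_qnum (pt_qsub hg hf))).congr (fun a => by
    rw [Rat.num_nonneg, sub_nonneg])

@[fun_prop] theorem dt_qlt {f g : α → ℚ} (hf : PT f) (hg : PT g) : DT (fun a => f a < g a) :=
  (dt_qle hg hf).not.congr (fun a => not_le)

@[fun_prop] theorem dt_qeq {f g : α → ℚ} (hf : PT f) (hg : PT g) : DT (fun a => f a = g a) :=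
  ((dt_qle hf hg).and (dt_qle hg hf)).congr (fun a => le_antisymm_iff.symm)

@[fun_prop] theorem dt_qne {f g : α → ℚ} (hf : PT f) (hg : PT g) : DT (fun a => f a ≠ g a) :=
  (dt_qeq hf hg).not

@[fun_prop] theorem pt_qmax {f g : α → ℚ} (hf : PT f) (hg : PT g) :
    PT (fun a => max (f a) (g a)) :=
  (PT.iteD (dt_qle hf hg) hg hf).congr (fun a => by rw [max_def])

@[fun_prop] theorem pt_qmin {f g : α → ℚ} (hf : PT f) (hg : PT g) :
    PT (fun a => min (f a) (g a)) :=
  (PT.iteD (dt_qle hf hg) hf hg).congr (fun a => by rw [min_def])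

@[fun_prop] theorem pt_qabs {f : α → ℚ} (hf : PT f) : PT (fun a => |f a|) :=
  (pt_qmax hf (pt_qneg hf)).congr (fun a => by rw [abs_eq_max_neg])

@[fun_prop] theorem pt_qfloor {f : α → ℚ} (hf : PT f) : PT (fun a => ⌊f a⌋) :=
  (pt_idiv_nat (pt_qnum hf) (bt_qden hf)).congr (fun a => Rat.floor_def'.symm)

@[fun_prop] theorem pt_qceil {f : α → ℚ} (hf : PT f) : PT (fun a => ⌈f a⌉) :=
  (pt_qfloor (pt_qneg hf)).intNegate.congr (fun a => by rw [Int.floor_neg, neg_neg])

@[fun_prop] theorem bt_qfloor {f : α → ℚ} (hf : PT f) : BT (fun a => ⌊f a⌋₊) :=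
  (bt_toNat (pt_qfloor hf)).congr (fun a => Int.floor_toNat _)

@[fun_prop] theorem bt_qceil {f : α → ℚ} (hf : PT f) : BT (fun a => ⌈f a⌉₊) :=
  (bt_toNat (pt_qceil hf)).congr (fun a => Int.ceil_toNat _)

@[fun_prop] theorem pt_qprod {g : α → ℕ} {f : α → ℕ → ℚ} (hg : PT g)
    (hf : PT (fun p : α × ℕ => f p.1 p.2)) : PT (fun a => ∏ i ∈ range (g a), f a i) := by
  refine (pt_qmk (PT.prodInt (f := fun a i => (f a i).num) hg (pt_qnum hf))
    (BT.prod (f := fun a i => (f a i).den) hg (bt_qden hf))).congr (fun a => ?_)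
  push_cast
  rw [← prod_div_distrib]
  exact prod_congr rfl (fun i _ => Rat.num_div_den _)

@[fun_prop] theorem pt_qsum {g : α → ℕ} {f : α → ℕ → ℚ} (hg : PT g)
    (hf : PT (fun p : α × ℕ => f p.1 p.2)) : PT (fun a => ∑ i ∈ range (g a), f a i) := by
  have hd : BT (fun a => ∏ j ∈ range (g a), (f a j).den) :=
    BT.prod (f := fun a i => (f a i).den) hg (bt_qden hf)
  have h1 : PT (fun p : α × ℕ => (f p.1 p.2 * ((∏ j ∈ range (g p.1), (f p.1 j).den : ℕ) : ℚ)).num) :=
    pt_qnum (pt_qmul hf (pt_qnat (hd.comp (f := fun p : α × ℕ => p.1) (by fun_prop))))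
  refine (pt_qmk (PT.sumInt
    (f := fun a i => (f a i * ((∏ j ∈ range (g a), (f a j).den : ℕ) : ℚ)).num) hg h1) hd).congr
    (fun a => ?_)
  have hD : ((∏ j ∈ range (g a), (f a j).den : ℕ) : ℚ) ≠ 0 := by
    exact_mod_cast prod_ne_zero_iff.2 (fun j _ => (f a j).den_nz)
  rw [div_eq_iff hD, sum_mul, Int.cast_sum]
  refine sum_congr rfl (fun i hi => ?_)
  obtain ⟨c, hc⟩ := dvd_prod_of_mem (fun j => (f a j).den) hi
  have : f a i * ((∏ j ∈ range (g a), (f a j).den : ℕ) : ℚ) = (((f a i).num * c : ℤ) : ℚ) := by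
    rw [hc]; push_cast; rw [← mul_assoc, Rat.mul_den_eq_num]
  rw [this, Rat.num_intCast]

end Crest.Agent.R300U
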