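import Crest.Agent.R300U.DefsC

/-!
Row 300, upper bound, task BASE-a.
-/

set_option autoImplicit false

namespace Crest.Agent.R300U

open Crest.Agent.QC Crest.Agent.R317 Finset

namespace BaseA

theorem suffix_snoc (u v : List Bool) (a b : Bool) :
    u ++ [a] <:+ v ++ [b] ↔ a = b ∧ u <:+ v := by
  rw [← List.reverse_prefix, List.reverse_append, List.reverse_append]
  simp only [List.reverse_cons, List.reverse_nil, List.nil_append, List.singleton_append,
    List.cons_prefix_cons, List.reverse_prefix]

theorem take_snoc (w : List Bool) (s : ℕ) (hs : s < w.length) :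
    w.take (s + 1) = w.take s ++ [w.getD s false] := by
  rw [List.take_add_one, List.getD_eq_getElem?_getD, List.getElem?_eq_getElem hs]
  rfl

theorem suffix_rep (w : List Bool) (m s : ℕ) (hs : s ≤ w.length) :
    w.take s <:+ List.replicate m false ↔ s ≤ m ∧ All s (fun i => w.getD i false = false) := by
  rw [List.suffix_replicate_iff, List.length_take, min_eq_left hs]
  refine and_congr_right fun _ => ⟨fun h i hi => ?_, fun h => ?_⟩
  · have h1 : (w.take s).getD i false = false := by
      rw [h, List.getD_eq_getElem?_getD, List.getElem?_replicate]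
      split_ifs <;> rfl
    rwa [List.getD_eq_getElem?_getD, List.getElem?_take_of_lt hi,
      ← List.getD_eq_getElem?_getD] at h1
  · apply List.ext_getElem
    · simp [hs]
    · intro i h1 h2
      have hi : i < s := by simpa using h2
      have : w.getD i false = false := h i hi
      rw [List.getD_eq_getElem?_getD, List.getElem?_eq_getElem (by omega)] at this
      simpa using this

theorem row (n : ℕ) (w : List Bool) (σ : Bool) (s : ℕ) (hs : s < w.length) (v : ℕ → GQ) :
    ∑ j ∈ range (baseA n w).d, (baseA n w).A σ (s + 1) j * v j =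
      (if w.getD s false = σ then
        (if s = 0 then ((1 / (4 * n) : ℚ) : GQ) else ((1 / 4 : ℚ) : GQ)) else 0) * v s := by
  rw [sum_eq_single s]
  · simp [baseA]
  · intro j _ hj
    have : ¬ (s + 1 = j + 1) := by omega
    simp only [baseA, this, false_and, if_false, Nat.add_one_ne_zero, zero_mul]
  · intro h
    exact absurd (mem_range.2 (by simp only [baseA]; omega)) h

theorem row0 (n : ℕ) (w : List Bool) (σ : Bool) (v : ℕ → GQ) :
    ∑ j ∈ range (baseA n w).d, (baseA n w).A σ 0 j * v j = v 0 := by
  rw [sum_eq_single 0]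
  · simp [baseA]
  · intro j _ hj
    simp [baseA, hj]
  · intro h
    exact absurd (mem_range.2 (by simp only [baseA]; omega)) h

open Classical in
theorem st_eq (n : ℕ) (w : List Bool) (hw : w ≠ []) (x : List Bool) :
    (baseA n w).st x 0 = 1 ∧ ∀ s, s < w.length → (baseA n w).st x (s + 1) =
      if w.take (s + 1) <:+ List.replicate (w.length - 1) false ++ x then
        ((1 / (4 * n) / 4 ^ s : ℚ) : GQ) else 0 := by
  have hk := List.length_pos_iff.2 hw
  induction x using List.reverseRecOn with
  | nil =>
    refine ⟨by simp [baseA], fun s hs => ?_⟩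
    rw [List.append_nil, FA.st_nil]
    simp only [baseA, Nat.add_one_ne_zero, if_false, Nat.add_sub_cancel]
    refine if_congr ?_ rfl rfl
    rw [suffix_rep w _ _ hs]
    exact and_congr_left fun _ => by omega
  | append_singleton x σ ih =>
    refine ⟨by rw [FA.st_concat, row0, ih.1], fun s hs => ?_⟩
    rw [FA.st_concat, row n w σ s hs, take_snoc w s hs, ← List.append_assoc]
    simp only [suffix_snoc]
    by_cases h1 : w.getD s false = σ
    · cases s with
      | zero => simp [h1, ih.1]
      | succ s =>
        rw [ih.2 s (by omega)]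
        simp only [h1, if_true, Nat.add_one_ne_zero, if_false, true_and]
        split_ifs
        · rw [← Rat.cast_mul]; congr 1; rw [pow_succ]; ring
        · rw [mul_zero]
    · simp only [h1, if_false, false_and, zero_mul]

theorem val_eq (n : ℕ) (w : List Bool) (hn : 2 ≤ n) (hw : w ≠ []) (x : List Bool) (hx : x ≠ []) :
    (baseA n w).val x =
      if (List.replicate (w.length - 1) false ++ x).drop (x.length - 1) = w then 1 else 0 := by
  have hk := List.length_pos_iff.2 hw
  have hx' := List.length_pos_iff.2 hx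
  obtain ⟨k, hk'⟩ : ∃ k, w.length = k + 1 := ⟨w.length - 1, by omega⟩
  have h := (st_eq n w hw x).2 k (by omega)
  rw [← hk', List.take_length] at h
  unfold FA.val
  rw [sum_eq_single w.length]
  · rw [h]
    have e : (List.replicate (w.length - 1) false ++ x).length - w.length = x.length - 1 := by
      simp; omega
    have e2 : w <:+ List.replicate (w.length - 1) false ++ x ↔
        (List.replicate (w.length - 1) false ++ x).drop (x.length - 1) = w := by
      rw [List.suffix_iff_eq_drop, e, eq_comm]
    simp only [e2]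
    split_ifs
    · simp only [baseA, if_true]
      rw [← Rat.cast_mul, hk', Nat.add_sub_cancel]
      have : (n : ℚ) ≠ 0 := by positivity
      have : (4 * n * 4 ^ k * (1 / (4 * n) / 4 ^ k) : ℚ) = 1 := by field_simp
      rw [this, Rat.cast_one]
    · rw [mul_zero]
  · intro j _ hj
    simp [baseA, hj]
  · intro h
    exact absurd (mem_range.2 (by simp only [baseA]; omega)) h

theorem norm_q (q : ℚ) (hq : 0 ≤ q) : ‖(q : GQ)‖ = q := by
  rw [← norm_coe, coe_ratCast, Complex.norm_ratCast, abs_of_nonneg (by exact_mod_cast hq)]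

theorem norm_A (n : ℕ) (w : List Bool) (σ : Bool) (i j : ℕ) (h : ¬ (i = 0 ∧ j = 0)) :
    ‖(baseA n w).A σ i j‖ ≤ if i = j + 1 then (if j = 0 then 1 / (4 * n : ℝ) else 1 / 4) else 0 := by
  simp only [baseA, h, if_false]
  by_cases h1 : i = j + 1
  · simp only [h1, true_and, if_true]
    split_ifs
    · rw [norm_q _ (by positivity)]; push_cast; exact le_rfl
    · rw [norm_q _ (by positivity)]; push_cast; exact le_rfl
    · rw [norm_zero]; positivity
    · rw [norm_zero]; positivity
  · simp [h1]

theorem cls (n : ℕ) (w : List Bool) (hn : 2 ≤ n) (τ : ℝ) (hτ : 0 ≤ τ) :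
    Cls (1 - 1 / n) τ (baseA n w) := by
  have hn' : (2 : ℝ) ≤ n := by exact_mod_cast hn
  have h1 : (1 : ℝ) / n ≤ 1 / 2 := one_div_le_one_div_of_le (by norm_num) hn'
  have h0 : (0 : ℝ) < 1 / n := by positivity
  set S : ℝ := 1 - 1 / n with hS
  have S0 : 0 < S := by linarith
  have S1 : S ≤ 1 := by linarith
  have h4 : 1 / (4 * n : ℝ) = 1 / n / 4 := by field_simp
  have bound : ∀ (s : Finset ℕ) (f : ℕ → ℝ) (j₀ : ℕ) (B : ℝ), 0 ≤ B →
      (∀ j ∈ s, f j ≤ if j = j₀ then B else 0) → ∑ j ∈ s, f j ≤ B := by
    intro s f j₀ B hB hf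
    refine (sum_le_sum hf).trans ?_
    rw [sum_ite_eq']
    split_ifs
    · exact le_rfl
    · exact hB
  intro σ i _
  by_cases hi : i = 0
  · subst hi
    have e : (baseA n w).A σ 0 0 = 1 := by simp [baseA]
    rw [e, norm_one, mul_one]
    refine ⟨Or.inr ⟨-Real.log S, 0, by simpa using Real.log_nonpos S0.le S1, ?_, ?_⟩, ?_, ?_⟩
    · push_cast
      rw [neg_neg, zero_mul, add_zero, mul_one, ← Complex.ofReal_exp, Real.exp_log S0]
    · have := Real.log_nonpos S0.le S1
      nlinarith
    · refine bound _ _ 0 _ (by linarith) fun j hj => ?_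
      have hj' := (mem_erase.1 hj).1
      have := norm_A n w σ 0 j (by omega)
      rw [if_neg (by omega)] at this
      rw [if_neg hj']
      exact mul_nonpos_of_nonneg_of_nonpos S0.le this
    · refine bound _ _ 1 _ (by linarith) fun j hj => ?_
      have hj' := (mem_erase.1 hj).1
      have := norm_A n w σ j 0 (by omega)
      rw [if_pos rfl, zero_add] at this
      split_ifs at this ⊢
      · have h5 := norm_nonneg ((baseA n w).A σ j 0)
        nlinarith
      · exact mul_nonpos_of_nonneg_of_nonpos S0.le this
  · have e : (baseA n w).A σ i i = 0 := by simp [baseA, hi]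
    rw [e, norm_zero, mul_zero, sub_zero]
    refine ⟨Or.inl (by simp), ?_, ?_⟩
    · refine bound _ _ (i - 1) _ (by linarith) fun j hj => ?_
      have := norm_A n w σ i j (by omega)
      have h5 := norm_nonneg ((baseA n w).A σ i j)
      by_cases hj' : j = i - 1
      · rw [if_pos hj']
        rw [if_pos (by omega)] at this
        split_ifs at this <;> nlinarith
      · rw [if_neg hj']
        rw [if_neg (by omega)] at this
        exact mul_nonpos_of_nonneg_of_nonpos S0.le this
    · refine bound _ _ (i + 1) _ (by linarith) fun j hj => ?_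
      have := norm_A n w σ j i (by omega)
      have h5 := norm_nonneg ((baseA n w).A σ j i)
      rw [if_neg hi] at this
      split_ifs at this ⊢
      · nlinarith
      · exact mul_nonpos_of_nonneg_of_nonpos S0.le this

theorem big (n k : ℕ) : 4 * n * 4 ^ (k - 1) ≤ 2 ^ (n.size + 2 * k + 1) ∨ k = 0 := by
  cases k with
  | zero => exact Or.inr rfl
  | succ k =>
    left
    have := (Nat.lt_size_self n).le
    rw [Nat.add_sub_cancel]
    calc 4 * n * 4 ^ k ≤ 4 * 2 ^ n.size * 4 ^ k := by gcongr
      _ = 2 ^ (n.size + 2 * (k + 1)) := by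
        rw [show (4 : ℕ) = 2 ^ 2 from rfl, ← pow_mul, ← pow_add, ← pow_add]; congr 1; ring
      _ ≤ _ := Nat.pow_le_pow_right (by norm_num) (by omega)

theorem dim (n k : ℕ) : k + 1 ≤ 2 ^ (n.size + 2 * k + 1) :=
  (Nat.lt_two_pow_self (n := k)).trans_le (Nat.pow_le_pow_right (by norm_num) (by omega))

theorem ht_nat (K a b : ℕ) (hb : b ≠ 0) (ha : a ≤ 2 ^ K) (hb' : b ≤ 2 ^ K) (z : GQ)
    (hz : (z : ℂ) = a / b) : Ht K z := by
  refine ⟨a, b, by exact_mod_cast hb, by simpa using hz, ?_, ?_⟩
  · rw [map_natCast, Complex.norm_natCast]; exact_mod_cast ha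
  · rw [map_natCast, Complex.norm_natCast]; exact_mod_cast hb'

end BaseA

open BaseA in
theorem baseA_proof : BaseAStmt := by
  intro n w hn hw
  have hk := List.length_pos_iff.2 hw
  have hb := (big n w.length).resolve_right (by omega)
  have hd := dim n w.length
  refine ⟨val_eq n w hn hw, cls n w hn, ?_, ?_, hd, ?_⟩
  · unfold n1c
    rw [sum_eq_single w.length]
    · simp only [baseA, if_true]
      rw [norm_q _ (by positivity)]
      exact_mod_cast hb
    · intro j _ hj
      simp [baseA, hj]
    · intro h
      exact absurd (mem_range.2 (by simp only [baseA]; omega)) h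
  · unfold n1h
    have : ∀ i ∈ range (baseA n w).d, ‖(baseA n w).h i‖ ≤ 1 := by
      intro i _
      simp only [baseA]
      split_ifs
      · simp
      · rw [norm_q _ (by positivity)]
        have h1 : (1 : ℚ) ≤ 4 ^ (i - 1) := one_le_pow₀ (by norm_num)
        have h2 : (1 : ℚ) ≤ 4 * n := by
          have : (2 : ℚ) ≤ n := by exact_mod_cast hn
          linarith
        have : (1 / (4 * n) / 4 ^ (i - 1) : ℚ) ≤ 1 :=
          (div_le_self (by positivity) h1).trans (div_le_self (by norm_num) h2)
        exact_mod_cast this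
      · simp
    refine (sum_le_card_nsmul _ _ _ this).trans ?_
    rw [card_range, nsmul_eq_mul, mul_one]
    exact_mod_cast hd
  · set H := n.size + 2 * w.length + 1
    have hH : 2 ^ H ≤ 2 ^ 4 ^ H :=
      Nat.pow_le_pow_right (by norm_num) (Nat.lt_pow_self (by norm_num)).le
    have h1 : 1 ≤ 2 ^ 4 ^ H := Nat.one_le_two_pow
    have hs : ∀ s, s ≤ w.length - 1 → 4 * n * 4 ^ s ≤ 2 ^ 4 ^ H := fun s hs =>
      (Nat.mul_le_mul_left _ (Nat.pow_le_pow_right (by norm_num) hs)).trans (hb.trans hH)
    have t0 : Ht (4 ^ H) 0 := ht_nat _ 0 1 one_ne_zero (Nat.zero_le _) h1 _ (by simp)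
    have t1 : Ht (4 ^ H) 1 := ht_nat _ 1 1 one_ne_zero h1 h1 _ (by simp)
    have h0 := hs 0 (Nat.zero_le _)
    intro i hi
    refine ⟨?_, ?_, fun σ j _ => ?_⟩
    · simp only [baseA]
      split_ifs with a b
      · exact t1
      · refine ht_nat _ 1 (4 * n * 4 ^ (i - 1)) (by positivity) h1 (hs _ (by omega)) _ ?_
        rw [coe_ratCast]; push_cast; rw [div_div]
      · exact t0
    · simp only [baseA]
      split_ifs
      · refine ht_nat _ (4 * n * 4 ^ (w.length - 1)) 1 one_ne_zero (hs _ le_rfl) h1 _ ?_
        rw [coe_ratCast]; push_cast; rw [div_one]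
      · exact t0
    · simp only [baseA]
      split_ifs
      · exact t1
      · refine ht_nat _ 1 (4 * n) (by positivity) h1 (by omega) _ ?_
        rw [coe_ratCast]; push_cast; rfl
      · refine ht_nat _ 1 4 (by positivity) h1 (by omega) _ ?_
        rw [coe_ratCast]; push_cast; rfl
      · exact t0

end Crest.Agent.R300U
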