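import Crest.Agent.R300U.RC

/-!
Row 300, upper bound, task BASE-b.
-/

set_option autoImplicit false

namespace Crest.Agent.R300U

open Crest.Agent.QC Crest.Agent.R317 Finset

namespace BaseB

theorem getD_snoc_lt (v : List Bool) (b : Bool) {i : ℕ} (hi : i < v.length) :
    (v ++ [b]).getD i false = v.getD i false := by
  simp [List.getD_eq_getElem?_getD, List.getElem?_append_left hi]

theorem getD_snoc_eq (v : List Bool) (b : Bool) : (v ++ [b]).getD v.length false = b := by
  simp [List.getD_eq_getElem?_getD]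

theorem not_both (v : List Bool) : Per (v ++ [false]) → ¬ Per (v ++ [true]) := by
  rintro ⟨p, hp, h0⟩ ⟨q, hq, h1⟩
  simp only [List.length_append, List.length_singleton, Nat.add_sub_cancel] at hp hq h0 h1
  set m := v.length with hm
  have a1 : (v ++ [false]).getD (m - (p + 1)) false =
    (v ++ [false]).getD (m - (p + 1) + (p + 1)) false := h0 _ (by omega)
  have a2 : (v ++ [true]).getD (m - (q + 1)) false =
    (v ++ [true]).getD (m - (q + 1) + (q + 1)) false := h1 _ (by omega)
  have a3 : (v ++ [false]).getD (m - (p + 1) - (q + 1)) false =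
    (v ++ [false]).getD (m - (p + 1) - (q + 1) + (p + 1)) false := h0 _ (by omega)
  have a4 : (v ++ [true]).getD (m - (p + 1) - (q + 1)) false =
    (v ++ [true]).getD (m - (p + 1) - (q + 1) + (q + 1)) false := h1 _ (by omega)
  rw [show m - (p + 1) + (p + 1) = m by omega, hm, getD_snoc_eq, getD_snoc_lt _ _ (by omega)] at a1
  rw [show m - (q + 1) + (q + 1) = m by omega, hm, getD_snoc_eq, getD_snoc_lt _ _ (by omega)] at a2
  rw [show m - (p + 1) - (q + 1) + (p + 1) = m - (q + 1) by omega, getD_snoc_lt _ _ (by omega),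
    getD_snoc_lt _ _ (by omega)] at a3
  rw [show m - (p + 1) - (q + 1) + (q + 1) = m - (p + 1) by omega, getD_snoc_lt _ _ (by omega),
    getD_snoc_lt _ _ (by omega)] at a4
  rw [← hm] at a1 a2
  rw [a3, a2, a1] at a4
  exact absurd a4 (by decide)

theorem not_per (k : ℕ) (pre : List Bool) : ¬ Per (kw k pre) := by
  unfold kw
  by_cases h : Per (kwb k pre false)
  · rw [decide_eq_true h]; exact not_both _ h
  · rw [decide_eq_false h]; exact h

theorem length_kw (k : ℕ) (hk : 1 ≤ k) (pre : List Bool) : (kw k pre).length = k := by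
  simp [kw, kwb]; omega

theorem sparse (ρ : ℝ) (g : ℕ) (h0 : 0 ≤ ρ) (h1 : ρ ≤ 1) (hg : ρ ^ g < 1) (S : Finset ℕ) :
    ∀ a : ℕ, (∀ u ∈ S, a ≤ u) → (∀ u ∈ S, ∀ u' ∈ S, u < u' → u + g ≤ u') →
      ∑ u ∈ S, ρ ^ u ≤ ρ ^ a / (1 - ρ ^ g) := by
  have hp : 0 < 1 - ρ ^ g := by linarith
  induction S using Finset.induction_on_min with
  | empty => intro a _ _; rw [sum_empty]; positivity
  | insert m S hm ih =>
    intro a ha hS
    have hm' : m ∉ S := fun h => lt_irrefl _ (hm m h)
    have h2 := ih (m + g) (fun u hu => hS m (mem_insert_self _ _) u (mem_insert_of_mem hu) (hm u hu))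
      (fun u hu u' hu' => hS u (mem_insert_of_mem hu) u' (mem_insert_of_mem hu'))
    have h3 : ρ ^ m ≤ ρ ^ a := pow_le_pow_of_le_one h0 h1 (ha m (mem_insert_self _ _))
    rw [sum_insert hm']
    have e : ρ ^ m + ρ ^ (m + g) / (1 - ρ ^ g) = ρ ^ m / (1 - ρ ^ g) := by
      field_simp; ring
    calc _ ≤ ρ ^ m + ρ ^ (m + g) / (1 - ρ ^ g) := by linarith
      _ = _ := e
      _ ≤ _ := div_le_div_of_nonneg_right h3 hp.le

theorem window (k : ℕ) (hk : 1 ≤ k) (x w : List Bool) (s : ℕ)
    (h : (List.replicate (k - 1) false ++ x.take (s + 1)).drop s = w) (i : ℕ) (hi : i < k) :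
    w.getD i false = (List.replicate (k - 1) false ++ x).getD (s + i) false := by
  have e : List.replicate (k - 1) false ++ x.take (s + 1) =
      (List.replicate (k - 1) false ++ x).take (k - 1 + (s + 1)) := by
    rw [List.take_append]
    simp
  rw [← h, e, List.getD_eq_getElem?_getD, List.getD_eq_getElem?_getD, List.getElem?_drop,
    List.getElem?_take_of_lt (by omega)]

theorem rho_facts (r g : ℕ) (hg : 2 ^ r * (r + 3) ≤ g) :
    0 ≤ (rho0 r : ℝ) ∧ (rho0 r : ℝ) ≤ 1 - 1 / 2 ^ r / 2 ∧ (rho0 r : ℝ) ^ g ≤ 1 / 2 ^ r / 8 := by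
  have e : (rho0 r : ℝ) = (1 - 1 / 2 ^ r / 4) ^ 4 := by
    unfold rho0; push_cast; congr 2; rw [pow_add]; field_simp; norm_num
  set y : ℝ := 1 / 2 ^ r with hy
  have y0 : 0 < y := by positivity
  have y1 : y ≤ 1 := by
    rw [hy, div_le_one (by positivity)]; exact one_le_pow₀ (by norm_num)
  have h0 : 0 ≤ (rho0 r : ℝ) := by rw [e]; positivity
  refine ⟨h0, ?_, ?_⟩
  · rw [e]
    nlinarith [mul_pos y0 y0, mul_pos (mul_pos y0 y0) y0, mul_pos (mul_pos y0 y0) (mul_pos y0 y0)]
  · have h1 : (rho0 r : ℝ) ≤ Real.exp (-y) := by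
      rw [e]
      have : 1 - y / 4 ≤ Real.exp (-(y / 4)) := by linarith [Real.add_one_le_exp (-(y / 4))]
      calc _ ≤ Real.exp (-(y / 4)) ^ 4 := pow_le_pow_left₀ (by linarith) this 4
        _ = _ := by rw [← Real.exp_nat_mul]; congr 1; push_cast; ring
    have h2 : ((r + 3 : ℕ) : ℝ) ≤ g * y := by
      have : ((2 ^ r * (r + 3) : ℕ) : ℝ) ≤ g := by exact_mod_cast hg
      rw [hy, mul_one_div, le_div_iff₀ (by positivity)]
      push_cast at this ⊢
      linarith
    have h3 : Real.exp (-1) ≤ 1 / 2 := by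
      rw [Real.exp_neg, inv_le_comm₀ (Real.exp_pos _) (by norm_num)]
      linarith [Real.add_one_le_exp 1]
    calc _ ≤ Real.exp (-y) ^ g := pow_le_pow_left₀ h0 h1 g
      _ = Real.exp (-(g * y)) := by rw [← Real.exp_nat_mul]; congr 1; ring
      _ ≤ Real.exp (((r + 3 : ℕ) : ℝ) * (-1)) := Real.exp_le_exp.2 (by linarith)
      _ = Real.exp (-1) ^ (r + 3) := Real.exp_nat_mul _ _
      _ ≤ (1 / 2) ^ (r + 3) := pow_le_pow_left₀ (Real.exp_pos _).le h3 _
      _ = _ := by rw [hy, one_div_pow, pow_add]; field_simp; norm_num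

end BaseB

open BaseB in
theorem baseB_proof (hA : BaseAStmt) : BaseBStmt := by
  intro n k r j x z hn hx hj hk hz
  have hk1 : 1 ≤ k := le_trans (Nat.mul_pos (by positivity) (by omega)) hk
  have hpre : (x.take j).length = j := by rw [List.length_take]; omega
  set w := kw k (x.take j) with hw
  have hwl : w.length = k := length_kw k hk1 _
  have hw0 : w ≠ [] := by rw [← List.length_pos_iff]; omega
  set g := (k - 1) / 2 + 1 with hg
  obtain ⟨r0, r1, r2⟩ := rho_facts r g (by
    have : 2 ^ (r + 1) * (r + 3) = 2 * (2 ^ r * (r + 3)) := by ring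
    omega)
  set ρ : ℝ := ((rho0 r : ℚ) : ℝ) with hρ
  set S := (range (n - j)).filter
    (fun u => (List.replicate (k - 1) false ++ x.take (j + u + 1)).drop (j + u) = w) with hS
  have hF : ∑ u ∈ range (n - j), ((baseA n w).val (x.take (j + 1 + u)) : ℂ) *
      ((rho0 r : GQ) : ℂ) ^ u = ((∑ u ∈ S, ρ ^ u : ℝ) : ℂ) := by
    rw [hS, sum_filter]
    push_cast
    refine sum_congr rfl fun u hu => ?_
    have hu' := mem_range.1 hu
    have hl : (x.take (j + 1 + u)).length = j + u + 1 := by rw [List.length_take]; omega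
    rw [(hA n w hn hw0).1 _ (by rw [← List.length_pos_iff]; omega), hl, hwl, Nat.add_sub_cancel,
      show j + 1 + u = j + u + 1 by omega]
    split_ifs
    · simp [hρ]
    · simp
  set Z : GQ := z + ∑ v ∈ range (n - j), (baseA n w).val
    ((x.take j ++ List.replicate (n - j) false).take (j + 1 + v)) * (rho0 r : GQ) ^ v with hZ
  have hZ' : |(reQ Z : ℝ) - ∑ u ∈ S, ρ ^ u| ≤ 1 / 2 ^ (r + 4) := by
    have e : (z : ℂ) - DD (baseA n w) x (x.take j ++ List.replicate (n - j) false) j
        ((rho0 r : GQ) : ℂ) = (Z : ℂ) - ((∑ u ∈ S, ρ ^ u : ℝ) : ℂ) := by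
      rw [← hF, hZ, DD, hx]
      push_cast
      simp only [sub_mul, sum_sub_distrib]
      ring
    rw [e] at hz
    have := (Complex.abs_re_le_norm _).trans hz
    rwa [Complex.sub_re, Complex.ofReal_re, ← cast_reQ] at this
  have hbit : bitOf n k r (x.take j) z =
      if 1 - 1 / 2 ^ (r + 3) ≤ reQ Z then decide (Per (kwb k (x.take j) false))
      else !decide (Per (kwb k (x.take j) false)) := by
    simp only [bitOf, hpre]
    rfl
  have h0 : 0 ∈ S ↔ x.getD j false = decide (Per (kwb k (x.take j) false)) := by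
    rw [hS, mem_filter, mem_range, and_iff_right (by omega), Nat.add_zero, hw, kw, kwb, hpre,
      List.take_add_one, List.getD_eq_getElem?_getD, List.getElem?_eq_getElem (by omega),
      ← List.append_assoc, List.drop_append_of_le_length (by simp; omega)]
    simp
  have hy : (1 : ℝ) / 2 ^ (r + 3) = 1 / 2 ^ r / 8 := by rw [pow_add]; field_simp; norm_num
  have hy' : (1 : ℝ) / 2 ^ (r + 4) = 1 / 2 ^ r / 16 := by rw [pow_add]; field_simp; norm_num
  have hcast : (1 - 1 / 2 ^ (r + 3) ≤ reQ Z) ↔ (1 - 1 / 2 ^ r / 8 ≤ (reQ Z : ℝ)) := by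
    rw [← hy, ← Rat.cast_le (K := ℝ)]
    push_cast
    rfl
  rw [hy'] at hZ'
  set y : ℝ := 1 / 2 ^ r with hyy
  have y0 : 0 < y := by positivity
  have y1 : y ≤ 1 := by
    rw [hyy, div_le_one (by positivity)]; exact one_le_pow₀ (by norm_num)
  have hab := abs_le.1 hZ'
  rw [hbit]
  by_cases hc : 0 ∈ S
  · have : ρ ^ 0 ≤ ∑ u ∈ S, ρ ^ u :=
      single_le_sum (f := fun u => ρ ^ u) (fun u _ => pow_nonneg r0 u) hc
    rw [pow_zero] at this
    rw [if_pos (hcast.2 (by linarith)), h0.1 hc]
  · have h1 := sparse ρ g r0 (by linarith) (by linarith) S 1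
      (fun u hu => Nat.pos_of_ne_zero fun h => hc (h ▸ hu)) (fun u hu u' hu' huu => by
        by_contra hlt
        refine not_per k (x.take j) ⟨u' - u - 1, by rw [← hw, hwl]; omega, fun i hi => ?_⟩
        rw [← hw, hwl] at hi
        show w.getD i false = w.getD (i + (u' - u - 1 + 1)) false
        rw [window k hk1 x w _ (mem_filter.1 hu').2 i (by omega),
          window k hk1 x w _ (mem_filter.1 hu).2 _ (by omega)]
        congr 1
        omega)
    have h2 : ρ ^ 1 / (1 - ρ ^ g) ≤ 1 - y / 4 := by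
      rw [pow_one, div_le_iff₀ (by linarith)]
      nlinarith
    rw [if_neg (fun h => by have := hcast.1 h; linarith)]
    have := mt h0.2 hc
    revert this
    cases x.getD j false <;> cases decide (Per (kwb k (x.take j) false)) <;> simp

end Crest.Agent.R300U
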