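import Crest.Agent.R300U.DefsB

/-! Row 300, upper bound: shared facts on valid parameters and on sums over quadruples. -/

set_option autoImplicit false

namespace Crest.Agent.R300U.H8

open Finset

variable {P : LP}

theorem E_ge (h : P.OK) : 65536 * 131073 ≤ P.E := by
  have := h.hr; have := h.hr'; have := h.hE; omega

theorem E_geR (h : P.OK) : (8000000000 : ℝ) ≤ P.E := by
  have := E_ge h
  have : 8000000000 ≤ P.E := by omega
  exact_mod_cast this

theorem G_eq (h : P.OK) : (P.G : ℝ) = 16 * P.E * 2 ^ (P.r' + 2) := by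
  rw [h.hG]; push_cast; ring

theorem G_ge (h : P.OK) : (1 : ℝ) ≤ P.G := by
  rw [G_eq h]
  have := E_geR h
  have h2 : (1 : ℝ) ≤ 2 ^ (P.r' + 2) := one_le_pow₀ (by norm_num)
  nlinarith

theorem two_pow_ge {a b : ℕ} (hab : a ≤ b) : (2 : ℝ) ^ a ≤ 2 ^ b :=
  pow_le_pow_right₀ (by norm_num) hab

/-- the window damping. -/
theorem vr_eq (P : LP) : ((P.vr : ℚ) : ℝ) = 1 - 1 / 2 ^ (P.r' + 2) := by
  unfold LP.vr; push_cast; ring

theorem lam_le (h : P.OK) : (1 : ℝ) / 2 ^ (P.r' + 2) ≤ 1 / 1048576 := by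
  have : (2 : ℝ) ^ 20 ≤ 2 ^ (P.r' + 2) := two_pow_ge (by have := h.hr; have := h.hr'; omega)
  rw [div_le_div_iff₀ (by positivity) (by norm_num)]
  norm_num at this ⊢
  exact this

theorem vr_pos (h : P.OK) : (0 : ℝ) < P.vr := by
  rw [vr_eq]; have := lam_le h; linarith

theorem vr_le_one (P : LP) : ((P.vr : ℚ) : ℝ) ≤ 1 := by
  rw [vr_eq]; have : (0 : ℝ) < 1 / 2 ^ (P.r' + 2) := by positivity
  linarith

theorem lam_G (h : P.OK) : (1 : ℝ) / 2 ^ (P.r' + 2) * P.G = 16 * P.E := by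
  rw [G_eq h]; field_simp

theorem al_G (hOm : OmStmt) (h : P.OK) :
    0 < P.a * P.θ ∧ P.a * P.θ * P.G ≤ 1 / 4 ∧ (1 - 1 / 1000000) / 4 ≤ P.a * P.θ * P.G := by
  obtain ⟨-, h1, h2⟩ := hOm.1 (2 * P.E)
  have ha : (P.a : ℝ) * P.G * 8 = 2 ^ (2 * P.E) := by exact_mod_cast h.ha
  have hG := G_ge h
  have hp : (0 : ℝ) < 2 ^ (2 * P.E) := by positivity
  have ha0 : (0 : ℝ) < P.a * P.G := by linarith
  have h4 : (1 : ℝ) / 4 ^ (2 * P.E) ≤ 1 / 1000000 := by
    have : (4 : ℝ) ^ 10 ≤ 4 ^ (2 * P.E) :=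
      pow_le_pow_right₀ (by norm_num) (by have := E_ge h; omega)
    rw [div_le_div_iff₀ (by positivity) (by norm_num)]
    norm_num at this ⊢
    linarith
  have e : P.a * P.θ * P.G = P.a * P.G * th (2 * P.E) := by unfold LP.θ; ring
  have e2 : (P.a : ℝ) * P.G * (2 / 2 ^ (2 * P.E)) = 1 / 4 := by
    rw [← ha, mul_div_assoc', div_eq_iff (by positivity)]; ring
  have l1 : (1 - 1 / 1000000) / 4 ≤ P.a * P.θ * P.G := by
    rw [e]
    calc (1 - 1 / 1000000) / 4 = (P.a : ℝ) * P.G * (2 / 2 ^ (2 * P.E) * (1 - 1 / 1000000)) := by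
          rw [← mul_assoc, e2]; ring
      _ ≤ P.a * P.G * (2 / 2 ^ (2 * P.E) * (1 - 1 / 4 ^ (2 * P.E))) := by gcongr
      _ ≤ _ := by gcongr
  refine ⟨?_, ?_, l1⟩
  · by_contra hc
    push Not at hc
    nlinarith
  · rw [e, ← e2]; gcongr

theorem G_le (h : P.OK) : (P.G : ℝ) ≤ 2 ^ (P.E / 16384) := by
  have := h.hGE
  obtain ⟨J, hJ⟩ := h.hdvd
  have e : (P.E : ℝ) / 16384 = ((P.E / 16384 : ℕ) : ℝ) := by
    rw [hJ, show 65536 * J / 16384 = 4 * J by omega]; push_cast; ring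
  rwa [e, Real.rpow_natCast] at this

/-- sums over quadruples with a distinguished coordinate. -/
theorem sum_ex_le (i : ℕ) (f : ℕ → ℝ) (hf : ∀ x, 0 ≤ f x) (Q : ℕ → Prop) [DecidablePred Q]
    (A B : ℝ) (hA : ∑ x ∈ (range i).filter Q, f x ≤ A) (hB : ∑ x ∈ range i, f x ≤ B) :
    ∑ g ∈ (Fintype.piFinset fun _ : Fin 4 => range i).filter (fun g => ∃ b, Q (g b)),
      ∏ b, f (g b) ≤ 4 * A * B ^ 3 := by
  have hA0 : 0 ≤ ∑ x ∈ (range i).filter Q, f x := sum_nonneg fun x _ => hf x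
  have hB0 : 0 ≤ ∑ x ∈ range i, f x := sum_nonneg fun x _ => hf x
  have key : ∀ b₀ : Fin 4, ∑ g ∈ Fintype.piFinset fun _ : Fin 4 => range i,
      ∏ b, (if b = b₀ then (if Q (g b) then f (g b) else 0) else f (g b)) ≤ A * B ^ 3 := by
    intro b₀
    rw [← Finset.prod_univ_sum (fun _ : Fin 4 => range i)
      (fun b x => if b = b₀ then (if Q x then f x else 0) else f x)]
    rw [← Finset.mul_prod_erase _ _ (mem_univ b₀)]
    simp only [if_true]
    rw [← Finset.sum_filter]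
    have : ∏ b ∈ univ.erase b₀, ∑ x ∈ range i,
        (if b = b₀ then (if Q x then f x else 0) else f x) = (∑ x ∈ range i, f x) ^ 3 := by
      rw [Finset.prod_congr rfl (g := fun _ => ∑ x ∈ range i, f x)]
      · simp
      · intro b hb
        simp [(mem_erase.1 hb).1]
    rw [this]
    gcongr
    exact hA0.trans hA
  calc _ ≤ ∑ g ∈ (Fintype.piFinset fun _ : Fin 4 => range i).filter (fun g => ∃ b, Q (g b)),
        ∑ b₀ : Fin 4, ∏ b, (if b = b₀ then (if Q (g b) then f (g b) else 0) else f (g b)) := by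
        refine sum_le_sum fun g hg => ?_
        obtain ⟨b₀, hb₀⟩ := (mem_filter.1 hg).2
        refine le_trans (le_of_eq ?_) (single_le_sum (f := fun b₀ : Fin 4 =>
          ∏ b, (if b = b₀ then (if Q (g b) then f (g b) else 0) else f (g b)))
          (fun c _ => prod_nonneg fun b _ => by split_ifs <;> first | exact hf _ | rfl)
          (mem_univ b₀))
        refine prod_congr rfl fun b _ => ?_
        split_ifs with h1 h2
        · rfl
        · exact absurd (h1 ▸ hb₀) h2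
        · rfl
    _ ≤ ∑ g ∈ (Fintype.piFinset fun _ : Fin 4 => range i),
        ∑ b₀ : Fin 4, ∏ b, (if b = b₀ then (if Q (g b) then f (g b) else 0) else f (g b)) := by
        refine sum_le_sum_of_subset_of_nonneg (filter_subset _ _) fun g _ _ => ?_
        exact sum_nonneg fun c _ => prod_nonneg fun b _ => by
          split_ifs <;> first | exact hf _ | rfl
    _ ≤ ∑ _b₀ : Fin 4, A * B ^ 3 := by
        rw [sum_comm]; exact sum_le_sum fun b₀ _ => key b₀
    _ = _ := by simp; ring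

end Crest.Agent.R300U.H8
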