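import Crest.Agent.R300U.SLOTC
import Crest.Agent.R300U.H8Aux

/-!
Row 300, upper bound, task CHC: class and norms of the children.
-/

set_option autoImplicit false

namespace Crest.Agent.R300U

open Finset

theorem chc_coe_zpow (z : GQ) (k : ℤ) : ((z ^ k : GQ) : ℂ) = (z : ℂ) ^ k :=
  map_zpow₀ GF.subtype z k

theorem chc_aut {a : FA} {S τ : ℝ} {h : ℕ} (hS : 0 < S) (hS1 : S ≤ 1) (hτ : 0 ≤ τ)
    (hc : n1c a ≤ 2 ^ h) (hh : n1h a ≤ 2 ^ h) (hC : Cls S τ a) (κ : ℕ) :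
    Cls S τ (slotAut a κ) ∧ n1c (slotAut a κ) ≤ 2 ^ h ∧ n1h (slotAut a κ) ≤ 2 ^ h := by
  obtain ⟨-, -, -, -, t5, t6, t7, -⟩ := tens_proof
  unfold slotAut
  split_ifs
  · exact ⟨hC, hc, hh⟩
  · exact ⟨t6 a S τ hC, (t5 a).1 ▸ hc, (t5 a).2 ▸ hh⟩
  · have : (1 : ℝ) ≤ 2 ^ h := one_le_pow₀ one_le_two
    exact ⟨t7 S τ hS hS1 hτ, by simpa [n1c, oneFA] using this, by simpa [n1h, oneFA] using this⟩

/-- The link weight is small enough. -/
theorem chc_link {n M h : ℕ} {c : ℝ} (hn : 2 ≤ n) (hc : c ≤ 2 ^ h) :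
    (2 * M + 1) * (lw n.size M h : ℝ) * c ≤ (1 - (1 - 1 / n)) / 4 := by
  have h1 : ((2 * M + 1 : ℕ) : ℝ) ≤ 2 ^ (2 * M + 1).size := by
    exact_mod_cast (Nat.lt_size_self _).le
  have h2 : (n : ℝ) ≤ 2 ^ n.size := by exact_mod_cast (Nat.lt_size_self _).le
  have hn0 : (0 : ℝ) < n := by positivity
  unfold lw
  push_cast at h1 ⊢
  calc (2 * (M : ℝ) + 1) * (1 / 2 ^ (n.size + (2 * M + 1).size + h + 2)) * c
      ≤ (2 * (M : ℝ) + 1) * (1 / 2 ^ (n.size + (2 * M + 1).size + h + 2)) * 2 ^ h := by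
        gcongr
    _ ≤ 2 ^ (2 * M + 1).size * (1 / 2 ^ (n.size + (2 * M + 1).size + h + 2)) * 2 ^ h := by
        gcongr
    _ = 1 / 2 ^ n.size / 4 := by field_simp; ring
    _ ≤ 1 / n / 4 := by gcongr
    _ = _ := by ring

theorem chc_beta {P : LP} (hP : P.OK) :
    64 * (1 / 2 ^ (P.r' + 2)) ≤ (P.β : ℝ) ∧ (P.β : ℝ) ≤ 1 / 2 ∧
      (P.β : ℝ) = 2 ^ P.bb / 2 ^ P.r' := by
  have e : (P.β : ℝ) = 2 ^ P.bb / 2 ^ P.r' := by unfold LP.β; push_cast; rfl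
  have h1 : (2 : ℝ) ^ 4 ≤ 2 ^ P.bb := H8.two_pow_ge hP.hb
  have h2 : (2 : ℝ) ^ (P.bb + 1) ≤ 2 ^ P.r' := H8.two_pow_ge hP.hb'
  refine ⟨?_, ?_, e⟩
  · rw [e, show (64 : ℝ) * (1 / 2 ^ (P.r' + 2)) = 2 ^ 4 / 2 ^ P.r' by field_simp; ring]
    gcongr
  · rw [e, div_le_div_iff₀ (by positivity) (by norm_num)]
    rw [pow_succ] at h2
    linarith

theorem chc_phase (hOm : OmStmt) {P : LP} (hP : P.OK) {f : ℤ} (hf : |f| ≤ P.J) {k : ℕ}
    (hk : k < 2 * P.M + 1) :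
    (P.θ * ((f + P.a * P.M - P.a * k : ℤ) : ℝ)) ^ 2 ≤ 2 ^ 17 / 2 ^ (2 * P.r) := by
  obtain ⟨-, h1, h2⟩ := hOm.1 (2 * P.E)
  have hθ0 : 0 ≤ P.θ := by
    refine le_trans (mul_nonneg (by positivity) ?_) h1
    have : (1 : ℝ) ≤ 4 ^ (2 * P.E) := one_le_pow₀ (by norm_num)
    rw [sub_nonneg, div_le_one (by positivity)]
    exact this
  have hf' : |(f : ℝ)| ≤ P.J := by exact_mod_cast hf
  have hk' : |(P.M : ℝ) - k| ≤ P.M := by
    have : (k : ℝ) ≤ 2 * P.M := by exact_mod_cast Nat.lt_succ_iff.1 hk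
    have : (0 : ℝ) ≤ k := Nat.cast_nonneg _
    rw [abs_le]
    constructor <;> linarith
  have h3 : |((f + P.a * P.M - P.a * k : ℤ) : ℝ)| ≤ P.J + P.a * P.M := by
    push_cast
    rw [show (f : ℝ) + P.a * P.M - P.a * k = f + P.a * (P.M - k) by ring]
    refine (abs_add_le _ _).trans (add_le_add hf' ?_)
    rw [abs_mul, Nat.abs_cast]
    gcongr
  have hJ : (P.J : ℝ) * 2 ^ P.r = 2 ^ (2 * P.E + 7) := by exact_mod_cast hP.hJ
  have h4 : P.θ * P.J ≤ 256 / 2 ^ P.r := by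
    calc P.θ * P.J ≤ 2 / 2 ^ (2 * P.E) * P.J := mul_le_mul_of_nonneg_right h2 (Nat.cast_nonneg _)
      _ = 256 / 2 ^ P.r := by
        rw [eq_div_iff (by positivity), mul_assoc, hJ]
        field_simp
        ring
  have h5 : P.θ * (P.a * P.M) ≤ 1 / 2 ^ P.r := by
    obtain ⟨a1, a2, -⟩ := H8.al_G hOm hP
    have hM : (P.M : ℝ) = 409600 * P.E := by rw [hP.hM]; push_cast; ring
    have h6 : (2 : ℝ) ^ (P.r + 15) ≤ 2 ^ (P.r' + 2) := H8.two_pow_ge (by have := hP.hr'; omega)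
    have h7 : P.M * 2 ^ P.r ≤ 4 * (P.G : ℝ) := by
      rw [hM, H8.G_eq hP]
      have hE : (0 : ℝ) ≤ P.E := Nat.cast_nonneg _
      have := mul_le_mul_of_nonneg_left h6 hE
      rw [pow_add] at this
      have h8 : (0 : ℝ) ≤ P.E * 2 ^ P.r := by positivity
      nlinarith
    rw [le_div_iff₀ (by positivity)]
    have := mul_le_mul_of_nonneg_left h7 a1.le
    nlinarith
  have h8 : |P.θ * ((f + P.a * P.M - P.a * k : ℤ) : ℝ)| ≤ 257 / 2 ^ P.r := by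
    rw [abs_mul, abs_of_nonneg hθ0]
    refine (mul_le_mul_of_nonneg_left h3 hθ0).trans ?_
    rw [mul_add, show (257 : ℝ) / 2 ^ P.r = 256 / 2 ^ P.r + 1 / 2 ^ P.r by ring]
    exact add_le_add h4 h5
  rw [← sq_abs]
  refine (pow_le_pow_left₀ (abs_nonneg _) h8 2).trans ?_
  rw [div_pow, ← pow_mul, mul_comm P.r 2]
  gcongr
  norm_num

theorem chc_slot (hOm : OmStmt) {P : LP} {n h : ℕ} {a : FA} {S τ : ℝ} (hP : P.OK) (hn : 2 ≤ n)
    (hS : 0 < S) (hS1 : S ≤ 1) (hτ : (2 : ℝ) ^ (18 + P.r') ≤ τ * 2 ^ (2 * P.r + P.bb))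
    (hc : n1c a ≤ 2 ^ h) (hh : n1h a ≤ 2 ^ h) (hC : Cls S τ a) {e : ℕ} (he : e < nQ P.J) :
    Cls (S * (1 - 1 / n)) τ (slotE P n.size h a e) ∧ n1h (slotE P n.size h a e) ≤ 2 ^ h ∧
      n1c (slotE P n.size h a e) ≤
        2 ^ (h + n.size + (2 * P.M + 1).size + 5 * P.mc + P.r' + 8) := by
  have hτ0 : 0 < τ := by
    have : (0 : ℝ) < τ * 2 ^ (2 * P.r + P.bb) := lt_of_lt_of_le (by positivity) hτ
    exact (pos_iff_pos_of_mul_pos this).2 (by positivity)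
  obtain ⟨c1, c2, c3⟩ := chc_aut hS hS1 hτ0.le hc hh hC (e % 3)
  obtain ⟨b1, b2, b3⟩ := chc_beta hP
  have hl : (0 : ℝ) < 1 / 2 ^ (P.r' + 2) := by positivity
  have hβ : (0 : ℝ) < P.β := by linarith
  have hβq : 0 < P.β := by exact_mod_cast hβ
  have hβq1 : P.β ≤ 1 := by
    have : (P.β : ℝ) ≤ 1 := by linarith
    exact_mod_cast this
  have hn2 : (2 : ℝ) ≤ n := by exact_mod_cast hn
  have hn1 : (1 : ℝ) / n ≤ 1 / 2 := by gcongr
  have hn0 : (0 : ℝ) < 1 / n := by positivity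
  have hv := H8.vr_eq P
  have hv0 := H8.vr_pos hP
  have hω : (P.ω : ℂ) = Complex.exp (P.θ * Complex.I) := (hOm.1 (2 * P.E)).1
  have hω0 : P.ω ≠ 0 := fun h0 => by
    rw [h0] at hω
    exact Complex.exp_ne_zero _ hω.symm
  have hf : |frq P.J e| ≤ P.J := by
    unfold frq nQ at *
    rw [abs_le]
    constructor <;> omega
  obtain ⟨r1, r2, r3⟩ := slotc_proof (slotAut a (e % 3)) P.M P.mc P.β (P.β / 32)
    (lw n.size P.M h) ((P.vr : GQ)⁻¹ * P.ω ^ (frq P.J e + P.a * P.M)) (P.ω ^ (-(P.a : ℤ)))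
    S (1 - 1 / n) τ (P.β / 2) hS hS1 (by linarith) (by linarith) hτ0.le (by linarith)
    (by linarith) hβq.le hβq1 (by positivity) (by unfold lw; positivity) (chc_link hn c2)
    (fun k hk => by
      have e1 : (((P.vr : GQ)⁻¹ * P.ω ^ (frq P.J e + P.a * P.M) * (P.ω ^ (-(P.a : ℤ))) ^ k : GQ) :
          ℂ) = (((P.vr : ℝ)⁻¹ : ℝ) : ℂ) * Complex.exp
            ((P.θ * ((frq P.J e + P.a * P.M - P.a * k : ℤ) : ℝ) : ℝ) * Complex.I) := by
        rw [mul_assoc, ← zpow_natCast (P.ω ^ (-(P.a : ℤ))), ← zpow_mul, ← zpow_add₀ hω0]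
        rw [Subfield.coe_mul, chc_coe_zpow, hω, ← Complex.exp_int_mul]
        push_cast
        congr 2
        ring
      have e2 : ‖(P.vr : GQ)⁻¹ * P.ω ^ (frq P.J e + P.a * P.M) * (P.ω ^ (-(P.a : ℤ))) ^ k‖ =
          (P.vr : ℝ)⁻¹ := by
        rw [← norm_coe, e1, norm_mul, Complex.norm_exp_ofReal_mul_I, mul_one, Complex.norm_real,
          Real.norm_of_nonneg (by positivity)]
      rw [e2, e1]
      have hi : (P.vr : ℝ)⁻¹ * P.vr = 1 := inv_mul_cancel₀ hv0.ne'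
      have hi0 : (0 : ℝ) < (P.vr : ℝ)⁻¹ := by positivity
      have hi2 : (P.vr : ℝ)⁻¹ ≤ 2 := by
        rw [inv_le_comm₀ hv0 (by norm_num)]
        linarith
      refine ⟨?_, ?_, _, rfl, ?_⟩
      · have k1 : (P.vr : ℝ)⁻¹ * (1 - P.β) ≤ 1 - P.β / 2 := by
          rw [inv_mul_le_iff₀ hv0, hv]
          nlinarith
        rw [mul_assoc]
        exact (mul_le_of_le_one_left (mul_nonneg hi0.le (by linarith)) (by linarith)).trans k1
      · push_cast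
        rw [mul_assoc]
        refine (mul_le_of_le_one_left (by positivity) (by linarith)).trans ?_
        nlinarith
      · refine (chc_phase hOm hP hf hk).trans ?_
        rw [b3, div_le_iff₀ (by positivity)]
        have k2 : τ * (2 ^ P.bb / 2 ^ P.r' / 2) * 2 ^ (2 * P.r) =
            τ * 2 ^ (2 * P.r + P.bb) / (2 * 2 ^ P.r') := by
          rw [pow_add]
          field_simp
        rw [k2, le_div_iff₀ (by positivity)]
        refine le_trans (le_of_eq ?_) hτ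
        ring) c1
  refine ⟨r1, r2 ▸ c3, r3.trans ?_⟩
  have k1 : (32 : ℝ) ^ P.mc / ((P.β / 32 : ℚ) : ℝ) ≤ 2 ^ (5 * P.mc + P.r' + 1) := by
    push_cast
    rw [div_le_iff₀ (by positivity)]
    calc (32 : ℝ) ^ P.mc = 2 ^ (5 * P.mc + P.r' + 1) * (64 * (1 / 2 ^ (P.r' + 2)) / 32) := by
          rw [show (32 : ℝ) ^ P.mc = 2 ^ (5 * P.mc) by rw [pow_mul]; norm_num]
          field_simp
          ring
      _ ≤ _ := by gcongr
  have k2 : (1 : ℝ) ≤ 2 ^ (5 * P.mc + P.r' + 1) := one_le_pow₀ one_le_two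
  unfold lw
  push_cast at k1 ⊢
  rw [div_div_eq_mul_div, div_one]
  calc (1 + 32 ^ P.mc / ((P.β : ℝ) / 32)) * 2 ^ (n.size + (2 * P.M + 1).size + h + 2)
      ≤ (2 * 2 ^ (5 * P.mc + P.r' + 1)) * 2 ^ (n.size + (2 * P.M + 1).size + h + 2) := by
        gcongr
        linarith
    _ = 2 ^ (h + n.size + (2 * P.M + 1).size + 5 * P.mc + P.r' + 4) := by ring
    _ ≤ _ := H8.two_pow_ge (by omega)

theorem chc_proof (hOm : OmStmt) : ChildClsStmt := by
  intro P n h a S τ e0 e1 e2 e3 t hP hn hS hS1 hτ h0 h1 h2 h3 hc hh hC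
  obtain ⟨-, t2, t3, -, -, -, -, t8⟩ := tens_proof
  have hτ0 : 0 < τ := by
    have : (0 : ℝ) < τ * 2 ^ (2 * P.r + P.bb) := lt_of_lt_of_le (by positivity) hτ
    exact (pos_iff_pos_of_mul_pos this).2 (by positivity)
  have hn2 : (2 : ℝ) ≤ n := by exact_mod_cast hn
  have hn1 : (1 : ℝ) / n ≤ 1 / 2 := by gcongr
  have hs : 0 < S * (1 - 1 / n) := mul_pos hS (by linarith)
  obtain ⟨a0, b0, c0⟩ := chc_slot hOm hP hn hS hS1 hτ hc hh hC h0
  obtain ⟨a1, b1, c1⟩ := chc_slot hOm hP hn hS hS1 hτ hc hh hC h1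
  obtain ⟨a2, b2, c2⟩ := chc_slot hOm hP hn hS hS1 hτ hc hh hC h2
  obtain ⟨a3, b3, c3⟩ := chc_slot hOm hP hn hS hS1 hτ hc hh hC h3
  have hc0 : ∀ b : FA, 0 ≤ n1c b := fun b => Finset.sum_nonneg fun _ _ => norm_nonneg _
  have hh0 : ∀ b : FA, 0 ≤ n1h b := fun b => Finset.sum_nonneg fun _ _ => norm_nonneg _
  set T := tens (tens (slotE P n.size h a e0) (slotE P n.size h a e1))
    (tens (slotE P n.size h a e2) (slotE P n.size h a e3)) with hT
  set H := h + n.size + (2 * P.M + 1).size + 5 * P.mc + P.r' + 8 with hH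
  refine ⟨?_, ?_, ?_⟩
  · have := t3 _ _ _ _ _ _ (mul_pos hs hs) (mul_pos hs hs) (by linarith) (by linarith)
      (t3 _ _ _ _ _ _ hs hs hτ0.le hτ0.le a0 a1) (t3 _ _ _ _ _ _ hs hs hτ0.le hτ0.le a2 a3)
    rw [show (S * (1 - 1 / n)) ^ 4 = S * (1 - 1 / n) * (S * (1 - 1 / n)) *
      (S * (1 - 1 / n) * (S * (1 - 1 / n))) by ring, show 4 * τ = τ + τ + (τ + τ) by ring]
    exact t8 _ _ _ _ this
  · have k1 : n1c T ≤ 2 ^ (4 * H) := by
      rw [hT, (t2 _ _).1, (t2 _ _).1, (t2 _ _).1]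
      calc _ ≤ (2 : ℝ) ^ H * 2 ^ H * (2 ^ H * 2 ^ H) := by
            have := hc0 (slotE P n.size h a e0)
            have := hc0 (slotE P n.size h a e1)
            have := hc0 (slotE P n.size h a e2)
            have := hc0 (slotE P n.size h a e3)
            gcongr
        _ = _ := by ring
    have k2 : 1 / (2 : ℝ) ^ (2 * P.E) ≤ P.Hn t := by
      unfold LP.Hn
      push_cast
      gcongr
      exact one_le_pow₀ one_le_two
    have k3 : (0 : ℝ) < P.Hn t := lt_of_lt_of_le (by positivity) k2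
    have k4 : n1c (child P n.size h a e0 e1 e2 e3 t) ≤ n1c T / P.Hn t := by
      unfold n1c
      rw [Finset.sum_div]
      refine Finset.sum_le_sum fun i hi => ?_
      have hi : i < T.d := mem_range.1 hi
      simp only [child]
      split_ifs
      · rw [← hT, FA.gc_lt _ hi, norm_div, slotc_norm, abs_of_pos k3]
      · rw [norm_zero]
        positivity
    refine k4.trans ?_
    rw [div_le_iff₀ k3]
    calc n1c T ≤ 2 ^ (4 * H) := k1
      _ = 2 ^ (4 * H + 2 * P.E) * (1 / 2 ^ (2 * P.E)) := by rw [pow_add]; field_simp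
      _ ≤ _ := by unfold hnext; gcongr
  · change n1h T ≤ _
    rw [hT, (t2 _ _).2, (t2 _ _).2, (t2 _ _).2]
    calc _ ≤ (2 : ℝ) ^ h * 2 ^ h * (2 ^ h * 2 ^ h) := by
          have := hh0 (slotE P n.size h a e0)
          have := hh0 (slotE P n.size h a e1)
          have := hh0 (slotE P n.size h a e2)
          have := hh0 (slotE P n.size h a e3)
          gcongr
      _ = 2 ^ (4 * h) := by ring
      _ ≤ _ := H8.two_pow_ge (by unfold hnext; omega)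

end Crest.Agent.R300U
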