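import Crest.Agent.R300U.DefsB

/-! Row 300, upper bound: the soft cut-off. -/

set_option autoImplicit false

namespace Crest.Agent.R300U

open Finset

/-- binomial weight -/
def bwc (β : ℚ) (g s : ℕ) : ℚ := (g.choose s : ℚ) * β ^ s * (1 - β) ^ (g - s)

theorem bw_nonneg {β : ℚ} (h0 : 0 ≤ β) (h1 : β ≤ 1) (g s : ℕ) : 0 ≤ bwc β g s := by
  unfold bwc
  have : 0 ≤ 1 - β := by linarith
  positivity

theorem bw_gen (β x : ℚ) (g : ℕ) : ∑ s ∈ range (g + 1), bwc β g s * x ^ s = (β * x + (1 - β)) ^ g := by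
  rw [add_pow]
  refine sum_congr rfl (fun s _ => ?_)
  unfold bwc
  rw [mul_pow]; ring

theorem bw_zero (β : ℚ) {g s : ℕ} (h : g < s) : bwc β g s = 0 := by
  simp [bwc, Nat.choose_eq_zero_of_lt h]

theorem chi_eq (β : ℚ) (mc g : ℕ) :
    chi β mc g = ∑ s ∈ (range (g + 1)).filter (fun s => s < mc), bwc β g s := by
  have : chi β mc g = ∑ s ∈ range mc, bwc β g s := rfl
  rw [this]
  symm
  apply sum_subset
  · intro s hs; simp only [mem_filter, mem_range] at hs ⊢; exact hs.2
  · intro s hs hs'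
    simp only [mem_filter, mem_range, not_and] at hs hs'
    exact bw_zero β (by by_contra h; exact hs' (by omega) hs)

theorem one_sub_chi (β : ℚ) (mc g : ℕ) :
    1 - chi β mc g = ∑ s ∈ (range (g + 1)).filter (fun s => ¬ s < mc), bwc β g s := by
  have h := bw_gen β 1 g
  simp only [one_pow, mul_one, add_sub_cancel] at h
  rw [chi_eq, ← h, ← sum_filter_add_sum_filter_not (range (g + 1)) (fun s => s < mc)]
  ring

theorem chi_basic (β : ℚ) (mc g : ℕ) (h0 : 0 ≤ β) (h1 : β ≤ 1) :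
    0 ≤ chi β mc g ∧ chi β mc g ≤ 1 ∧
    chi β mc g ≤ 2 ^ mc * (1 - β / 2) ^ g ∧ 1 - chi β mc g ≤ (1 + β) ^ g / 2 ^ mc ∧
    (1 ≤ mc → chi β mc 0 = 1) := by
  have hb := bw_nonneg h0 h1 g
  refine ⟨?_, ?_, ?_, ?_, fun h => ?_⟩
  · rw [chi_eq]; exact sum_nonneg (fun s _ => hb s)
  · have : 0 ≤ 1 - chi β mc g := by rw [one_sub_chi]; exact sum_nonneg (fun s _ => hb s)
    linarith
  · have h := bw_gen β (1 / 2) g
    rw [show β * (1 / 2) + (1 - β) = 1 - β / 2 by ring] at h
    rw [chi_eq, ← h, mul_sum]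
    refine (sum_le_sum (g := fun s => 2 ^ mc * (bwc β g s * (1 / 2) ^ s)) (fun s hs => ?_)).trans
      (sum_le_sum_of_subset_of_nonneg (filter_subset _ _) (fun s _ _ => by have := hb s; positivity))
    have hs' : s ≤ mc := (mem_filter.1 hs).2.le
    have : (1 : ℚ) ≤ 2 ^ mc * (1 / 2) ^ s := by
      rw [one_div, inv_pow, ← div_eq_mul_inv, le_div_iff₀ (by positivity), one_mul]
      exact pow_le_pow_right₀ (by norm_num) hs'
    nlinarith [hb s]
  · have h := bw_gen β 2 g
    rw [show β * 2 + (1 - β) = 1 + β by ring] at h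
    rw [one_sub_chi, ← h, sum_div]
    refine (sum_le_sum (g := fun s => bwc β g s * 2 ^ s / 2 ^ mc) (fun s hs => ?_)).trans
      (sum_le_sum_of_subset_of_nonneg (filter_subset _ _) (fun s _ _ => by have := hb s; positivity))
    have hs' : mc ≤ s := not_lt.1 (mem_filter.1 hs).2
    rw [le_div_iff₀ (by positivity)]
    exact mul_le_mul_of_nonneg_left (pow_le_pow_right₀ (by norm_num) hs') (hb s)
  · rw [chi_eq]
    have : (range (0 + 1)).filter (fun s => s < mc) = {0} := by
      ext s; simp only [mem_filter, mem_range, mem_singleton]; omega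
    rw [this]; simp [bwc]

theorem two_pow_eq_exp (k : ℕ) : (2 : ℝ) ^ k = Real.exp (k * Real.log 2) := by
  rw [Real.exp_nat_mul, Real.exp_log (by norm_num)]

theorem chi_proof : ChiStmt := by
  refine ⟨fun β mc g h0 h1 => chi_basic β mc g h0 h1, fun P hP => ?_⟩
  have hE : (65536 : ℝ) * (P.r' + 1) ≤ P.E := by exact_mod_cast hP.hE
  have hr' : (65536 : ℝ) ≤ P.r' := by
    have := hP.hr'
    exact_mod_cast (by omega : 65536 ≤ P.r')
  have hE0 : (0 : ℝ) < P.E := by nlinarith
  have hmc : P.mc = 2 ^ P.bb * 16 * P.E := by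
    have h := hP.hmc
    rw [hP.hG, pow_add] at h
    have : P.mc * (2 ^ P.r' * 4) = 2 ^ P.bb * 16 * P.E * (2 ^ P.r' * 4) := by
      rw [← mul_assoc, h]; ring
    exact Nat.eq_of_mul_eq_mul_right (by positivity) this
  have hbb : (16 : ℝ) ≤ 2 ^ P.bb := by
    have : (2 : ℝ) ^ 4 ≤ 2 ^ P.bb := pow_le_pow_right₀ (by norm_num) hP.hb
    linarith
  have hβ0 : 0 < P.β := by unfold LP.β; positivity
  have hβ1 : P.β ≤ 1 / 2 := by
    unfold LP.β
    rw [div_le_div_iff₀ (by positivity) (by norm_num), one_mul, ← pow_succ]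
    exact pow_le_pow_right₀ (by norm_num) hP.hb'
  -- real notation
  set lam : ℝ := 1 / 2 ^ (P.r' + 2) with hlam
  set β : ℝ := (P.β : ℝ) with hβ
  have hlam0 : 0 < lam := by positivity
  have hβl : β = 4 * 2 ^ P.bb * lam := by
    rw [hβ, hlam]; unfold LP.β; push_cast; rw [pow_add]; field_simp; norm_num
  have hβ0' : 0 < β := by rw [hβ]; exact_mod_cast hβ0
  have hβ1' : β ≤ 1 / 2 := by
    have : ((P.β : ℚ) : ℝ) ≤ ((1 / 2 : ℚ) : ℝ) := by exact_mod_cast hβ1
    simpa using this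
  have hlβ : 64 * lam ≤ β := by rw [hβl]; nlinarith
  have hvr : (P.vr : ℝ) = 1 - lam := by rw [hlam]; unfold LP.vr; push_cast; rfl
  have hGl : lam * P.G = 16 * P.E := by
    rw [hlam, hP.hG]; push_cast; field_simp
  have hβG : β * P.G = 4 * P.mc := by
    rw [hβl, hmc]; push_cast; linear_combination 4 * 2 ^ P.bb * hGl
  have hmcE : (256 : ℝ) * P.E ≤ P.mc := by rw [hmc]; push_cast; nlinarith
  have hl2 := Real.log_two_gt_d9
  have hl2' := Real.log_two_lt_d9
  have hvr0 : 0 < 1 - lam := by linarith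
  have hinv : 1 / (1 - lam) ≤ Real.exp (lam * (65 / 64)) := by
    refine le_trans ?_ (Real.add_one_le_exp _)
    rw [div_le_iff₀ hvr0]; nlinarith
  set ρ : ℝ := (1 - β / 2) / (1 - lam) with hρ
  have hρ0 : 0 ≤ ρ := by apply div_nonneg <;> linarith
  have hρ1 : ρ ≤ 1 - 31 / 64 * β := by
    rw [hρ, div_le_iff₀ hvr0]; nlinarith
  have hc : ∀ g, 0 ≤ (chi P.β P.mc g : ℝ) ∧ (chi P.β P.mc g : ℝ) ≤ 1 ∧
      (chi P.β P.mc g : ℝ) ≤ 2 ^ P.mc * (1 - β / 2) ^ g ∧
      1 - (chi P.β P.mc g : ℝ) ≤ (1 + β) ^ g / 2 ^ P.mc := by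
    intro g
    obtain ⟨a, b, c, d, -⟩ := chi_basic P.β P.mc g hβ0.le (by linarith)
    refine ⟨by exact_mod_cast a, by exact_mod_cast b, ?_, ?_⟩
    · rw [hβ]; exact_mod_cast c
    · rw [hβ]; exact_mod_cast d
  have tail : ∀ i, ∑ g ∈ (range i).filter (fun g => P.G < g), (chi P.β P.mc g : ℝ) / (1 - lam) ^ g ≤
      1 / 2 ^ (200 * P.E) := by
    intro i
    have h1 : ∑ g ∈ (range i).filter (fun g => P.G < g), (chi P.β P.mc g : ℝ) / (1 - lam) ^ g ≤
        ∑ g ∈ Ico (P.G + 1) i, 2 ^ P.mc * ρ ^ g := by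
      have : (range i).filter (fun g => P.G < g) = Ico (P.G + 1) i := by
        ext g; simp only [mem_filter, mem_range, mem_Ico]; omega
      rw [this]
      refine sum_le_sum (fun g _ => ?_)
      rw [hρ, div_pow, ← mul_div_assoc]
      exact div_le_div_of_nonneg_right (hc g).2.2.1 (by positivity)
    have h2 : ∑ g ∈ Ico (P.G + 1) i, ρ ^ g ≤ ρ ^ (P.G + 1) / (1 - ρ) :=
      geom_sum_Ico_le_of_lt_one hρ0 (by nlinarith)
    have h3 : ρ ^ (P.G + 1) ≤ Real.exp (-(31 / 16) * P.mc) := by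
      calc ρ ^ (P.G + 1) ≤ ρ ^ P.G := pow_le_pow_of_le_one hρ0 (by nlinarith) (by omega)
        _ ≤ Real.exp (-(31 / 64 * β)) ^ P.G :=
          pow_le_pow_left₀ hρ0 (hρ1.trans (by linarith [Real.add_one_le_exp (-(31 / 64 * β))])) _
        _ = _ := by rw [← Real.exp_nat_mul]; congr 1; linear_combination (-(31 / 64) : ℝ) * hβG
    have h4 : 1 / (1 - ρ) ≤ 2 ^ (P.r' + 2) := by
      rw [div_le_iff₀ (by nlinarith)]
      have : (2 : ℝ) ^ (P.r' + 2) * lam = 1 := by rw [hlam]; field_simp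
      have h5 : lam ≤ 1 - ρ := by nlinarith
      nlinarith [mul_le_mul_of_nonneg_left h5 (by positivity : (0 : ℝ) ≤ 2 ^ (P.r' + 2))]
    rw [← mul_sum] at h1
    calc _ ≤ 2 ^ P.mc * (ρ ^ (P.G + 1) / (1 - ρ)) := h1.trans (by gcongr)
      _ = 2 ^ P.mc * (ρ ^ (P.G + 1) * (1 / (1 - ρ))) := by ring
      _ ≤ 2 ^ P.mc * (Real.exp (-(31 / 16) * P.mc) * 2 ^ (P.r' + 2)) := by
          have : 0 ≤ 1 / (1 - ρ) := by apply div_nonneg <;> nlinarith
          gcongr
      _ ≤ _ := by
          rw [two_pow_eq_exp, two_pow_eq_exp, two_pow_eq_exp, ← Real.exp_add, ← Real.exp_add, one_div,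
            ← Real.exp_neg]
          apply Real.exp_le_exp.2
          push_cast
          nlinarith
  refine ⟨?_, hβ0, hβ1, fun i => ?_, fun i => ?_, fun g hg => ?_⟩
  · have : (1 : ℝ) ≤ P.mc := by nlinarith
    exact_mod_cast this
  · have key : ∑ g ∈ range i, (chi P.β P.mc g : ℝ) / (1 - lam) ^ g ≤ 2 ^ (24 * P.E) := by
      rw [← sum_filter_add_sum_filter_not (range i) (fun g => P.G < g)]
      have h1 : ∑ g ∈ (range i).filter (fun g => ¬ P.G < g), (chi P.β P.mc g : ℝ) / (1 - lam) ^ g ≤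
          ∑ _g ∈ range (P.G + 1), Real.exp (65 / 4 * P.E) := by
        refine (sum_le_sum (g := fun _ => Real.exp (65 / 4 * P.E)) (fun g hg => ?_)).trans
          (sum_le_sum_of_subset_of_nonneg (fun g hg => ?_) (fun _ _ _ => by positivity))
        · have hg' : (g : ℝ) ≤ P.G := by exact_mod_cast not_lt.1 (mem_filter.1 hg).2
          calc _ ≤ 1 / (1 - lam) ^ g := div_le_div_of_nonneg_right (hc g).2.1 (by positivity)
            _ = (1 / (1 - lam)) ^ g := by rw [one_div_pow]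
            _ ≤ Real.exp (lam * (65 / 64)) ^ g := by gcongr
            _ ≤ _ := by
              rw [← Real.exp_nat_mul]; apply Real.exp_le_exp.2; nlinarith
        · simp only [mem_filter, mem_range] at hg ⊢; omega
      simp only [sum_const, card_range, nsmul_eq_mul] at h1
      have h2 : (P.G : ℝ) ≤ Real.exp (P.E / 16384) := by
        refine hP.hGE.trans ?_
        rw [Real.rpow_def_of_pos (by norm_num)]
        apply Real.exp_le_exp.2; nlinarith
      have h3 : (1 : ℝ) ≤ Real.exp (P.E / 16384) := Real.one_le_exp (by positivity)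
      have h4 : (1 : ℝ) ≤ Real.exp (65 / 4 * P.E) := Real.one_le_exp (by positivity)
      have h5 : (1 : ℝ) / 2 ^ (200 * P.E) ≤ 1 := by
        rw [div_le_one (by positivity)]; exact one_le_pow₀ (by norm_num)
      have h6 : (3 : ℝ) ≤ Real.exp 2 := by linarith [Real.add_one_le_exp 2]
      calc _ ≤ 1 + (Real.exp (P.E / 16384) + 1) * Real.exp (65 / 4 * P.E) := by
            refine add_le_add ((tail i).trans h5) (h1.trans ?_)
            push_cast; gcongr
        _ ≤ Real.exp 2 * (Real.exp (P.E / 16384) * Real.exp (65 / 4 * P.E)) := by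
            nlinarith [mul_le_mul h3 h4 (by norm_num) (by linarith)]
        _ ≤ _ := by
            rw [two_pow_eq_exp, ← Real.exp_add, ← Real.exp_add]
            apply Real.exp_le_exp.2
            push_cast
            nlinarith
    rw [← hvr] at key
    exact_mod_cast key
  · have key := tail i
    rw [← hvr] at key
    have : ((∑ g ∈ (range i).filter (fun g => P.G < g), chi P.β P.mc g / P.vr ^ g : ℚ) : ℝ) ≤
        ((1 / 2 ^ (200 * P.E) : ℚ) : ℝ) := by push_cast; exact key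
    exact_mod_cast this
  · have hg' : 8 * (g : ℝ) ≤ P.G := by exact_mod_cast hg
    have key : 1 - (chi P.β P.mc g : ℝ) ≤ 1 / 2 ^ (16 * P.E) := by
      refine (hc g).2.2.2.trans ?_
      have : (1 + β) ^ g ≤ Real.exp β ^ g :=
        pow_le_pow_left₀ (by linarith) (by linarith [Real.add_one_le_exp β]) _
      refine (div_le_div_of_nonneg_right this (by positivity)).trans ?_
      rw [two_pow_eq_exp, two_pow_eq_exp, ← Real.exp_nat_mul, ← Real.exp_sub, one_div, ← Real.exp_neg]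
      apply Real.exp_le_exp.2
      push_cast
      nlinarith
    have : ((1 - chi P.β P.mc g : ℚ) : ℝ) ≤ ((1 / 2 ^ (16 * P.E) : ℚ) : ℝ) := by push_cast; exact key
    exact_mod_cast this

end Crest.Agent.R300U
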