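import Crest.Agent.R300U.GPTH

/-!
Row 300, upper bound, task GPT: polynomial-time operations on Gaussian rationals. (Parts Q and H are
in `GPTQ`, `GPTH`.)
-/

set_option autoImplicit false

namespace Crest.Agent.R300U

open Crest.Agent.PT Crest.Agent.QC Crest.Agent.R317 Finset

variable {α β γ : Type} [Enc α] [Enc β] [Enc γ]

theorem g_parts {f : α → GQ} (hf : PT f) : PT (fun a => (reQ (f a), imQ (f a))) :=
  hf.of_enc_eq (fun _ => enc_gq _)

@[fun_prop] theorem pt_reQ {f : α → GQ} (hf : PT f) : PT (fun a => reQ (f a)) := (g_parts hf).fst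

@[fun_prop] theorem pt_imQ {f : α → GQ} (hf : PT f) : PT (fun a => imQ (f a)) := (g_parts hf).snd

theorem pt_of_parts {f : α → GQ} (h1 : PT (fun a => reQ (f a))) (h2 : PT (fun a => imQ (f a))) :
    PT f := (h1.pair h2).of_enc_eq (fun _ => (enc_gq _).symm)

@[fun_prop] theorem pt_nsQ {f : α → GQ} (hf : PT f) : PT (fun a => nsQ (f a)) := by
  unfold nsQ; fun_prop

@[fun_prop] theorem pt_grat {f : α → ℚ} (hf : PT f) : PT (fun a => (f a : GQ)) :=
  pt_of_parts (hf.congr (fun a => by simp)) ((PT.const 0).congr (fun a => by simp))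

@[fun_prop] theorem pt_gint {f : α → ℤ} (hf : PT f) : PT (fun a => (f a : GQ)) :=
  (pt_grat (pt_qint hf)).congr (fun a => by simp)

@[fun_prop] theorem pt_gnat {f : α → ℕ} (hf : BT f) : PT (fun a => (f a : GQ)) :=
  (pt_grat (pt_qnat hf)).congr (fun a => by simp)

@[fun_prop] theorem pt_gadd {f g : α → GQ} (hf : PT f) (hg : PT g) : PT (fun a => f a + g a) :=
  pt_of_parts (by simp only [reQ_add]; fun_prop) (by simp only [imQ_add]; fun_prop)

@[fun_prop] theorem pt_gneg {f : α → GQ} (hf : PT f) : PT (fun a => -f a) :=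
  pt_of_parts (by simp only [reQ_neg]; fun_prop) (by simp only [imQ_neg]; fun_prop)

@[fun_prop] theorem pt_gsub {f g : α → GQ} (hf : PT f) (hg : PT g) : PT (fun a => f a - g a) :=
  pt_of_parts (by simp only [reQ_sub]; fun_prop) (by simp only [imQ_sub]; fun_prop)

@[fun_prop] theorem pt_gmul {f g : α → GQ} (hf : PT f) (hg : PT g) : PT (fun a => f a * g a) :=
  pt_of_parts (by simp only [reQ_mul]; fun_prop) (by simp only [imQ_mul]; fun_prop)

@[fun_prop] theorem pt_ginv {f : α → GQ} (hf : PT f) : PT (fun a => (f a)⁻¹) :=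
  pt_of_parts (by simp only [reQ_inv]; fun_prop) (by simp only [imQ_inv]; fun_prop)

@[fun_prop] theorem pt_gdiv {f g : α → GQ} (hf : PT f) (hg : PT g) : PT (fun a => f a / g a) :=
  (pt_gmul hf (pt_ginv hg)).congr (fun a => by rw [div_eq_mul_inv])

@[fun_prop] theorem pt_cj {f : α → GQ} (hf : PT f) : PT (fun a => cj (f a)) :=
  pt_of_parts (by simp only [reQ_cj]; fun_prop) (by simp only [imQ_cj]; fun_prop)

@[fun_prop] theorem dt_geq {f g : α → GQ} (hf : PT f) (hg : PT g) : DT (fun a => f a = g a) :=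
  ((dt_qeq (pt_reQ hf) (pt_reQ hg)).and (dt_qeq (pt_imQ hf) (pt_imQ hg))).congr
    (fun a => ⟨fun h => gq_ext h.1 h.2, fun h => by rw [h]; exact ⟨rfl, rfl⟩⟩)

@[fun_prop] theorem dt_gne {f g : α → GQ} (hf : PT f) (hg : PT g) : DT (fun a => f a ≠ g a) :=
  (dt_geq hf hg).not

@[fun_prop] theorem pt_gsum {g : α → ℕ} {f : α → ℕ → GQ} (hg : PT g)
    (hf : PT (fun p : α × ℕ => f p.1 p.2)) : PT (fun a => ∑ i ∈ range (g a), f a i) :=
  pt_of_parts ((pt_qsum (f := fun a i => reQ (f a i)) hg (pt_reQ hf)).congr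
      (fun a => (reQ_sum _ _).symm))
    ((pt_qsum (f := fun a i => imQ (f a i)) hg (pt_imQ hf)).congr (fun a => (imQ_sum _ _).symm))

@[fun_prop] theorem pt_gprod {g : α → ℕ} {f : α → ℕ → GQ} (hg : PT g)
    (hf : PT (fun p : α × ℕ => f p.1 p.2)) : PT (fun a => ∏ i ∈ range (g a), f a i) := by
  have hf' : PT (fun p : α × ℕ × GQ => f p.1 p.2.1) :=
    hf.comp (f := fun p : α × ℕ × GQ => (p.1, p.2.1)) (by fun_prop)
  refine (natRec_ht (s := fun a i b => b * f a i) hg (PT.const 1) (by fun_prop) hf.pb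
    (fun a i b k _ h => h.mul (ht_sz _))).congr (fun a => ?_)
  induction g a with
  | zero => rfl
  | succ n ih => simp only [ih, prod_range_succ]

theorem pt_gpow {f : α → GQ} {k : α → ℕ} (hf : PT f) (hk : PT k) : PT (fun a => f a ^ k a) :=
  (pt_gprod (f := fun a _ => f a) hk (by fun_prop)).congr (fun a => by simp)

theorem pt_gzpow {f : α → GQ} {k : α → ℤ} (hf : PT f) (hk : ZT k) :
    PT (fun a => f a ^ k a) := by
  have h : PT (fun a => if 0 ≤ k a then f a ^ (k a).toNat else (f a ^ (-k a).toNat)⁻¹) :=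
    PT.iteD (dt_ile (PT.const _) hk.pt) (pt_gpow hf hk.1) (pt_ginv (pt_gpow hf hk.2))
  refine h.congr (fun a => ?_)
  split_ifs with h0
  · rw [← zpow_natCast, Int.toNat_of_nonneg h0]
  · rw [← zpow_natCast, Int.toNat_of_nonneg (by omega), zpow_neg, inv_inv]

instance powZ_gnat : PowZ GQ ℕ (@instHPow GQ ℕ _) := ⟨fun x k => (zpow_natCast x k).symm⟩

instance powZ_gint : PowZ GQ ℤ (@instHPow GQ ℤ _) := ⟨fun _ _ => rfl⟩

@[fun_prop] theorem pt_ggpow {E : Type} [ExpZ E] {inst : HPow GQ E GQ} [c : PowZ GQ E inst]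
    {f : α → GQ} {k : α → E} (hf : PT f) (hk : ZT (fun a => ExpZ.toZ (k a))) :
    PT (fun a => f a ^ k a) :=
  (pt_gzpow hf hk).congr (fun a => (c.pow_eq _ _).symm)

/-! ### More list operations -/

theorem mkL_getD {δ : Type} (l : List δ) (d : δ) : mkL l.length (fun i => l.getD i d) = l := by
  apply List.ext_getElem
  · simp
  · intro i h1 h2
    simp [mkL, List.getD_eq_getElem?_getD, h2]

theorem enc_append (l m : List β) : enc (l ++ m) = enc l ++ enc m := by
  induction l with
  | nil => rfl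
  | cons x l ih => simp [enc_cons, ih]

@[fun_prop] theorem pt_append {l m : α → List β} (hl : PT l) (hm : PT m) :
    PT (fun a => l a ++ m a) :=
  (PT.app (PT.toRaw.comp hl) (PT.toRaw.comp hm)).of_enc_eq (fun a => (enc_append _ _).symm)

@[simp] theorem sz_append (l m : List β) : sz (l ++ m) = sz l + sz m := by
  simp [sz, enc_append]

@[fun_prop] theorem pt_replicate {n : α → ℕ} {f : α → β} (hn : PT n) (hf : PT f) :
    PT (fun a => List.replicate (n a) (f a)) :=
  (pt_mkL (f := fun a _ => f a) hn (by fun_prop)).congr (fun a => by simp [mkL])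

/-- Concatenation of the lists `f 0, …, f (n-1)`. -/
def catL {δ : Type} (n : ℕ) (f : ℕ → List δ) : List δ := (List.range n).flatMap f

@[fun_prop] theorem pt_catL {n : α → ℕ} {f : α → ℕ → List β} (hn : PT n)
    (hf : PT (fun p : α × ℕ => f p.1 p.2)) : PT (fun a => catL (n a) (f a)) := by
  refine (PT.concat (f := fun a i => (⟨enc (f a i)⟩ : Raw)) hn (PT.toRaw.comp hf)).of_enc_eq
    (fun a => ?_)
  show (List.range (n a)).flatMap _ = enc ((List.range (n a)).flatMap (f a))
  induction List.range (n a) with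
  | nil => rfl
  | cons x l ih => simp only [List.flatMap_cons, enc_append, ih]

@[fun_prop] theorem pt_take {l : α → List β} {k : α → ℕ} (hl : PT l) (hk : PT k) :
    PT (fun a => (l a).take (k a)) := by
  have key : ∀ (i : ℕ) (x : List Bool), Raw.tail^[i] ⟨x⟩ = ⟨x.drop i⟩ := by
    intro i
    induction i with
    | zero => intro x; rfl
    | succ i ih => intro x; rw [Function.iterate_succ_apply]; cases x <;> simp [Raw.tail, ih]
  have h1 : PT (fun a => Raw.revApp ⟨enc (l a)⟩ Raw.nil) :=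
    PT.revApp (PT.toRaw.comp hl) (PT.const _)
  have h2 := pt_iterShrink (s := Raw.tail) (PT.tail PT.id') (fun x => by simp)
    (pt_drop hl hk).len h1
  refine (PT.revApp h2 (PT.const Raw.nil)).of_enc_eq (fun a => ?_)
  have e : enc (l a) = enc ((l a).take (k a)) ++ enc ((l a).drop (k a)) := by
    rw [← enc_append, List.take_append_drop]
  show (Raw.revApp (Raw.tail^[_] ⟨_⟩) Raw.nil).val = _
  rw [key]
  simp only [Raw.val_revApp, Raw.val_nil, List.append_nil]
  rw [e]
  simp [sz]

@[fun_prop] theorem pt_map {l : α → List β} {f : α → β → γ} [Inhabited β] (hl : PT l)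
    (hf : PT (fun p : α × β => f p.1 p.2)) : PT (fun a => (l a).map (f a)) := by
  have h : PT (fun a => mkL (l a).length (fun i => f a ((l a).getD i default))) :=
    pt_mkL (f := fun a i => f a ((l a).getD i default)) (pt_length hl)
      (hf.comp (f := fun p : α × ℕ => (p.1, (l p.1).getD p.2 default)) (by fun_prop))
  refine h.congr (fun a => ?_)
  conv_rhs => rw [← mkL_getD (l a) default]
  simp [mkL, List.map_map, Function.comp_def]

@[fun_prop] theorem pt_reverse {l : α → List β} (hl : PT l) : PT (fun a => (l a).reverse) := by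
  have h : PT (fun a => catL (l a).length
      (fun i => ((l a).drop ((l a).length - 1 - i)).take 1)) := by fun_prop
  refine h.congr (fun a => ?_)
  generalize l a = x
  induction x with
  | nil => rfl
  | cons y x ih =>
    rw [List.reverse_cons, ← ih]
    simp only [catL, List.length_cons, List.range_succ, List.flatMap_append, List.flatMap_cons,
      List.flatMap_nil, List.append_nil]
    congr 1
    · refine List.flatMap_congr (fun i hi => ?_)
      have : i < x.length := List.mem_range.1 hi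
      rw [show x.length + 1 - 1 - i = (x.length - 1 - i) + 1 by omega, List.drop_succ_cons]
    · simp

/-- The least `i < n` with `p i`, or `n` if there is none. -/
noncomputable def fnd (n : ℕ) (p : ℕ → Prop) : ℕ := by
  classical exact ∑ i ∈ range n, if All (i + 1) (fun j => ¬ p j) then 1 else 0

@[fun_prop] theorem pt_fnd {n : α → ℕ} {p : α → ℕ → Prop} (hn : PT n)
    (hp : DT (fun q : α × ℕ => p q.1 q.2)) : PT (fun a => fnd (n a) (p a)) := by
  classical
  have h1 : DT (fun q : α × ℕ => All (q.2 + 1) (fun j => ¬ p q.1 j)) :=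
    DT.all (p := fun (q : α × ℕ) j => ¬ p q.1 j) (by fun_prop)
      (hp.comp (f := fun r : (α × ℕ) × ℕ => (r.1.1, r.2)) (by fun_prop)).not
  exact PT.sumNat (f := fun a i => if All (i + 1) (fun j => ¬ p a j) then 1 else 0) hn
    (PT.iteD h1 (PT.const _) (PT.const _))

theorem fnd_spec (n : ℕ) (p : ℕ → Prop) :
    fnd n p ≤ n ∧ (∀ j < fnd n p, ¬ p j) ∧ (fnd n p < n → p (fnd n p)) := by
  classical
  induction n with
  | zero => simp [fnd]
  | succ n ih =>
    have e : fnd (n + 1) p = fnd n p + if All (n + 1) (fun j => ¬ p j) then 1 else 0 := by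
      unfold fnd; rw [sum_range_succ]
    obtain ⟨h1, h2, h3⟩ := ih
    rw [e]
    split_ifs with h
    · have h4 : fnd n p = n := by
        by_contra h5
        exact h _ (by omega) (h3 (by omega))
      rw [h4]
      exact ⟨le_rfl, h, fun h => absurd h (lt_irrefl _)⟩
    · refine ⟨by omega, h2, fun _ => ?_⟩
      rw [add_zero]
      rcases h1.lt_or_eq with h4 | h4
      · exact h3 h4
      · by_contra h5
        refine h (fun j hj => ?_)
        rcases (Nat.lt_succ_iff.1 hj).lt_or_eq with h6 | h6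
        · exact h2 j (by omega)
        · rw [h6, ← h4]; exact h5

theorem fnd_lt_iff (n : ℕ) (p : ℕ → Prop) : fnd n p < n ↔ ∃ i < n, p i := by
  obtain ⟨h1, h2, h3⟩ := fnd_spec n p
  refine ⟨fun h => ⟨_, h, h3 h⟩, fun ⟨i, hi, h⟩ => ?_⟩
  by_contra h4
  exact h2 i (by omega) h

/-- An index `i < n` (for `n > 0`) maximising `f`. -/
noncomputable def amax (n : ℕ) (f : ℕ → ℚ) : ℕ := fnd n (fun i => All n (fun j => f j ≤ f i))

@[fun_prop] theorem pt_amax {n : α → ℕ} {f : α → ℕ → ℚ} (hn : PT n)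
    (hf : PT (fun q : α × ℕ => f q.1 q.2)) : PT (fun a => amax (n a) (f a)) := by
  have h1 : PT (fun r : (α × ℕ) × ℕ => f r.1.1 r.2) :=
    hf.comp (f := fun r : (α × ℕ) × ℕ => (r.1.1, r.2)) (by fun_prop)
  have h2 : PT (fun r : (α × ℕ) × ℕ => f r.1.1 r.1.2) :=
    hf.comp (f := fun r : (α × ℕ) × ℕ => (r.1.1, r.1.2)) (by fun_prop)
  exact pt_fnd (p := fun a i => All (n a) (fun j => f a j ≤ f a i)) hn
    (DT.all (p := fun (q : α × ℕ) j => f q.1 j ≤ f q.1 q.2) (by fun_prop) (dt_qle h1 h2))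

theorem amax_spec {n : ℕ} (hn : 0 < n) (f : ℕ → ℚ) :
    amax n f < n ∧ ∀ j < n, f j ≤ f (amax n f) := by
  obtain ⟨i, hi, h⟩ := exists_max_image (range n) f ⟨0, mem_range.2 hn⟩
  have h1 : amax n f < n :=
    (fnd_lt_iff _ _).2 ⟨i, mem_range.1 hi, fun j hj => h j (mem_range.2 hj)⟩
  exact ⟨h1, (fnd_spec n _).2.2 h1⟩

example {p : α → ℚ} {z : α → GQ} {n : α → ℕ} {k : α → ℤ} (hp : PT p) (hz : PT z) (hn : PT n)
    (hk : ZT k) :
    PT (fun a => if z a = 3 ∧ reQ (z a) < p a then (1 - z a) ^ n a / (n a + 1) + (k a : GQ) else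
      ∑ i ∈ range (n a), cj (z a ^ i) * (2 * (n a).size) * 2 ^ (k a - i) * GI ^ 2 +
        ((1 - p a : ℚ) : GQ)) := by
  fun_prop

end Crest.Agent.R300U
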