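import Crest.Agent.R300U.GPT

/-!
Row 300, upper bound, task VAL (part a): lists, accessors and constructor of weighted automata.
-/

set_option autoImplicit false

namespace Crest.Agent.R300U

open Crest.Agent.PT Crest.Agent.QC Crest.Agent.R317 Finset

variable {α β : Type} [Enc α] [Enc β]

/-! ### Lists -/

theorem sz_take_le (l : List β) (k : ℕ) : sz (l.take k) ≤ sz l := by
  conv_rhs => rw [← List.take_append_drop k l, sz_append]
  omega

theorem sz_mem_le {l : List β} {x : β} (h : x ∈ l) : sz x ≤ sz l := by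
  induction l with
  | nil => simp at h
  | cons y l ih =>
    rw [sz_cons]
    rcases List.mem_cons.1 h with rfl | h
    · omega
    · have := ih h; omega

theorem sz_mkL_ge {n i : ℕ} (f : ℕ → β) (h : i < n) : sz (f i) ≤ sz (mkL n f) :=
  sz_mem_le (List.mem_map.2 ⟨i, List.mem_range.2 h, rfl⟩)

theorem sz_mkL_le (n : ℕ) (f : ℕ → β) (B : ℕ) (h : ∀ i < n, sz (f i) ≤ B) :
    sz (mkL n f) ≤ n * (2 * B + 1) := by
  have := sz_list_le (mkL n f) B (fun x hx => by
    obtain ⟨i, hi, rfl⟩ := List.mem_map.1 hx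
    exact h i (List.mem_range.1 hi))
  rwa [length_mkL] at this

omit [Enc β] in
theorem getD_mkL' (n i : ℕ) (f : ℕ → β) (d : β) :
    (mkL n f).getD i d = if i < n then f i else d := by
  split_ifs with h
  · exact getD_mkL f d h
  · simp [mkL, List.getD_eq_getElem?_getD, h]

omit [Enc β] in
theorem mkL_congr {n : ℕ} {f g : ℕ → β} (h : ∀ i < n, f i = g i) : mkL n f = mkL n g :=
  List.map_congr_left (fun i hi => h i (List.mem_range.1 hi))

/-! ### Automata -/

theorem pt_tab {a : α → FA} (ha : PT a) : PT (fun x => (a x).tab) :=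
  ha.of_enc_eq (fun _ => enc_fa _)

theorem pt_of_tab {a : α → FA} (ha : PT (fun x => (a x).tab)) : PT a :=
  ha.of_enc_eq (fun _ => (enc_fa _).symm)

@[fun_prop] theorem pt_fa_d {a : α → FA} (ha : PT a) : PT (fun x => (a x).d) := (pt_tab ha).fst

@[fun_prop] theorem bt_fa_d {a : α → FA} (ha : PT a) : BT (fun x => (a x).d) :=
  BT.ofPT (pt_fa_d ha)

@[fun_prop] theorem pt_gA {a : α → FA} {σ : α → Bool} {i j : α → ℕ} (ha : PT a) (hσ : PT σ)
    (hi : PT i) (hj : PT j) : PT (fun x => (a x).gA (σ x) (i x) (j x)) := by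
  have h0 := (pt_tab ha).snd.fst
  have h1 := (pt_tab ha).snd.snd.fst
  refine (pt_getD (pt_getD (PT.cond hσ h1 h0) hi (PT.const [])) hj (PT.const 0)).congr
    (fun x => ?_)
  unfold FA.gA
  cases σ x <;> simp only [FA.tab, cond_true, cond_false, getD_mkL'] <;>
    by_cases hi : i x < (a x).d <;>
    simp only [hi, getD_mkL', if_true, if_false, true_and, false_and, List.getD_nil]

@[fun_prop] theorem pt_gh {a : α → FA} {i : α → ℕ} (ha : PT a) (hi : PT i) :
    PT (fun x => (a x).gh (i x)) :=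
  (pt_getD (pt_tab ha).snd.snd.snd.fst hi (PT.const 0)).congr (fun _ => getD_mkL' _ _ _ _)

@[fun_prop] theorem pt_gc {a : α → FA} {i : α → ℕ} (ha : PT a) (hi : PT i) :
    PT (fun x => (a x).gc (i x)) :=
  (pt_getD (pt_tab ha).snd.snd.snd.snd hi (PT.const 0)).congr (fun _ => getD_mkL' _ _ _ _)

/-- The constructor. -/
@[fun_prop] theorem pt_fa_mk {d : α → ℕ} {A : α → Bool → ℕ → ℕ → GQ} {h c : α → ℕ → GQ}
    (hd : PT d) (hA : PT (fun p : α × Bool × ℕ × ℕ => A p.1 p.2.1 p.2.2.1 p.2.2.2))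
    (hh : PT (fun p : α × ℕ => h p.1 p.2)) (hc : PT (fun p : α × ℕ => c p.1 p.2)) :
    PT (fun x => FA.mk (d x) (A x) (h x) (c x)) := by
  have hM : ∀ σ : Bool, PT (fun x => mkL (d x) (fun i => mkL (d x) (A x σ i))) := fun σ =>
    pt_mkL (f := fun x i => mkL (d x) (A x σ i)) hd
      (pt_mkL (f := fun (p : α × ℕ) j => A p.1 σ p.2 j)
        (hd.comp (f := fun p : α × ℕ => p.1) (by fun_prop))
        (PT.comp (g := fun p : α × Bool × ℕ × ℕ => A p.1 p.2.1 p.2.2.1 p.2.2.2)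
          (f := fun q : (α × ℕ) × ℕ => (q.1.1, σ, q.1.2, q.2)) hA (by fun_prop)))
  exact pt_of_tab (hd.pair ((hM false).pair ((hM true).pair ((pt_mkL hd hh).pair (pt_mkL hd hc)))))

/-- Two automata with the same entries below `d` have the same code; use it to replace the raw fields
by the guarded accessors. -/
theorem tab_congr {a b : FA} (hd : a.d = b.d)
    (hA : ∀ σ, ∀ i < a.d, ∀ j < a.d, a.A σ i j = b.A σ i j) (hh : ∀ i < a.d, a.h i = b.h i)
    (hc : ∀ i < a.d, a.c i = b.c i) : a.tab = b.tab := by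
  unfold FA.tab
  rw [← hd, mkL_congr hh, mkL_congr hc,
    mkL_congr (f := fun i => mkL a.d (a.A false i)) (fun i hi => mkL_congr (hA false i hi)),
    mkL_congr (f := fun i => mkL a.d (a.A true i)) (fun i hi => mkL_congr (hA true i hi))]

theorem pt_fa_congr {a b : α → FA} (ha : PT a) (hd : ∀ x, (a x).d = (b x).d)
    (hA : ∀ x σ, ∀ i < (a x).d, ∀ j < (a x).d, (a x).A σ i j = (b x).A σ i j)
    (hh : ∀ x, ∀ i < (a x).d, (a x).h i = (b x).h i)
    (hc : ∀ x, ∀ i < (a x).d, (a x).c i = (b x).c i) : PT b :=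
  ha.of_enc_eq (fun x => by rw [enc_fa, enc_fa, tab_congr (hd x) (hA x) (hh x) (hc x)])

theorem st_congr {a b : FA} (hd : a.d = b.d)
    (hA : ∀ σ, ∀ i < a.d, ∀ j < a.d, a.A σ i j = b.A σ i j) (hh : ∀ i < a.d, a.h i = b.h i)
    (w : List Bool) : ∀ i < a.d, a.st w i = b.st w i := by
  induction w using List.reverseRecOn with
  | nil => exact hh
  | append_singleton w σ ih =>
    intro i hi
    rw [FA.st_concat, FA.st_concat, ← hd]
    exact sum_congr rfl fun j hj => by rw [hA σ i hi j (mem_range.1 hj), ih j (mem_range.1 hj)]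

theorem val_congr {a b : FA} (hd : a.d = b.d)
    (hA : ∀ σ, ∀ i < a.d, ∀ j < a.d, a.A σ i j = b.A σ i j) (hh : ∀ i < a.d, a.h i = b.h i)
    (hc : ∀ i < a.d, a.c i = b.c i) (w : List Bool) : a.val w = b.val w := by
  unfold FA.val
  rw [← hd]
  exact sum_congr rfl fun i hi => by
    rw [hc i (mem_range.1 hi), st_congr hd hA hh w i (mem_range.1 hi)]

theorem sz_fa (a : FA) : sz a = 2 * a.d + (2 * sz (mkL a.d (fun i => mkL a.d (a.A false i))) +
    (2 * sz (mkL a.d (fun i => mkL a.d (a.A true i))) + (2 * sz (mkL a.d a.h) +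
      sz (mkL a.d a.c) + 1) + 1) + 1) + 1 := by
  have : sz a = sz a.tab := by simp only [sz, enc_fa]
  rw [this]
  simp only [FA.tab, sz_pair, sz_nat]

theorem d_le_sz (a : FA) : a.d ≤ sz a := by rw [sz_fa]; omega

theorem sz_h_le (a : FA) {i : ℕ} (hi : i < a.d) : sz (a.h i) ≤ sz a := by
  have := sz_mkL_ge a.h hi
  rw [sz_fa]; omega

theorem sz_c_le (a : FA) {i : ℕ} (hi : i < a.d) : sz (a.c i) ≤ sz a := by
  have := sz_mkL_ge a.c hi
  rw [sz_fa]; omega

theorem sz_A_le (a : FA) (σ : Bool) {i j : ℕ} (hi : i < a.d) (hj : j < a.d) :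
    sz (a.A σ i j) ≤ sz a := by
  have h1 := sz_mkL_ge (a.A σ i) hj
  have h2 := sz_mkL_ge (fun i => mkL a.d (a.A σ i)) hi
  rw [sz_fa]
  cases σ <;> omega

/-- Size of an automaton from a bound on the sizes of the entries. -/
theorem sz_fa_le (a : FA) (B : ℕ) (hA : ∀ σ, ∀ i < a.d, ∀ j < a.d, sz (a.A σ i j) ≤ B)
    (hh : ∀ i < a.d, sz (a.h i) ≤ B) (hc : ∀ i < a.d, sz (a.c i) ≤ B) :
    sz a ≤ 4 * (a.d * (2 * (a.d * (2 * B + 1)) + 1)) + 3 * (a.d * (2 * B + 1)) + 2 * a.d + 4 := by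
  have h1 := fun σ => sz_mkL_le a.d (fun i => mkL a.d (a.A σ i)) _
    (fun i hi => sz_mkL_le a.d (a.A σ i) B (hA σ i hi))
  have h2 := sz_mkL_le a.d a.h B hh
  have h3 := sz_mkL_le a.d a.c B hc
  have h4 := h1 false
  have h5 := h1 true
  rw [sz_fa]
  omega

end Crest.Agent.R300U
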