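import Crest.Agent.R300U.CHPT1
import Crest.Agent.R300U.GPT
import Crest.Agent.R300U.VALa

/-!
Row 300, upper bound, task CHPT: polynomial time for the automata constructions and the children.
-/

set_option autoImplicit false

namespace Crest.Agent.R300U

open Crest.Agent.PT Crest.Agent.QC Crest.Agent.R317 Finset

variable {α β γ : Type} [Enc α] [Enc β] [Enc γ]

/-- Weakening. -/
theorem pt_wk {f : α → β} (hf : PT f) : PT (fun p : α × γ => f p.1) :=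
  hf.comp (f := fun p : α × γ => p.1) PT.id'.fst

/-- Weakening. -/
theorem zt_wk {f : α → ℤ} (hf : ZT f) : ZT (fun p : α × γ => f p.1) :=
  hf.comp (f := fun p : α × γ => p.1) PT.id'.fst

theorem pt_p2 : PT (fun p : α × γ => p.2) := PT.id'.snd

theorem dt_neq {f g : α → ℕ} (hf : PT f) (hg : PT g) : DT (fun x => f x = g x) :=
  DT.eq (.ofPT hf) (.ofPT hg)

theorem dt_nlt {f g : α → ℕ} (hf : PT f) (hg : PT g) : DT (fun x => f x < g x) :=
  DT.lt (.ofPT hf) (.ofPT hg)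

theorem dt_nle {f g : α → ℕ} (hf : PT f) (hg : PT g) : DT (fun x => f x ≤ g x) :=
  DT.le (.ofPT hf) (.ofPT hg)

@[fun_prop] theorem pt_omg {N : α → ℕ} (hN : PT N) : PT (fun x => omg (N x)) := by
  have h : PT (fun x => GI * ((1 / 2 ^ N x : ℚ) : GQ)) :=
    pt_gmul (PT.const GI) (pt_grat (pt_qdiv (PT.const 1) (pt_two_pow hN)))
  exact pt_gdiv (pt_gadd (PT.const 1) h) (pt_gsub (PT.const 1) h)

@[fun_prop] theorem pt_omega {P : α → LP} (h : PT P) : PT (fun x => (P x).ω) :=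
  pt_omg ((PT.const 2).mul (pt_lp_E h))

@[fun_prop] theorem pt_Wq {P : α → LP} {u : α → ℤ} (h : PT P) (hu : ZT u) :
    PT (fun x => (P x).Wq (u x)) := by
  have ha : ZT (fun x => ((P x).a : ℤ) * u x) := (ZT.natCast (pt_lp_a h)).mul hu
  exact pt_gmul (pt_gzpow (pt_grat (pt_vr h)) hu) (pt_gpow (pt_gdiv (pt_gmul
    (pt_gadd (PT.const 1) (pt_gzpow (pt_omega h) ha))
    (pt_gadd (PT.const 1) (pt_gzpow (pt_omega h) ha.neg))) (PT.const 4)) (pt_lp_M h))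

@[fun_prop] theorem pt_conjFA {a : α → FA} (ha : PT a) : PT (fun x => conjFA (a x)) :=
  pt_fa_mk (pt_fa_d ha)
    (pt_cj (pt_gA (pt_wk ha) pt_p2.fst pt_p2.snd.fst pt_p2.snd.snd))
    (pt_cj (pt_gh (pt_wk ha) pt_p2)) (pt_cj (pt_gc (pt_wk ha) pt_p2))

@[fun_prop] theorem pt_tens {a b : α → FA} (ha : PT a) (hb : PT b) :
    PT (fun x => tens (a x) (b x)) := by
  have hd := pt_fa_d hb
  exact pt_fa_mk ((pt_fa_d ha).mul hd)
    (pt_gmul (pt_gA (pt_wk ha) pt_p2.fst (pt_p2.snd.fst.div (pt_wk hd))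
        (pt_p2.snd.snd.div (pt_wk hd)))
      (pt_gA (pt_wk hb) pt_p2.fst (pt_p2.snd.fst.mod (pt_wk hd)) (pt_p2.snd.snd.mod (pt_wk hd))))
    (pt_gmul (pt_gh (pt_wk ha) (pt_p2.div (pt_wk hd))) (pt_gh (pt_wk hb) (pt_p2.mod (pt_wk hd))))
    (pt_gmul (pt_gc (pt_wk ha) (pt_p2.div (pt_wk hd))) (pt_gc (pt_wk hb) (pt_p2.mod (pt_wk hd))))

@[fun_prop] theorem pt_slot {a : α → FA} {M mc : α → ℕ} {b ν w : α → ℚ} {z₀ zs : α → GQ}
    (ha : PT a) (hM : PT M) (hmc : PT mc) (hb : PT b) (hν : PT ν) (hw : PT w) (hz₀ : PT z₀)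
    (hzs : PT zs) : PT (fun x => slot (a x) (M x) (mc x) (b x) (ν x) (w x) (z₀ x) (zs x)) := by
  have hd := pt_fa_d ha
  have hm : PT (fun x => mc x + 1) := hmc.add (PT.const 1)
  have hi : PT (fun p : α × Bool × ℕ × ℕ => p.2.2.1) := pt_p2.snd.fst
  have hj : PT (fun p : α × Bool × ℕ × ℕ => p.2.2.2) := pt_p2.snd.snd
  have hi' : PT (fun p : α × Bool × ℕ × ℕ => p.2.2.1 - (a p.1).d) := hi.sub (pt_wk hd)
  have hj' : PT (fun p : α × Bool × ℕ × ℕ => p.2.2.2 - (a p.1).d) := hj.sub (pt_wk hd)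
  have hs : PT (fun p : α × Bool × ℕ × ℕ =>
      ∑ l ∈ range (a p.1).d, (a p.1).gc l * (a p.1).gA p.2.1 l p.2.2.2) :=
    pt_gsum (f := fun (p : α × Bool × ℕ × ℕ) l => (a p.1).gc l * (a p.1).gA p.2.1 l p.2.2.2)
      (pt_wk hd) (pt_gmul (pt_gc (pt_wk (pt_wk ha)) pt_p2)
        (pt_gA (pt_wk (pt_wk ha)) (pt_wk pt_p2.fst) pt_p2 (pt_wk hj)))
  have hc' : PT (fun p : α × ℕ => p.2 - (a p.1).d) := pt_p2.sub (pt_wk hd)
  exact pt_fa_mk (hd.add ((((PT.const 2).mul hM).add (PT.const 1)).mul hm))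
    (PT.iteD (dt_nlt hi (pt_wk hd)) (pt_gA (pt_wk ha) pt_p2.fst hi hj)
      (PT.iteD (dt_nlt hj (pt_wk hd))
        (PT.iteD (dt_neq (hi'.mod (pt_wk hm)) (PT.const 0)) (pt_gmul (pt_grat (pt_wk hw)) hs)
          (PT.const 0))
        (PT.iteD (dt_neq (hi'.div (pt_wk hm)) (hj'.div (pt_wk hm)))
          (pt_gmul (pt_gmul (pt_wk hz₀) (pt_gpow (pt_wk hzs) (hi'.div (pt_wk hm))))
            (pt_grat (pt_cT (pt_wk hb) (pt_wk hν) (hi'.mod (pt_wk hm)) (hj'.mod (pt_wk hm)))))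
          (PT.const 0))))
    (pt_gh (pt_wk ha) pt_p2)
    (PT.iteD (dt_nlt pt_p2 (pt_wk hd)) (PT.const 0)
      (pt_grat (pt_qdiv (pt_qmul (pt_cf (pt_wk hM) (hc'.div (pt_wk hm)))
        (pt_cR (pt_wk hν) (hc'.mod (pt_wk hm)))) (pt_wk hw))))

@[fun_prop] theorem pt_slotAut {a : α → FA} {k : α → ℕ} (ha : PT a) (hk : PT k) :
    PT (fun x => slotAut (a x) (k x)) :=
  PT.iteD (dt_neq hk (PT.const 0)) ha
    (PT.iteD (dt_neq hk (PT.const 1)) (pt_conjFA ha) (PT.const oneFA))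

@[fun_prop] theorem pt_slotE {P : α → LP} {l h e : α → ℕ} {a : α → FA} (hP : PT P) (hl : PT l)
    (hh : PT h) (ha : PT a) (he : PT e) : PT (fun x => slotE (P x) (l x) (h x) (a x) (e x)) :=
  pt_slot (pt_slotAut ha (he.mod (PT.const 3))) (pt_lp_M hP) (pt_lp_mc hP) (pt_beta hP)
    (pt_qdiv (pt_beta hP) (PT.const 32)) (pt_lw hl (pt_lp_M hP) hh)
    (pt_gmul (pt_ginv (pt_grat (pt_vr hP))) (pt_gzpow (pt_omega hP)
      ((zt_frq (pt_lp_J hP) he).add ((ZT.natCast (pt_lp_a hP)).mul (ZT.natCast (pt_lp_M hP))))))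
    (pt_gzpow (pt_omega hP) (ZT.natCast (pt_lp_a hP)).neg)

/-- Replacing the read-out vector. -/
theorem pt_withc {a : α → FA} {c : α → ℕ → GQ} (ha : PT a)
    (hc : PT (fun p : α × ℕ => c p.1 p.2)) : PT (fun x => ({ a x with c := c x } : FA)) :=
  pt_fa_congr (a := fun x => FA.mk (a x).d (a x).gA (a x).gh (c x))
    (pt_fa_mk (pt_fa_d ha) (pt_gA (pt_wk ha) pt_p2.fst pt_p2.snd.fst pt_p2.snd.snd)
      (pt_gh (pt_wk ha) pt_p2) hc) (fun _ => rfl)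
    (fun x σ _ hi _ hj => (a x).gA_lt σ hi hj) (fun x _ hi => (a x).gh_lt hi) (fun _ _ _ => rfl)

@[fun_prop] theorem pt_child {P : α → LP} {l h e0 e1 e2 e3 t : α → ℕ} {a : α → FA} (hP : PT P)
    (hl : PT l) (hh : PT h) (ha : PT a) (h0 : PT e0) (h1 : PT e1) (h2 : PT e2) (h3 : PT e3)
    (ht : PT t) :
    PT (fun x => child (P x) (l x) (h x) (a x) (e0 x) (e1 x) (e2 x) (e3 x) (t x)) := by
  have s0 := pt_slotE hP hl hh ha h0
  have s1 := pt_slotE hP hl hh ha h1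
  have s2 := pt_slotE hP hl hh ha h2
  have s3 := pt_slotE hP hl hh ha h3
  have hT := pt_tens (pt_tens s0 s1) (pt_tens s2 s3)
  have d1 := pt_wk (γ := ℕ) (pt_fa_d s1)
  have d3 := pt_wk (γ := ℕ) (pt_fa_d s3)
  have d23 := (pt_wk (γ := ℕ) (pt_fa_d s2)).mul d3
  have hs : ∀ {e : α → ℕ}, PT e → PT (fun p : α × ℕ => (slotAut (a p.1) (e p.1 % 3)).d) :=
    fun he => pt_wk (pt_fa_d (pt_slotAut ha (he.mod (PT.const 3))))
  have i0 := ((pt_p2.div d23).div d1).sub (hs h0)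
  have i1 := ((pt_p2.div d23).mod d1).sub (hs h1)
  have i2 := ((pt_p2.mod d23).div d3).sub (hs h2)
  have i3 := ((pt_p2.mod d23).mod d3).sub (hs h3)
  have hm : PT (fun p : α × ℕ => (P p.1).mc + 1) := pt_wk ((pt_lp_mc hP).add (PT.const 1))
  exact pt_withc hT (PT.iteD
    ((dt_neq ((((i0.div hm).add (i1.div hm)).add (i2.div hm)).add (i3.div hm)) (pt_wk ht)).and
      ((dt_neq (i0.mod hm) (PT.const 0)).or ((dt_neq (i1.mod hm) (PT.const 0)).or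
        ((dt_neq (i2.mod hm) (PT.const 0)).or (dt_neq (i3.mod hm) (PT.const 0))))))
    (pt_gdiv (pt_gc (pt_wk hT) pt_p2) (pt_grat (pt_wk (pt_Hn hP ht)))) (PT.const 0))

@[fun_prop] theorem pt_target {P : α → LP} {e0 e1 e2 e3 t : α → ℕ} (hP : PT P)
    (h0 : PT e0) (h1 : PT e1) (h2 : PT e2) (h3 : PT e3) (ht : PT t) :
    PT (fun x => target (P x) (e0 x) (e1 x) (e2 x) (e3 x) (t x)) := by
  have hJ := pt_lp_J hP
  exact pt_gmul (pt_gpow (pt_grat (pt_vr hP)) (PT.const 4)) (pt_gzpow (pt_omega hP)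
    (((ZT.natCast (pt_lp_a hP)).mul ((ZT.natCast ht).sub
      ((ZT.const 4).mul (ZT.natCast (pt_lp_M hP))))).sub
      ((((zt_frq hJ h0).add (zt_frq hJ h1)).add (zt_frq hJ h2)).add (zt_frq hJ h3))))

@[fun_prop] theorem pt_rc {E r : α → ℕ} {z : α → GQ} (hE : PT E) (hr : PT r) (hz : PT z) :
    PT (fun x => rc (E x) (r x) (z x)) :=
  pt_gadd (pt_grat (pt_rcq hE hr (pt_reQ hz)))
    (pt_gmul (PT.const GI) (pt_grat (pt_rcq hE hr (pt_imQ hz))))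

@[fun_prop] theorem pt_accA {l h : α → ℕ} {a : α → FA} {z : α → GQ} (hl : PT l) (hh : PT h)
    (ha : PT a) (hz : PT z) : PT (fun x => accA (l x) (h x) (a x) (z x)) :=
  pt_slot ha (PT.const 0) (PT.const 1) (PT.const 0)
    (pt_qdiv (PT.const 1) (pt_two_pow (hl.add (PT.const 4)))) (pt_lw hl (PT.const 0) hh)
    (pt_ginv hz) (PT.const 1)

theorem chpt_proof : ChPTStmt := by
  intro u
  refine ⟨pt_nch (pt_cP u PT.id'.fst pt_p2.fst), ?_⟩
  have hc : PT (fun q : Ctx × Node × ℕ => q.1) := PT.id'.fst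
  have hx : PT (fun q : Ctx × Node × ℕ => q.2.1) := pt_p2.fst
  have hi : PT (fun q : Ctx × Node × ℕ => q.2.2) := pt_p2.snd
  have hP := pt_cP u hc hx.fst
  have hQ := pt_nQ (pt_lp_J hP)
  have h8 := ((PT.const 8).mul (pt_lp_M hP)).add (PT.const 1)
  have ht := hi.mod h8
  have hcd := hi.div h8
  have h0 := hcd.mod hQ
  have h1 := (hcd.div hQ).mod hQ
  have h2 := ((hcd.div hQ).div hQ).mod hQ
  have h3 := ((hcd.div hQ).div hQ).div hQ
  have hl := pt_size hc.fst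
  have hh := hx.snd.snd.snd.fst
  exact (hx.fst.add (PT.const 1)).pair ((pt_child hP hl hh hx.snd.fst h0 h1 h2 h3 ht).pair
    (((PT.const 4).mul (hx.snd.snd.fst.add (PT.const 1))).pair ((pt_hnext hP hl hh).pair
      (pt_target hP h0 h1 h2 h3 ht))))

end Crest.Agent.R300U
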