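import Crest.Agent.R300U.DefsB
import Crest.Agent.R300U.GPT

/-!
Row 300, upper bound, task CHS: sizes and heights of the children.
-/

set_option autoImplicit false

namespace Crest.Agent.R300U

open Crest.Agent.PT Crest.Agent.QC Crest.Agent.R317 Finset

namespace Chs

theorem ht_gA {a : FA} {k : ℕ} (h : a.HtA k) (σ : Bool) (i j : ℕ) : Ht k (a.gA σ i j) := by
  unfold FA.gA
  split_ifs with hij
  · exact (h i hij.1).2.2 σ j hij.2
  · exact ht_zero k

theorem ht_gh {a : FA} {k : ℕ} (h : a.HtA k) (i : ℕ) : Ht k (a.gh i) := by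
  unfold FA.gh
  split_ifs with hi
  · exact (h i hi).1
  · exact ht_zero k

theorem ht_gc {a : FA} {k : ℕ} (h : a.HtA k) (i : ℕ) : Ht k (a.gc i) := by
  unfold FA.gc
  split_ifs with hi
  · exact (h i hi).2.1
  · exact ht_zero k

theorem htA_mono {a : FA} {k l : ℕ} (h : a.HtA k) (hk : k ≤ l) : a.HtA l := fun i hi =>
  ⟨(h i hi).1.mono hk, (h i hi).2.1.mono hk, fun σ j hj => ((h i hi).2.2 σ j hj).mono hk⟩

theorem htA_tens {a b : FA} {k l : ℕ} (ha : a.HtA k) (hb : b.HtA l) : (tens a b).HtA (k + l) :=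
  fun _ _ => ⟨(ht_gh ha _).mul (ht_gh hb _), (ht_gc ha _).mul (ht_gc hb _),
    fun _ _ _ => (ht_gA ha _ _ _).mul (ht_gA hb _ _ _)⟩

theorem slotAut_sz {a : FA} {k D : ℕ} (hD : 1 ≤ D) (hd : a.d ≤ D) (h : a.HtA k) (κ : ℕ) :
    (slotAut a κ).d ≤ D ∧ (slotAut a κ).HtA k := by
  unfold slotAut
  split_ifs
  · exact ⟨hd, h⟩
  · exact ⟨hd, fun _ _ => ⟨(ht_gh h _).cj, (ht_gc h _).cj, fun _ _ _ => (ht_gA h _ _ _).cj⟩⟩
  · exact ⟨hD, fun _ _ => ⟨ht_one _, ht_one _, fun _ _ _ => ht_one _⟩⟩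

theorem ht_two_pow_div (e f : ℕ) : Ht (max e f) ((2 ^ e / 2 ^ f : ℚ) : GQ) :=
  ht_of_parts (x := 2 ^ e) (d := 2 ^ f) (by push_cast; rfl)
    (by rw [Int.natAbs_pow]; exact Nat.pow_le_pow_right (by omega) (le_max_left _ _))
    (Nat.pow_le_pow_right (by omega) (le_max_right _ _))

theorem ht_inv_two_pow (f : ℕ) : Ht f ((1 / 2 ^ f : ℚ) : GQ) := by
  simpa using ht_two_pow_div 0 f

theorem ht_omg (N : ℕ) : Ht (2 * N + 2) (omg N) :=
  (((ht_one 0).add ((ht_GI 0).mul (ht_inv_two_pow N))).div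
    ((ht_one 0).sub ((ht_GI 0).mul (ht_inv_two_pow N)))).mono (by omega)

theorem ht_cf (M k : ℕ) : Ht (2 * M) (cf M k : GQ) :=
  ht_of_parts (x := (2 * M).choose k) (d := 4 ^ M) (by unfold cf; push_cast; rfl)
    (by rw [Int.natAbs_natCast]; exact Nat.choose_le_two_pow _ _) (by rw [pow_mul]; rfl)

theorem ht_32 : Ht 5 (32 : GQ) := ht_ofNat 32 (by norm_num)

theorem ht_cT {β ν : ℚ} {k l : ℕ} (hβ : Ht k (β : GQ)) (hν : Ht l (ν : GQ)) (s' s : ℕ) :
    Ht (k + l + 5) (cT β ν s' s : GQ) := by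
  unfold cT
  split_ifs
  all_goals push_cast
  · exact ht_zero _
  · exact (((ht_one 0).sub hβ).mul hν).mono (by omega)
  · exact ((hβ.mul hν).div ht_32).mono (by omega)
  · exact ht_zero _
  · exact ((ht_one 0).sub hβ).mono (by omega)
  · exact (hβ.div ht_32).mono (by omega)
  · exact ht_zero _

theorem ht_cR {ν : ℚ} {l : ℕ} (hν : Ht l (ν : GQ)) (s : ℕ) : Ht (5 * s + l) (cR ν s : GQ) := by
  unfold cR
  split_ifs
  all_goals push_cast
  · exact ht_one _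
  · exact ((ht_32.pow (s - 1)).div hν).mono (by omega)

theorem htA_slot {a : FA} {M mc : ℕ} {β ν w : ℚ} {z₀ zs : GQ} {k kβ kν kw kz ks K : ℕ}
    (h : a.HtA k) (hβ : Ht kβ (β : GQ)) (hν : Ht kν (ν : GQ)) (hw : Ht kw (w : GQ))
    (hz : Ht kz z₀) (hs : Ht ks zs) (h1 : k ≤ K) (h2 : kw + a.d * (k + k + 1) ≤ K)
    (h3 : kz + (2 * M + 1) * ks + (kβ + kν + 5) ≤ K) (h4 : 2 * M + (5 * mc + kν) + kw ≤ K) :
    (slot a M mc β ν w z₀ zs).HtA K := by
  intro i hi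
  refine ⟨(ht_gh h i).mono h1, ?_, fun σ j _ => ?_⟩
  · show Ht K (if i < a.d then 0 else _)
    split_ifs
    · exact ht_zero _
    · rw [Rat.cast_div, Rat.cast_mul]
      refine (((ht_cf _ _).mul (ht_cR hν _)).div hw).mono ?_
      have := Nat.mod_lt (i - a.d) (show 0 < mc + 1 by omega)
      omega
  · show Ht K (if i < a.d then _ else _)
    split_ifs
    · exact (ht_gA h _ _ _).mono h1
    · refine (hw.mul (ht_sum (range a.d) (fun l _ => (ht_gc h l).mul (ht_gA h σ l j)))).mono ?_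
      rw [card_range]; exact h2
    · exact ht_zero _
    · refine ((hz.mul (hs.pow _)).mul (ht_cT hβ hν _ _)).mono (le_trans ?_ h3)
      have hi' : i < a.d + (2 * M + 1) * (mc + 1) := hi
      have : (i - a.d) / (mc + 1) ≤ 2 * M + 1 :=
        Nat.div_le_of_le_mul (by rw [mul_comm]; omega)
      have := Nat.mul_le_mul_right ks this
      omega
    · exact ht_zero _

theorem frq_abs {J e : ℕ} (he : e < nQ J) : (frq J e).natAbs ≤ J := by
  unfold nQ at he; unfold frq; omega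

theorem ht_vr (P : LP) : Ht (P.r' + 3) (P.vr : GQ) := by
  unfold LP.vr
  rw [Rat.cast_sub, Rat.cast_one]
  exact ((ht_one 0).sub (ht_inv_two_pow _)).mono (by omega)

/-- The scale of all heights. -/
def BB (P : LP) (ℓ h : ℕ) : ℕ := 2 ^ (3 * h + ℓ + (2 * P.M + 1).size + P.mc + P.r' + 3 * P.E)

theorem facts {P : LP} (hP : P.OK) (ℓ h : ℕ) :
    3 * h + ℓ + (2 * P.M + 1).size + P.mc + P.r' + 3 * P.E < BB P ℓ h ∧
    2 ^ h * 4 ^ h ≤ BB P ℓ h ∧ 2 * P.M + 1 ≤ BB P ℓ h ∧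
    (2 * P.M + 1) * (P.a * (4 * P.E + 2)) ≤ BB P ℓ h ∧ P.J * (4 * P.E + 2) ≤ 4 * BB P ℓ h ∧
    2 ^ 64 * BB P ℓ h ≤ 4 ^ hnext P ℓ h := by
  have hM := (Nat.lt_size_self (2 * P.M + 1)).le
  have hE := hP.hE
  refine ⟨Nat.lt_two_pow_self, ?_, ?_, ?_, ?_, ?_⟩
  · rw [show (4 : ℕ) = 2 ^ 2 by norm_num, ← pow_mul, ← pow_add]
    exact Nat.pow_le_pow_right (by omega) (by omega)
  · exact hM.trans (Nat.pow_le_pow_right (by omega) (by omega))
  · have h1 : P.a * (4 * P.E + 2) ≤ 2 ^ (2 * P.E) := by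
      rw [← hP.ha, hP.hG, mul_assoc]
      refine Nat.mul_le_mul_left _ ?_
      have : 1 ≤ 2 ^ (P.r' + 2) := Nat.one_le_two_pow
      nlinarith
    refine (Nat.mul_le_mul hM h1).trans ?_
    rw [← pow_add]
    exact Nat.pow_le_pow_right (by omega) (by omega)
  · have h1 : P.J ≤ 2 ^ (2 * P.E) := by
      have h2 : 2 ^ 7 ≤ 2 ^ P.r := Nat.pow_le_pow_right (by omega) (by have := hP.hr; omega)
      have h3 := Nat.mul_le_mul_left P.J h2
      rw [hP.hJ, pow_add] at h3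
      omega
    have h2 : 4 * P.E + 2 ≤ 4 * 2 ^ P.E := by have := Nat.lt_two_pow_self (n := P.E); omega
    refine (Nat.mul_le_mul h1 h2).trans ?_
    rw [mul_left_comm, ← pow_add]
    exact Nat.mul_le_mul_left _ (Nat.pow_le_pow_right (by omega) (by omega))
  · rw [show (4 : ℕ) = 2 ^ 2 by norm_num, ← pow_mul, BB, ← pow_add]
    exact Nat.pow_le_pow_right (by omega) (by unfold hnext; omega)

theorem slotE_sz {P : LP} (hP : P.OK) (ℓ h : ℕ) {a : FA} {e : ℕ} (he : e < nQ P.J)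
    (hd : a.d ≤ 2 ^ h) (hA : a.HtA (4 ^ h)) :
    (slotE P ℓ h a e).d ≤ 2 ^ (h + (2 * P.M + 1).size + P.mc + 1) ∧
      (slotE P ℓ h a e).HtA (32 * BB P ℓ h) := by
  obtain ⟨f1, f2, f3, f4, f5, -⟩ := facts hP ℓ h
  obtain ⟨hd', hA'⟩ := slotAut_sz Nat.one_le_two_pow hd hA (e % 3)
  have hx : 1 ≤ 2 ^ h := Nat.one_le_two_pow
  have hy : 1 ≤ 4 ^ h := Nat.one_le_pow _ _ (by omega)
  constructor
  · show (slotAut a (e % 3)).d + (2 * P.M + 1) * (P.mc + 1) ≤ _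
    have h1 := Nat.mul_le_mul (Nat.lt_size_self (2 * P.M + 1)).le
      (Nat.succ_le_of_lt (Nat.lt_two_pow_self (n := P.mc)))
    rw [← pow_add] at h1
    have h2 : 2 ^ h ≤ 2 ^ (h + (2 * P.M + 1).size + P.mc) :=
      Nat.pow_le_pow_right (by omega) (by omega)
    have h3 : 2 ^ ((2 * P.M + 1).size + P.mc) ≤ 2 ^ (h + (2 * P.M + 1).size + P.mc) :=
      Nat.pow_le_pow_right (by omega) (by omega)
    rw [pow_succ]
    simp only [Nat.succ_eq_add_one] at h1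
    omega
  · have hβ : Ht P.r' (P.β : GQ) :=
      (ht_two_pow_div P.bb P.r').mono (by have := hP.hb'; omega)
    have hν : Ht (P.r' + 5) ((P.β / 32 : ℚ) : GQ) := by
      rw [Rat.cast_div]; exact hβ.div (by simpa using ht_32)
    have hω : Ht (4 * P.E + 2) P.ω := (ht_omg _).mono (by omega)
    have e1 : (frq P.J e + P.a * P.M).natAbs ≤ P.J + P.a * P.M := by
      have := frq_abs he
      have h2 : ((P.a : ℤ) * P.M).natAbs = P.a * P.M := by rw [Int.natAbs_mul]; rfl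
      have := Int.natAbs_add_le (frq P.J e) (P.a * P.M)
      omega
    have e2 := Nat.mul_le_mul_right (4 * P.E + 2) e1
    have e3 : P.a * P.M * (4 * P.E + 2) ≤ (2 * P.M + 1) * (P.a * (4 * P.E + 2)) := by
      rw [mul_comm P.a, mul_assoc]; exact Nat.mul_le_mul_right _ (by omega)
    have e4 := Nat.mul_le_mul_right (4 ^ h + 4 ^ h + 1) hd'
    refine htA_slot hA' hβ hν (ht_inv_two_pow _) ((ht_vr P).inv.mul (hω.zpow _)) (hω.zpow _)
      (by nlinarith) (by nlinarith) ?_ (by omega)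
    rw [Int.natAbs_neg, Int.natAbs_natCast]
    rw [add_mul] at e2
    omega

end Chs

open Chs in
theorem chs_proof : ChildSzStmt := by
  intro P ℓ h a e0 e1 e2 e3 t hP h0 h1 h2 h3 ht hd hA
  obtain ⟨f1, f2, f3, f4, f5, f6⟩ := facts hP ℓ h
  obtain ⟨d0, a0⟩ := slotE_sz hP ℓ h h0 hd hA
  obtain ⟨d1, a1⟩ := slotE_sz hP ℓ h h1 hd hA
  obtain ⟨d2, a2⟩ := slotE_sz hP ℓ h h2 hd hA
  obtain ⟨d3, a3⟩ := slotE_sz hP ℓ h h3 hd hA
  have hT := htA_tens (htA_tens a0 a1) (htA_tens a2 a3)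
  refine ⟨?_, fun i hi => ⟨(hT i hi).1.mono (by omega), ?_,
    fun σ j hj => ((hT i hi).2.2 σ j hj).mono (by omega)⟩, ?_⟩
  · refine (Nat.mul_le_mul (Nat.mul_le_mul d0 d1) (Nat.mul_le_mul d2 d3)).trans ?_
    simp only [← pow_add]
    exact Nat.pow_le_pow_right (by omega) (by unfold hnext; omega)
  · refine Ht.ite (((ht_gc hT i).div (ht_two_pow_div _ _)).mono ?_) (ht_zero _)
    generalize ((t : ℤ) - 4 * P.M).natAbs ^ 2 / (1179648 * P.E) = g
    omega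
  · have hω : Ht (4 * P.E + 2) P.ω := (ht_omg _).mono (by omega)
    refine (((ht_vr P).pow 4).mul (hω.zpow _)).mono ?_
    have e1 : (P.a * ((t : ℤ) - 4 * P.M) -
        (frq P.J e0 + frq P.J e1 + frq P.J e2 + frq P.J e3)).natAbs ≤
        P.a * (2 * (2 * P.M + 1)) + 4 * P.J := by
      have := frq_abs h0
      have := frq_abs h1
      have := frq_abs h2
      have := frq_abs h3
      have h5 : (P.a * ((t : ℤ) - 4 * P.M)).natAbs ≤ P.a * (2 * (2 * P.M + 1)) := by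
        rw [Int.natAbs_mul, Int.natAbs_natCast]
        exact Nat.mul_le_mul_left _ (by omega)
      omega
    have e2 := Nat.mul_le_mul_right (4 * P.E + 2) e1
    have e3 : (P.a * (2 * (2 * P.M + 1)) + 4 * P.J) * (4 * P.E + 2) =
      2 * ((2 * P.M + 1) * (P.a * (4 * P.E + 2))) + 4 * (P.J * (4 * P.E + 2)) := by ring
    omega

end Crest.Agent.R300U
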