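import Crest.Agent.R300U.OM

/-! Task CHV: the value of the child feature. -/

set_option autoImplicit false

namespace Crest.Agent.R300U

open Finset

namespace Chv

theorem sum_divmod {R : Type} [AddCommMonoid R] (d0 d1 : ℕ) (F : ℕ → ℕ → R) :
    ∑ i ∈ range (d0 * d1), F (i / d1) (i % d1) = ∑ i0 ∈ range d0, ∑ i1 ∈ range d1, F i0 i1 := by
  induction d0 with
  | zero => simp
  | succ d0 ih =>
    rw [Nat.succ_mul, Finset.sum_range_add, ih, Finset.sum_range_succ]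
    congr 1
    refine Finset.sum_congr rfl fun j hj => ?_
    have hj' := mem_range.1 hj
    rw [mul_comm d0, Nat.mul_add_div (by omega), Nat.div_eq_of_lt hj', Nat.mul_add_mod,
      Nat.mod_eq_of_lt hj', add_zero]

/-- two weighted families with the same distribution of labels -/
def Push {σ K : Type} (d : ℕ) (κ : ℕ → K) (f : ℕ → GQ) (S : Finset σ) (κ' : σ → K)
    (t : σ → GQ) : Prop :=
  ∀ Φ : K → GQ, ∑ i ∈ range d, Φ (κ i) * f i = ∑ p ∈ S, Φ (κ' p) * t p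

theorem push2 {σ0 σ1 K0 K1 : Type} {d0 d1 : ℕ} {κ0 : ℕ → K0} {κ1 : ℕ → K1} {f0 f1 : ℕ → GQ}
    {S0 : Finset σ0} {S1 : Finset σ1} {κ0' : σ0 → K0} {κ1' : σ1 → K1} {t0 : σ0 → GQ}
    {t1 : σ1 → GQ} (h0 : Push d0 κ0 f0 S0 κ0' t0) (h1 : Push d1 κ1 f1 S1 κ1' t1) :
    Push (d0 * d1) (fun i => (κ0 (i / d1), κ1 (i % d1))) (fun i => f0 (i / d1) * f1 (i % d1))
      (S0 ×ˢ S1) (fun p => (κ0' p.1, κ1' p.2)) (fun p => t0 p.1 * t1 p.2) := by
  intro Φ
  rw [sum_divmod d0 d1 (fun i0 i1 => Φ (κ0 i0, κ1 i1) * (f0 i0 * f1 i1)), Finset.sum_product]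
  have e1 : ∀ i0, ∑ i1 ∈ range d1, Φ (κ0 i0, κ1 i1) * (f0 i0 * f1 i1) =
      (∑ p1 ∈ S1, Φ (κ0 i0, κ1' p1) * t1 p1) * f0 i0 := by
    intro i0
    rw [← h1 (fun k => Φ (κ0 i0, k)), Finset.sum_mul]
    exact Finset.sum_congr rfl fun _ _ => by ring
  simp only [e1]
  rw [h0 (fun k => ∑ p1 ∈ S1, Φ (k, κ1' p1) * t1 p1)]
  refine Finset.sum_congr rfl fun p0 _ => ?_
  rw [Finset.sum_mul]
  exact Finset.sum_congr rfl fun _ _ => by ring

theorem chi_zero (β : ℚ) {mc : ℕ} (h : 1 ≤ mc) : chi β mc 0 = 1 := by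
  unfold chi
  rw [Finset.sum_eq_single 0]
  · simp
  · intro s _ hs
    rw [Nat.choose_eq_zero_of_lt (by omega)]; simp
  · intro h0
    exact absurd (mem_range.2 (by omega)) h0

theorem push_slot (hS : SlotValStmt) (a : FA) (M mc : ℕ) (β ν w : ℚ) (z₀ zs : GQ) (x : List Bool)
    (hν : ν ≠ 0) (hw : w ≠ 0) (hmc : 1 ≤ mc) :
    Push (slot a M mc β ν w z₀ zs).d
      (fun i => (((i - a.d) / (mc + 1), (i - a.d) % (mc + 1) = 0) : ℕ × Prop))
      (fun i => (slot a M mc β ν w z₀ zs).c i * (slot a M mc β ν w z₀ zs).st x i)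
      (range (2 * M + 1) ×ˢ range x.length) (fun p => (p.1, p.2 = 0))
      (fun p => (cf M p.1 : GQ) * (chi β mc p.2 : GQ) * (z₀ * zs ^ p.1) ^ p.2 *
        a.val (x.take (x.length - p.2))) := by
  intro Φ
  have hd : (slot a M mc β ν w z₀ zs).d = a.d + (2 * M + 1) * (mc + 1) := rfl
  rw [hd, Finset.sum_range_add, Finset.sum_eq_zero, zero_add, Finset.sum_product]
  swap
  · intro i hi
    have : (slot a M mc β ν w z₀ zs).c i = 0 := if_pos (mem_range.1 hi)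
    simp only [this, zero_mul, mul_zero]
  have e := sum_divmod (2 * M + 1) (mc + 1) (fun k s => Φ (k, s = 0) *
    ((slot a M mc β ν w z₀ zs).c (a.d + k * (mc + 1) + s) *
      (slot a M mc β ν w z₀ zs).st x (a.d + k * (mc + 1) + s)))
  have e' : ∀ j, a.d + j / (mc + 1) * (mc + 1) + j % (mc + 1) = a.d + j := by
    intro j
    rw [add_assoc, Nat.div_add_mod']
  simp only [e'] at e
  simp only [Nat.add_sub_cancel_left]
  rw [e]
  refine Finset.sum_congr rfl fun k hk => ?_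
  obtain ⟨h1, h2⟩ := (hS a M mc β ν w z₀ zs x hν hw).1 k (mem_range.1 hk)
  rw [Finset.range_eq_Ico, Finset.sum_eq_sum_Ico_succ_bot (by omega), add_zero, h1]
  have e2 : ∑ s ∈ Ico (0 + 1) (mc + 1), Φ (k, s = 0) *
      ((slot a M mc β ν w z₀ zs).c (a.d + k * (mc + 1) + s) *
        (slot a M mc β ν w z₀ zs).st x (a.d + k * (mc + 1) + s)) =
      Φ (k, False) * ((cf M k : GQ) * ∑ g ∈ Ico 1 x.length,
        (chi β mc g : GQ) * (z₀ * zs ^ k) ^ g * a.val (x.take (x.length - g))) := by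
    rw [← h2, Finset.mul_sum, zero_add]
    refine Finset.sum_congr rfl fun s hs => ?_
    rw [eq_false (show ¬ s = 0 by have := (mem_Ico.1 hs).1; omega)]
  rw [e2]
  by_cases hx : x = []
  · subst hx
    simp
  · have hl : 0 < x.length := List.length_pos_iff.2 hx
    rw [if_neg hx, Finset.range_eq_Ico, Finset.sum_eq_sum_Ico_succ_bot hl, Finset.mul_sum,
      Finset.mul_sum, zero_add]
    congr 1
    · simp [chi_zero β hmc]
    · refine Finset.sum_congr rfl fun g hg => ?_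
      rw [eq_false (show ¬ g = 0 by have := (mem_Ico.1 hg).1; omega)]
      ring

theorem ω_ne (P : LP) : P.ω ≠ 0 := by
  intro h
  have := Om.omg_eq (2 * P.E)
  have h' : omg (2 * P.E) = 0 := h
  rw [h'] at this
  exact Complex.exp_ne_zero _ this.symm

theorem vr_ne (P : LP) : (P.vr : GQ) ≠ 0 := by
  have := (Om.vr_pos P).ne'
  exact_mod_cast (show P.vr ≠ 0 by exact_mod_cast this)

theorem Hn_ne (P : LP) (t : ℕ) : (P.Hn t : GQ) ≠ 0 := by
  have : P.Hn t ≠ 0 := by unfold LP.Hn; positivity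
  exact_mod_cast this

theorem push_slotE (hS : SlotValStmt) (P : LP) (ℓ h : ℕ) (a : FA) (e : ℕ) (x : List Bool)
    (hmc : 1 ≤ P.mc) :
    Push (slotE P ℓ h a e).d
      (fun i => (((i - (slotAut a (e % 3)).d) / (P.mc + 1),
        (i - (slotAut a (e % 3)).d) % (P.mc + 1) = 0) : ℕ × Prop))
      (fun i => (slotE P ℓ h a e).c i * (slotE P ℓ h a e).st x i)
      (range (2 * P.M + 1) ×ˢ range x.length) (fun p => (p.1, p.2 = 0))
      (fun p => (cf P.M p.1 : GQ) * (chi P.β P.mc p.2 : GQ) *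
        ((P.vr : GQ)⁻¹ * P.ω ^ (frq P.J e - P.a * ((p.1 : ℤ) - P.M))) ^ p.2 *
        (slotAut a (e % 3)).val (x.take (x.length - p.2))) := by
  have h1 := push_slot hS (slotAut a (e % 3)) P.M P.mc P.β (P.β / 32) (lw ℓ P.M h)
    ((P.vr : GQ)⁻¹ * P.ω ^ (frq P.J e + P.a * P.M)) (P.ω ^ (-(P.a : ℤ))) x
    (by unfold LP.β; positivity) (by unfold lw; positivity) hmc
  have e1 : ∀ k : ℕ, (P.vr : GQ)⁻¹ * P.ω ^ (frq P.J e + P.a * P.M) * (P.ω ^ (-(P.a : ℤ))) ^ k =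
      (P.vr : GQ)⁻¹ * P.ω ^ (frq P.J e - P.a * ((k : ℤ) - P.M)) := by
    intro k
    rw [mul_assoc, ← zpow_natCast, ← zpow_mul, ← zpow_add₀ (ω_ne P)]
    congr 2
    ring
  simp only [e1] at h1
  exact h1

theorem tens_cst (hT : TensStmt) (a b : FA) (x : List Bool) {i : ℕ} (hi : i < a.d * b.d) :
    (tens a b).c i * (tens a b).st x i =
      (a.c (i / b.d) * a.st x (i / b.d)) * (b.c (i % b.d) * b.st x (i % b.d)) := by
  have hb : 0 < b.d := Nat.pos_of_ne_zero (by rintro h; simp [h] at hi)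
  have h1 : i / b.d < a.d := Nat.div_lt_of_lt_mul (by rwa [mul_comm] at hi)
  have h2 : (tens a b).c i = a.gc (i / b.d) * b.gc (i % b.d) := rfl
  rw [hT.1 a b x i hi, h2, FA.gc_lt _ h1, FA.gc_lt _ (Nat.mod_lt _ hb)]
  ring

theorem Push.congr {σ K : Type} {d : ℕ} {κ : ℕ → K} {f f' : ℕ → GQ} {S : Finset σ} {κ' : σ → K}
    {t : σ → GQ} (h : Push d κ f S κ' t) (hf : ∀ i < d, f' i = f i) : Push d κ f' S κ' t := by
  intro Φ
  rw [← h Φ]
  exact Finset.sum_congr rfl fun i hi => by rw [hf i (mem_range.1 hi)]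

theorem push_tens (hT : TensStmt) {σ0 σ1 K0 K1 : Type} {a b : FA} {x : List Bool} {κ0 : ℕ → K0}
    {κ1 : ℕ → K1} {S0 : Finset σ0} {S1 : Finset σ1} {κ0' : σ0 → K0} {κ1' : σ1 → K1}
    {t0 : σ0 → GQ} {t1 : σ1 → GQ} (h0 : Push a.d κ0 (fun i => a.c i * a.st x i) S0 κ0' t0)
    (h1 : Push b.d κ1 (fun i => b.c i * b.st x i) S1 κ1' t1) :
    Push (tens a b).d (fun i => (κ0 (i / b.d), κ1 (i % b.d)))
      (fun i => (tens a b).c i * (tens a b).st x i)
      (S0 ×ˢ S1) (fun p => (κ0' p.1, κ1' p.2)) (fun p => t0 p.1 * t1 p.2) :=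
  (push2 h0 h1).congr fun _ hi => tens_cst hT a b x hi

open Classical in
theorem sum_four (M n t : ℕ) (F : Fin 4 → ℕ → ℕ → GQ) :
    ∑ p ∈ ((range (2 * M + 1) ×ˢ range n) ×ˢ (range (2 * M + 1) ×ˢ range n)) ×ˢ
        ((range (2 * M + 1) ×ˢ range n) ×ˢ (range (2 * M + 1) ×ˢ range n)),
      (if p.1.1.1 + p.1.2.1 + p.2.1.1 + p.2.2.1 = t ∧
          (p.1.1.2 = 0 ∨ p.1.2.2 = 0 ∨ p.2.1.2 = 0 ∨ p.2.2.2 = 0) then (1 : GQ) else 0) *
        (F 0 p.1.1.1 p.1.1.2 * F 1 p.1.2.1 p.1.2.2 * (F 2 p.2.1.1 p.2.1.2 * F 3 p.2.2.1 p.2.2.2)) =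
      ∑ k ∈ Ks M t, ∑ g ∈ Gs n, ∏ b, F b (k b) (g b) := by
  simp only [ite_mul, one_mul, zero_mul]
  rw [← Finset.sum_filter, ← Finset.sum_product']
  refine Finset.sum_nbij'
    (fun p => (![p.1.1.1, p.1.2.1, p.2.1.1, p.2.2.1], ![p.1.1.2, p.1.2.2, p.2.1.2, p.2.2.2]))
    (fun q => (((q.1 0, q.2 0), (q.1 1, q.2 1)), ((q.1 2, q.2 2), (q.1 3, q.2 3)))) ?_ ?_ ?_ ?_ ?_
  · intro p hp
    simp only [mem_filter, mem_product, mem_range] at hp
    simp only [Ks, Gs, mem_product, mem_filter, Fintype.mem_piFinset, mem_range,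
      Fin.sum_univ_four, Fin.forall_fin_succ, Fin.exists_fin_succ]
    simp
    omega
  · intro q hq
    simp only [Ks, Gs, mem_product, mem_filter, Fintype.mem_piFinset, mem_range,
      Fin.sum_univ_four] at hq
    obtain ⟨⟨h1, h2⟩, h3, b, h4⟩ := hq
    simp only [mem_filter, mem_product, mem_range]
    refine ⟨⟨⟨⟨h1 0, h3 0⟩, h1 1, h3 1⟩, ⟨h1 2, h3 2⟩, h1 3, h3 3⟩, h2, ?_⟩
    fin_cases b
    · exact Or.inl h4
    · exact Or.inr (Or.inl h4)
    · exact Or.inr (Or.inr (Or.inl h4))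
    · exact Or.inr (Or.inr (Or.inr h4))
  · intro p _
    rfl
  · intro q _
    refine Prod.ext (funext fun b => ?_) (funext fun b => ?_) <;> fin_cases b <;> rfl
  · intro p _
    rw [Fin.prod_univ_four, mul_assoc (F 0 _ _ * F 1 _ _)]
    rfl

theorem part1 (hS : SlotValStmt) (hT : TensStmt) (P : LP) (ℓ h : ℕ) (a : FA) (e : Fin 4 → ℕ)
    (x : List Bool) (hmc : 1 ≤ P.mc) (t : ℕ) :
    (child P ℓ h a (e 0) (e 1) (e 2) (e 3) t).val x =
    (∑ k ∈ Ks P.M t, ∑ g ∈ Gs x.length, ∏ b, ((cf P.M (k b) : GQ) * (chi P.β P.mc (g b) : GQ) *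
      ((P.vr : GQ)⁻¹ * P.ω ^ (frq P.J (e b) - P.a * ((k b : ℤ) - P.M))) ^ g b *
      (slotAut a (e b % 3)).val (x.take (x.length - g b)))) / (P.Hn t : GQ) := by
  classical
  have h4 := push_tens hT
    (push_tens hT (push_slotE hS P ℓ h a (e 0) x hmc) (push_slotE hS P ℓ h a (e 1) x hmc))
    (push_tens hT (push_slotE hS P ℓ h a (e 2) x hmc) (push_slotE hS P ℓ h a (e 3) x hmc))
    (fun q => if q.1.1.1 + q.1.2.1 + q.2.1.1 + q.2.2.1 = t ∧
      (q.1.1.2 ∨ q.1.2.2 ∨ q.2.1.2 ∨ q.2.2.2) then (1 : GQ) else 0)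
  have h5 := sum_four P.M x.length t (fun b k g => (cf P.M k : GQ) * (chi P.β P.mc g : GQ) *
      ((P.vr : GQ)⁻¹ * P.ω ^ (frq P.J (e b) - P.a * ((k : ℤ) - P.M))) ^ g *
      (slotAut a (e b % 3)).val (x.take (x.length - g)))
  rw [← h5]
  refine Eq.trans ?_ (congrArg (· / (P.Hn t : GQ)) (h4.trans ?_))
  · simp only []
    rw [Finset.sum_div]
    refine Finset.sum_congr rfl fun i hi => ?_
    have hi' := mem_range.1 hi
    change (if _ then _ else _) * _ = _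
    split_ifs with h1 h2 h2
    · rw [FA.gc_lt _ hi', one_mul, div_mul_eq_mul_div]
      rfl
    · exact absurd h1 h2
    · exact absurd h2 h1
    · simp
  · refine Finset.sum_congr rfl fun p _ => ?_
    congr 1
    exact @if_congr _ _ _ (_) (_) _ _ _ _ Iff.rfl rfl rfl

theorem sum_cf (M : ℕ) {v : GQ} (hv : v ≠ 0) :
    ∑ k ∈ range (2 * M + 1), (cf M k : GQ) * v ^ ((k : ℤ) - M) = ((1 + v) * (1 + v⁻¹) / 4) ^ M := by
  have e : (1 + v) * (1 + v⁻¹) / 4 = (v + 1) ^ 2 * (v⁻¹ / 4) := by field_simp; ring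
  rw [e, mul_pow, ← pow_mul, add_pow, Finset.sum_mul]
  refine Finset.sum_congr rfl fun k _ => ?_
  rw [zpow_sub₀ hv, zpow_natCast, zpow_natCast]
  unfold cf
  push_cast
  rw [one_pow, div_pow, inv_pow]
  field_simp

theorem slot_sum (P : LP) (f : ℤ) (g u : ℕ) (c V : GQ) :
    ∑ k ∈ range (2 * P.M + 1), ((cf P.M k : GQ) * c *
      ((P.vr : GQ)⁻¹ * P.ω ^ (f - P.a * ((k : ℤ) - P.M))) ^ g * V) *
      ((P.vr : GQ) * P.ω ^ (P.a * ((k : ℤ) - P.M) - f)) ^ u =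
    c * P.Wq ((u : ℤ) - g) * V * P.ω ^ (-(f * ((u : ℤ) - g))) := by
  have hω := ω_ne P
  have hv := vr_ne P
  unfold LP.Wq
  rw [zpow_neg P.ω (P.a * ((u : ℤ) - g)), ← sum_cf P.M (zpow_ne_zero _ hω), Finset.mul_sum,
    Finset.mul_sum, Finset.sum_mul, Finset.sum_mul]
  refine Finset.sum_congr rfl fun k _ => ?_
  have e1 : (P.ω ^ (f - P.a * ((k : ℤ) - P.M))) ^ g * (P.ω ^ (P.a * ((k : ℤ) - P.M) - f)) ^ u =
      (P.ω ^ (P.a * ((u : ℤ) - g))) ^ ((k : ℤ) - P.M) * P.ω ^ (-(f * ((u : ℤ) - g))) := by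
    rw [← zpow_natCast, ← zpow_natCast, ← zpow_mul, ← zpow_mul, ← zpow_mul, ← zpow_add₀ hω,
      ← zpow_add₀ hω]
    congr 1
    ring
  have e2 : (P.vr : GQ) ^ ((u : ℤ) - g) = (P.vr : GQ)⁻¹ ^ g * (P.vr : GQ) ^ u := by
    rw [zpow_sub₀ hv, zpow_natCast, zpow_natCast, inv_pow, div_eq_inv_mul]
  rw [mul_pow, mul_pow, e2]
  linear_combination ((cf P.M k : GQ) * c * V * (P.vr : GQ)⁻¹ ^ g * (P.vr : GQ) ^ u) * e1

theorem target_pow (P : LP) (e : Fin 4 → ℕ) {t : ℕ} {k : Fin 4 → ℕ} (hk : ∑ b, k b = t) (u : ℕ) :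
    target P (e 0) (e 1) (e 2) (e 3) t ^ u =
      ∏ b, ((P.vr : GQ) * P.ω ^ (P.a * ((k b : ℤ) - P.M) - frq P.J (e b))) ^ u := by
  have hω := ω_ne P
  rw [Finset.prod_pow, Finset.prod_mul_distrib, Fin.prod_univ_four (f := fun b => P.ω ^ _),
    ← zpow_add₀ hω, ← zpow_add₀ hω, ← zpow_add₀ hω]
  unfold target
  rw [← hk, Fin.sum_univ_four]
  congr 2
  · simp
  · congr 1
    push_cast
    ring

end Chv

open Chv in
theorem childVal_proof (hS : SlotValStmt) (hT : TensStmt) : ChildValStmt := by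
  intro P ℓ h a e x hmc
  refine ⟨part1 hS hT P ℓ h a e x hmc, fun u => ?_⟩
  have e1 : ∀ t ∈ range (8 * P.M + 1), (P.Hn t : GQ) *
      (child P ℓ h a (e 0) (e 1) (e 2) (e 3) t).val x * target P (e 0) (e 1) (e 2) (e 3) t ^ u =
      ∑ k ∈ Ks P.M t, ∑ g ∈ Gs x.length, ∏ b,
        (((cf P.M (k b) : GQ) * (chi P.β P.mc (g b) : GQ) *
          ((P.vr : GQ)⁻¹ * P.ω ^ (frq P.J (e b) - P.a * ((k b : ℤ) - P.M))) ^ g b *
          (slotAut a (e b % 3)).val (x.take (x.length - g b))) *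
        ((P.vr : GQ) * P.ω ^ (P.a * ((k b : ℤ) - P.M) - frq P.J (e b))) ^ u) := by
    intro t _
    rw [part1 hS hT P ℓ h a e x hmc t, mul_div_cancel₀ _ (Hn_ne P t), Finset.sum_mul]
    refine Finset.sum_congr rfl fun k hk => ?_
    rw [Finset.sum_mul, target_pow P e (mem_filter.1 hk).2 u]
    exact Finset.sum_congr rfl fun g _ => (Finset.prod_mul_distrib).symm
  rw [Finset.sum_congr rfl e1]
  unfold Ks
  rw [Finset.sum_fiberwise_of_maps_to (g := fun k : Fin 4 → ℕ => ∑ b, k b), Finset.sum_comm]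
  · refine Finset.sum_congr rfl fun g _ => ?_
    rw [← Finset.prod_univ_sum (fun _ : Fin 4 => range (2 * P.M + 1))
      (fun b k => ((cf P.M k : GQ) * (chi P.β P.mc (g b) : GQ) *
          ((P.vr : GQ)⁻¹ * P.ω ^ (frq P.J (e b) - P.a * ((k : ℤ) - P.M))) ^ g b *
          (slotAut a (e b % 3)).val (x.take (x.length - g b))) *
        ((P.vr : GQ) * P.ω ^ (P.a * ((k : ℤ) - P.M) - frq P.J (e b))) ^ u)]
    exact Finset.prod_congr rfl fun b _ => slot_sum P _ _ _ _ _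
  · intro k hk
    rw [Fintype.mem_piFinset] at hk
    have h0 := mem_range.1 (hk 0)
    have h1 := mem_range.1 (hk 1)
    have h2 := mem_range.1 (hk 2)
    have h3 := mem_range.1 (hk 3)
    rw [Fin.sum_univ_four, mem_range]
    omega

end Crest.Agent.R300U
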