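import Crest.Agent.R300U.H8Aux

/-! Row 300, upper bound, task CMP: comparison of the children's sum with the windowed products. -/

set_option autoImplicit false

namespace Crest.Agent.R300U

open Finset H8

namespace Cmp

theorem pi_succ (m : ℕ) (F : (Fin 4 → ℕ) → ℂ) :
    ∑ p ∈ Fintype.piFinset fun _ : Fin 4 => range (m + 1), F p =
      ∑ p ∈ Fintype.piFinset fun _ : Fin 4 => range m, F p +
        ∑ g ∈ Gs (m + 1), F (fun b => m - g b) := by
  rw [← sum_filter_add_sum_filter_not _ (fun p : Fin 4 → ℕ => ∃ b, p b = m), add_comm]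
  congr 1
  · refine sum_congr ?_ fun _ _ => rfl
    ext p
    simp only [mem_filter, Fintype.mem_piFinset, mem_range, not_exists]
    constructor
    · rintro ⟨h1, h2⟩ b
      have := h1 b; have := h2 b; omega
    · intro h
      exact ⟨fun b => by have := h b; omega, fun b => by have := h b; omega⟩
  · refine sum_nbij' (fun p b => m - p b) (fun g b => m - g b) ?_ ?_ ?_ ?_ ?_
    · intro p hp
      simp only [Gs, mem_filter, Fintype.mem_piFinset, mem_range] at hp ⊢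
      obtain ⟨h1, b, hb⟩ := hp
      exact ⟨fun b => by omega, b, by omega⟩
    · intro p hp
      simp only [Gs, mem_filter, Fintype.mem_piFinset, mem_range] at hp ⊢
      obtain ⟨h1, b, hb⟩ := hp
      exact ⟨fun b => by omega, b, by omega⟩
    · intro p hp
      simp only [mem_filter, Fintype.mem_piFinset, mem_range] at hp
      funext b
      have := hp.1 b
      dsimp only
      omega
    · intro p hp
      simp only [Gs, mem_filter, Fintype.mem_piFinset, mem_range] at hp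
      funext b
      have := hp.1 b
      dsimp only
      omega
    · intro p hp
      simp only [mem_filter, Fintype.mem_piFinset, mem_range] at hp
      congr 1
      funext b
      have := hp.1 b
      dsimp only
      omega

theorem pi_add (j c : ℕ) (F : (Fin 4 → ℕ) → ℂ) :
    ∑ p ∈ Fintype.piFinset fun _ : Fin 4 => range (j + c), F p =
      ∑ p ∈ Fintype.piFinset fun _ : Fin 4 => range j, F p +
        ∑ v ∈ range c, ∑ g ∈ Gs (j + 1 + v), F (fun b => j + v - g b) := by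
  induction c with
  | zero => simp
  | succ c ih =>
    rw [← add_assoc, pi_succ, ih, sum_range_succ, add_assoc _ _ (∑ g ∈ Gs (j + c + 1), _),
      show j + c + 1 = j + 1 + c by ring]

/-- the summand of `Al` in terms of the position. -/
noncomputable def AT (P : LP) (j : ℕ) (φ : ℕ → ℂ) (z : ℂ) (q : ℕ) : ℂ :=
  if j ≤ q + P.G ∧ q ≤ j + P.G then
    (P.Wr ((q : ℤ) - j) : ℂ) * φ (q + 1) * z ^ (-((q : ℤ) - j)) else 0

theorem Al_eq (P : LP) (n j : ℕ) (φ : ℕ → ℂ) (z : ℂ) :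
    Al P n j φ z = ∑ q ∈ range n, AT P j φ z q := by
  unfold Al AT
  rw [← sum_filter, ← sum_filter]
  refine sum_nbij' (fun i => j + i - P.G) (fun q => q + P.G - j) ?_ ?_ ?_ ?_ ?_
  · intro i hi
    simp only [mem_filter, mem_range] at hi ⊢
    omega
  · intro i hi
    simp only [mem_filter, mem_range] at hi ⊢
    omega
  · intro i hi
    simp only [mem_filter, mem_range] at hi ⊢
    omega
  · intro i hi
    simp only [mem_filter, mem_range] at hi ⊢
    omega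
  · intro i hi
    simp only [mem_filter, mem_range] at hi
    have e1 : (((j + i - P.G : ℕ) : ℤ) - j) = (i : ℤ) - P.G := by omega
    have e2 : j + i - P.G + 1 = j + 1 + i - P.G := by omega
    rw [e1, e2]

/-- indicator of the box. -/
noncomputable def bx (G v x : ℕ) : ℝ := if x ≤ v + G ∧ v ≤ x + G then 1 else 0

theorem term_le {P : LP} (hOm : OmStmt) (hChi : ChiStmt) (hP : P.OK) (v : ℕ) (g : Fin 4 → ℕ)
    (hg : ∃ b, g b = 0) :
    |∏ b, (chi P.β P.mc (g b) : ℝ) - ∏ b, bx P.G v (g b)| * ∏ b, P.Wr ((v : ℤ) - g b) ≤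
      if v ≤ P.G then
        (if ∀ b, g b < 2 * P.G + 1 then 4 * (1 / 2 ^ (16 * P.E)) * (2 ^ P.E) ^ 4 else 0) +
        (if ∃ b, P.G < g b then ∏ b, (chi P.β P.mc (g b) : ℝ) / (P.vr : ℝ) ^ g b else 0)
      else ((P.vr : ℝ) ^ 4) ^ v * ∏ b, (chi P.β P.mc (g b) : ℝ) / (P.vr : ℝ) ^ g b := by
  obtain ⟨b₀, hb₀⟩ := hg
  obtain ⟨-, hβ0, hβ1, -, -, hc6⟩ := hChi.2 P hP
  have hc0 : ∀ x, (0 : ℝ) ≤ chi P.β P.mc x := fun x => by
    exact_mod_cast (hChi.1 P.β P.mc x hβ0.le (by linarith)).1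
  have hc1 : ∀ x, (chi P.β P.mc x : ℝ) ≤ 1 := fun x => by
    exact_mod_cast (hChi.1 P.β P.mc x hβ0.le (by linarith)).2.1
  have hW0 : ∀ u, 0 ≤ P.Wr u := fun u => (hOm.2.1 P u).2.1
  have hW1 : ∀ u, P.Wr u ≤ (P.vr : ℝ) ^ u := fun u => (hOm.2.1 P u).2.2.1
  obtain ⟨hW2, hW3⟩ := hOm.2.2.1 P hP
  have hv0 := vr_pos hP
  have hv1 := vr_le_one P
  have hf0 : 0 ≤ ∏ b, (chi P.β P.mc (g b) : ℝ) / (P.vr : ℝ) ^ g b :=
    prod_nonneg fun b _ => div_nonneg (hc0 _) (by positivity)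
  have hout : (∃ b, ¬ (g b ≤ v + P.G ∧ v ≤ g b + P.G)) →
      |∏ b, (chi P.β P.mc (g b) : ℝ) - ∏ b, bx P.G v (g b)| * ∏ b, P.Wr ((v : ℤ) - g b) ≤
        ((P.vr : ℝ) ^ 4) ^ v * ∏ b, (chi P.β P.mc (g b) : ℝ) / (P.vr : ℝ) ^ g b := by
    rintro ⟨b, hb⟩
    rw [prod_eq_zero (f := fun b => bx P.G v (g b)) (mem_univ b) (if_neg hb), sub_zero,
      abs_of_nonneg (prod_nonneg fun b _ => hc0 _), ← prod_mul_distrib]
    have e : ((P.vr : ℝ) ^ 4) ^ v = ∏ _b : Fin 4, (P.vr : ℝ) ^ v := by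
      simp [← pow_mul, mul_comm]
    rw [e, ← prod_mul_distrib]
    refine prod_le_prod (fun b _ => mul_nonneg (hc0 _) (hW0 _)) fun b _ => ?_
    have := hW1 ((v : ℤ) - g b)
    rw [zpow_sub₀ hv0.ne', zpow_natCast, zpow_natCast] at this
    calc _ ≤ (chi P.β P.mc (g b) : ℝ) * ((P.vr : ℝ) ^ v / (P.vr : ℝ) ^ g b) :=
          mul_le_mul_of_nonneg_left this (hc0 _)
      _ = _ := by ring
  by_cases hvG : v ≤ P.G
  swap
  · rw [if_neg hvG]
    exact hout ⟨b₀, by omega⟩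
  rw [if_pos hvG]
  by_cases hbox : ∀ b, g b ≤ v + P.G ∧ v ≤ g b + P.G
  swap
  · push Not at hbox
    obtain ⟨b, hb⟩ := hbox
    have h1 := hout ⟨b, by omega⟩
    rw [if_pos (⟨b, by omega⟩ : ∃ b, P.G < g b)]
    have h2 : ((P.vr : ℝ) ^ 4) ^ v ≤ 1 := pow_le_one₀ (by positivity) (pow_le_one₀ hv0.le hv1)
    have h3 : (0 : ℝ) ≤
        if ∀ b, g b < 2 * P.G + 1 then 4 * (1 / 2 ^ (16 * P.E)) * (2 ^ P.E) ^ 4 else 0 := by
      split_ifs <;> positivity
    nlinarith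
  rw [if_pos (fun b => by have := hbox b; omega)]
  have h3 : (0 : ℝ) ≤
      if ∃ b, P.G < g b then ∏ b, (chi P.β P.mc (g b) : ℝ) / (P.vr : ℝ) ^ g b else 0 := by
    split_ifs
    · exact hf0
    · rfl
  refine le_add_of_le_of_nonneg ?_ h3
  have hbx : ∏ b, bx P.G v (g b) = 1 := prod_eq_one fun b _ => if_pos (hbox b)
  have hp1 : ∏ b, (chi P.β P.mc (g b) : ℝ) ≤ 1 := prod_le_one (fun b _ => hc0 _) fun b _ => hc1 _
  have hp0 : 0 ≤ ∏ b, (chi P.β P.mc (g b) : ℝ) := prod_nonneg fun b _ => hc0 _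
  rw [hbx, abs_sub_comm, abs_of_nonneg (by linarith)]
  have hWy : ∀ b, P.Wr ((v : ℤ) - g b) ≤ 2 ^ P.E := fun b => by
    have h4 := hbox b
    have h5 := single_le_sum (f := fun i : ℕ => P.Wr ((i : ℤ) - P.G)) (fun i _ => hW0 _)
      (mem_range.2 (show v + P.G - g b < 2 * P.G + 1 by omega))
    have e : ((v + P.G - g b : ℕ) : ℤ) - P.G = (v : ℤ) - g b := by omega
    simp only [e] at h5
    exact h5.trans (hW2.trans (two_pow_ge (Nat.div_le_self _ _)))
  set δ : ℝ := 1 / 2 ^ (16 * P.E) with hδ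
  have hδ0 : 0 < δ := by positivity
  have hy1 : (1 : ℝ) ≤ 2 ^ P.E := one_le_pow₀ (by norm_num)
  have hWp0 : 0 ≤ ∏ b, P.Wr ((v : ℤ) - g b) := prod_nonneg fun b _ => hW0 _
  by_cases hs : ∀ b, 8 * g b ≤ P.G
  · have hδ1 : δ ≤ 1 := by
      rw [hδ, div_le_one (by positivity)]; exact one_le_pow₀ (by norm_num)
    have a1 : ∏ _b : Fin 4, (1 - δ) ≤ ∏ b, (chi P.β P.mc (g b) : ℝ) := by
      refine prod_le_prod (fun _ _ => by linarith) fun b _ => ?_
      have : (1 : ℝ) - chi P.β P.mc (g b) ≤ δ := by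
        have h9 := (Rat.cast_le (K := ℝ)).2 (hc6 (g b) (hs b))
        push_cast at h9
        exact h9
      linarith
    have a2 : 1 - 4 * δ ≤ (1 - δ) ^ 4 := by
      have := one_add_mul_le_pow (a := -δ) (by linarith) 4
      push_cast at this
      rw [sub_eq_add_neg 1 δ]; linarith
    have a3 : ∏ b, P.Wr ((v : ℤ) - g b) ≤ ∏ _b : Fin 4, (2 : ℝ) ^ P.E :=
      prod_le_prod (fun b _ => hW0 _) fun b _ => hWy b
    simp only [prod_const, card_univ, Fintype.card_fin] at a1 a3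
    gcongr
    linarith
  · push Not at hs
    obtain ⟨b, hb⟩ := hs
    have a0 : ∃ c, P.Wr ((v : ℤ) - g c) ≤ δ := by
      by_cases h16 : P.G ≤ 16 * v
      · refine ⟨b₀, hW3 _ ?_ ?_⟩
        · rw [hb₀]; simp only [Nat.cast_zero, sub_zero, Nat.abs_cast]; exact_mod_cast h16
        · rw [hb₀]; simp only [Nat.cast_zero, sub_zero, Nat.abs_cast]; exact_mod_cast hvG
      · have := hbox b
        refine ⟨b, hW3 _ ?_ ?_⟩
        · rw [abs_sub_comm, abs_of_nonneg (by omega)]; omega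
        · rw [abs_le]; omega
    obtain ⟨c, hc⟩ := a0
    have a3 : ∏ b, P.Wr ((v : ℤ) - g b) ≤ δ * (2 ^ P.E) ^ 3 := by
      rw [← mul_prod_erase _ _ (mem_univ c)]
      have : ∏ b ∈ univ.erase c, P.Wr ((v : ℤ) - g b) ≤ ∏ _b ∈ univ.erase c, (2 : ℝ) ^ P.E :=
        prod_le_prod (fun b _ => hW0 _) fun b _ => hWy b
      simp only [prod_const, card_erase_of_mem (mem_univ c), card_univ, Fintype.card_fin] at this
      exact mul_le_mul hc this (prod_nonneg fun b _ => hW0 _) hδ0.le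
    have a4 : ((2 : ℝ) ^ P.E) ^ 3 ≤ (2 ^ P.E) ^ 4 := pow_le_pow_right₀ hy1 (by norm_num)
    have a5 : (0 : ℝ) < (2 ^ P.E) ^ 3 := by positivity
    calc _ ≤ 1 * (δ * (2 ^ P.E) ^ 3) := by gcongr; linarith
      _ ≤ _ := by nlinarith

theorem real_bound {P : LP} (hOm : OmStmt) (hChi : ChiStmt) (hP : P.OK) (m : ℕ) (i : ℕ → ℕ) :
    ∑ v ∈ range m, ∑ g ∈ Gs (i v),
      |∏ b, (chi P.β P.mc (g b) : ℝ) - ∏ b, bx P.G v (g b)| * ∏ b, P.Wr ((v : ℤ) - g b) ≤
      1 / 2 ^ (P.E + 2) := by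
  obtain ⟨hmc, hβ0, hβ1, hc4, hc5, -⟩ := hChi.2 P hP
  have hc0 : ∀ x, (0 : ℝ) ≤ chi P.β P.mc x := fun x => by
    exact_mod_cast (hChi.1 P.β P.mc x hβ0.le (by linarith)).1
  have hc00 : (chi P.β P.mc 0 : ℝ) = 1 := by
    exact_mod_cast (hChi.1 P.β P.mc 0 hβ0.le (by linarith)).2.2.2.2 hmc
  have hv0 := vr_pos hP
  have hv1 := vr_le_one P
  set f : ℕ → ℝ := fun x => (chi P.β P.mc x : ℝ) / (P.vr : ℝ) ^ x with hf
  have hf0 : ∀ x, 0 ≤ f x := fun x => div_nonneg (hc0 _) (by positivity)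
  set y : ℝ := 2 ^ P.E with hy
  have hy1 : (1048576 : ℝ) ≤ y := by
    have := two_pow_ge (show 20 ≤ P.E by have := E_ge hP; omega)
    norm_num at this
    exact this
  have hy0 : 0 < y := by linarith
  have hpw : ∀ c : ℕ, (2 : ℝ) ^ (c * P.E) = y ^ c := fun c => by rw [hy, ← pow_mul, mul_comm]
  have hB : ∀ n, ∑ x ∈ range n, f x ≤ y ^ 24 := fun n => by
    rw [← hpw]; simp only [hf]; exact_mod_cast hc4 n
  have hA : ∀ n, ∑ x ∈ (range n).filter (fun x => P.G < x), f x ≤ 1 / y ^ 200 := fun n => by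
    have h9 := (Rat.cast_le (K := ℝ)).2 (hc5 n)
    push_cast at h9
    rw [← hpw]; exact h9
  have hA0 : ∀ n, ∑ x ∈ (range n).filter (fun x => x = 0), f x ≤ 1 := fun n => by
    calc _ ≤ ∑ x ∈ {0}, f x := by
          refine sum_le_sum_of_subset_of_nonneg (fun x hx => ?_) fun x _ _ => hf0 x
          simpa using (mem_filter.1 hx).2
      _ = 1 := by simp [hf, hc00]
  have hGy : (P.G : ℝ) ≤ y := (G_le hP).trans (two_pow_ge (Nat.div_le_self _ _))
  have hG1 := G_ge hP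
  set c₁ : ℝ := 4 * (1 / y ^ 16) * y ^ 4 with hc₁
  have inner : ∀ v, ∑ g ∈ Gs (i v),
      |∏ b, (chi P.β P.mc (g b) : ℝ) - ∏ b, bx P.G v (g b)| * ∏ b, P.Wr ((v : ℤ) - g b) ≤
      if v ≤ P.G then (3 * y) ^ 4 * c₁ + 4 * (1 / y ^ 200) * (y ^ 24) ^ 3
      else ((P.vr : ℝ) ^ 4) ^ v * (4 * 1 * (y ^ 24) ^ 3) := by
    intro v
    refine (sum_le_sum fun g hg => term_le hOm hChi hP v g (mem_filter.1 hg).2).trans ?_
    split_ifs with hv
    · rw [sum_add_distrib, ← sum_filter, ← sum_filter, hpw]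
      refine add_le_add ?_ ?_
      · rw [sum_const, nsmul_eq_mul]
        have a1 : ((Gs (i v)).filter fun g => ∀ b, g b < 2 * P.G + 1).card ≤ (2 * P.G + 1) ^ 4 := by
          refine (card_le_card (t := Fintype.piFinset fun _ : Fin 4 => range (2 * P.G + 1))
            fun g hg => ?_).trans (by simp)
          simpa using (mem_filter.1 hg).2
        have a2 : (((Gs (i v)).filter fun g => ∀ b, g b < 2 * P.G + 1).card : ℝ) ≤ (3 * y) ^ 4 := by
          calc _ ≤ (((2 * P.G + 1) ^ 4 : ℕ) : ℝ) := by exact_mod_cast a1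
            _ ≤ _ := by push_cast; gcongr; linarith
        exact mul_le_mul_of_nonneg_right a2 (by positivity)
      · refine le_trans ?_ (sum_ex_le (i v) f hf0 (fun x => P.G < x) _ _ (hA _) (hB _))
        refine sum_le_sum_of_subset_of_nonneg (fun g hg => ?_) fun g _ _ =>
          prod_nonneg fun b _ => hf0 _
        exact mem_filter.2 ⟨(mem_filter.1 (mem_filter.1 hg).1).1, (mem_filter.1 hg).2⟩
    · rw [← mul_sum]
      exact mul_le_mul_of_nonneg_left (sum_ex_le (i v) f hf0 (fun x => x = 0) _ _ (hA0 _) (hB _))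
        (by positivity)
  refine (sum_le_sum fun v _ => inner v).trans ?_
  rw [sum_ite, sum_const, nsmul_eq_mul, ← sum_mul]
  have a1 : (((range m).filter fun v => v ≤ P.G).card : ℝ) ≤ 2 * y := by
    have : ((range m).filter fun v => v ≤ P.G).card ≤ P.G + 1 := by
      refine (card_le_card (t := range (P.G + 1)) fun v hv => ?_).trans (by simp)
      have := (mem_filter.1 hv).2
      simp; omega
    calc _ ≤ ((P.G + 1 : ℕ) : ℝ) := by exact_mod_cast this
      _ ≤ _ := by push_cast; linarith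
  have a2 : ∑ v ∈ (range m).filter (fun v => ¬ v ≤ P.G), ((P.vr : ℝ) ^ 4) ^ v ≤ 1 / y ^ 80 * y := by
    set l : ℝ := 1 / 2 ^ (P.r' + 2) with hl
    have hvr : ((P.vr : ℚ) : ℝ) = 1 - l := vr_eq P
    have hl0 : 0 < l := by positivity
    have hlG : l * P.G = 16 * P.E := lam_G hP
    have hE := E_geR hP
    have b0 : (P.vr : ℝ) ^ 4 ≤ 1 - l := by
      rw [← hvr]; exact pow_le_of_le_one hv0.le hv1 (by norm_num)
    have b1 := geom_sum_Ico_le_of_lt_one (x := (P.vr : ℝ) ^ 4) (m := P.G) (n := m)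
      (by positivity) (by linarith)
    have b2 : ((P.vr : ℝ) ^ 4) ^ P.G ≤ 1 / y ^ 80 := by
      have c1 : (P.vr : ℝ) ≤ Real.exp (-l) := by
        have := Real.add_one_le_exp (-l); linarith
      calc ((P.vr : ℝ) ^ 4) ^ P.G ≤ (Real.exp (-l) ^ 4) ^ P.G := by gcongr
        _ = Real.exp (-(4 : ℝ)) ^ (16 * P.E) := by
            rw [← pow_mul, ← Real.exp_nat_mul, ← Real.exp_nat_mul]
            congr 1; push_cast; linarith
        _ ≤ (1 / 2 ^ 5) ^ (16 * P.E) := by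
            gcongr
            rw [Real.exp_neg, one_div]
            apply inv_anti₀ (by norm_num)
            have h1 := Real.exp_one_gt_d9
            have : Real.exp 4 = Real.exp 1 ^ 4 := by rw [← Real.exp_nat_mul]; norm_num
            rw [this]
            calc (2 : ℝ) ^ 5 ≤ 2.7 ^ 4 := by norm_num
              _ ≤ _ := by gcongr; linarith
        _ = _ := by rw [one_div_pow, ← pow_mul, ← hpw]; congr 2; ring
    have b3 : 1 ≤ y * (1 - (P.vr : ℝ) ^ 4) := by nlinarith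
    calc _ ≤ ∑ v ∈ Ico P.G m, ((P.vr : ℝ) ^ 4) ^ v := by
          refine sum_le_sum_of_subset_of_nonneg (fun v hv => ?_) fun v _ _ => by positivity
          simp only [mem_filter, mem_range, mem_Ico] at hv ⊢
          omega
      _ ≤ _ := b1
      _ ≤ _ := by
          rw [div_le_iff₀ (by linarith), mul_assoc]
          exact b2.trans (le_mul_of_one_le_right (by positivity) b3)
  have e0 : (1 : ℝ) / 2 ^ (P.E + 2) = 1 / (4 * y) := by rw [pow_add, hy]; ring
  have f1 : 2 * y * ((3 * y) ^ 4 * c₁) ≤ 1 / (16 * y) := by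
    have : 2 * y * ((3 * y) ^ 4 * c₁) = 648 / y ^ 7 := by rw [hc₁]; field_simp; norm_num
    rw [this, div_le_div_iff₀ (by positivity) (by positivity)]
    have : y ^ 2 ≤ y ^ 7 := pow_le_pow_right₀ (by linarith) (by norm_num)
    nlinarith
  have f2 : 2 * y * (4 * (1 / y ^ 200) * (y ^ 24) ^ 3) ≤ 1 / (16 * y) := by
    have : 2 * y * (4 * (1 / y ^ 200) * (y ^ 24) ^ 3) = 8 / y ^ 127 := by field_simp; norm_num
    rw [this, div_le_div_iff₀ (by positivity) (by positivity)]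
    have : y ^ 2 ≤ y ^ 127 := pow_le_pow_right₀ (by linarith) (by norm_num)
    nlinarith
  have f3 : 1 / y ^ 80 * y * (4 * 1 * (y ^ 24) ^ 3) ≤ 1 / (16 * y) := by
    have : 1 / y ^ 80 * y * (4 * 1 * (y ^ 24) ^ 3) = 4 / y ^ 7 := by field_simp
    rw [this, div_le_div_iff₀ (by positivity) (by positivity)]
    have : y ^ 2 ≤ y ^ 7 := pow_le_pow_right₀ (by linarith) (by norm_num)
    nlinarith
  have f4 : 1 / (4 * y) = 4 * (1 / (16 * y)) := by field_simp; norm_num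
  have f5 : 0 < 1 / (16 * y) := by positivity
  calc _ ≤ 2 * y * ((3 * y) ^ 4 * c₁ + 4 * (1 / y ^ 200) * (y ^ 24) ^ 3) +
        1 / y ^ 80 * y * (4 * 1 * (y ^ 24) ^ 3) := by gcongr
    _ ≤ _ := by rw [e0, mul_add, f4]; linarith

end Cmp

open Cmp

theorem cmp_proof (hOm : OmStmt) (hChi : ChiStmt) : CmpStmt := by
  intro P n j φ ψ z hP hjn hz hφ hψ hφψ
  obtain ⟨c, rfl⟩ : ∃ c, n = j + c := ⟨n - j, by omega⟩
  have hprod : ∀ χ : Fin 4 → ℕ → ℂ, ∏ b, Al P (j + c) j (χ b) (z b) =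
      ∑ p ∈ Fintype.piFinset fun _ : Fin 4 => range j, ∏ b, AT P j (χ b) (z b) (p b) +
        ∑ v ∈ range c, ∑ g ∈ Gs (j + 1 + v), ∏ b, ((bx P.G v (g b) : ℂ) *
          ((P.Wr ((v : ℤ) - g b) : ℂ) * χ b (j + 1 + v - g b) * z b ^ (-((v : ℤ) - g b)))) := by
    intro χ
    simp only [Al_eq]
    rw [prod_univ_sum (fun _ : Fin 4 => range (j + c)) (fun b q => AT P j (χ b) (z b) q), pi_add]
    congr 1
    refine sum_congr rfl fun v _ => sum_congr rfl fun g hg => prod_congr rfl fun b _ => ?_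
    have hb : g b < j + 1 + v := by
      have := Fintype.mem_piFinset.1 (mem_filter.1 hg).1 b
      simpa using this
    have e1 : (((j + v - g b : ℕ) : ℤ) - j) = (v : ℤ) - g b := by omega
    have e2 : j + v - g b + 1 = j + 1 + v - g b := by omega
    unfold AT bx
    dsimp only
    rw [e1, e2]
    by_cases h : g b ≤ v + P.G ∧ v ≤ g b + P.G
    · rw [if_pos h, if_pos (by omega)]; simp
    · rw [if_neg h, if_neg (by omega)]; simp
  have hsame : ∑ p ∈ Fintype.piFinset fun _ : Fin 4 => range j, ∏ b, AT P j (φ b) (z b) (p b) =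
      ∑ p ∈ Fintype.piFinset fun _ : Fin 4 => range j, ∏ b, AT P j (ψ b) (z b) (p b) := by
    refine sum_congr rfl fun p hp => prod_congr rfl fun b _ => ?_
    have := mem_range.1 (Fintype.mem_piFinset.1 hp b)
    unfold AT
    rw [hφψ b (p b + 1) (by omega)]
  rw [hprod φ, hprod ψ, hsame, add_sub_add_left_eq_sub]
  unfold SumV
  rw [Nat.add_sub_cancel_left, ← sum_sub_distrib, ← sum_sub_distrib, ← sum_sub_distrib]
  have hr := real_bound hOm hChi hP c (fun v => j + 1 + v)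
  have e : (1 : ℝ) / 2 ^ (P.E + 1) = 2 * (1 / 2 ^ (P.E + 2)) := by
    rw [pow_succ _ (P.E + 1)]; field_simp
  rw [e]
  refine le_trans ?_ (mul_le_mul_of_nonneg_left hr (by norm_num))
  rw [mul_sum]
  refine (norm_sum_le _ _).trans (sum_le_sum fun v _ => ?_)
  rw [← sum_sub_distrib, ← sum_sub_distrib, ← sum_sub_distrib, mul_sum]
  refine (norm_sum_le _ _).trans (sum_le_sum fun g hg => ?_)
  have hT : ∀ χ : Fin 4 → ℕ → ℂ, (∀ b i, 1 ≤ i → ‖χ b i‖ ≤ 1) →
      ‖∏ b, ((P.Wr ((v : ℤ) - g b) : ℂ) * χ b (j + 1 + v - g b) * z b ^ (-((v : ℤ) - g b)))‖ ≤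
        ∏ b, P.Wr ((v : ℤ) - g b) := by
    intro χ hχ
    rw [norm_prod]
    refine prod_le_prod (fun b _ => norm_nonneg _) fun b _ => ?_
    have hb : g b < j + 1 + v := by
      have := Fintype.mem_piFinset.1 (mem_filter.1 hg).1 b
      simpa using this
    have h0 := (hOm.2.1 P ((v : ℤ) - g b)).2.1
    rw [norm_mul, norm_mul, norm_zpow, hz b, one_zpow, mul_one, Complex.norm_real,
      Real.norm_eq_abs, abs_of_nonneg h0]
    exact mul_le_of_le_one_right h0 (hχ b _ (by omega))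
  have e2 : ∀ χ : Fin 4 → ℕ → ℂ, ∏ b, ((chi P.β P.mc (g b) : ℂ) *
      (P.Wr ((v : ℤ) - g b) : ℂ) * χ b (j + 1 + v - g b) * z b ^ (-((v : ℤ) - g b))) =
      ((∏ b, (chi P.β P.mc (g b) : ℝ) : ℝ) : ℂ) *
        ∏ b, ((P.Wr ((v : ℤ) - g b) : ℂ) * χ b (j + 1 + v - g b) * z b ^ (-((v : ℤ) - g b))) := by
    intro χ
    rw [Complex.ofReal_prod, ← prod_mul_distrib]
    refine prod_congr rfl fun b _ => ?_
    push_cast; ring
  have e3 : ∀ χ : Fin 4 → ℕ → ℂ, ∏ b, ((bx P.G v (g b) : ℂ) *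
      ((P.Wr ((v : ℤ) - g b) : ℂ) * χ b (j + 1 + v - g b) * z b ^ (-((v : ℤ) - g b)))) =
      ((∏ b, bx P.G v (g b) : ℝ) : ℂ) *
        ∏ b, ((P.Wr ((v : ℤ) - g b) : ℂ) * χ b (j + 1 + v - g b) * z b ^ (-((v : ℤ) - g b))) := by
    intro χ
    rw [Complex.ofReal_prod, ← prod_mul_distrib]
  rw [e2, e2, e3, e3]
  have h1 := hT φ hφ
  have h2 := hT ψ hψ
  generalize ∏ b, ((P.Wr ((v : ℤ) - g b) : ℂ) * φ b (j + 1 + v - g b) *
    z b ^ (-((v : ℤ) - g b))) = A at h1 ⊢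
  generalize ∏ b, ((P.Wr ((v : ℤ) - g b) : ℂ) * ψ b (j + 1 + v - g b) *
    z b ^ (-((v : ℤ) - g b))) = B at h2 ⊢
  generalize ∏ b, (chi P.β P.mc (g b) : ℝ) = s
  generalize ∏ b, bx P.G v (g b) = t
  rw [show (s : ℂ) * A - s * B - (t * A - t * B) = ((s - t : ℝ) : ℂ) * (A - B) by push_cast; ring,
    norm_mul, Complex.norm_real, Real.norm_eq_abs]
  have h3 := norm_sub_le A B
  have h4 := abs_nonneg (s - t)
  nlinarith

end Crest.Agent.R300U
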