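import Crest.Agent.R300U.VALa

/-!
Row 300, upper bound, task VAL: values of weighted automata in polynomial time, size bounds.
-/

set_option autoImplicit false

namespace Crest.Agent.R300U

open Crest.Agent.PT Crest.Agent.QC Crest.Agent.R317 Finset

variable {α β : Type} [Enc α] [Enc β]

/-- Common denominator for the transition weights. -/
theorem htS_A {a : FA} {k : ℕ} (h : ∀ σ, ∀ i < a.d, ∀ j < a.d, Ht k (a.A σ i j)) :
    HtS (2 * (a.d * a.d) * k) {z | ∃ σ, ∃ i < a.d, ∃ j < a.d, z = a.A σ i j} := by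
  have := htS_of_ht ((univ : Finset Bool) ×ˢ range a.d ×ˢ range a.d)
    (x := fun q => a.A q.1 q.2.1 q.2.2) (k := fun _ => k) (fun q hq => by
      simp only [mem_product, mem_range] at hq
      exact h _ _ hq.2.1 _ hq.2.2)
  refine this.mono (by simp) ?_
  rintro z ⟨σ, i, hi, j, hj, rfl⟩
  exact ⟨(σ, i, j), by simp [hi, hj], rfl⟩

/-- Heights of the state vector. -/
theorem htS_st {a : FA} {k : ℕ} (hA : ∀ σ, ∀ i < a.d, ∀ j < a.d, Ht k (a.A σ i j))
    (hh : ∀ i < a.d, Ht k (a.h i)) (w : List Bool) :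
    HtS (a.d * k + w.length * (2 * (a.d * a.d) * k + a.d)) {z | ∃ i < a.d, z = a.st w i} := by
  induction w using List.reverseRecOn with
  | nil =>
    refine (htS_of_ht (range a.d) (x := a.h) (k := fun _ => k)
      (fun i hi => hh i (mem_range.1 hi))).mono (by simp) ?_
    rintro z ⟨i, hi, rfl⟩
    exact ⟨i, mem_range.2 hi, rfl⟩
  | append_singleton w σ ih =>
    refine ((htS_A hA).mulVec ih (e := a.d) (ι := ℕ) (fun z hz => ?_)).mono
      (le_of_eq (by simp only [List.length_append, List.length_singleton]; ring)) le_rfl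
    obtain ⟨i, hi, rfl⟩ := hz
    exact ⟨range a.d, a.A σ i, a.st w, by simpa using Nat.lt_two_pow_self.le,
      fun j hj => ⟨Or.inr ⟨σ, i, hi, j, mem_range.1 hj, rfl⟩, Or.inr ⟨j, mem_range.1 hj, rfl⟩⟩,
      FA.st_concat a w σ i⟩

theorem FA.HtA.mono {a : FA} {k l : ℕ} (h : a.HtA k) (hk : k ≤ l) : a.HtA l := fun i hi =>
  ⟨(h i hi).1.mono hk, (h i hi).2.1.mono hk, fun σ j hj => ((h i hi).2.2 σ j hj).mono hk⟩

theorem htA_sz (a : FA) : a.HtA (sz a) := fun _ hi =>
  ⟨(ht_sz _).mono (sz_h_le a hi), (ht_sz _).mono (sz_c_le a hi),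
    fun σ _ hj => (ht_sz _).mono (sz_A_le a σ hi hj)⟩

theorem FA.HtA.gA {a : FA} {k : ℕ} (h : a.HtA k) (σ : Bool) (i j : ℕ) : Ht k (a.gA σ i j) := by
  unfold FA.gA
  split_ifs with hij
  · exact (h i hij.1).2.2 σ j hij.2
  · exact ht_zero k

theorem FA.HtA.gh {a : FA} {k : ℕ} (h : a.HtA k) (i : ℕ) : Ht k (a.gh i) := by
  unfold FA.gh
  split_ifs with hi
  · exact (h i hi).1
  · exact ht_zero k

theorem FA.HtA.gc {a : FA} {k : ℕ} (h : a.HtA k) (i : ℕ) : Ht k (a.gc i) := by
  unfold FA.gc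
  split_ifs with hi
  · exact (h i hi).2.1
  · exact ht_zero k

theorem FA.HtA.st {a : FA} {k : ℕ} (h : a.HtA k) (w : List Bool) {i : ℕ} (hi : i < a.d) :
    Ht (a.d * k + w.length * (2 * (a.d * a.d) * k + a.d)) (a.st w i) :=
  (htS_st (fun σ i hi j hj => (h i hi).2.2 σ j hj) (fun i hi => (h i hi).1) w).ht ⟨i, hi, rfl⟩

/-- The tabulated state vector. -/
@[fun_prop] theorem pt_stL {a : α → FA} {w : α → List Bool} (ha : PT a) (hw : PT w) :
    PT (fun x => mkL (a x).d ((a x).st (w x))) := by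
  have key : ∀ (b : FA) (v : List Bool) (t : ℕ), t ≤ v.length →
      (Nat.rec (mkL b.d b.gh) (fun t u => mkL b.d (fun i =>
        ∑ j ∈ range b.d, b.gA (v.getD t false) i j * u.getD j 0)) t : List GQ) =
      mkL b.d (b.st (v.take t)) := by
    intro b v t
    induction t with
    | zero => intro _; exact mkL_congr (fun i hi => b.gh_lt hi)
    | succ t ih =>
      intro ht
      have ht' : t < v.length := ht
      simp only [ih ht'.le]
      refine mkL_congr (fun i hi => ?_)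
      rw [List.take_add_one, List.getElem?_eq_getElem ht', Option.toList_some, FA.st_concat,
        List.getD_eq_getElem _ _ ht']
      exact sum_congr rfl fun j hj => by
        rw [b.gA_lt _ hi (mem_range.1 hj), getD_mkL _ _ (mem_range.1 hj)]
  have h0 : PT (fun x => mkL (a x).d (a x).gh) :=
    pt_mkL (f := fun x i => (a x).gh i) (by fun_prop) (by fun_prop)
  have hs : PT (fun p : α × ℕ × List GQ => mkL (a p.1).d (fun i =>
      ∑ j ∈ range (a p.1).d, (a p.1).gA ((w p.1).getD p.2.1 false) i j * p.2.2.getD j 0)) :=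
    pt_mkL (f := fun (p : α × ℕ × List GQ) i =>
      ∑ j ∈ range (a p.1).d, (a p.1).gA ((w p.1).getD p.2.1 false) i j * p.2.2.getD j 0)
      (by fun_prop)
      (pt_gsum (f := fun (q : (α × ℕ × List GQ) × ℕ) j =>
        (a q.1.1).gA ((w q.1.1).getD q.1.2.1 false) q.2 j * q.1.2.2.getD j 0)
        (by fun_prop) (by fun_prop))
  have hB : PB (fun x => sz (a x) * (80 * (sz (a x) * sz (a x) + (w x).length *
      (2 * (sz (a x) * sz (a x)) * sz (a x) + sz (a x)) + 1) + 1)) :=
    PT.pbNat (by fun_prop)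
  refine (PT.natRec (g := fun x => (w x).length) (z := fun x => mkL (a x).d (a x).gh)
    (s := fun x t u => mkL (a x).d (fun i =>
      ∑ j ∈ range (a x).d, (a x).gA ((w x).getD t false) i j * u.getD j 0))
    (pt_length hw) h0 hs hB (fun x t ht => ?_)).congr
    (fun x => by rw [key _ _ _ le_rfl, List.take_length])
  rw [key _ _ _ ht]
  have hd := d_le_sz (a x)
  have hl : ((w x).take t).length ≤ (w x).length := by simp
  refine (sz_mkL_le _ _ _ (fun i hi => ((htA_sz (a x)).st _ hi).sz_le)).trans ?_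
  rw [← mul_assoc 2 40, show 2 * 40 = 80 from rfl]
  gcongr

/-- Guarded state vector. -/
@[fun_prop] theorem pt_gst {a : α → FA} {w : α → List Bool} {i : α → ℕ} (ha : PT a) (hw : PT w)
    (hi : PT i) : PT (fun x => if i x < (a x).d then (a x).st (w x) (i x) else 0) :=
  (pt_getD (pt_stL ha hw) hi (PT.const 0)).congr (fun _ => getD_mkL' _ _ _ _)

@[fun_prop] theorem pt_val {a : α → FA} {w : α → List Bool} (ha : PT a) (hw : PT w) :
    PT (fun x => (a x).val (w x)) := by
  have h := pt_stL ha hw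
  have h1 : PT (fun p : (α × List GQ) × ℕ => (a p.1.1).gc p.2 * p.1.2.getD p.2 0) := by fun_prop
  have h2 := pt_gsum (g := fun p : α × List GQ => (a p.1).d)
    (f := fun (p : α × List GQ) i => (a p.1).gc i * p.2.getD i 0) (by fun_prop) h1
  refine (h2.comp (f := fun x => (x, mkL (a x).d ((a x).st (w x)))) (PT.id'.pair h)).congr
    (fun x => ?_)
  exact sum_congr rfl fun i hi => by
    rw [FA.gc_lt _ (mem_range.1 hi), getD_mkL _ _ (mem_range.1 hi)]

/-- Size of an automaton from its dimension and heights. -/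
theorem FA.HtA.sz_le' {a : FA} {k : ℕ} (h : a.HtA k) :
    sz a ≤ 4 * (a.d * (2 * (a.d * (80 * (k + 1) + 1)) + 1)) + 3 * (a.d * (80 * (k + 1) + 1)) +
      2 * a.d + 4 := by
  have := sz_fa_le a (40 * (k + 1)) (fun σ i hi j hj => ((h i hi).2.2 σ j hj).sz_le)
    (fun i hi => (h i hi).1.sz_le) (fun i hi => (h i hi).2.1.sz_le)
  rwa [← mul_assoc 2 40] at this

/-- The size bound of the task. -/
theorem sz_fa_of_ht {a : FA} {h : ℕ} (hd : a.d ≤ 2 ^ h) (hH : a.HtA (4 ^ h)) :
    sz a ≤ 2 ^ (4 * h + 12) := by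
  refine hH.sz_le'.trans ?_
  have e1 : 4 ^ h = 2 ^ h * 2 ^ h := (mul_pow 2 2 h)
  have e2 : 2 ^ (4 * h + 12) = 4096 * (2 ^ h * 2 ^ h * (2 ^ h * 2 ^ h)) := by ring
  have e3 : 1 ≤ 2 ^ h := Nat.one_le_two_pow
  rw [e1, e2]
  generalize 2 ^ h = t at *
  have h1 : 1 ≤ t * t := Nat.mul_le_mul e3 e3
  have h2 : t ≤ t * t := Nat.le_mul_self t
  have h3 : 80 * (t * t + 1) + 1 ≤ 161 * (t * t) := by omega
  have h4 : a.d * (80 * (t * t + 1) + 1) ≤ t * (161 * (t * t)) := Nat.mul_le_mul hd h3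
  have h5 : a.d * (2 * (a.d * (80 * (t * t + 1) + 1)) + 1) ≤ t * (2 * (t * (161 * (t * t))) + 1) :=
    Nat.mul_le_mul hd (by omega)
  have h6 : t * (t * t) ≤ t * t * (t * t) := Nat.mul_le_mul_right _ h2
  have h7 : t * t ≤ t * t * (t * t) := Nat.le_mul_self _
  have h8 : t * (2 * (t * (161 * (t * t))) + 1) = 322 * (t * t * (t * t)) + t := by ring
  have h9 : t * (161 * (t * t)) = 161 * (t * (t * t)) := by ring
  omega

end Crest.Agent.R300U
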