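import Crest.Agent.R300U.CHPT
import Crest.Agent.R300U.VAL

/-!
Row 300, upper bound, tasks CMPT and LFPT: polynomial time for the level step and the leaves.
-/

set_option autoImplicit false

namespace Crest.Agent.R300U

open Crest.Agent.PT Crest.Agent.QC Crest.Agent.R317 Finset

variable {α : Type} [Enc α]

@[fun_prop] theorem pt_alG {P : α → LP} {j : α → ℕ} {y : α → List Bool} {b : α → FA} {θ : α → ℤ}
    (hP : PT P) (hj : PT j) (hy : PT y) (hb : PT b) (hθ : ZT θ) :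
    PT (fun x => alG (P x) (j x) (y x) (b x) (θ x)) := by
  have hG : PT (fun p : α × ℕ => (P p.1).G) := pt_wk (pt_lp_G hP)
  have hi : PT (fun p : α × ℕ => p.2) := pt_p2
  have hu : ZT (fun p : α × ℕ => (p.2 : ℤ) - (P p.1).G) := ZT.ofSub hi hG
  have hji : PT (fun p : α × ℕ => j p.1 + 1 + p.2) := ((pt_wk hj).add (PT.const 1)).add hi
  exact pt_gsum (((PT.const 2).mul (pt_lp_G hP)).add (PT.const 1))
    (PT.iteD ((dt_nle hG ((pt_wk hj).add hi)).and (dt_nle hji ((pt_wk (pt_length hy)).add hG)))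
      (pt_gmul (pt_gmul (pt_Wq (pt_wk hP) hu) (pt_val (pt_wk hb) (pt_take (pt_wk hy) (hji.sub hG))))
        (pt_gzpow (pt_omega (pt_wk hP)) ((zt_wk hθ).mul hu).neg)) (PT.const 0))

theorem pt_E64 {P : α → LP} (hP : PT P) : PT (fun x => (2 : GQ) ^ ((P x).E / 64)) :=
  pt_gpow (PT.const 2) ((pt_lp_E hP).div (PT.const 64))

@[fun_prop] theorem pt_nrm {P : α → LP} {j e : α → ℕ} {y : α → List Bool}
    (hP : PT P) (hj : PT j) (hy : PT y) (he : PT e) :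
    PT (fun x => nrm (P x) (j x) (y x) (e x)) :=
  PT.iteD (dt_neq (he.mod (PT.const 3)) (PT.const 2))
    (pt_alG hP hj hy (PT.const oneFA) (ZT.const 0)) (pt_E64 hP)

@[fun_prop] theorem pt_prodE {P : α → LP} {j e0 e1 e2 e3 : α → ℕ} {y : α → List Bool}
    {a : α → FA} {tab : α → List GQ} (hP : PT P) (hj : PT j) (hy : PT y) (ha : PT a)
    (ht : PT tab) (h0 : PT e0) (h1 : PT e1) (h2 : PT e2) (h3 : PT e3) :
    PT (fun x => prodE (P x) (j x) (y x) (a x) (tab x) (e0 x) (e1 x) (e2 x) (e3 x)) := by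
  have h8 := ((PT.const 8).mul (pt_lp_M hP)).add (PT.const 1)
  have hA : ∀ {e : α → ℕ}, PT e →
      PT (fun x => alG (P x) (j x) (y x) (slotAut (a x) (e x % 3)) (frq (P x).J (e x))) :=
    fun he => pt_alG hP hj hy (pt_slotAut ha (he.mod (PT.const 3))) (zt_frq (pt_lp_J hP) he)
  have hc := h8.mul (pt_code4 (pt_nQ (pt_lp_J hP)) h0 h1 h2 h3)
  exact pt_gdiv (pt_gadd (pt_gsum h8 (pt_gmul (pt_grat (pt_Hn (pt_wk hP) pt_p2))
      (pt_getD (pt_wk ht) (pt_p2.add (pt_wk hc)) (PT.const 0))))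
      (pt_gmul (pt_gmul (pt_gmul (hA h0) (hA h1)) (hA h2)) (hA h3)))
    (pt_gmul (pt_gmul (pt_gmul (pt_nrm hP hj hy h0) (pt_nrm hP hj hy h1)) (pt_nrm hP hj hy h2))
      (pt_nrm hP hj hy h3))

@[fun_prop] theorem pt_ptab {P : α → LP} {j : α → ℕ} {y : α → List Bool}
    {a : α → FA} {tab : α → List GQ} (hP : PT P) (hj : PT j) (hy : PT y) (ha : PT a)
    (ht : PT tab) : PT (fun x => ptab (P x) (j x) (y x) (a x) (tab x)) := by
  have hQ := pt_nQ (pt_lp_J hP)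
  have hQ' := pt_wk (γ := ℕ) hQ
  exact pt_mkL (hQ.pow 4) (pt_prodE (pt_wk hP) (pt_wk hj) (pt_wk hy) (pt_wk ha) (pt_wk ht)
    (pt_p2.mod hQ') ((pt_p2.div hQ').mod hQ') (((pt_p2.div hQ').div hQ').mod hQ')
    (((pt_p2.div hQ').div hQ').div hQ'))

theorem pt_comb {pr : ℕ × ℕ × ℕ × ℚ × List GQ → List GQ × List ℚ}
    {perc : ℕ × List (List GQ) × List GQ × List ℚ × ℚ × ℕ → List GQ} (hpr : PT pr)
    (hperc : PT perc) {P : α → LP} {j : α → ℕ} {y : α → List Bool} {a : α → FA} {z : α → GQ}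
    {tab : α → List GQ} (hP : PT P) (hj : PT j) (hy : PT y) (ha : PT a) (hz : PT z)
    (ht : PT tab) : PT (fun x => comb pr perc (P x) (j x) (y x) (a x) (z x) (tab x)) := by
  have hε : PT (fun x => (1 / 2 ^ (P x).E : ℚ)) := pt_qdiv (PT.const 1) (pt_two_pow (pt_lp_E hP))
  have ho := hpr.comp ((pt_lp_J hP).pair ((pt_lp_η hP).pair ((pt_lp_K hP).pair
    (hε.pair (pt_ptab hP hj hy ha ht)))))
  have hJ := ((PT.const 2).mul (pt_lp_J hP)).add (PT.const 1)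
  have hG := (pt_lp_G hP).add (PT.const 1)
  have hθ : ZT (fun p : α × ℕ => (p.2 : ℤ) - (P p.1).J) := ZT.ofSub pt_p2 (pt_wk (pt_lp_J hP))
  have hu : ZT (fun p : (α × ℕ) × ℕ => (p.2 : ℤ)) := ZT.natCast pt_p2
  have hrows : PT (fun x => mkL (2 * (P x).J + 1) (fun i => mkL ((P x).G + 1) (fun u =>
      (P x).Wq u * (P x).ω ^ (-(((i : ℤ) - (P x).J) * u)) / 2 ^ ((P x).E / 64)))) :=
    pt_mkL hJ (pt_mkL (f := fun (p : α × ℕ) (u : ℕ) =>
      (P p.1).Wq u * (P p.1).ω ^ (-(((p.2 : ℤ) - (P p.1).J) * u)) / 2 ^ ((P p.1).E / 64))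
      (pt_wk hG) (pt_gdiv (pt_gmul (pt_Wq (pt_wk (pt_wk hP)) hu)
        (pt_gzpow (pt_omega (pt_wk (pt_wk hP))) ((zt_wk hθ).mul hu).neg))
        (pt_E64 (pt_wk (pt_wk hP)))))
  have hbs := pt_mkL (f := fun x i => (pr ((P x).J, (P x).η, (P x).K, 1 / 2 ^ (P x).E,
      ptab (P x) (j x) (y x) (a x) (tab x))).1.getD i 0 -
      alG (P x) (j x) (y x) (a x) ((i : ℤ) - (P x).J) / 2 ^ ((P x).E / 64)) hJ
    (pt_gsub (pt_getD (pt_wk ho.fst) pt_p2 (PT.const 0))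
      (pt_gdiv (pt_alG (pt_wk hP) (pt_wk hj) (pt_wk hy) (pt_wk ha) hθ) (pt_E64 (pt_wk hP))))
  have hc := hperc.comp (hG.pair (hrows.pair (hbs.pair (ho.snd.pair (hε.pair (pt_lp_T hP))))))
  exact pt_rc (pt_lp_E hP) (pt_lp_r hP) (pt_gsum hG
    (pt_gmul (pt_getD (pt_wk hc) pt_p2 (PT.const 0)) (pt_gpow (pt_wk hz) pt_p2)))

theorem cmbpt_proof : CmbPTStmt := by
  intro pr perc u hpr hperc
  have hc : PT (fun q : Ctx × Node × List GQ => q.1) := PT.id'.fst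
  have hx : PT (fun q : Ctx × Node × List GQ => q.2.1) := pt_p2.fst
  exact pt_comb hpr hperc (pt_cP u hc hx.fst) hc.snd.snd.snd.snd.snd hc.snd.snd.snd.snd.fst
    hx.snd.fst hx.snd.snd.snd.snd pt_p2.snd

theorem pt_leaf {chan : ℚ × ℚ × ℕ × FA → FA} (hchan : PT chan) {n D j E r eS h : α → ℕ}
    {p : α → ℚ} {y : α → List Bool} {T : α → List (List Bool)} {a : α → FA} {z : α → GQ}
    (hn : PT n) (hp : PT p) (hD : PT D) (hj : PT j) (hy : PT y) (hT : PT T) (hE : PT E)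
    (hr : PT r) (heS : PT eS) (hh : PT h) (ha : PT a) (hz : PT z) :
    PT (fun x => leaf chan (n x) (p x) (D x) (j x) (y x) (T x) (E x) (r x) (eS x) (h x) (a x)
      (z x)) := by
  have hS : PT (fun x => ((1 - 1 / n x) ^ (eS x + 1) : ℚ)) :=
    pt_qpow (pt_qsub (PT.const 1) (pt_qdiv (PT.const 1) (pt_qnat (.ofPT hn))))
      (heS.add (PT.const 1))
  have hb := pt_accA (pt_size hn) hh ha hz
  have hch := hchan.comp (hp.pair (hS.pair (hD.pair hb)))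
  exact pt_rc hE hr (pt_gmul (pt_gpow hz ((hn.sub hj).sub (PT.const 1)))
    (pt_gsub (pt_gdiv (pt_gdiv (pt_gsum (pt_length hT)
      (pt_val (pt_wk hch) (pt_getD (pt_wk hT) pt_p2 (PT.const []))))
      (pt_gnat (.ofPT (pt_length hT)))) (pt_gpow (pt_grat hS) hn)) (pt_val hb hy)))

theorem lfpt_proof : LfPTStmt := by
  intro C₁ chan u hchan
  have hc : PT (fun q : Ctx × Node => q.1) := PT.id'.fst
  have hx : PT (fun q : Ctx × Node => q.2) := pt_p2
  have hP := pt_cP u hc hx.fst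
  have heS := hx.snd.snd.fst
  have hh := hx.snd.snd.snd.fst
  exact pt_leaf hchan hc.fst hc.snd.fst
    (((PT.const C₁).mul (((((pt_lp_E hP).add ((PT.const 2).mul heS)).add
      ((PT.const 4).mul (pt_size hc.fst))).add ((PT.const 2).mul hh)).add (PT.const 30))).mul
      (pt_un hc.snd.snd.fst (bt_qceil (pt_qdiv (PT.const 1) hc.snd.fst))))
    hc.snd.snd.snd.snd.snd hc.snd.snd.snd.snd.fst hc.snd.snd.snd.fst (pt_lp_E hP) (pt_lp_r hP)
    heS hh hx.snd.fst hx.snd.snd.snd.snd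

end Crest.Agent.R300U
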