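import Crest.Agent.R300U.DefsC

/-!
Row 300, upper bound: assembly of the main theorem from the task statements.
-/

set_option autoImplicit false

namespace Crest.Agent.R300U

open Crest.Agent.PT Crest.Agent.QC Crest.Agent.R317 Finset Crest.FinProb Crest.TraceRecon

theorem full_spec (n : ℕ) (hn : n ≠ 0) (T : List (List Bool)) :
    ((full n T).length = n → full n T ∈ T) ∧ ((∃ t ∈ T, t.length = n) → (full n T).length = n) := by
  have key : ∀ k ≤ T.length,
      let f : List Bool :=
        Nat.rec [] (fun i acc => if (T.getD i []).length = n then T.getD i [] else acc) k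
      (f.length = n → f ∈ T) ∧ ((∃ i < k, (T.getD i []).length = n) → f.length = n) := by
    intro k
    induction k with
    | zero =>
      intro _
      refine ⟨fun h => (hn (by simpa using h.symm)).elim, fun ⟨i, hi, _⟩ => by omega⟩
    | succ k ih =>
      intro hk
      obtain ⟨h1, h2⟩ := ih (by omega)
      by_cases h : (T.getD k []).length = n
      · simp only [h, if_true]
        refine ⟨fun _ => ?_, fun _ => trivial⟩
        rw [List.getD_eq_getElem _ _ (by omega)]
        exact List.getElem_mem _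
      · simp only [h, if_false]
        refine ⟨h1, fun ⟨i, hi, hl⟩ => h2 ⟨i, ?_, hl⟩⟩
        rcases Nat.lt_succ_iff_lt_or_eq.1 hi with h' | h'
        · exact h'
        · subst h'; exact (h hl).elim
  obtain ⟨h1, h2⟩ := key T.length le_rfl
  refine ⟨h1, fun ⟨t, ht, hl⟩ => h2 ?_⟩
  obtain ⟨i, hi, rfl⟩ := List.getElem_of_mem ht
  exact ⟨i, hi, by rw [List.getD_eq_getElem _ _ hi]; exact hl⟩

theorem bud_nonneg (n : ℕ) (p : ℝ) (hp : 0 < p) : 0 ≤ Bud n p := by
  unfold Bud
  have : 0 ≤ Real.log n := Real.log_natCast_nonneg n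
  have h6 : 0 ≤ (1 + Real.log (1 + Real.log n / (1 + Real.log (1 / (1 - p))))) ^ 6 :=
    Even.pow_nonneg (by decide) _
  positivity

theorem mem_trs {n m : ℕ} (x : Fin n → Bool) (ks : Fin m → Fin n → Bool) (t : List Bool) :
    t ∈ trs x ks ↔ ∃ k, traceOf x (ks k) = t := by
  simp [trs, List.mem_ofFn]

theorem core_of (hPerc : PercStmt) (hPR : PRStmt) (hTr : TransStmt) (hTree : TreeStmt)
    (hCh : ChPTStmt) (hCmb : CmbPTStmt) (hLf : LfPTStmt) (hDec : DecPTStmt) (hSm : SmallStmt)
    (hT : TAccStmt) (hPar : ParStmt) (hAsy : AsyStmt) (hB : BaseBStmt) (hTriv : TrivStmt)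
    (hPrb : PrbStmt) : CoreStmt := by
  obtain ⟨perc, hperc, hperc'⟩ := percStmt_iff.1 hPerc
  obtain ⟨pr, hpr, hpr'⟩ := prStmt_iff.1 hPR
  obtain ⟨C₁, hC₁, chan, hchan, hchan'⟩ := transStmt_iff.1 hTr
  obtain ⟨u, hu⟩ : ∃ u : ℕ, 65536 ≤ u := ⟨_, le_rfl⟩
  obtain ⟨run, hrun, hrun'⟩ := hTree Ctx Node GQ (nchF u) (chF u) (cmbF pr perc u) (lfF C₁ chan u)
    (hCh u).1 (hCh u).2 (hCmb pr perc u hpr hperc) (hLf C₁ chan u hchan)
  obtain ⟨hfull, Ct, hCt⟩ := hTriv
  obtain ⟨Ca, hCa⟩ := hAsy C₁ u hu
  refine ⟨max 1 (max Ct Ca), le_max_left _ _, dec run u, hDec run u hrun, ?_⟩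
  intro n hn p hp0 hp1 m N hm hmN x
  have hp0' : (0 : ℝ) < p := by exact_mod_cast hp0
  have hp1' : (p : ℝ) < 1 := by exact_mod_cast hp1
  have hBud := bud_nonneg n p hp0'
  obtain ⟨hmono, -, -, hunion⟩ := hPrb p n m hp0'.le hp1'.le
  have hfl : ∀ ks : Fin m → Fin n → Bool, (full n (trs x ks)).length = n →
      full n (trs x ks) = List.ofFn x := by
    intro ks h
    obtain ⟨k, hk⟩ := (mem_trs x ks _).1 ((full_spec n (by omega) _).1 h)
    rw [← hk] at h ⊢
    exact hfull n x _ h
  by_cases hreg : 1 ≤ p * n ^ 2 ∧ 1 ≤ (1 - p) * n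
  · have hReg : Reg n p := ⟨hn, hp0, hp1, hreg.1, hreg.2⟩
    have htot : 2 ^ tot C₁ u n p ≤ m := by
      have h1 : (2 : ℝ) ^ tot C₁ u n p ≤ Real.exp (tot C₁ u n p) := by
        rw [← Real.exp_one_pow]
        exact pow_le_pow_left₀ (by norm_num) (by linarith [Real.add_one_le_exp 1]) _
      have h2 : (tot C₁ u n p : ℝ) ≤ max 1 (max Ct Ca) * Bud n p :=
        (hCa n p hReg).trans (mul_le_mul_of_nonneg_right
          ((le_max_right _ _).trans (le_max_right _ _)) hBud)
      have := (h1.trans (Real.exp_le_exp.2 h2)).trans hm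
      exact_mod_cast this
    obtain ⟨-, -, -, -, -, hcl⟩ := hPar u n p hu hReg
    obtain ⟨hcl1, hcl2, -⟩ := hcl C₁ N hC₁ (htot.trans hmN)
    have hr0 : (par (un N) u (ee p) (LL n p) 0).r = rr u (ee p) (LL n p) 0 := by
      rw [hcl1 0 (Nat.zero_le _)]; rfl
    refine (hmono _ (fun ks => ∃ j < n, ¬ ‖((tev (nchF u) (chF u) (cmbF pr perc u) (lfF C₁ chan u)
        (ctx n p N (trs x ks) ((List.ofFn x).take j)) (LL n p)
        (root n (kk id u (ee p) (LL n p)) (rr u (ee p) (LL n p) 0) ((List.ofFn x).take j)) : GQ) : ℂ) -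
      DD (baseA n (kw (kk id u (ee p) (LL n p)) ((List.ofFn x).take j))) (List.ofFn x)
        ((List.ofFn x).take j ++ List.replicate (n - j) false) j
        ((rho0 (rr u (ee p) (LL n p) 0) : GQ) : ℂ)‖ ≤ 1 / 2 ^ (rr u (ee p) (LL n p) 0 + 4)) ?_).trans
      ((hunion n _).trans ?_)
    · intro ks hne
      by_contra hall
      push Not at hall
      apply hne
      unfold dec
      split_ifs with hf
      · exact hfl ks hf
      · have key : ∀ j ≤ n, (Nat.rec [] (fun _ pre => pre ++ [nextBit run u n p N (trs x ks) pre]) j :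
            List Bool) = (List.ofFn x).take j := by
          intro j
          induction j with
          | zero => intro _; simp
          | succ j ih =>
            intro hj
            have ih' := ih (by omega)
            simp only at ih' ⊢
            rw [ih', List.take_add_one]
            congr 1
            obtain ⟨B, hB1, hB2⟩ := hSm pr perc C₁ chan u n p N (trs x ks) ((List.ofFn x).take j) hu hC₁
              hReg (htot.trans hmN)
            have hb := hB n (kk id u (ee p) (LL n p)) (rr u (ee p) (LL n p) 0) j (List.ofFn x) _ hn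
              (by simp) (by omega) le_rfl (hall j (by omega))
            unfold nextBit
            simp only [hcl2, hr0]
            rw [hrun' _ _ _ B N hB1 hB2, hb, List.getD_eq_getElem?_getD,
              List.getElem?_eq_getElem (by simp; omega)]
            simp
        have := key n le_rfl
        simp only [decMain]
        rw [this, List.take_of_length_le (by simp)]
    · have hn0 : (0 : ℝ) < n := by positivity
      calc _ ≤ ∑ _j ∈ range n, (1 / (8 * n ^ 2) : ℝ) :=
            Finset.sum_le_sum (fun j hj =>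
              hT pr perc C₁ chan hpr' hperc' hC₁ hchan' u n m N j p x hu hReg (mem_range.1 hj) htot hmN)
        _ = 1 / (8 * n) := by
            simp only [sum_const, card_range, nsmul_eq_mul]
            field_simp
  · have hor : (p : ℝ) * n ^ 2 < 1 ∨ (1 - (p : ℝ)) * n < 1 := by
      rcases not_and_or.1 hreg with h | h
      · left; push Not at h; exact_mod_cast h
      · right; push Not at h; exact_mod_cast h
    refine (hmono _ (fun ks => ∀ k, (traceOf x (ks k)).length ≠ n) ?_).trans
      (hCt n hn p hp0' hp1' hor m ((Real.exp_le_exp.2 (mul_le_mul_of_nonneg_right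
        ((le_max_left _ _).trans (le_max_right _ _)) hBud)).trans hm) x)
    intro ks hne k hk
    apply hne
    have hf := (full_spec n (by omega) (trs x ks)).2 ⟨_, (mem_trs x ks _).2 ⟨k, rfl⟩, hk⟩
    unfold dec
    rw [if_pos hf]
    exact hfl ks hf

end Crest.Agent.R300U
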