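import Crest.Agent.R300U.CHPT
import Crest.Agent.R300U.VAL

/-!
Row 300, upper bound, task DECPT: polynomial time for the decoder.
-/

set_option autoImplicit false

namespace Crest.Agent.R300U

open Crest.Agent.PT Crest.Agent.QC Crest.Agent.R317 Finset

variable {α : Type} [Enc α]

@[fun_prop] theorem pt_baseA {n : α → ℕ} {w : α → List Bool} (hn : PT n) (hw : PT w) :
    PT (fun x => baseA (n x) (w x)) := by
  have hl := pt_length hw
  have h4 : PT (fun x => (4 * n x : ℚ)) := pt_qmul (PT.const 4) (pt_qnat (.ofPT hn))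
  have h4' : PT (fun x => (1 / (4 * n x) : ℚ)) := pt_qdiv (PT.const 1) h4
  have hi : PT (fun p : α × Bool × ℕ × ℕ => p.2.2.1) := pt_p2.snd.fst
  have hj : PT (fun p : α × Bool × ℕ × ℕ => p.2.2.2) := pt_p2.snd.snd
  have hall : DT (fun p : α × ℕ => All p.2 (fun i => (w p.1).getD i false = false)) :=
    DT.all (p := fun (p : α × ℕ) i => (w p.1).getD i false = false) pt_p2
      (dt_beq (pt_getD (pt_wk (pt_wk hw)) pt_p2 (PT.const false)) (PT.const false))
  exact pt_fa_mk (hl.add (PT.const 1))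
    (PT.iteD ((dt_neq hi (PT.const 0)).and (dt_neq hj (PT.const 0))) (PT.const 1)
      (PT.iteD ((dt_neq hi (hj.add (PT.const 1))).and
          (dt_beq (pt_getD (pt_wk hw) hj (PT.const false)) pt_p2.fst))
        (PT.iteD (dt_neq hj (PT.const 0)) (pt_grat (pt_wk h4')) (PT.const _)) (PT.const 0)))
    (PT.iteD (dt_neq pt_p2 (PT.const 0)) (PT.const 1)
      (PT.iteD ((dt_nlt pt_p2 (pt_wk hl)).and hall)
        (pt_grat (pt_qdiv (pt_wk h4') (pt_qpow (PT.const 4) (pt_p2.sub (PT.const 1)))))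
        (PT.const 0)))
    (PT.iteD (dt_neq pt_p2 (pt_wk hl))
      (pt_grat (pt_wk (pt_qmul h4 (pt_qpow (PT.const 4) (hl.sub (PT.const 1)))))) (PT.const 0))

@[fun_prop] theorem pt_kwb {k : α → ℕ} {pre : α → List Bool} {b : α → Bool} (hk : PT k)
    (hp : PT pre) (hb : PT b) : PT (fun x => kwb (k x) (pre x) (b x)) :=
  pt_append (pt_drop (pt_append (pt_replicate (hk.sub (PT.const 1)) (PT.const false)) hp)
    (pt_length hp)) (pt_cons hb (PT.const []))

@[fun_prop] theorem dt_Per {w : α → List Bool} (hw : PT w) : DT (fun x => Per (w x)) := by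
  have hl := pt_length hw
  have h1 : PT (fun p : α × ℕ => p.2 + 1) := pt_p2.add (PT.const 1)
  exact DT.ex (p := fun x π => All ((w x).length - (π + 1))
      (fun i => (w x).getD i false = (w x).getD (i + (π + 1)) false))
    ((hl.sub (PT.const 1)).div (PT.const 2))
    (DT.all (p := fun (p : α × ℕ) i =>
        (w p.1).getD i false = (w p.1).getD (i + (p.2 + 1)) false) ((pt_wk hl).sub h1)
      (dt_beq (pt_getD (pt_wk (pt_wk hw)) pt_p2 (PT.const false))
        (pt_getD (pt_wk (pt_wk hw)) (pt_p2.add (pt_wk h1)) (PT.const false))))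

theorem pt_per {k : α → ℕ} {pre : α → List Bool} (hk : PT k) (hp : PT pre) :
    PT (fun x => decide (Per (kwb (k x) (pre x) false))) :=
  pt_decide (dt_Per (pt_kwb hk hp (PT.const false)))

@[fun_prop] theorem pt_kw {k : α → ℕ} {pre : α → List Bool} (hk : PT k) (hp : PT pre) :
    PT (fun x => kw (k x) (pre x)) := pt_kwb hk hp (pt_per hk hp)

theorem pt_pad {n : α → ℕ} {pre : α → List Bool} (hn : PT n) (hp : PT pre) :
    PT (fun x => pre x ++ List.replicate (n x - (pre x).length) false) :=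
  pt_append hp (pt_replicate (hn.sub (pt_length hp)) (PT.const false))

@[fun_prop] theorem pt_bitOf {n k r : α → ℕ} {pre : α → List Bool} {z : α → GQ} (hn : PT n)
    (hk : PT k) (hr : PT r) (hp : PT pre) (hz : PT z) :
    PT (fun x => bitOf (n x) (k x) (r x) (pre x) (z x)) := by
  have hl := pt_length hp
  have hZ := pt_gadd hz (pt_gsum (f := fun x v =>
      (baseA (n x) (kw (k x) (pre x))).val
        ((pre x ++ List.replicate (n x - (pre x).length) false).take ((pre x).length + 1 + v)) *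
        (rho0 (r x) : GQ) ^ v) (hn.sub hl)
    (pt_gmul (pt_val (pt_wk (pt_baseA hn (pt_kw hk hp)))
      (pt_take (pt_wk (pt_pad hn hp)) ((pt_wk (hl.add (PT.const 1))).add pt_p2)))
      (pt_gpow (pt_wk (pt_grat (pt_rho0 hr))) pt_p2)))
  exact PT.iteD (dt_qle (pt_qsub (PT.const 1) (pt_qdiv (PT.const 1)
    (pt_two_pow (hr.add (PT.const 3))))) (pt_reQ hZ)) (pt_per hk hp) (pt_per hk hp).not

@[fun_prop] theorem pt_root {n k r : α → ℕ} {pre : α → List Bool} (hn : PT n) (hk : PT k)
    (hr : PT r) (hp : PT pre) : PT (fun x => root (n x) (k x) (r x) (pre x)) :=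
  (PT.const 0).pair ((pt_baseA hn (pt_kw hk hp)).pair ((PT.const 1).pair
    ((((pt_size hn).add ((PT.const 2).mul hk)).add (PT.const 1)).pair (pt_grat (pt_rho0 hr)))))

@[fun_prop] theorem pt_ctx {n N : α → ℕ} {p : α → ℚ} {T : α → List (List Bool)}
    {pre : α → List Bool} (hn : PT n) (hp : PT p) (hN : PT N) (hT : PT T) (hpre : PT pre) :
    PT (fun x => ctx (n x) (p x) (N x) (T x) (pre x)) :=
  hn.pair (hp.pair (hN.pair (hT.pair ((pt_pad hn hpre).pair (pt_length hpre)))))

theorem pt_nextBit {run : Ctx × ℕ × Node × ℕ → GQ} (hrun : PT run) (u : ℕ) {n N : α → ℕ}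
    {p : α → ℚ} {T : α → List (List Bool)} {pre : α → List Bool} (hn : PT n) (hp : PT p)
    (hN : PT N) (hT : PT T) (hpre : PT pre) :
    PT (fun x => nextBit run u (n x) (p x) (N x) (T x) (pre x)) := by
  have hL := pt_LL hn hp
  have hk := pt_kk hN (PT.const u) (pt_ee hp) hL
  have hr := pt_lp_r (pt_par hN (PT.const u) (pt_ee hp) hL (PT.const 0))
  exact pt_bitOf hn hk hr hpre (hrun.comp ((pt_ctx hn hp hN hT hpre).pair
    (hL.pair ((pt_root hn hk hr hpre).pair hN))))

theorem pt_decMain {run : Ctx × ℕ × Node × ℕ → GQ} (hrun : PT run) (u : ℕ) {n N : α → ℕ}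
    {p : α → ℚ} {T : α → List (List Bool)} (hn : PT n) (hp : PT p) (hN : PT N) (hT : PT T) :
    PT (fun x => decMain run u (n x) (p x) (N x) (T x)) :=
  PT.natRec_add (z := fun _ => ([] : List Bool))
    (s := fun x _ pre => pre ++ [nextBit run u (n x) (p x) (N x) (T x) pre]) hn (PT.const _)
    (pt_append pt_p2.snd (pt_cons (pt_nextBit hrun u (pt_wk hn) (pt_wk hp) (pt_wk hN) (pt_wk hT)
      pt_p2.snd) (PT.const []))) (PB.const 3) (fun _ _ _ => by simp)

theorem pt_full {n : α → ℕ} {T : α → List (List Bool)} (hn : PT n) (hT : PT T) :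
    PT (fun x => full (n x) (T x)) := by
  have hg : PT (fun p : α × ℕ => (T p.1).getD p.2 []) := pt_getD (pt_wk hT) pt_p2 (PT.const [])
  have hg' : PT (fun p : α × ℕ × List Bool => (T p.1).getD p.2.1 []) :=
    pt_getD (pt_wk hT) pt_p2.fst (PT.const [])
  exact PT.natRec_add (z := fun _ => ([] : List Bool))
    (s := fun x i acc => if ((T x).getD i []).length = n x then (T x).getD i [] else acc)
    (pt_length hT) (PT.const _) (PT.iteD (dt_neq (pt_length hg') (pt_wk hn)) hg' pt_p2.snd) hg.pb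
    (fun x i b => by split_ifs <;> simp)

theorem decpt_proof : DecPTStmt := by
  intro run u hrun
  have hn : PT (fun q : ℕ × ℚ × List (List Bool) × ℕ => q.1) := PT.id'.fst
  have hp : PT (fun q : ℕ × ℚ × List (List Bool) × ℕ => q.2.1) := pt_p2.fst
  have hT : PT (fun q : ℕ × ℚ × List (List Bool) × ℕ => q.2.2.1) := pt_p2.snd.fst
  have hN : PT (fun q : ℕ × ℚ × List (List Bool) × ℕ => q.2.2.2) := pt_p2.snd.snd
  exact PT.iteD (dt_neq (pt_length (pt_full hn hT)) hn) (pt_full hn hT)
    (pt_decMain hrun u hn hp hN hT)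

end Crest.Agent.R300U
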