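import Crest.Agent.R300U.DefsB

/-! Task EXT1: extrapolation of the error polynomial. -/

set_option autoImplicit false

namespace Crest.Agent.R300U

open Finset

namespace Ext1

/-- trigonometric sums -/
noncomputable def TS (s : Finset ℕ) (c : ℕ → ℂ) (n : ℕ → ℝ) (ψ : ℝ) : ℂ :=
  ∑ i ∈ s, c i * Complex.exp ((ψ * n i : ℝ) * Complex.I)

theorem TS_le {s : Finset ℕ} {c : ℕ → ℂ} (n : ℕ → ℝ) (hc : ∑ i ∈ s, ‖c i‖ ≤ 1) (ψ : ℝ) :
    ‖TS s c n ψ‖ ≤ 1 := by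
  refine (norm_sum_le _ _).trans (le_trans (le_of_eq ?_) hc)
  refine Finset.sum_congr rfl fun i _ => ?_
  rw [norm_mul, Complex.norm_exp_ofReal_mul_I, mul_one]

theorem exp_lip (x y : ℝ) :
    ‖Complex.exp (x * Complex.I) - Complex.exp (y * Complex.I)‖ ≤ |x - y| := by
  have e : Complex.exp (x * Complex.I) - Complex.exp (y * Complex.I) =
      Complex.exp (y * Complex.I) * (Complex.exp (Complex.I * (x - y : ℝ)) - 1) := by
    rw [mul_sub, ← Complex.exp_add, mul_one]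
    congr 2
    push_cast; ring
  rw [e, norm_mul, Complex.norm_exp_ofReal_mul_I, one_mul]
  exact Real.norm_exp_I_mul_ofReal_sub_one_le

theorem TS_lip {s : Finset ℕ} {c : ℕ → ℂ} {n : ℕ → ℝ} (hc : ∑ i ∈ s, ‖c i‖ ≤ 1) {G : ℝ}
    (hG : 0 ≤ G) (hn : ∀ i ∈ s, |n i| ≤ G) (ψ ψ' : ℝ) :
    ‖TS s c n ψ - TS s c n ψ'‖ ≤ G * |ψ - ψ'| := by
  unfold TS
  rw [← Finset.sum_sub_distrib]
  refine (norm_sum_le _ _).trans ?_
  calc _ ≤ ∑ i ∈ s, ‖c i‖ * (G * |ψ - ψ'|) := by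
        refine Finset.sum_le_sum fun i hi => ?_
        rw [← mul_sub, norm_mul]
        refine mul_le_mul_of_nonneg_left ((exp_lip _ _).trans ?_) (norm_nonneg _)
        rw [← sub_mul, abs_mul, mul_comm]
        exact mul_le_mul_of_nonneg_right (hn i hi) (abs_nonneg _)
    _ = (∑ i ∈ s, ‖c i‖) * (G * |ψ - ψ'|) := by rw [Finset.sum_mul]
    _ ≤ 1 * (G * |ψ - ψ'|) := by gcongr
    _ = _ := one_mul _

theorem TS_cont (s : Finset ℕ) (c : ℕ → ℂ) (n : ℕ → ℝ) : Continuous (TS s c n) := by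
  unfold TS; fun_prop

theorem sq_cmp {x y : ℂ} {ε : ℝ} (hx : ‖x‖ ≤ 1) (hy : ‖y‖ ≤ 1) (h : ‖x - y‖ ≤ ε / 8) :
    ‖x‖ ^ 2 + 3 * ε ≤ 9 / 8 * (‖y‖ ^ 2 + 3 * ε) := by
  have h1 := norm_sub_norm_le x y
  have h2 := norm_nonneg x
  have h3 := norm_nonneg y
  have h4 := norm_nonneg (x - y)
  nlinarith [sq_nonneg ‖y‖]

theorem grid {ϑ : ℝ} (hϑ : 0 < ϑ) (ψ : ℝ) :
    ∃ θ : ℤ, (|θ| : ℤ) * ϑ ≤ |ψ| ∧ |ψ - -θ * ϑ| ≤ ϑ := by
  have key : ∀ x : ℝ, 0 ≤ x → ∃ k : ℤ, 0 ≤ k ∧ k * ϑ ≤ x ∧ x - k * ϑ ≤ ϑ := by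
    intro x hx
    refine ⟨⌊x / ϑ⌋, Int.floor_nonneg.2 (by positivity), ?_, ?_⟩
    · rw [← le_div_iff₀ hϑ]; exact Int.floor_le _
    · have := Int.lt_floor_add_one (x / ϑ)
      rw [div_lt_iff₀ hϑ] at this
      linarith
  rcases le_total 0 ψ with h | h
  · obtain ⟨k, h0, h1, h2⟩ := key ψ h
    refine ⟨-k, ?_, ?_⟩
    · rw [abs_neg, abs_of_nonneg h0, abs_of_nonneg h]; exact h1
    · push_cast
      rw [neg_neg, abs_of_nonneg (by linarith)]; exact h2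
  · obtain ⟨k, h0, h1, h2⟩ := key (-ψ) (by linarith)
    refine ⟨k, ?_, ?_⟩
    · rw [abs_of_nonneg h0, abs_of_nonpos h]; exact h1
    · rw [abs_of_nonpos (by linarith)]; linarith

theorem le_of_grid {R R' : ℂ} {D V V' B ε : ℝ} (hD : 0 ≤ D) (hB : 0 ≤ B) (hV : V = 4 * B ^ 2)
    (hVV : V' ≤ 9 / 8 * V) (h : ‖R'‖ ^ 2 ≤ 16 * (2 * D ^ 2 * V')) (hR : ‖R - R'‖ ≤ ε / 8)
    (hε : ε ≤ 8 * (D * B)) : ‖R‖ ≤ 16 * (D * B) := by
  have h1 : ‖R'‖ ^ 2 ≤ (12 * (D * B)) ^ 2 := by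
    refine h.trans ?_
    have : 2 * D ^ 2 * V' ≤ 2 * D ^ 2 * (9 / 8 * V) := by gcongr
    rw [hV] at this
    nlinarith
  have h2 : ‖R'‖ ≤ 12 * (D * B) := (pow_le_pow_iff_left₀ (norm_nonneg _) (by positivity) two_ne_zero).1 h1
  have h3 := norm_sub_norm_le R R'
  have h4 : 0 ≤ D * B := by positivity
  linarith

theorem prod_le {B B' ν ε : ℝ} {x x' z z' : ℂ} (hB : 0 < B) (hB' : 0 < B') (hν0 : 0 < ν)
    (hν1 : ν ≤ 1) (hε : 0 < ε) (hε1 : ε ≤ 1 / 2) (d1 : ν ^ 2 + ‖x‖ ^ 2 + 3 * ε = 4 * B ^ 2)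
    (d2 : ν ^ 2 + ‖x'‖ ^ 2 + 3 * ε = 4 * B' ^ 2) (hx : ‖x‖ ≤ 1) (hx' : ‖x'‖ ≤ 1)
    (c2 : ‖x‖ ^ 2 + 3 * ε ≤ 9 / 8 * (‖z‖ ^ 2 + 3 * ε))
    (c1 : ‖x'‖ ^ 2 + 3 * ε ≤ 9 / 8 * (‖z'‖ ^ 2 + 3 * ε))
    (h9 : (‖z'‖ ^ 2 + 3 * ε) * (‖z‖ ^ 2 + 3 * ε) ≤ 20 * ν ^ 2) : B * B' ≤ 2 * ν := by
  have c3 : (‖x'‖ ^ 2 + 3 * ε) * (‖x‖ ^ 2 + 3 * ε) ≤ 81 / 64 * (20 * ν ^ 2) :=
    calc _ ≤ (9 / 8 * (‖z'‖ ^ 2 + 3 * ε)) * (9 / 8 * (‖z‖ ^ 2 + 3 * ε)) := by gcongr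
      _ = 81 / 64 * ((‖z'‖ ^ 2 + 3 * ε) * (‖z‖ ^ 2 + 3 * ε)) := by ring
      _ ≤ _ := by gcongr
  have d3 : ‖x‖ ^ 2 ≤ 1 := pow_le_one₀ (norm_nonneg _) hx
  have d4 : ‖x'‖ ^ 2 ≤ 1 := pow_le_one₀ (norm_nonneg _) hx'
  have d5 : ν ^ 2 ≤ 1 := pow_le_one₀ hν0.le hν1
  generalize ‖x‖ ^ 2 = A at *
  generalize ‖x'‖ ^ 2 = A' at *
  have d6 : (B * B') ^ 2 ≤ (2 * ν) ^ 2 := by
    have e : 16 * (B * B') ^ 2 = (ν ^ 2 + A + 3 * ε) * (ν ^ 2 + A' + 3 * ε) := by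
      rw [d1, d2]; ring
    have e' : (ν ^ 2 + A + 3 * ε) * (ν ^ 2 + A' + 3 * ε) =
        ν ^ 2 * (ν ^ 2 + A + A' + 6 * ε) + (A' + 3 * ε) * (A + 3 * ε) := by ring
    have e'' : ν ^ 2 * (ν ^ 2 + A + A' + 6 * ε) ≤ ν ^ 2 * 6 :=
      mul_le_mul_of_nonneg_left (by linarith) (sq_nonneg _)
    have e3 : (2 * ν) ^ 2 = 4 * ν ^ 2 := by ring
    linarith [sq_nonneg ν]
  exact (pow_le_pow_iff_left₀ (mul_pos hB hB').le (by positivity) two_ne_zero).1 d6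

set_option maxHeartbeats 1000000 in
theorem core (hPJ : PJStmt) {g : ℕ} {a : ℕ → ℂ} {α R : ℝ → ℂ} {ah : ℤ → ℂ} {e2 : ℤ → ℝ}
    {J η K : ℕ} {ε ϑ y φ X S : ℝ} (hϑ : 0 < ϑ) (hε : 0 < ε) (hε1 : ε ≤ 1 / 2) (hη : 0 < η)
    (hK : K * η = J) (hαc : Continuous α) (hα1 : ∀ ψ, ‖α ψ‖ ≤ 1)
    (hαL : ∀ ψ ψ', |ψ - ψ'| ≤ ϑ → ‖α ψ - α ψ'‖ ≤ ε / 8)
    (hRe : ∀ ψ : ℝ, R ψ = ∑ u ∈ range g, a u * Complex.exp (ψ * Complex.I) ^ u)
    (hR1 : ∀ ψ, ‖R ψ‖ ≤ 1) (hRL : ∀ ψ ψ', |ψ - ψ'| ≤ ϑ → ‖R ψ - R ψ'‖ ≤ ε / 8)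
    (hPR : PRGood J η K ε (fun θ => α (-θ * ϑ)) ah e2)
    (hR : ∀ θ : ℤ, |θ| ≤ J → ‖R (-θ * ϑ)‖ ^ 2 ≤ 16 * e2 θ)
    (hy0 : 0 < y) (hy1 : y ≤ 1 / 1024) (hφ : |φ| ≤ X * y) (hX0 : 0 ≤ X) (hX6 : X ≤ 6)
    (hS0 : 0 ≤ S) (hS4 : S ≤ 4) (hΘ1 : 200 * y ≤ J * ϑ) (hΘ2 : J * ϑ ≤ 1) :
    ∃ ν : ℝ, 0 < ν ∧ ν ≤ 1 ∧ ε ≤ ν ^ 2 ∧
      ‖∑ u ∈ range g, a u * ((1 - y) * Complex.exp (φ * Complex.I)) ^ u‖ ≤
        16 * Real.exp ((1 - y) * (mu S X * Real.log (min 1 (16 * (K + 1) ^ 2 * ε / ν ^ 2)) +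
          (om S - 1 / 250) / 2 * Real.log (min 1 (2 * ν)))) := by
  have hη' : (0 : ℝ) < η := by exact_mod_cast hη
  have hJ : (J : ℝ) = K * η := by exact_mod_cast hK.symm
  have hηϑ : 0 < η * ϑ := by positivity
  have hSy : 0 ≤ S * y := by positivity
  have hSΘ : S * y ≤ J * ϑ := by nlinarith
  have hkS : ⌊S * y / (η * ϑ)⌋₊ ≤ K := by
    apply Nat.floor_le_of_le
    rw [div_le_iff₀ hηϑ]
    rw [hJ] at hSΘ
    linarith
  obtain ⟨ν, hν0, hν1, hεν, k, hk, h1, h2⟩ := hPR.2 _ hkS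
  refine ⟨ν, hν0, hν1, hεν, ?_⟩
  obtain ⟨D, hD⟩ : ∃ D : ℝ, D = 16 * (K + 1) ^ 2 * ε / ν ^ 2 := ⟨_, rfl⟩
  rw [← hD] at h1 ⊢
  have hD0 : 0 < D := by rw [hD]; positivity
  have hDν : ε ≤ D * ν := by
    have e : D * ν = 16 * (K + 1) ^ 2 * ε / ν := by rw [hD]; field_simp
    rw [e, le_div_iff₀ hν0]
    have : (1 : ℝ) ≤ (K + 1) ^ 2 := one_le_pow₀ (by have : (0 : ℝ) ≤ K := Nat.cast_nonneg _; linarith)
    nlinarith
  obtain ⟨B, hBc, hBsq, hB0⟩ : ∃ B : ℝ → ℝ, Continuous B ∧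
      (∀ ψ, ν ^ 2 + ‖α ψ‖ ^ 2 + 3 * ε = 4 * B ψ ^ 2) ∧ ∀ ψ, 0 < B ψ := by
    refine ⟨fun ψ => √(ν ^ 2 + ‖α ψ‖ ^ 2 + 3 * ε) / 2, by fun_prop, fun ψ => ?_,
      fun ψ => by positivity⟩
    simp only [div_pow]
    rw [Real.sq_sqrt (by positivity)]; ring
  have hB1 : ∀ ψ, B ψ ≤ 1 := fun ψ => by
    have h3 := hBsq ψ
    have h4 : ‖α ψ‖ ^ 2 ≤ 1 := pow_le_one₀ (norm_nonneg _) (hα1 ψ)
    have h5 : ν ^ 2 ≤ 1 := pow_le_one₀ hν0.le hν1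
    nlinarith [hB0 ψ]
  have hBν : ∀ ψ, ν ≤ 2 * B ψ := fun ψ => by
    have h3 := hBsq ψ
    have h4 := hB0 ψ
    by_contra h
    nlinarith [sq_nonneg ‖α ψ‖]
  have hεν' : ε ≤ ν := hεν.trans (by nlinarith)
  have hcast : ∀ θ : ℤ, ∀ T : ℝ, (|θ| : ℤ) * ϑ ≤ T → T ≤ J * ϑ → |θ| ≤ J := by
    intro θ T h3 h4
    have : ((|θ| : ℤ) : ℝ) ≤ J := le_of_mul_le_mul_right (h3.trans h4) hϑ
    exact_mod_cast this
  have hdiv : ∀ z : ℂ, ∑ u ∈ range g, a u / 16 * z ^ u = (∑ u ∈ range g, a u * z ^ u) / 16 := by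
    intro z
    rw [Finset.sum_div]
    exact Finset.sum_congr rfl fun u _ => by ring
  have hnorm : ∀ ψ : ℝ, ‖∑ u ∈ range g, a u / 16 * Complex.exp (ψ * Complex.I) ^ u‖ =
      ‖R ψ‖ / 16 := by
    intro ψ
    rw [hdiv, ← hRe, norm_div]; simp
  have b1 : ∀ ψ, |ψ| ≤ J * ϑ → ‖R ψ‖ ≤ 16 * (1 * B ψ) := by
    intro ψ hψ
    obtain ⟨θ, h3, h4⟩ := grid hϑ ψ
    have hθ := hcast θ _ h3 hψ
    have h5 := sq_cmp (hα1 _) (hα1 _) (hαL (-θ * ϑ) ψ (by rwa [abs_sub_comm]))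
    refine le_of_grid (V' := ‖α (-θ * ϑ)‖ ^ 2 + 3 * ε) zero_le_one (hB0 ψ).le (hBsq ψ) ?_ ?_
      (hRL _ _ h4) ?_
    · nlinarith [sq_nonneg ν]
    · have := (hPR.1 θ hθ).2.2
      have := hR θ hθ
      linarith
    · linarith [hBν ψ, hB0 ψ]
  have b2 : ∀ ψ, |ψ| ≤ S * y → ‖R ψ‖ ≤ 16 * (D * B ψ) := by
    intro ψ hψ
    obtain ⟨θ, h3, h4⟩ := grid hϑ ψ
    have hθ := hcast θ _ h3 (hψ.trans hSΘ)
    have hθ' : |θ| < ((⌊S * y / (η * ϑ)⌋₊ : ℕ) + 1 : ℤ) * η := by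
      have h6 := Nat.lt_floor_add_one (S * y / (η * ϑ))
      rw [div_lt_iff₀ hηϑ] at h6
      have h7 : ((|θ| : ℤ) : ℝ) * ϑ < ((⌊S * y / (η * ϑ)⌋₊ : ℝ) + 1) * η * ϑ := by linarith
      have h8 := lt_of_mul_lt_mul_right h7 hϑ.le
      exact_mod_cast h8
    have h5 := sq_cmp (hα1 _) (hα1 _) (hαL (-θ * ϑ) ψ (by rwa [abs_sub_comm]))
    refine le_of_grid (V' := ν ^ 2 + ‖α (-θ * ϑ)‖ ^ 2 + 3 * ε) hD0.le (hB0 ψ).le (hBsq ψ) ?_ ?_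
      (hRL _ _ h4) ?_
    · nlinarith [sq_nonneg ν]
    · have := h1 θ hθ hθ'
      have := hR θ hθ
      linarith
    · have : D * ν ≤ D * (2 * B ψ) := mul_le_mul_of_nonneg_left (hBν ψ) hD0.le
      nlinarith [mul_pos hD0 (hB0 ψ)]
  have b3 : ∀ ψ, k * η * ϑ - J * ϑ ≤ ψ → ψ ≤ J * ϑ → B ψ * B (ψ - k * η * ϑ) ≤ 2 * ν := by
    intro ψ h3 h4
    obtain ⟨θ, hθ⟩ : ∃ θ : ℤ, θ = ⌊(k * η * ϑ - ψ) / ϑ⌋ := ⟨_, rfl⟩
    have h5 : (θ : ℝ) * ϑ ≤ k * η * ϑ - ψ := by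
      rw [← le_div_iff₀ hϑ, hθ]; exact Int.floor_le _
    have h6 : k * η * ϑ - ψ < (θ + 1) * ϑ := by
      rw [← div_lt_iff₀ hϑ, hθ]; exact Int.lt_floor_add_one _
    have h7 : (k * η : ℤ) - J ≤ θ := by
      rw [hθ, Int.le_floor, le_div_iff₀ hϑ]
      push_cast; linarith
    have h8 : θ ≤ J := by
      have : (θ : ℝ) ≤ J := le_of_mul_le_mul_right (by linarith) hϑ
      exact_mod_cast this
    have h9 := h2 θ h7 h8
    have c1 := sq_cmp (hα1 _) (hα1 _) (hαL (ψ - k * η * ϑ) (-θ * ϑ) (by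
      rw [abs_le]; constructor <;> linarith))
    have c2 := sq_cmp (hα1 _) (hα1 _) (hαL ψ (-((θ - k * η : ℤ) : ℝ) * ϑ) (by
      push_cast; rw [abs_le]; constructor <;> linarith))
    exact prod_le (hB0 _) (hB0 _) hν0 hν1 hε hε1 (hBsq _) (hBsq _) (hα1 _) (hα1 _) c2 c1 h9
  have hks : (k : ℝ) * η * ϑ ≤ S * y := by
    have h3 : (k : ℝ) ≤ S * y / (η * ϑ) :=
      le_trans (by exact_mod_cast hk) (Nat.floor_le (by positivity))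
    rw [le_div_iff₀ hηϑ] at h3
    linarith
  have hmain := hPJ g (fun u => a u / 16) y φ X S (k * η * ϑ) (J * ϑ) (min 1 D) (min 1 (2 * ν)) B
    hy0 hy1 hφ hX0 hX6 hS0 hS4 (by positivity) hks hΘ1 hΘ2 hBc
    (fun ψ => ⟨hB0 ψ, hB1 ψ⟩) (lt_min one_pos hD0) (min_le_left _ _)
    (lt_min one_pos (by positivity)) (min_le_left _ _)
    (fun ψ => by rw [hnorm]; linarith [hR1 ψ])
    (fun ψ hψ => by rw [hnorm]; linarith [b1 ψ hψ])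
    (fun ψ hψ => by
      rw [hnorm]
      rcases le_total 1 D with h | h
      · rw [min_eq_left h]; linarith [b1 ψ (hψ.trans hSΘ)]
      · rw [min_eq_right h]; linarith [b2 ψ hψ])
    (fun ψ h3 h4 => le_min (mul_le_one₀ (hB1 _) (hB0 _).le (hB1 _)) (b3 ψ h3 h4))
  rw [hdiv, norm_div] at hmain
  simp only [Complex.norm_ofNat] at hmain
  linarith

theorem expo {c μ o ν ε E y : ℝ} {K : ℕ} (hc : 1 / 400 < c) (hc' : c ≤ 7 / 40) (hμ : c ≤ μ)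
    (ho : c ≤ o / 4) (hν0 : 0 < ν) (hε : ε = Real.exp (-(E * Real.log 2)))
    (hεν : ε ≤ ν ^ 2) (hE : 65536 ≤ E) (hκ : Real.log (K + 1) ≤ E * Real.log 2 / 16384)
    (hy0 : 0 < y) (hy1 : y ≤ 1 / 1024) :
    16 * Real.exp ((1 - y) * (μ * Real.log (min 1 (16 * (K + 1) ^ 2 * ε / ν ^ 2)) +
      (o - 1 / 250) / 2 * Real.log (min 1 (2 * ν)))) ≤ 2 ^ (-(E * (c - 1 / 400))) := by
  have hl2 : 0 < Real.log 2 := Real.log_pos (by norm_num)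
  have hε0 : 0 < ε := by rw [hε]; exact Real.exp_pos _
  have h16 : Real.log 16 = 4 * Real.log 2 := by
    rw [show (16 : ℝ) = 2 ^ 4 by norm_num, Real.log_pow]; norm_num
  have hD0 : 0 < 16 * ((K : ℝ) + 1) ^ 2 * ε / ν ^ 2 := by positivity
  have l1 : Real.log (min 1 (16 * (K + 1) ^ 2 * ε / ν ^ 2)) ≤ 0 :=
    Real.log_nonpos (lt_min one_pos hD0).le (min_le_left _ _)
  have l2 : Real.log (min 1 (16 * (K + 1) ^ 2 * ε / ν ^ 2)) ≤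
      4 * Real.log 2 + 2 * Real.log (K + 1) - E * Real.log 2 - 2 * Real.log ν := by
    refine (Real.log_le_log (lt_min one_pos hD0) (min_le_right _ _)).trans (le_of_eq ?_)
    rw [Real.log_div (by positivity) (by positivity), Real.log_mul (by positivity) hε0.ne',
      Real.log_mul (by norm_num) (by positivity), Real.log_pow, Real.log_pow, h16, hε, Real.log_exp]
    push_cast; ring
  have l3 : Real.log (min 1 (2 * ν)) ≤ 0 :=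
    Real.log_nonpos (lt_min one_pos (by positivity)).le (min_le_left _ _)
  have l4 : Real.log (min 1 (2 * ν)) ≤ Real.log 2 + Real.log ν := by
    rw [← Real.log_mul (by norm_num) hν0.ne']
    exact Real.log_le_log (lt_min one_pos (by positivity)) (min_le_right _ _)
  have l5 : -(E * Real.log 2) ≤ 2 * Real.log ν := by
    have := Real.log_le_log hε0 hεν
    rw [hε, Real.log_exp, Real.log_pow] at this
    exact_mod_cast this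
  have l6 : 0 ≤ Real.log (K + 1) :=
    Real.log_nonneg (by have : (0 : ℝ) ≤ K := Nat.cast_nonneg _; linarith)
  have l7 : 65536 * Real.log 2 ≤ E * Real.log 2 := by gcongr
  have h16' : ∀ T : ℝ, 16 * Real.exp T = Real.exp (4 * Real.log 2 + T) := by
    intro T
    rw [Real.exp_add, ← h16, Real.exp_log (by norm_num)]
  rw [Real.rpow_def_of_pos (by norm_num : (0 : ℝ) < 2), h16']
  apply Real.exp_le_exp.2
  have e : Real.log 2 * -(E * (c - 1 / 400)) = -(c * (E * Real.log 2)) + E * Real.log 2 / 400 := by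
    ring
  rw [e]
  generalize Real.log (min 1 (16 * ((K : ℝ) + 1) ^ 2 * ε / ν ^ 2)) = A at *
  generalize Real.log (min 1 (2 * ν)) = A' at *
  generalize Real.log ν = n at *
  generalize Real.log ((K : ℝ) + 1) = κ' at *
  generalize E * Real.log 2 = Λ at *
  generalize Real.log 2 = l at *
  have m1 : μ * A ≤ c * (4 * l + 2 * κ' - Λ - 2 * n) :=
    (mul_le_mul_of_nonpos_right hμ l1).trans (mul_le_mul_of_nonneg_left l2 (by linarith))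
  have m2 : (o - 1 / 250) / 2 * A' ≤ (2 * c - 1 / 500) * (l + n) :=
    (mul_le_mul_of_nonpos_right (by linarith) l3).trans
      (mul_le_mul_of_nonneg_left l4 (by linarith))
  have m3 : c * (6 * l + 2 * κ') ≤ 7 / 40 * (6 * l + 2 * κ') := by gcongr
  have m4 : μ * A + (o - 1 / 250) / 2 * A' ≤
      -(c * Λ) + (Λ / 1000 + 7 / 40 * (6 * l + 2 * κ')) := by nlinarith
  have m5 : (1 - y) * (μ * A + (o - 1 / 250) / 2 * A') ≤
      (1 - y) * (-(c * Λ) + (Λ / 1000 + 7 / 40 * (6 * l + 2 * κ'))) :=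
    mul_le_mul_of_nonneg_left m4 (by linarith)
  have m6 : y * (c * Λ) ≤ 1 / 1024 * (7 / 40 * Λ) := by
    have : 0 ≤ Λ := by linarith
    gcongr
  have m7 : 0 ≤ y * (Λ / 1000 + 7 / 40 * (6 * l + 2 * κ')) := by
    have : 0 ≤ Λ := by linarith
    positivity
  nlinarith

theorem par {P : LP} (h : P.OK) : 2 * (P.G + 1) ≤ 2 ^ (P.E / 64) ∧ 16 * P.G ≤ 2 ^ P.E ∧
    P.K + 1 ≤ P.G ∧ 65536 ≤ P.E ∧ 0 < P.η := by
  have hE : 65536 ≤ P.E := le_trans (by omega) h.hE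
  obtain ⟨m, hm⟩ := h.hdvd
  have hG : P.G ≤ 2 ^ (4 * m) := by
    have h1 := h.hGE
    have e : (P.E : ℝ) / 16384 = ((4 * m : ℕ) : ℝ) := by rw [hm]; push_cast; ring
    rw [e, Real.rpow_natCast] at h1
    exact_mod_cast h1
  have hpos : 0 < 2 ^ (4 * m) := by positivity
  have h1 : 2 ^ (4 * m + 4) ≤ 2 ^ (P.E / 64) := Nat.pow_le_pow_right (by norm_num) (by omega)
  have h2 : 2 ^ (P.E / 64) ≤ 2 ^ P.E := Nat.pow_le_pow_right (by norm_num) (by omega)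
  have h3 : 2 ^ (4 * m + 4) = 16 * 2 ^ (4 * m) := by rw [pow_add]; ring
  have hη : 0 < P.η := by
    refine Nat.pos_of_ne_zero fun h0 => ?_
    have := h.hη
    rw [h0, zero_mul] at this
    exact absurd this (by positivity)
  refine ⟨by omega, by omega, ?_, hE, hη⟩
  have h4 : P.K * 2 ^ P.r * 2 ^ (2 * P.E) = 2 ^ (P.r' + 12) * 2 ^ (2 * P.E) := by
    calc P.K * 2 ^ P.r * 2 ^ (2 * P.E) = P.K * 2 ^ P.r * (P.η * 2 ^ (P.r' + 5)) := by rw [h.hη]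
      _ = (P.K * P.η) * 2 ^ P.r * 2 ^ (P.r' + 5) := by ring
      _ = 2 ^ (2 * P.E + 7) * 2 ^ (P.r' + 5) := by rw [h.hK, h.hJ]
      _ = _ := by rw [← pow_add, ← pow_add]; congr 1; omega
  have h5 : P.K * 2 ^ P.r = 2 ^ (P.r' + 12) := Nat.eq_of_mul_eq_mul_right (by positivity) h4
  have h6 : 2 ^ 12 ≤ 2 ^ P.r := Nat.pow_le_pow_right (by norm_num) (le_trans (by norm_num) h.hr)
  have h7 : P.K * 2 ^ 12 ≤ 2 ^ P.r' * 2 ^ 12 := by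
    rw [← pow_add, ← h5]; exact Nat.mul_le_mul_left _ h6
  have h8 : P.K ≤ 2 ^ P.r' := Nat.le_of_mul_le_mul_right h7 (by norm_num)
  have h9 : 0 < 2 ^ P.r' := by positivity
  rw [h.hG, pow_add]
  nlinarith

end Ext1

open Ext1 in
theorem ext1_proof (hPJ : PJStmt) (hNum : NumStmt) (hOm : OmStmt) : Ext1Stmt := by
  intro P co d ah e2 y φ X hP hco hd hPR hR hy0 hy1 hφ hX0 hX6
  obtain ⟨p1, p2, p3, p4, p5⟩ := par hP
  obtain ⟨hω, hth1, hth2⟩ := hOm.1 (2 * P.E)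
  have hω' : (P.ω : ℂ) = Complex.exp (P.θ * Complex.I) := hω
  have hth1' : 2 / 2 ^ (2 * P.E) * (1 - 1 / 4 ^ (2 * P.E)) ≤ P.θ := hth1
  have hth2' : P.θ ≤ 2 / 2 ^ (2 * P.E) := hth2
  have h4 : (1 : ℝ) / 4 ^ (2 * P.E) ≤ 1 / 16 := by
    apply one_div_le_one_div_of_le (by norm_num)
    calc (16 : ℝ) = 4 ^ 2 := by norm_num
      _ ≤ 4 ^ (2 * P.E) := pow_le_pow_right₀ (by norm_num) (by omega)
  have hθlow : 15 / 8 / 2 ^ (2 * P.E) ≤ P.θ := by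
    refine le_trans ?_ hth1'
    have : (15 : ℝ) / 8 / 2 ^ (2 * P.E) = 2 / 2 ^ (2 * P.E) * (15 / 16) := by ring
    rw [this]
    gcongr
    linarith
  have hϑ : 0 < P.θ := lt_of_lt_of_le (by positivity) hθlow
  have hr2 : (1024 : ℝ) ≤ 2 ^ P.r := by
    calc (1024 : ℝ) = 2 ^ 10 := by norm_num
      _ ≤ 2 ^ P.r := pow_le_pow_right₀ (by norm_num) (le_trans (by norm_num) hP.hr)
  have hy0' : 0 < y := lt_of_lt_of_le (by positivity) hy0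
  have hy1' : y ≤ 1 / 1024 := hy1.trans (one_div_le_one_div_of_le (by norm_num) hr2)
  have hJ : (P.J : ℝ) = 128 * 2 ^ (2 * P.E) / 2 ^ P.r := by
    rw [eq_div_iff (by positivity)]
    have : ((P.J * 2 ^ P.r : ℕ) : ℝ) = ((2 ^ (2 * P.E + 7) : ℕ) : ℝ) := by rw [hP.hJ]
    push_cast at this
    rw [this, pow_add]; ring
  have hΘ1 : 200 * y ≤ P.J * P.θ := by
    calc 200 * y ≤ 240 * (1 / 2 ^ P.r) := by linarith
      _ = P.J * (15 / 8 / 2 ^ (2 * P.E)) := by rw [hJ]; field_simp; norm_num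
      _ ≤ P.J * P.θ := by gcongr
  have hΘ2 : P.J * P.θ ≤ 1 := by
    calc P.J * P.θ ≤ P.J * (2 / 2 ^ (2 * P.E)) := by gcongr
      _ = 256 / 2 ^ P.r := by rw [hJ]; field_simp; norm_num
      _ ≤ 1 := by rw [div_le_one (by positivity)]; linarith
  have hGθ : (P.G : ℝ) * P.θ ≤ 1 / 2 ^ P.E / 8 := by
    have h1 : (16 : ℝ) * P.G ≤ 2 ^ P.E := by exact_mod_cast p2
    calc (P.G : ℝ) * P.θ ≤ (2 ^ P.E / 16) * (2 / 2 ^ (2 * P.E)) := by gcongr; linarith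
      _ = _ := by rw [two_mul, pow_add]; field_simp; norm_num
  -- coefficients of the error polynomial
  let a : ℕ → ℂ := fun u => (P.Wr u : ℂ) * d u / 2 ^ (P.E / 64)
  have hvr : (0 : ℝ) ≤ P.vr ∧ (P.vr : ℝ) ≤ 1 := by
    unfold LP.vr
    push_cast
    have h1 : (0 : ℝ) < 1 / 2 ^ (P.r' + 2) := by positivity
    have h2 : (1 : ℝ) / 2 ^ (P.r' + 2) ≤ 1 := by
      rw [div_le_one (by positivity)]; exact one_le_pow₀ (by norm_num)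
    constructor <;> linarith
  have ha : ∑ u ∈ range (P.G + 1), ‖a u‖ ≤ 1 := by
    have h1 : ∑ u ∈ range (P.G + 1), ‖d u‖ ≤ 2 * (P.G + 1) := by
      have h2 := sq_sum_le_card_mul_sum_sq (s := range (P.G + 1)) (f := fun u => ‖d u‖)
      rw [card_range] at h2
      push_cast at h2
      refine (pow_le_pow_iff_left₀ (Finset.sum_nonneg fun _ _ => norm_nonneg _) (by positivity)
        two_ne_zero).1 (h2.trans ?_)
      calc ((P.G : ℝ) + 1) * ∑ u ∈ range (P.G + 1), ‖d u‖ ^ 2 ≤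
          (P.G + 1) * (4 * (P.G + 1)) := by gcongr
        _ = _ := by ring
    have h3 : (2 : ℝ) * (P.G + 1) ≤ 2 ^ (P.E / 64) := by exact_mod_cast p1
    calc ∑ u ∈ range (P.G + 1), ‖a u‖ ≤ ∑ u ∈ range (P.G + 1), ‖d u‖ / 2 ^ (P.E / 64) := by
          refine Finset.sum_le_sum fun u _ => ?_
          obtain ⟨-, w0, w1, -⟩ := hOm.2.1 P u
          have w2 : P.Wr u ≤ 1 := by
            refine w1.trans ?_
            rw [zpow_natCast]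
            exact pow_le_one₀ hvr.1 hvr.2
          simp only [a, norm_div, norm_mul, norm_pow, Complex.norm_ofNat, Complex.norm_real,
            Real.norm_eq_abs, abs_of_nonneg w0]
          gcongr
          exact mul_le_of_le_one_left (norm_nonneg _) w2
      _ = (∑ u ∈ range (P.G + 1), ‖d u‖) / 2 ^ (P.E / 64) := by rw [Finset.sum_div]
      _ ≤ 1 := by rw [div_le_one (by positivity)]; linarith
  have hRz : ∀ z, Rz P d z = ∑ u ∈ range (P.G + 1), a u * z ^ u := fun z => rfl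
  by_cases hc : 7 / 40 - X ^ 2 / 160 ≤ 1 / 400
  · refine le_trans (b := 1) ?_ (Real.one_le_rpow (by norm_num) ?_)
    · rw [hRz]
      refine (norm_sum_le _ _).trans (le_trans (Finset.sum_le_sum fun u _ => ?_) ha)
      rw [norm_mul, norm_pow, norm_mul, Complex.norm_exp_ofReal_mul_I, mul_one]
      refine mul_le_of_le_one_right (norm_nonneg _) (pow_le_one₀ (norm_nonneg _) ?_)
      have e : (1 : ℂ) - y = ((1 - y : ℝ) : ℂ) := by push_cast; ring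
      rw [e, Complex.norm_real, Real.norm_eq_abs, abs_of_nonneg (by linarith)]
      linarith
    · have : (0 : ℝ) ≤ P.E := Nat.cast_nonneg _
      nlinarith
  push Not at hc
  obtain ⟨S, hS0, hS4, hμ, ho⟩ := hNum X hX0 hX6
  have hRe : ∀ ψ : ℝ, TS (range (P.G + 1)) a (fun u => u) ψ =
      ∑ u ∈ range (P.G + 1), a u * Complex.exp (ψ * Complex.I) ^ u := by
    intro ψ
    refine Finset.sum_congr rfl fun u _ => ?_
    rw [← Complex.exp_nat_mul]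
    congr 2
    push_cast; ring
  have hG0 : (0 : ℝ) ≤ P.G := Nat.cast_nonneg _
  have hlip : ∀ ψ ψ' : ℝ, |ψ - ψ'| ≤ P.θ → (P.G : ℝ) * |ψ - ψ'| ≤ 1 / 2 ^ P.E / 8 :=
    fun ψ ψ' h => le_trans (by gcongr) hGθ
  obtain ⟨ν, hν0, hν1, hεν, hmain⟩ := core hPJ (g := P.G + 1) (a := a)
    (α := TS (range (2 * P.G + 1)) co (fun i => (i : ℝ) - P.G))
    (R := TS (range (P.G + 1)) a (fun u => u)) (ah := ah) (e2 := e2) (J := P.J) (η := P.η)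
    (K := P.K) (ε := 1 / 2 ^ P.E) (ϑ := P.θ) (y := y) (φ := φ) (X := X) (S := S) hϑ (by positivity)
    (one_div_le_one_div_of_le (by norm_num) (by
      calc (2 : ℝ) = 2 ^ 1 := by norm_num
        _ ≤ 2 ^ P.E := pow_le_pow_right₀ (by norm_num) (by omega)))
    p5 hP.hK (TS_cont _ _ _) (TS_le _ hco)
    (fun ψ ψ' h => (TS_lip hco hG0 (fun i hi => by
      have : (i : ℝ) ≤ 2 * P.G := by exact_mod_cast Nat.lt_succ_iff.1 (mem_range.1 hi)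
      have : (0 : ℝ) ≤ i := Nat.cast_nonneg _
      rw [abs_le]; constructor <;> linarith) ψ ψ').trans (hlip ψ ψ' h))
    hRe (TS_le _ ha)
    (fun ψ ψ' h => (TS_lip ha hG0 (fun i hi => by
      have : (i : ℝ) ≤ P.G := by exact_mod_cast Nat.lt_succ_iff.1 (mem_range.1 hi)
      rw [abs_of_nonneg (Nat.cast_nonneg _)]; exact this) ψ ψ').trans (hlip ψ ψ' h))
    (by
      convert hPR using 2 with θ
      refine Finset.sum_congr rfl fun i _ => ?_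
      rw [hω', ← Complex.exp_int_mul]
      congr 2
      push_cast; ring)
    (fun θ hθ => by
      have := hR θ hθ
      rw [hRz, hω', ← Complex.exp_int_mul] at this
      rw [hRe]
      convert this using 6
      push_cast; ring)
    hy0' hy1' hφ hX0 hX6 hS0 hS4 hΘ1 hΘ2
  rw [hRz]
  refine hmain.trans (expo hc (by nlinarith [sq_nonneg X]) hμ ho hν0 ?_ hεν
    (by exact_mod_cast p4) ?_ hy0' hy1')
  · rw [Real.exp_neg, Real.exp_nat_mul, Real.exp_log (by norm_num), one_div]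
  · have h1 : (P.K : ℝ) + 1 ≤ 2 ^ ((P.E : ℝ) / 16384) :=
      le_trans (by exact_mod_cast p3) hP.hGE
    have h2 := Real.log_le_log (by positivity) h1
    rw [Real.log_rpow (by norm_num)] at h2
    linarith

end Crest.Agent.R300U
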