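import Crest.Agent.R300U.H8Aux

/-! Row 300, upper bound, task EXT2: removing the window. -/

set_option autoImplicit false

namespace Crest.Agent.R300U

open Finset H8

namespace Ext2

theorem ext_ind (n : ℕ) (w : ℕ → ℂ) (α T ε : ℝ) (hα : 0 ≤ α)
    (h : ∀ t : ℝ, |t| ≤ T → ‖∑ u ∈ range n, w u * Complex.exp (t * u * Complex.I)‖ ≤ ε) :
    ∀ (j : ℕ) (t : ℝ), |t| + j * α ≤ T →
      ‖∑ u ∈ range n, w u * (((1 - Real.cos (α * u)) / 2 : ℝ) : ℂ) ^ j *
        Complex.exp (t * u * Complex.I)‖ ≤ ε := by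
  intro j
  induction j with
  | zero => intro t ht; simpa using h t (by simpa using ht)
  | succ j ih =>
    intro t ht
    push_cast at ht
    have a1 : |t + α| ≤ |t| + α := (abs_add_le _ _).trans (by rw [abs_of_nonneg hα])
    have a2 : |t - α| ≤ |t| + α := (abs_sub _ _).trans (by rw [abs_of_nonneg hα])
    have h0 := ih t (by linarith)
    have h1 := ih (t + α) (by linarith)
    have h2 := ih (t - α) (by linarith)
    have e : ∑ u ∈ range n, w u * (((1 - Real.cos (α * u)) / 2 : ℝ) : ℂ) ^ (j + 1) *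
        Complex.exp (t * u * Complex.I) =
        (1 / 2 : ℂ) * (∑ u ∈ range n, w u * (((1 - Real.cos (α * u)) / 2 : ℝ) : ℂ) ^ j *
          Complex.exp (t * u * Complex.I)) -
        (1 / 4 : ℂ) * (∑ u ∈ range n, w u * (((1 - Real.cos (α * u)) / 2 : ℝ) : ℂ) ^ j *
          Complex.exp ((t + α : ℝ) * u * Complex.I)) -
        (1 / 4 : ℂ) * (∑ u ∈ range n, w u * (((1 - Real.cos (α * u)) / 2 : ℝ) : ℂ) ^ j *
          Complex.exp ((t - α : ℝ) * u * Complex.I)) := by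
      rw [mul_sum, mul_sum, mul_sum, ← sum_sub_distrib, ← sum_sub_distrib]
      refine sum_congr rfl fun u _ => ?_
      have c1 : Complex.exp ((t + α : ℝ) * u * Complex.I) =
          Complex.exp (t * u * Complex.I) * Complex.exp ((α * u : ℝ) * Complex.I) := by
        rw [← Complex.exp_add]; congr 1; push_cast; ring
      have c2 : Complex.exp ((t - α : ℝ) * u * Complex.I) =
          Complex.exp (t * u * Complex.I) * Complex.exp (-(α * u : ℝ) * Complex.I) := by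
        rw [← Complex.exp_add]; congr 1; push_cast; ring
      have c3 : ((Real.cos (α * u) : ℝ) : ℂ) =
          (Complex.exp ((α * u : ℝ) * Complex.I) + Complex.exp (-(α * u : ℝ) * Complex.I)) / 2 := by
        rw [Complex.ofReal_cos, Complex.cos]
      have c4 : (((1 - Real.cos (α * u)) / 2 : ℝ) : ℂ) = (1 - ((Real.cos (α * u) : ℝ) : ℂ)) / 2 := by
        rw [Complex.ofReal_div, Complex.ofReal_sub]; simp
      rw [c1, c2, pow_succ]
      generalize (((1 - Real.cos (α * u)) / 2 : ℝ) : ℂ) ^ j = y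
      rw [c4, c3]
      ring
    rw [e]
    refine (norm_sub_le _ _).trans ?_
    refine (add_le_add_left (norm_sub_le _ _) _).trans ?_
    rw [norm_mul, norm_mul, norm_mul]
    norm_num
    push_cast at h0 h1 h2 ⊢
    linarith

/-- negative binomial coefficients. -/
def nb (k j : ℕ) : ℝ := ((j + k).choose k : ℝ)

theorem nb_nonneg (k j : ℕ) : 0 ≤ nb k j := Nat.cast_nonneg _

theorem nb_sum (k : ℕ) {S : ℝ} (h0 : 0 ≤ S) (h1 : S < 1) :
    HasSum (fun j => nb k j * S ^ j) (1 / (1 - S) ^ (k + 1)) :=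
  hasSum_choose_mul_geometric_of_norm_lt_one k (by rwa [Real.norm_eq_abs, abs_of_nonneg h0])

theorem nb_part_le (k J : ℕ) {S : ℝ} (h0 : 0 ≤ S) (h1 : S < 1) :
    ∑ j ∈ range J, nb k j * S ^ j ≤ 1 / (1 - S) ^ (k + 1) :=
  sum_le_hasSum _ (fun j _ => mul_nonneg (nb_nonneg k j) (pow_nonneg h0 j)) (nb_sum k h0 h1)

theorem nb_total (k J : ℕ) {x : ℝ} (h0 : 0 < x) (h1 : x < 1) :
    ∑ j ∈ range J, nb k j ≤ 1 / x ^ J * (1 / (1 - x) ^ (k + 1)) := by
  calc ∑ j ∈ range J, nb k j ≤ ∑ j ∈ range J, 1 / x ^ J * (nb k j * x ^ j) := by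
        refine sum_le_sum fun j hj => ?_
        have h2 : x ^ J ≤ x ^ j := pow_le_pow_of_le_one h0.le h1.le (mem_range.1 hj).le
        have h3 : 0 < x ^ J := by positivity
        rw [one_div, ← div_eq_inv_mul, le_div_iff₀ h3]
        exact mul_le_mul_of_nonneg_left h2 (nb_nonneg k j)
    _ ≤ _ := by
        rw [← mul_sum]
        exact mul_le_mul_of_nonneg_left (nb_part_le k J h0.le h1) (by positivity)

theorem rem_bounds (k J : ℕ) {S : ℝ} (h0 : 0 ≤ S) (h1 : S < 1) :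
    0 ≤ 1 - (1 - S) ^ (k + 1) * ∑ j ∈ range J, nb k j * S ^ j ∧
    1 - (1 - S) ^ (k + 1) * ∑ j ∈ range J, nb k j * S ^ j ≤ 1 := by
  have hp : 0 < (1 - S) ^ (k + 1) := pow_pos (by linarith) _
  have h2 := nb_part_le k J h0 h1
  rw [le_div_iff₀ hp] at h2
  have h3 : 0 ≤ ∑ j ∈ range J, nb k j * S ^ j :=
    sum_nonneg fun j _ => mul_nonneg (nb_nonneg k j) (pow_nonneg h0 j)
  constructor
  · linarith
  · have := mul_nonneg hp.le h3; linarith

theorem rem_le (k J : ℕ) {S q : ℝ} (h0 : 0 ≤ S) (h1 : S < q) (hq : q ≤ 1) :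
    1 - (1 - S) ^ (k + 1) * ∑ j ∈ range J, nb k j * S ^ j ≤ q ^ J * (1 / (1 - S / q) ^ (k + 1)) := by
  have hq0 : 0 < q := by linarith
  have hS1 : S < 1 := by linarith
  have hp : 0 < (1 - S) ^ (k + 1) := pow_pos (by linarith) _
  have hp1 : (1 - S) ^ (k + 1) ≤ 1 := pow_le_one₀ (by linarith) (by linarith)
  have s1 := (hasSum_nat_add_iff' J).2 (nb_sum k h0 hS1)
  have hd0 : 0 ≤ S / q := by positivity
  have hd1 : S / q < 1 := (div_lt_one hq0).2 h1
  have s2 := ((hasSum_nat_add_iff' J).2 (nb_sum k hd0 hd1)).mul_left (q ^ J)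
  have h2 := hasSum_le (fun j => by
    have e : nb k (j + J) * S ^ (j + J) = q ^ (j + J) * (nb k (j + J) * (S / q) ^ (j + J)) := by
      rw [div_pow]; field_simp
    have : q ^ (j + J) ≤ q ^ J := pow_le_pow_of_le_one hq0.le hq (by omega)
    rw [e]
    exact mul_le_mul_of_nonneg_right this (mul_nonneg (nb_nonneg _ _) (pow_nonneg hd0 _))) s1 s2
  have h3 : 0 ≤ ∑ j ∈ range J, nb k j * (S / q) ^ j :=
    sum_nonneg fun j _ => mul_nonneg (nb_nonneg k j) (pow_nonneg hd0 j)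
  have h4 := nb_part_le k J h0 hS1
  have h5 : 0 < q ^ J := by positivity
  have e : 1 - (1 - S) ^ (k + 1) * ∑ j ∈ range J, nb k j * S ^ j =
      (1 - S) ^ (k + 1) * (1 / (1 - S) ^ (k + 1) - ∑ j ∈ range J, nb k j * S ^ j) := by
    field_simp
  rw [e]
  calc _ ≤ 1 * (1 / (1 - S) ^ (k + 1) - ∑ j ∈ range J, nb k j * S ^ j) := by
        gcongr
    _ ≤ q ^ J * (1 / (1 - S / q) ^ (k + 1) - ∑ j ∈ range J, nb k j * (S / q) ^ j) := by
        rw [one_mul]; exact h2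
    _ ≤ _ := by gcongr; linarith

theorem inv_pow_le (M : ℕ) {x : ℝ} (h0 : 0 ≤ x) (h1 : x ≤ 1 / 2) :
    1 / (1 - x) ^ M ≤ (2 : ℝ) ^ (3 * x * M) := by
  have a1 : 1 / (1 - x) ≤ 1 + 2 * x := by
    rw [div_le_iff₀ (by linarith)]; nlinarith
  have a2 : 1 + 2 * x ≤ (2 : ℝ) ^ (3 * x) := by
    rw [Real.rpow_def_of_pos (by norm_num)]
    have := Real.add_one_le_exp (Real.log 2 * (3 * x))
    have := Real.log_two_gt_d9
    nlinarith
  rw [Real.rpow_mul (by norm_num), Real.rpow_natCast, ← one_div_pow]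
  exact pow_le_pow_left₀ (by apply div_nonneg <;> linarith) (a1.trans a2) M

theorem S_le (y : ℝ) : 0 ≤ (1 - Real.cos y) / 2 ∧ (1 - Real.cos y) / 2 ≤ y ^ 2 / 4 := by
  have := Real.one_sub_sq_div_two_le_cos (x := y)
  have := Real.cos_le_one y
  constructor <;> linarith

theorem rem_small {P : LP} (hOm : OmStmt) (hP : P.OK) (J k : ℕ) (hJ : P.E = 65536 * J)
    (hk : P.M = k + 1) (u : ℕ) (hu : u ≤ P.G) :
    ((1 - 1 / 2 ^ (P.r + 2) : ℝ) ^ 4) ^ u *
      |1 - (1 - (1 - Real.cos (P.a * P.θ * u)) / 2) ^ (k + 1) *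
        ∑ j ∈ range J, nb k j * ((1 - Real.cos (P.a * P.θ * u)) / 2) ^ j| ≤
      (2 : ℝ) ^ (-((P.E : ℝ) / 2)) := by
  obtain ⟨hα0, hα1, -⟩ := al_G hOm hP
  set α : ℝ := P.a * P.θ with hα
  obtain ⟨hS0, hS1⟩ := S_le (α * u)
  set S := (1 - Real.cos (α * u)) / 2 with hS
  have huG : (u : ℝ) ≤ P.G := by exact_mod_cast hu
  have hu0 : (0 : ℝ) ≤ u := Nat.cast_nonneg u
  have hαu : α * u ≤ 1 / 4 := le_trans (by gcongr) hα1
  have hαu0 : 0 ≤ α * u := by positivity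
  have hSlt : S < 1 := by nlinarith
  obtain ⟨r0, r1⟩ := rem_bounds k J hS0 hSlt
  rw [abs_of_nonneg r0]
  have hE := E_geR hP
  have hx0 : (0 : ℝ) < 1 / 2 ^ (P.r + 2) := by positivity
  have hx1 : (1 : ℝ) / 2 ^ (P.r + 2) ≤ 1 := by
    rw [div_le_one (by positivity)]; exact one_le_pow₀ (by norm_num)
  have hr0 : (0 : ℝ) < 2 ^ P.r := by positivity
  by_cases hc : (u : ℝ) ≤ 2 * P.E * 2 ^ P.r
  · obtain ⟨g, hg⟩ : ∃ g, P.r' = P.r + g := ⟨P.r' - P.r, by have := hP.hr'; omega⟩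
    have hg1 : 65536 ≤ g := by have := hP.hr'; omega
    set q : ℝ := 1 / 2 ^ g with hq
    have hq0 : 0 < q := by positivity
    have hq1 : q ≤ 1 / 128 := by
      have : (2 : ℝ) ^ 7 ≤ 2 ^ g := two_pow_ge (by omega)
      rw [hq, div_le_div_iff₀ (by positivity) (by norm_num)]
      norm_num at this ⊢
      exact this
    have hGq : (P.G : ℝ) * q = 64 * P.E * 2 ^ P.r := by
      rw [G_eq hP, hg, hq, pow_add, pow_add]; field_simp; norm_num
    have hG := G_ge hP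
    have h1 : α * u ≤ q / 128 := by
      have : α * u * P.G ≤ q / 128 * P.G := by
        calc α * u * P.G = α * P.G * u := by ring
          _ ≤ 1 / 4 * (2 * P.E * 2 ^ P.r) := by gcongr
          _ = q / 128 * P.G := by linarith
      exact le_of_mul_le_mul_right this (by linarith)
    have h2 : S ≤ q ^ 2 / 65536 := by nlinarith
    have h3 : S < q := by nlinarith
    have h4 : S / q ≤ 1 / (128 * 65536) := by
      rw [div_le_iff₀ hq0]; nlinarith
    have h5 := rem_le k J hS0 h3 (by linarith)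
    have h6 := inv_pow_le (k + 1) (x := S / q) (by positivity) (by linarith)
    have h7 : q ^ J ≤ (2 : ℝ) ^ (-(P.E : ℝ)) := by
      rw [Real.rpow_neg (by norm_num), Real.rpow_natCast, hq, one_div_pow, ← pow_mul, one_div]
      apply inv_anti₀ (by positivity)
      exact two_pow_ge (by rw [hJ]; exact Nat.mul_le_mul_right _ hg1)
    have h8 : ((1 - 1 / 2 ^ (P.r + 2) : ℝ) ^ 4) ^ u ≤ 1 :=
      pow_le_one₀ (by positivity) (pow_le_one₀ (by linarith) (by linarith))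
    have hM : ((k + 1 : ℕ) : ℝ) = 409600 * P.E := by rw [← hk, hP.hM]; push_cast; ring
    calc _ ≤ 1 * (q ^ J * (1 / (1 - S / q) ^ (k + 1))) := by gcongr
      _ ≤ 1 * ((2 : ℝ) ^ (-(P.E : ℝ)) * 2 ^ (3 * (S / q) * ((k + 1 : ℕ) : ℝ))) := by
          have : 0 ≤ 1 / (1 - S / q) ^ (k + 1) := by
            apply div_nonneg zero_le_one (pow_nonneg (by linarith) _)
          gcongr
      _ ≤ _ := by
          rw [one_mul, ← Real.rpow_add (by norm_num)]
          apply Real.rpow_le_rpow_of_exponent_le (by norm_num)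
          rw [hM]
          have : 3 * (S / q) * (409600 * P.E) ≤ 3 * (1 / (128 * 65536)) * (409600 * P.E) := by
            gcongr
          linarith
  · push Not at hc
    have h1 : (1 - 1 / 2 ^ (P.r + 2) : ℝ) ≤ Real.exp (-(1 / 2 ^ (P.r + 2))) := by
      have := Real.add_one_le_exp (-(1 / 2 ^ (P.r + 2) : ℝ)); linarith
    have h2 : ((1 - 1 / 2 ^ (P.r + 2) : ℝ) ^ 4) ^ u ≤ Real.exp (-(1 / 2 ^ (P.r + 2))) ^ (4 * u) := by
      rw [← pow_mul]
      exact pow_le_pow_left₀ (by linarith) h1 _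
    rw [← Real.exp_nat_mul] at h2
    have h3 : Real.exp (((4 * u : ℕ) : ℝ) * -(1 / 2 ^ (P.r + 2))) ≤ (2 : ℝ) ^ (-((P.E : ℝ) / 2)) := by
      rw [Real.rpow_def_of_pos (by norm_num)]
      apply Real.exp_le_exp.2
      have e : ((4 * u : ℕ) : ℝ) * -(1 / 2 ^ (P.r + 2)) = -(u / 2 ^ P.r) := by
        push_cast; rw [pow_add]; field_simp; ring
      have h4 : 2 * (P.E : ℝ) ≤ u / 2 ^ P.r := by rw [le_div_iff₀ hr0]; linarith
      have := Real.log_two_lt_d9
      rw [e]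
      nlinarith
    calc _ ≤ (2 : ℝ) ^ (-((P.E : ℝ) / 2)) * 1 := by
          gcongr
          exact h2.trans h3
      _ = _ := mul_one _

end Ext2

open Ext2

theorem ext2_proof (hOm : OmStmt) : Ext2Stmt := by
  intro P d X ζ hP hd hX0 hX hT H
  obtain ⟨φ, hζ, hφ⟩ := hT
  obtain ⟨J, hJ⟩ := hP.hdvd
  have hE := E_geR hP
  obtain ⟨k, hk⟩ : ∃ k, P.M = k + 1 := ⟨P.M - 1, by have := hP.hM; have := E_ge hP; omega⟩
  obtain ⟨hα0, hα1, -⟩ := al_G hOm hP
  have hrem := rem_small hOm hP J k hJ hk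
  set α : ℝ := P.a * P.θ with hα
  set x : ℝ := 1 / 2 ^ (P.r + 2) with hx
  set l : ℝ := 1 / 2 ^ (P.r' + 2) with hl
  have hvr : ((P.vr : ℚ) : ℝ) = 1 - l := vr_eq P
  have hx0 : 0 < x := by positivity
  have hl0 : 0 < l := by positivity
  have hr0 : (0 : ℝ) < 2 ^ P.r := by positivity
  have hx1 : x ≤ 1 / 4096 := by
    have : (2 : ℝ) ^ 12 ≤ 2 ^ (P.r + 2) := two_pow_ge (by have := hP.hr; omega)
    rw [hx, div_le_div_iff₀ (by positivity) (by norm_num)]
    norm_num at this ⊢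
    exact this
  have hl1 : l ≤ x / 1024 := by
    have : (2 : ℝ) ^ (P.r + 2 + 10) ≤ 2 ^ (P.r' + 2) := two_pow_ge (by have := hP.hr'; omega)
    rw [hl, hx, div_div, div_le_div_iff₀ (by positivity) (by positivity)]
    rw [pow_add _ _ 10] at this
    norm_num at this ⊢
    exact this
  have hx4 : 1 / 2 ^ P.r = 4 * x := by rw [hx, pow_add]; field_simp; norm_num
  set ρ : ℝ := (1 - x) ^ 4 with hρ
  have hρ0 : 0 ≤ ρ := by positivity
  have hl2 : 0 < 1 - l := by linarith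
  set y₁ : ℝ := 1 - ρ / (1 - l) with hy
  have hy1 : y₁ ≤ 1 / 2 ^ P.r := by
    rw [hx4, hy]
    have a1 : 1 - 4 * x ≤ ρ := by
      have := one_add_mul_le_pow (a := -x) (by linarith) 4
      push_cast at this
      rw [hρ, sub_eq_add_neg 1 x]; linarith
    have a2 : ρ ≤ ρ / (1 - l) := by
      rw [le_div_iff₀ hl2]; nlinarith
    linarith
  have hy2 : (1 - 1 / 1024) / 2 ^ P.r ≤ y₁ := by
    rw [div_eq_mul_one_div, hx4, hy]
    have a1 : ρ ≤ 1 - 4 * x + 6 * x ^ 2 := by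
      have : ρ = 1 - 4 * x + 6 * x ^ 2 - x ^ 3 * (4 - x) := by rw [hρ]; ring
      have : 0 ≤ x ^ 3 * (4 - x) := mul_nonneg (by positivity) (by linarith)
      linarith
    have a2 : ρ / (1 - l) ≤ 1 - 4 * x + x / 256 := by
      rw [div_le_iff₀ hl2]; nlinarith
    linarith
  have hXle : X ≤ 5.2 := by nlinarith
  set X₁ : ℝ := (X + 1 / 1024) * (1 + 1 / 512) with hX₁
  have hX₁0 : 0 ≤ X₁ := by positivity
  have hX₁6 : X₁ ≤ 6 := by rw [hX₁]; nlinarith
  have hX₁sq : X₁ ^ 2 ≤ X ^ 2 + 0.12 := by rw [hX₁]; nlinarith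
  set ε₁ : ℝ := 2 ^ (-(P.E * (7 / 40 - X₁ ^ 2 / 160 - 1 / 400) : ℝ)) with hε₁
  have hζ' : ζ = (ρ : ℂ) * Complex.exp (φ * Complex.I) := by
    rw [hζ, hρ, hx]; push_cast; ring
  set w : ℕ → ℂ := fun u => (P.Wr u : ℂ) * d u / 2 ^ (P.E / 64) *
    (((ρ / (1 - l) : ℝ) : ℂ) * Complex.exp (φ * Complex.I)) ^ u with hw
  have hJα : J * α ≤ 1 / 1024 / 2 ^ P.r := by
    rw [le_div_iff₀ hr0]
    have a1 : (2 : ℝ) ^ P.r ≤ 2 ^ (P.r' + 2) := two_pow_ge (by have := hP.hr'; omega)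
    have a2 : (P.E : ℝ) = 65536 * J := by rw [hJ]; push_cast; ring
    have a3 := G_eq hP
    have a4 : (0 : ℝ) ≤ J * α := by positivity
    have a5 : J * α * 2 ^ P.r ≤ J * α * 2 ^ (P.r' + 2) := by gcongr
    rw [a3, a2] at hα1
    nlinarith
  have hL := ext_ind (P.G + 1) w α (J * α) ε₁ hα0.le (fun t ht => by
    have a1 : |φ + t| ≤ X₁ * y₁ := by
      calc |φ + t| ≤ X / 2 ^ P.r + 1 / 1024 / 2 ^ P.r :=
            (abs_add_le _ _).trans (add_le_add hφ (ht.trans hJα))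
        _ = (X + 1 / 1024) * (1 / 2 ^ P.r) := by ring
        _ ≤ (X + 1 / 1024) * ((1 + 1 / 512) * ((1 - 1 / 1024) / 2 ^ P.r)) := by
            gcongr
            rw [← mul_div_assoc]
            gcongr
            norm_num
        _ ≤ (X + 1 / 1024) * ((1 + 1 / 512) * y₁) := by gcongr
        _ = _ := by rw [hX₁]; ring
    have a2 := H y₁ (φ + t) X₁ hy2 hy1 a1 hX₁0 hX₁6
    convert a2 using 2
    unfold Rz
    refine sum_congr rfl fun u _ => ?_
    have e1 : (1 - (y₁ : ℂ)) = ((ρ / (1 - l) : ℝ) : ℂ) := by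
      rw [hy]; push_cast; ring
    have e2 : Complex.exp (t * u * Complex.I) = Complex.exp (t * Complex.I) ^ u := by
      rw [← Complex.exp_nat_mul]; congr 1; ring
    have e3 : Complex.exp ((φ + t : ℝ) * Complex.I) =
        Complex.exp (φ * Complex.I) * Complex.exp (t * Complex.I) := by
      rw [← Complex.exp_add]; congr 1; push_cast; ring
    rw [e1, e2, e3, hw]
    simp only [mul_pow]
    ring)
  -- decomposition
  set S : ℕ → ℝ := fun u => (1 - Real.cos (α * u)) / 2 with hS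
  set rem : ℕ → ℝ := fun u => 1 - (1 - S u) ^ (k + 1) * ∑ j ∈ range J, nb k j * S u ^ j with hrm
  have hwu : ∀ u : ℕ, (2 : ℂ) ^ (P.E / 64) * w u = (((1 - S u) ^ (k + 1) : ℝ) : ℂ) * (d u * ζ ^ u) := by
    intro u
    have e1 : P.Wr u = (1 - l) ^ u * (1 - S u) ^ (k + 1) := by
      unfold LP.Wr
      rw [hvr, zpow_natCast, hk, hS]
      congr 2
      simp only [Int.cast_natCast, hα]
      ring
    have e2 : ((1 - l : ℝ) : ℂ) ≠ 0 := by exact_mod_cast hl2.ne'
    rw [hw, hζ']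
    simp only [e1, mul_pow]
    rw [Complex.ofReal_mul, Complex.ofReal_pow, Complex.ofReal_div, div_pow]
    field_simp
  have hdec : ∑ u ∈ range (P.G + 1), d u * ζ ^ u =
      ∑ j ∈ range J, (nb k j : ℂ) * (2 ^ (P.E / 64) *
        ∑ u ∈ range (P.G + 1), w u * (S u : ℂ) ^ j * Complex.exp ((0 : ℝ) * u * Complex.I)) +
      ∑ u ∈ range (P.G + 1), d u * ζ ^ u * (rem u : ℂ) := by
    simp only [mul_sum]
    rw [sum_comm, ← sum_add_distrib]
    refine sum_congr rfl fun u _ => ?_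
    have e : ∀ j, (nb k j : ℂ) * (2 ^ (P.E / 64) *
        (w u * (S u : ℂ) ^ j * Complex.exp ((0 : ℝ) * u * Complex.I))) =
        (((1 - S u) ^ (k + 1) : ℝ) : ℂ) * (d u * ζ ^ u) * ((nb k j * S u ^ j : ℝ) : ℂ) := by
      intro j
      rw [← hwu]; simp; ring
    rw [sum_congr rfl fun j _ => e j, ← mul_sum, ← Complex.ofReal_sum, hrm]
    simp only [Complex.ofReal_sub, Complex.ofReal_mul, Complex.ofReal_one]
    ring
  have hε0 : 0 < ε₁ := by positivity
  have b1 : ‖∑ j ∈ range J, (nb k j : ℂ) * (2 ^ (P.E / 64) *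
        ∑ u ∈ range (P.G + 1), w u * (S u : ℂ) ^ j * Complex.exp ((0 : ℝ) * u * Complex.I))‖ ≤
      (∑ j ∈ range J, nb k j) * (2 ^ (P.E / 64) * ε₁) := by
    rw [sum_mul]
    refine (norm_sum_le _ _).trans (sum_le_sum fun j hj => ?_)
    rw [norm_mul, norm_mul, Complex.norm_real, Real.norm_eq_abs, abs_of_nonneg (nb_nonneg k j),
      norm_pow, Complex.norm_ofNat]
    have hj' : (j : ℝ) ≤ J := by exact_mod_cast (mem_range.1 hj).le
    have := hL j 0 (by rw [abs_zero, zero_add]; gcongr)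
    have := nb_nonneg k j
    gcongr
  have b2 : ‖∑ u ∈ range (P.G + 1), d u * ζ ^ u * (rem u : ℂ)‖ ≤
      6 * P.G * (2 : ℝ) ^ (-((P.E : ℝ) / 2)) := by
    have hG := G_ge hP
    calc _ ≤ ∑ u ∈ range (P.G + 1), (‖d u‖ ^ 2 + 1) / 2 * (2 : ℝ) ^ (-((P.E : ℝ) / 2)) := by
          refine (norm_sum_le _ _).trans (sum_le_sum fun u hu => ?_)
          have hn : ‖ζ‖ = ρ := by
            rw [hζ', norm_mul, Complex.norm_exp_ofReal_mul_I, mul_one, Complex.norm_real,
              Real.norm_eq_abs, abs_of_nonneg hρ0]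
          rw [norm_mul, norm_mul, norm_pow, hn, Complex.norm_real, Real.norm_eq_abs, mul_assoc]
          have c1 := hrem u (by have := mem_range.1 hu; omega)
          have c2 : ‖d u‖ ≤ (‖d u‖ ^ 2 + 1) / 2 := by nlinarith [sq_nonneg (‖d u‖ - 1)]
          gcongr
      _ = (∑ u ∈ range (P.G + 1), ‖d u‖ ^ 2 + (P.G + 1)) / 2 * (2 : ℝ) ^ (-((P.E : ℝ) / 2)) := by
          rw [← sum_mul, ← sum_div, sum_add_distrib]; simp
      _ ≤ _ := by gcongr; linarith
  have b3 : ∑ j ∈ range J, nb k j ≤ (2 : ℝ) ^ ((P.E : ℝ) / 1000) := by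
    have c1 := nb_total k J (x := 1 / 2 ^ 35) (by positivity) (by norm_num)
    have c2 := inv_pow_le (k + 1) (x := 1 / 2 ^ 35) (by positivity) (by norm_num)
    have hM : ((k + 1 : ℕ) : ℝ) = 409600 * P.E := by rw [← hk, hP.hM]; push_cast; ring
    have c3 : 1 / (1 / 2 ^ 35 : ℝ) ^ J = (2 : ℝ) ^ (35 * (J : ℝ)) := by
      rw [one_div_pow, one_div_one_div, ← pow_mul, ← Real.rpow_natCast]; push_cast; rfl
    have a2 : (P.E : ℝ) = 65536 * J := by rw [hJ]; push_cast; ring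
    calc _ ≤ _ := c1
      _ ≤ (2 : ℝ) ^ (35 * (J : ℝ)) * 2 ^ (3 * (1 / 2 ^ 35) * ((k + 1 : ℕ) : ℝ)) := by
          rw [c3]; gcongr
      _ ≤ _ := by
          rw [← Real.rpow_add (by norm_num)]
          apply Real.rpow_le_rpow_of_exponent_le (by norm_num)
          rw [hM]
          norm_num
          linarith
  have b4 : (2 : ℝ) ^ (P.E / 64) = (2 : ℝ) ^ ((P.E : ℝ) / 64) := by
    rw [← Real.rpow_natCast]
    congr 1
    rw [hJ, show 65536 * J / 64 = 1024 * J by omega]; push_cast; ring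
  have hX2 : 0 ≤ X ^ 2 := sq_nonneg X
  set τ : ℝ := -(P.E * (3 / 20 - X ^ 2 / 160) : ℝ) with hτ
  have f1 : (∑ j ∈ range J, nb k j) * (2 ^ (P.E / 64) * ε₁) ≤ (2 : ℝ) ^ (τ - 2) := by
    calc _ ≤ (2 : ℝ) ^ ((P.E : ℝ) / 1000) * (2 ^ ((P.E : ℝ) / 64) * ε₁) := by
          rw [b4]; gcongr
      _ ≤ _ := by
          rw [hε₁, ← Real.rpow_add (by norm_num), ← Real.rpow_add (by norm_num)]
          apply Real.rpow_le_rpow_of_exponent_le (by norm_num)
          have : P.E * (X₁ ^ 2) ≤ P.E * (X ^ 2 + 0.12) := by gcongr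
          rw [hτ]
          linarith
  have f2 : 6 * P.G * (2 : ℝ) ^ (-((P.E : ℝ) / 2)) ≤ (2 : ℝ) ^ (τ - 2) := by
    calc _ ≤ (2 : ℝ) ^ (3 : ℝ) * 2 ^ ((P.E : ℝ) / 16384) * (2 : ℝ) ^ (-((P.E : ℝ) / 2)) := by
          have := hP.hGE
          gcongr
          norm_num
      _ ≤ _ := by
          rw [← Real.rpow_add (by norm_num), ← Real.rpow_add (by norm_num)]
          apply Real.rpow_le_rpow_of_exponent_le (by norm_num)
          have : 0 ≤ P.E * X ^ 2 := by positivity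
          rw [hτ]
          linarith
  have f3 : (2 : ℝ) ^ (τ - 1) = 2 * 2 ^ (τ - 2) := by
    rw [show τ - 1 = 1 + (τ - 2) by ring, Real.rpow_add (by norm_num), Real.rpow_one]
  rw [hdec, f3]
  have := norm_add_le (∑ j ∈ range J, (nb k j : ℂ) * (2 ^ (P.E / 64) *
        ∑ u ∈ range (P.G + 1), w u * (S u : ℂ) ^ j * Complex.exp ((0 : ℝ) * u * Complex.I)))
      (∑ u ∈ range (P.G + 1), d u * ζ ^ u * (rem u : ℂ))
  linarith

end Crest.Agent.R300U
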