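import Crest.Agent.R300U.DefsA

/-! Row 300, upper bound, task TRIV. -/

set_option autoImplicit false

namespace Crest.Agent.R300U

open Finset Crest.FinProb Crest.TraceRecon

theorem tv_sum (p : ℝ) (n : ℕ) : ∑ k : Fin n → Bool, bernoulliWeight p k = 1 := by
  unfold bernoulliWeight
  rw [← Fintype.piFinset_univ, ← Finset.prod_univ_sum (fun _ => (univ : Finset Bool))
    (fun _ b => if b = true then p else 1 - p)]
  simp

theorem tv_nonneg {p : ℝ} (h0 : 0 ≤ p) (h1 : p ≤ 1) {n : ℕ} (k : Fin n → Bool) :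
    0 ≤ bernoulliWeight p k :=
  Finset.prod_nonneg fun i _ => by split_ifs <;> linarith

theorem tv_bud (n : ℕ) {p : ℝ} (h0 : 0 < p) (h1 : p < 1) :
    p⁻¹ * Real.log n ≤ Bud n p := by
  have hl : 0 ≤ Real.log n := Real.log_natCast_nonneg n
  have h2 : 0 ≤ Real.log (1 / (1 - p)) :=
    Real.log_nonneg (by rw [le_div_iff₀ (by linarith)]; linarith)
  have h3 : 1 ≤ 1 + Real.log n / (1 + Real.log (1 / (1 - p))) :=
    le_add_of_nonneg_right (by positivity)
  have h4 : 1 ≤ 1 + Real.log (1 + Real.log n / (1 + Real.log (1 / (1 - p)))) :=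
    le_add_of_nonneg_right (Real.log_nonneg h3)
  have h5 : 0 ≤ p⁻¹ * Real.log n := by positivity
  unfold Bud
  exact (le_mul_of_one_le_right h5 (one_le_pow₀ h3)).trans
    (le_mul_of_one_le_right (by positivity) (one_le_pow₀ h4))

theorem tv_pr {p : ℝ} (h0 : 0 ≤ p) (h1 : p ≤ 1) (n m : ℕ) (x : Fin n → Bool) :
    Pr p n m (fun ks => ∀ k, (traceOf x (ks k)).length ≠ n) ≤ (1 - p ^ n) ^ m := by
  classical
  have e : ∑ k : Fin n → Bool, bernoulliWeight p k * (if k = fun _ => true then 0 else 1) =
      1 - p ^ n := by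
    have h := tv_sum p n
    have e1 : ∀ k : Fin n → Bool, bernoulliWeight p k * (if k = fun _ => true then 0 else 1) =
        bernoulliWeight p k - if k = fun _ => true then p ^ n else 0 := by
      intro k
      split_ifs with hk
      · subst hk; simp [bernoulliWeight]
      · simp
    simp only [e1, Finset.sum_sub_distrib, h]
    simp
  rw [← e, ← Fin.prod_const, Finset.prod_univ_sum, Fintype.piFinset_univ, Pr]
  refine Finset.sum_le_sum fun ks _ => ?_
  rw [Finset.prod_mul_distrib]
  refine mul_le_mul_of_nonneg_left ?_ (Finset.prod_nonneg fun k _ => tv_nonneg h0 h1 _)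
  split_ifs with h
  · refine le_of_eq (Finset.prod_eq_one fun k _ => ?_).symm
    rw [if_neg]
    intro hk
    exact h k (by simp [traceOf, hk])
  · exact Finset.prod_nonneg fun k _ => by split_ifs <;> norm_num

theorem triv_proof : TrivStmt := by
  refine ⟨fun n x k h => ?_, 7, fun n hn p h0 h1 hc m hm x => ?_⟩
  · unfold traceOf at h ⊢
    rw [List.length_map] at h
    have : (List.finRange n).filter (fun i => k i) = List.finRange n :=
      List.filter_sublist.eq_of_length (by rw [h, List.length_finRange])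
    rw [this, List.ofFn_eq_map]
  · refine (tv_pr h0.le h1.le n m x).trans ?_
    have hn' : (2 : ℝ) ≤ n := by exact_mod_cast hn
    have hl2 : Real.log 2 ≤ Real.log n := Real.log_le_log two_pos hn'
    have hl := Real.log_two_gt_d9
    have hp : 1 ≤ p⁻¹ := (one_le_inv₀ h0).2 h1.le
    set L := p⁻¹ * Real.log n with hL
    have hL1 : Real.log n ≤ L := le_mul_of_one_le_left (by linarith) hp
    have hL2 : 2 * p⁻¹ ≤ 3 * L := by rw [hL]; nlinarith
    have k1 : n * Real.log p⁻¹ ≤ 2 * p⁻¹ := by
      rcases hc with hc | hc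
      · have s0 : 0 < √p⁻¹ := Real.sqrt_pos.2 (by linarith)
        have s1 : √p⁻¹ * √p⁻¹ = p⁻¹ := Real.mul_self_sqrt (by linarith)
        have s2 : Real.log p⁻¹ ≤ 2 * √p⁻¹ := by
          have := Real.log_le_sub_one_of_pos s0
          rw [Real.log_sqrt (by linarith)] at this
          linarith
        have s3 : (n : ℝ) ≤ √p⁻¹ := by
          refine Real.le_sqrt_of_sq_le ?_
          rw [← one_div, le_div_iff₀ h0]
          linarith
        have s4 : 0 ≤ Real.log p⁻¹ := Real.log_nonneg hp
        nlinarith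
      · have s1 := Real.log_le_sub_one_of_pos (show 0 < p⁻¹ by linarith)
        have s2 : p⁻¹ - 1 = (1 - p) * p⁻¹ := by field_simp
        have s3 : (n : ℝ) * Real.log p⁻¹ ≤ n * ((1 - p) * p⁻¹) := by
          rw [← s2]; gcongr
        nlinarith
    have k2 : Real.exp (-(3 * L)) ≤ p ^ n := by
      have : p ^ n = Real.exp (-(n * Real.log p⁻¹)) := by
        rw [Real.log_inv, mul_neg, neg_neg, Real.exp_nat_mul, Real.exp_log h0]
      rw [this]
      exact Real.exp_le_exp.2 (by linarith)
    have k3 : Real.exp (7 * L) ≤ m :=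
      (Real.exp_le_exp.2 (by linarith [tv_bud n h0 h1])).trans hm
    have k4 : Real.exp (4 * L) ≤ m * p ^ n := by
      rw [show 4 * L = 7 * L + -(3 * L) by ring, Real.exp_add]
      exact mul_le_mul k3 k2 (Real.exp_pos _).le (Nat.cast_nonneg _)
    have k5 : Real.log (8 * n) ≤ m * p ^ n := by
      rw [Real.log_mul (by norm_num) (by linarith), show (8 : ℝ) = 2 ^ 3 by norm_num, Real.log_pow]
      have := Real.add_one_le_exp (4 * L)
      push_cast
      linarith
    have k6 : p ^ n ≤ 1 := pow_le_one₀ h0.le h1.le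
    calc (1 - p ^ n) ^ m ≤ Real.exp (-p ^ n) ^ m :=
          pow_le_pow_left₀ (by linarith) (by linarith [Real.add_one_le_exp (-p ^ n)]) m
      _ = Real.exp (-(m * p ^ n)) := by rw [← Real.exp_nat_mul]; ring_nf
      _ ≤ Real.exp (-Real.log (8 * n)) := Real.exp_le_exp.2 (by linarith)
      _ = 1 / (8 * n) := by rw [Real.exp_neg, Real.exp_log (by linarith), one_div]

end Crest.Agent.R300U
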