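import Crest.Agent.R300U.DefsA
import Crest.Agent.R300U.GPTQ
import Crest.Agent.R300U.TRIV

/-! Row 300, upper bound: parsing the decoder input, and S0457 from the main theorem. -/

set_option autoImplicit false

namespace Crest.Agent.R300U

open Crest.Agent.PT Crest.Agent.QC Crest.Agent.R317 Finset Crest.FinProb Crest.TraceRecon

namespace F57

variable {α : Type} [Enc α]

/-- drop `k` bits -/
def dropR (k : ℕ) (x : Raw) : Raw := Raw.tail^[k] x

theorem dropR_val (k : ℕ) (x : Raw) : (dropR k x).val = x.val.drop k := by
  unfold dropR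
  induction k with
  | zero => rfl
  | succ k ih => rw [Function.iterate_succ_apply', Raw.val_tail, ih, List.tail_drop]

@[fun_prop] theorem pt_dropR {k : α → ℕ} {f : α → Raw} (hk : PT k) (hf : PT f) :
    PT (fun a => dropR (k a) (f a)) :=
  pt_iterShrink (s := Raw.tail) (by fun_prop) (fun x => by simp) hk hf

/-- length field of a record -/
def lenR (y : Raw) : ℕ := un (sz y) (rdNat y)

@[fun_prop] theorem pt_lenR {f : α → Raw} (hf : PT f) : PT (fun a => lenR (f a)) := by
  unfold lenR; fun_prop

/-- skip a record -/
def nxt (y : Raw) : Raw := dropR (lenR y) (skip y)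

theorem pt_nxt : PT nxt := by unfold nxt; fun_prop

theorem nxt_le (y : Raw) : (nxt y).val.length ≤ y.val.length := by
  have := length_skip y
  simp only [nxt, dropR_val, List.length_drop]; omega

/-- read a record -/
def rec1 (y : Raw) : List Bool := mkL (lenR y) (fun t => (dropR t (skip y)).head)

@[fun_prop] theorem pt_rec1 {f : α → Raw} (hf : PT f) : PT (fun a => rec1 (f a)) := by
  unfold rec1; fun_prop

theorem lenR_code (w y : List Bool) : lenR ⟨Crest.Enc.natCode w.length ++ w ++ y⟩ = w.length := by
  rw [List.append_assoc]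
  simp only [lenR, rdNat_code, un, sz_raw, List.length_append]; omega

theorem nxt_code (w y : List Bool) : nxt ⟨Crest.Enc.natCode w.length ++ w ++ y⟩ = ⟨y⟩ := by
  unfold nxt
  rw [lenR_code, List.append_assoc, skip_code]
  exact congrArg Raw.mk (by rw [show (Raw.tail^[w.length] (⟨w ++ y⟩ : Raw)).val = _ from dropR_val _ _]; simp)

theorem rec1_code (w y : List Bool) : rec1 ⟨Crest.Enc.natCode w.length ++ w ++ y⟩ = w := by
  unfold rec1
  rw [lenR_code, List.append_assoc, skip_code]
  apply List.ext_getElem
  · simp
  · intro i h1 h2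
    simp [mkL, Raw.head, dropR_val, List.drop_append, List.headD_eq_head?_getD, List.head?_append,
      List.head?_drop, h2]

/-- the `i`-th record -/
def recI (i : ℕ) (y : Raw) : List Bool := rec1 (nxt^[i] y)

@[fun_prop] theorem pt_recI {k : α → ℕ} {f : α → Raw} (hk : PT k) (hf : PT f) :
    PT (fun a => recI (k a) (f a)) := pt_rec1 (pt_iterShrink pt_nxt nxt_le hk hf)

/-- the list of records -/
def recs (y : Raw) : List (List Bool) := mkL (lenR y) (fun i => recI i (skip y))

@[fun_prop] theorem pt_recs {f : α → Raw} (hf : PT f) : PT (fun a => recs (f a)) := by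
  unfold recs; fun_prop

theorem length_le_flat (l : List (List Bool)) :
    l.length ≤ (l.map fun w => Crest.Enc.natCode w.length ++ w).flatten.length := by
  induction l with
  | nil => simp
  | cons w l ih =>
    simp only [List.map_cons, List.flatten_cons, List.length_append, List.length_cons,
      length_natCode] at ih ⊢
    omega

theorem recs_code (l : List (List Bool)) : recs ⟨traceListCode l⟩ = l := by
  have h1 : lenR ⟨traceListCode l⟩ = l.length := by
    have := length_le_flat l
    simp only [lenR, traceListCode, rdNat_code, un, sz_raw, List.length_append]; omega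
  unfold recs
  rw [h1]
  apply List.ext_getElem
  · simp
  · intro i h1 h2
    simp only [mkL, List.getElem_map, List.getElem_range, recI, traceListCode, skip_code]
    have := iter_skip nxt (fun w : List Bool => Crest.Enc.natCode w.length ++ w) nxt_code l [] i h2.le
    rw [List.append_nil] at this
    rw [this, List.drop_eq_getElem_cons h2, List.map_cons, List.flatten_cons, List.append_assoc]
    exact rec1_code _ _

/-- the parsed input -/
def parse (x : Raw) : ℕ × ℚ × List (List Bool) × ℕ :=
  (un (sz x) (rdNat x), (rdNat (skip x).tail : ℚ) / (rdNat (skip (skip x).tail) : ℚ),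
    recs (skip (skip (skip x).tail)), (recs (skip (skip (skip x).tail))).length)

theorem pt_parse : PT parse := by unfold parse; fun_prop

theorem parse_code (n : ℕ) (p : ℚ) (hp : 0 < p) {m : ℕ} (τ : Fin m → List Bool)
    (hn : n ≤ (decoderInput n p τ).length) :
    parse ⟨decoderInput n p τ⟩ = (n, p, List.ofFn τ, m) := by
  have e1 : rdNat ⟨decoderInput n p τ⟩ = n := by
    rw [decoderInput, List.append_assoc, rdNat_code]
  have e2 : (skip ⟨decoderInput n p τ⟩).tail = ⟨Crest.Enc.natCode p.num.natAbs ++
      (Crest.Enc.natCode p.den ++ traceListCode (List.ofFn τ))⟩ := by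
    rw [decoderInput, List.append_assoc, skip_code]
    simp [Raw.tail, Crest.Enc.ratCode]
  unfold parse
  rw [e1, e2, rdNat_code, skip_code, rdNat_code, skip_code, recs_code]
  have : ((p.num.natAbs : ℕ) : ℚ) / (p.den : ℚ) = p := by
    have h : (p.num.natAbs : ℤ) = p.num := Int.natAbs_of_nonneg (Rat.num_nonneg.2 hp.le)
    rw [← Int.cast_natCast, h, Rat.num_div_den]
  rw [this]
  simp [un, hn]

theorem m_le_input (n : ℕ) (p : ℚ) {m : ℕ} (τ : Fin m → List Bool) :
    m ≤ (decoderInput n p τ).length := by
  have := length_le_flat (List.ofFn τ)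
  simp only [decoderInput, traceListCode, List.length_append, List.length_ofFn] at this ⊢
  omega

end F57

open F57 Crest.Randomized in
theorem fin57_proof (hC : CoreStmt) (hPair : PairStmt) (hP : PrbStmt) :
    ∃ C : ℝ, 1 ≤ C ∧ ∃ (A : List Bool × List Bool → List Bool) (r : Polynomial ℕ), RandPolyTime A ∧
      ∀ n : ℕ, 2 ≤ n → ∀ p : ℚ, 0 < p → p < 1 → ∀ x : Fin n → Bool,
        2 / 3 ≤ decoderSuccessProb (traceBudget C n p) p A r x := by
  classical
  obtain ⟨C, hC1, dec, hdec, hdec'⟩ := hC
  refine ⟨C, hC1, fun q => (toR (dec (parse ⟨q.1⟩))).val, 0,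
    hPair (fun x => toR (dec (parse x))) (pt_toR (hdec.comp pt_parse)), fun n hn p hp0 hp1 x => ?_⟩
  have hp0' : (0 : ℝ) < p := by exact_mod_cast hp0
  have hp1' : (p : ℝ) < 1 := by exact_mod_cast hp1
  have hn' : (2 : ℝ) ≤ n := by exact_mod_cast hn
  set m := traceBudget C n p with hm
  have hm1 : Real.exp (C * Bud n p) ≤ m := Nat.le_ceil _
  have hnm : n ≤ m := by
    have h1 : Real.log n ≤ C * Bud n p := by
      have h2 := tv_bud n hp0' hp1'
      have h3 : 0 ≤ Real.log n := Real.log_natCast_nonneg n
      have h4 : (1 : ℝ) ≤ (p : ℝ)⁻¹ := (one_le_inv₀ hp0').2 hp1'.le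
      nlinarith [mul_le_mul_of_nonneg_right h4 h3]
    have := (Real.exp_le_exp.2 h1).trans hm1
    rw [Real.exp_log (by linarith)] at this
    exact_mod_cast this
  have key : ∀ ks : Fin m → Fin n → Bool,
      (if ¬ dec (n, p, trs x ks, m) ≠ List.ofFn x then 1 else 0) ≤
      uniformProb {ω : Fin ((0 : Polynomial ℕ).eval
          (decoderInput n p (fun k => traceOf x (ks k))).length) → Bool |
        readWord n ((toR (dec (parse ⟨decoderInput n p (fun k => traceOf x (ks k))⟩))).val) = x} := by
    intro ks
    by_cases h : dec (n, p, trs x ks, m) = List.ofFn x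
    · rw [parse_code n p hp0 _ (hnm.trans (m_le_input n p _))]
      have : readWord n (toR (dec (n, p, List.ofFn fun k => traceOf x (ks k), m))).val = x := by
        funext i
        have h' : dec (n, p, List.ofFn fun k => traceOf x (ks k), m) = List.ofFn x := h
        simp [readWord, toR, h']
      simp [uniformProb, this, h]
    · rw [if_neg (by simpa using h)]
      unfold uniformProb; positivity
  have h1 := hdec' n hn p hp0 hp1 m m hm1 le_rfl x
  have h2 := ((hP p n m hp0'.le hp1'.le).2.1 (fun ks => dec (n, p, trs x ks, m) ≠ List.ofFn x)).2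
  have h3 : (1 : ℝ) / (8 * n) ≤ 1 / 16 := one_div_le_one_div_of_le (by norm_num) (by linarith)
  have h4 : Pr p n m (fun ks => ¬ dec (n, p, trs x ks, m) ≠ List.ofFn x) ≤
      decoderSuccessProb m p (fun q => (toR (dec (parse ⟨q.1⟩))).val) 0 x := by
    unfold Pr decoderSuccessProb
    refine sum_le_sum (fun ks _ => mul_le_mul_of_nonneg_left ?_
      (prod_nonneg (fun k _ => tv_nonneg hp0'.le hp1'.le _)))
    refine le_trans (le_of_eq ?_) (key ks)
    congr
  linarith

end Crest.Agent.R300U
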