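import Crest.Agent.R300U.DefsA

/-!
Row 300, upper bound: Cauchy estimate for the kernel (task KER1).
-/

set_option autoImplicit false

namespace Crest.Agent.R300U

open Finset

namespace Ker1

theorem int_exp (m : ℤ) :
    ∫ θ in (0 : ℝ)..2 * Real.pi, Complex.exp ((m : ℂ) * Complex.I * θ) =
      if m = 0 then ((2 * Real.pi : ℝ) : ℂ) else 0 := by
  split_ifs with h
  · simp [h]
  · have hc : (m : ℂ) * Complex.I ≠ 0 :=
      mul_ne_zero (by exact_mod_cast h) Complex.I_ne_zero
    rw [integral_exp_mul_complex hc]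
    have : (m : ℂ) * Complex.I * ((2 * Real.pi : ℝ) : ℂ) = m * (2 * Real.pi * Complex.I) := by
      push_cast; ring
    rw [this, Complex.exp_int_mul_two_pi_mul_I]
    simp

/-- Cauchy estimate for the coefficients of a finite sum of monomials. -/
theorem cauchy {ι : Type*} (K : Finset ι) (c : ι → ℂ) (d : ι → ℕ) (t : ℕ) (s B : ℝ)
    (hB : ∀ θ : ℝ, ‖∑ k ∈ K, c k * Complex.exp (s + θ * Complex.I) ^ d k‖ ≤ B) :
    ‖∑ k ∈ K.filter (fun k => d k = t), c k‖ ≤ Real.exp (-s * t) * B := by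
  have hpi : 0 < 2 * Real.pi := by positivity
  have key : ∫ θ in (0 : ℝ)..2 * Real.pi,
      (∑ k ∈ K, c k * Complex.exp (s + θ * Complex.I) ^ d k) *
        Complex.exp (-(s + θ * Complex.I) * t) =
      ((2 * Real.pi : ℝ) : ℂ) * ∑ k ∈ K.filter (fun k => d k = t), c k := by
    have e : ∀ θ : ℝ, (∑ k ∈ K, c k * Complex.exp (s + θ * Complex.I) ^ d k) *
        Complex.exp (-(s + θ * Complex.I) * t) =
        ∑ k ∈ K, (c k * Complex.exp (s * ((d k : ℂ) - t))) *
          Complex.exp ((((d k : ℤ) - t : ℤ) : ℂ) * Complex.I * θ) := by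
      intro θ
      rw [sum_mul]
      refine sum_congr rfl fun k _ => ?_
      rw [← Complex.exp_nat_mul, mul_assoc, mul_assoc, ← Complex.exp_add, ← Complex.exp_add]
      congr 2
      push_cast
      ring
    simp_rw [e]
    rw [intervalIntegral.integral_finsetSum]
    · simp_rw [intervalIntegral.integral_const_mul, int_exp]
      rw [sum_filter, mul_sum]
      refine sum_congr rfl fun k _ => ?_
      by_cases h : d k = t
      · simp [h, mul_comm]
      · have : ¬ ((d k : ℤ) - t = 0) := by omega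
        simp [h, this]
    · intro k _
      exact (by fun_prop : Continuous _).intervalIntegrable _ _
  have hb : ‖∫ θ in (0 : ℝ)..2 * Real.pi,
      (∑ k ∈ K, c k * Complex.exp (s + θ * Complex.I) ^ d k) *
        Complex.exp (-(s + θ * Complex.I) * t)‖ ≤ (Real.exp (-s * t) * B) * |2 * Real.pi - 0| := by
    refine intervalIntegral.norm_integral_le_of_norm_le_const fun θ _ => ?_
    rw [norm_mul, Complex.norm_exp, mul_comm]
    have : (-((s : ℂ) + θ * Complex.I) * t).re = -s * t := by simp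
    rw [this]
    exact mul_le_mul_of_nonneg_left (hB θ) (Real.exp_pos _).le
  rw [key, norm_mul, Complex.norm_real, Real.norm_eq_abs, sub_zero, abs_of_pos hpi,
    mul_comm] at hb
  exact le_of_mul_le_mul_right hb hpi

theorem binom (M : ℕ) (v : ℂ) :
    ∑ k ∈ range (2 * M + 1), (cf M k : ℂ) * v ^ k = ((1 + v) ^ 2 / 4) ^ M := by
  rw [div_pow, ← pow_mul, add_comm 1 v, add_pow, sum_div]
  refine sum_congr rfl fun k _ => ?_
  simp only [cf]
  push_cast
  ring

theorem norm_fac (s φ : ℝ) :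
    ‖(1 + Complex.exp (s + φ * Complex.I)) ^ 2 / 4‖ ≤
      Real.exp (s + (Real.cosh s - 1) / 2 - (1 - Real.cos φ) / 2) := by
  rw [norm_div, norm_pow, Complex.sq_norm, Complex.normSq_apply]
  have e1 : (1 + Complex.exp (s + φ * Complex.I)).re = 1 + Real.exp s * Real.cos φ := by
    simp [Complex.exp_re]
  have e2 : (1 + Complex.exp (s + φ * Complex.I)).im = Real.exp s * Real.sin φ := by
    simp [Complex.exp_im]
  rw [e1, e2]
  have h4 : ‖(4 : ℂ)‖ = 4 := by simp
  rw [h4]
  have hE := Real.exp_pos s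
  have hc : Real.exp s * Real.cosh s = (Real.exp s ^ 2 + 1) / 2 := by
    rw [Real.cosh_eq, Real.exp_neg]
    field_simp
  have h1 : ((1 + Real.exp s * Real.cos φ) * (1 + Real.exp s * Real.cos φ) +
      Real.exp s * Real.sin φ * (Real.exp s * Real.sin φ)) / 4 =
      Real.exp s * (((Real.cosh s - 1) / 2 - (1 - Real.cos φ) / 2) + 1) := by
    have := Real.sin_sq_add_cos_sq φ
    linear_combination (Real.exp s ^ 2 / 4) * this - (1 / 2) * hc
  rw [h1, add_sub_assoc, Real.exp_add]
  exact mul_le_mul_of_nonneg_left (Real.add_one_le_exp _) hE.le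

theorem cos_tri (x y : ℝ) :
    1 - Real.cos (x - y) ≤ 4 * (1 - Real.cos x) + 4 / 3 * (1 - Real.cos y) := by
  rw [Real.cos_sub]
  nlinarith [sq_nonneg (3 * (Real.cos x - 1) + (Real.cos y - 1)),
    sq_nonneg (3 * Real.sin x + Real.sin y), Real.sin_sq_add_cos_sq x, Real.sin_sq_add_cos_sq y]

theorem cos_sum (ψ : Fin 4 → ℝ) (a₀ : Fin 4) (θ : ℝ) :
    ∑ a, (1 - Real.cos (ψ a - ψ a₀)) ≤ 4 * ∑ a, (1 - Real.cos (θ - ψ a)) := by
  rw [← Finset.add_sum_erase univ _ (mem_univ a₀),
    ← Finset.add_sum_erase univ (fun a => 1 - Real.cos (θ - ψ a)) (mem_univ a₀)]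
  have h : ∑ a ∈ univ.erase a₀, (1 - Real.cos (ψ a - ψ a₀)) ≤
      ∑ a ∈ univ.erase a₀, (4 * (1 - Real.cos (θ - ψ a)) + 4 / 3 * (1 - Real.cos (θ - ψ a₀))) := by
    refine sum_le_sum fun a _ => ?_
    have := cos_tri (θ - ψ a) (θ - ψ a₀)
    rwa [show θ - ψ a - (θ - ψ a₀) = -(ψ a - ψ a₀) by ring, Real.cos_neg] at this
  rw [sum_add_distrib, ← mul_sum, sum_const, card_erase_of_mem (mem_univ _), card_univ,
    Fintype.card_fin, nsmul_eq_mul] at h
  norm_num at h ⊢
  linarith

end Ker1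

open Ker1 in
theorem ker1_proof : Ker1Stmt := by
  intro M t ψ a₀ s
  refine (cauchy _ _ (fun k : Fin 4 → ℕ => ∑ a, k a) t s
    (Real.exp (4 * M * s + 2 * M * (Real.cosh s - 1) -
      M / 8 * ∑ a, (1 - Real.cos (ψ a - ψ a₀)))) fun θ => ?_).trans ?_
  · have e : ∀ k : Fin 4 → ℕ, (∏ a, ((cf M (k a) : ℂ) *
        Complex.exp (-(ψ a * ((k a : ℝ) - M) : ℝ) * Complex.I))) *
          Complex.exp (s + θ * Complex.I) ^ (∑ a, k a) =
        ∏ a, (Complex.exp ((ψ a * M : ℝ) * Complex.I) *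
          ((cf M (k a) : ℂ) * Complex.exp (s + (θ - ψ a : ℝ) * Complex.I) ^ k a)) := by
      intro k
      rw [← prod_pow_eq_pow_sum, ← prod_mul_distrib]
      refine prod_congr rfl fun a _ => ?_
      rw [← Complex.exp_nat_mul, ← Complex.exp_nat_mul, mul_assoc, ← Complex.exp_add,
        mul_left_comm, ← Complex.exp_add]
      congr 2
      push_cast
      ring
    simp_rw [e]
    rw [← Finset.prod_univ_sum (fun _ : Fin 4 => range (2 * M + 1))
      (fun a k => Complex.exp ((ψ a * M : ℝ) * Complex.I) *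
          ((cf M k : ℂ) * Complex.exp (s + (θ - ψ a : ℝ) * Complex.I) ^ k))]
    simp_rw [← mul_sum, binom]
    rw [norm_prod]
    have hf : ∀ a : Fin 4, ‖Complex.exp ((ψ a * M : ℝ) * Complex.I) *
        ((1 + Complex.exp (s + (θ - ψ a : ℝ) * Complex.I)) ^ 2 / 4) ^ M‖ ≤
        Real.exp (M * (s + (Real.cosh s - 1) / 2 - (1 - Real.cos (θ - ψ a)) / 2)) := by
      intro a
      rw [norm_mul, Complex.norm_exp_ofReal_mul_I, one_mul, norm_pow, Real.exp_nat_mul]
      exact pow_le_pow_left₀ (norm_nonneg _) (norm_fac s _) M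
    refine (prod_le_prod (fun a _ => norm_nonneg _) fun a _ => hf a).trans ?_
    rw [← Real.exp_sum, Real.exp_le_exp, ← mul_sum, sum_sub_distrib, sum_const, card_univ,
      Fintype.card_fin, ← sum_div, nsmul_eq_mul]
    have h := mul_le_mul_of_nonneg_left (cos_sum ψ a₀ θ) (Nat.cast_nonneg M : (0 : ℝ) ≤ M)
    push_cast
    nlinarith
  · rw [← Real.exp_add]
    apply le_of_eq
    congr 1
    ring

end Crest.Agent.R300U
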