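import Crest.Agent.R300U.H8Aux

/-! Row 300, upper bound, task KER2: the normalisation of the children. -/

set_option autoImplicit false

namespace Crest.Agent.R300U

open Finset H8

namespace Ker2

theorem cosh_le {s : ℝ} (hs : s ^ 2 ≤ 1) : Real.cosh s - 1 ≤ s ^ 2 / 2 * (1 + s ^ 2) := by
  have h1 := Real.cosh_le_exp_half_sq s
  have h0 := sq_nonneg s
  have h2 := Real.abs_exp_sub_one_sub_id_le (x := s ^ 2 / 2) (by
    rw [abs_of_nonneg (by positivity)]; linarith)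
  have h3 := (abs_le.1 h2).2
  nlinarith

theorem one_sub_cos_ge {x : ℝ} (h0 : 0 ≤ x) (h1 : x ≤ 1 / 4) :
    0.4967 * x ^ 2 ≤ 1 - Real.cos x := by
  have h2 := Real.cos_bound (x := x) (by rw [abs_of_nonneg h0]; linarith)
  rw [abs_of_nonneg h0] at h2
  have h3 := (abs_le.1 h2).2
  have h4 : x ^ 2 ≤ 1 / 16 := by nlinarith
  have h5 : x ^ 4 ≤ x ^ 2 * (1 / 16) := by
    rw [show x ^ 4 = x ^ 2 * x ^ 2 by ring]; gcongr
  nlinarith [sq_nonneg x]

/-- lower bound for the normalisation. -/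
theorem Hn_ge {P : LP} (hP : P.OK) (t : ℕ) (σ : ℝ)
    (hσ : σ = min |(t : ℝ) - 4 * P.M| (1700 * P.E)) :
    (2 : ℝ) ^ (45 * (P.E : ℝ) / 256 - σ ^ 2 / (1179648 * P.E)) ≤ P.Hn t ∧
      1 / 2 ^ (2 * P.E) ≤ (P.Hn t : ℝ) := by
  have hE := E_geR hP
  have e : (P.Hn t : ℝ) = 2 ^ (45 * P.E / 256 + 2 * P.E -
      ((t : ℤ) - 4 * P.M).natAbs ^ 2 / (1179648 * P.E)) / 2 ^ (2 * P.E) := by
    unfold LP.Hn; push_cast; rfl
  have h2 : 1 / 2 ^ (2 * P.E) ≤ (P.Hn t : ℝ) := by
    rw [e]; gcongr; exact one_le_pow₀ (by norm_num)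
  refine ⟨?_, h2⟩
  rcases le_total |(t : ℝ) - 4 * P.M| (1700 * P.E) with h | h
  · rw [min_eq_left h] at hσ
    rw [e, ← Real.rpow_natCast (2 : ℝ), ← Real.rpow_natCast (2 : ℝ) (2 * P.E),
      ← Real.rpow_sub (by norm_num)]
    apply Real.rpow_le_rpow_of_exponent_le (by norm_num)
    obtain ⟨J, hJ⟩ := hP.hdvd
    set q := ((t : ℤ) - 4 * P.M).natAbs ^ 2 / (1179648 * P.E) with hq
    have a1 : (q : ℝ) ≤ σ ^ 2 / (1179648 * P.E) := by
      refine Nat.cast_div_le.trans (le_of_eq ?_)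
      rw [hσ]
      push_cast
      rw [Nat.cast_natAbs]
      push_cast
      rfl
    have a2 : ((45 * P.E / 256 : ℕ) : ℝ) = 45 * (P.E : ℝ) / 256 := by
      rw [hJ, show 45 * (65536 * J) / 256 = 11520 * J by omega]; push_cast; ring
    have a3 : ((45 * P.E / 256 + 2 * P.E : ℕ) : ℝ) - q ≤
        ((45 * P.E / 256 + 2 * P.E - q : ℕ) : ℝ) := by
      rw [sub_le_iff_le_add]
      exact_mod_cast (by omega : 45 * P.E / 256 + 2 * P.E ≤ 45 * P.E / 256 + 2 * P.E - q + q)
    rw [Nat.cast_add, a2] at a3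
    linarith
  · rw [min_eq_right h] at hσ
    refine le_trans ?_ h2
    rw [one_div, ← Real.rpow_natCast (2 : ℝ) (2 * P.E), ← Real.rpow_neg (by norm_num)]
    apply Real.rpow_le_rpow_of_exponent_le (by norm_num)
    have : σ ^ 2 / (1179648 * P.E) = 1700 ^ 2 / 1179648 * P.E := by
      rw [hσ]; field_simp
    rw [this]
    push_cast
    linarith

theorem part1 (hK : Ker1Stmt) (hOm : OmStmt) (hChi : ChiStmt) {P : LP} (hP : P.OK) (t i : ℕ) :
    ∑ g ∈ Gs i, (∏ b, (chi P.β P.mc (g b) : ℝ)) *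
      ‖∑ k ∈ Ks P.M t, ∏ b, ((cf P.M (k b) : ℂ) * (((P.vr : ℝ) : ℂ)⁻¹ *
        Complex.exp (-(P.a * P.θ * ((k b : ℝ) - P.M) : ℝ) * Complex.I)) ^ g b)‖ ≤ P.Hn t := by
  obtain ⟨hmc, hβ0, hβ1, hc4, hc5, -⟩ := hChi.2 P hP
  have hc0 : ∀ x, (0 : ℝ) ≤ chi P.β P.mc x := fun x => by
    exact_mod_cast (hChi.1 P.β P.mc x hβ0.le (by linarith)).1
  have hc1 : ∀ x, (chi P.β P.mc x : ℝ) ≤ 1 := fun x => by
    exact_mod_cast (hChi.1 P.β P.mc x hβ0.le (by linarith)).2.1
  have hv0 := vr_pos hP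
  have hv1 := vr_le_one P
  have hE := E_geR hP
  obtain ⟨hα0, hα1, hα2⟩ := al_G hOm hP
  set α : ℝ := P.a * P.θ with hα
  set f : ℕ → ℝ := fun x => (chi P.β P.mc x : ℝ) / (P.vr : ℝ) ^ x with hf
  have hf0 : ∀ x, 0 ≤ f x := fun x => div_nonneg (hc0 _) (by positivity)
  set N : (Fin 4 → ℕ) → ℝ := fun g => ‖∑ k ∈ Ks P.M t, ∏ b, ((cf P.M (k b) : ℂ) *
    Complex.exp (-(α * g b * ((k b : ℝ) - P.M) : ℝ) * Complex.I))‖ with hN
  have hterm : ∀ g : Fin 4 → ℕ, (∏ b, (chi P.β P.mc (g b) : ℝ)) *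
      ‖∑ k ∈ Ks P.M t, ∏ b, ((cf P.M (k b) : ℂ) * (((P.vr : ℝ) : ℂ)⁻¹ *
        Complex.exp (-(α * ((k b : ℝ) - P.M) : ℝ) * Complex.I)) ^ g b)‖ =
      (∏ b, f (g b)) * N g := by
    intro g
    have e : ∀ k : Fin 4 → ℕ, ∏ b, ((cf P.M (k b) : ℂ) * (((P.vr : ℝ) : ℂ)⁻¹ *
        Complex.exp (-(α * ((k b : ℝ) - P.M) : ℝ) * Complex.I)) ^ g b) =
        ((∏ b, ((P.vr : ℝ) ^ g b)⁻¹ : ℝ) : ℂ) * ∏ b, ((cf P.M (k b) : ℂ) *
          Complex.exp (-(α * g b * ((k b : ℝ) - P.M) : ℝ) * Complex.I)) := by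
      intro k
      rw [Complex.ofReal_prod, ← prod_mul_distrib]
      refine prod_congr rfl fun b _ => ?_
      have e2 : Complex.exp (-(α * g b * ((k b : ℝ) - P.M) : ℝ) * Complex.I) =
          Complex.exp (-(α * ((k b : ℝ) - P.M) : ℝ) * Complex.I) ^ g b := by
        rw [← Complex.exp_nat_mul]; congr 1; push_cast; ring
      rw [e2, mul_pow, Complex.ofReal_inv, Complex.ofReal_pow, inv_pow]
      ring
    rw [sum_congr rfl fun k _ => e k, ← mul_sum, norm_mul, Complex.norm_real, Real.norm_eq_abs,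
      abs_of_nonneg (prod_nonneg fun b _ => by positivity), ← mul_assoc, ← prod_mul_distrib]
    rfl
  rw [sum_congr rfl fun g _ => hterm g]
  have hN0 : ∀ g, 0 ≤ N g := fun g => norm_nonneg _
  have hN1 : ∀ g, N g ≤ 1 := fun g => by
    refine (hK P.M t (fun b => α * g b) 0 0).trans ?_
    rw [Real.exp_le_one_iff]
    have : 0 ≤ ∑ a : Fin 4, (1 - Real.cos (α * g a - α * g 0)) :=
      sum_nonneg fun a _ => by have := Real.cos_le_one (α * g a - α * g 0); linarith
    have : 0 ≤ (P.M : ℝ) / 8 * ∑ a : Fin 4, (1 - Real.cos (α * g a - α * g 0)) := by positivity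
    simp only [neg_zero, zero_mul, Real.cosh_zero, sub_self, mul_zero, add_zero]
    linarith
  set τ : ℝ := (t : ℝ) - 4 * P.M with hτ
  set σ : ℝ := min |τ| (1700 * P.E) with hσ
  obtain ⟨hH1, hH2⟩ := Hn_ge hP t σ hσ
  have hσ0 : 0 ≤ σ := le_min (abs_nonneg _) (by positivity)
  have hσ1 : σ ≤ |τ| := min_le_left _ _
  have hσ2 : σ ≤ 1700 * P.E := min_le_right _ _
  have hM : (P.M : ℝ) = 409600 * P.E := by rw [hP.hM]; push_cast; ring
  have hl2 := Real.log_two_lt_d9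
  have hl2' := Real.log_two_gt_d9
  -- the choice of the radius
  obtain ⟨s, hs⟩ : ∃ s : ℝ, -s * τ + 2 * P.M * (Real.cosh s - 1) ≤
      Real.log 2 * -(σ ^ 2 / (1179648 * P.E)) := by
    set s₀ : ℝ := σ / (2 * P.M) with hs₀
    have hM0 : (0 : ℝ) < P.M := by rw [hM]; positivity
    have a0 : 0 ≤ s₀ := by positivity
    have a1 : s₀ ≤ 1 / 100 := by
      rw [hs₀, div_le_iff₀ (by positivity), hM]; linarith
    have a2 : s₀ ^ 2 ≤ 1 / 10000 := by nlinarith
    have a3 := cosh_le (s := s₀) (by linarith)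
    have a4 : σ = 2 * P.M * s₀ := by rw [hs₀]; field_simp
    have a5 : -(s₀ * |τ|) + 2 * P.M * (Real.cosh s₀ - 1) ≤
        Real.log 2 * -(σ ^ 2 / (1179648 * P.E)) := by
      have b1 : s₀ * σ ≤ s₀ * |τ| := by gcongr
      have b2 : 2 * P.M * (Real.cosh s₀ - 1) ≤ 2 * P.M * (s₀ ^ 2 / 2 * (1 + 1 / 10000)) := by
        gcongr
        refine a3.trans ?_
        gcongr
      have b3 : σ ^ 2 / (1179648 * P.E) = 4 * 409600 / 1179648 * (P.M * s₀ ^ 2) := by
        rw [a4, hM]; field_simp; ring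
      have b4 : s₀ * σ = 2 * (P.M * s₀ ^ 2) := by rw [a4]; ring
      have b5 : 0 ≤ P.M * s₀ ^ 2 := by positivity
      rw [b3]
      nlinarith
    rcases le_total 0 τ with h | h
    · refine ⟨s₀, ?_⟩
      rw [abs_of_nonneg h] at a5
      linarith
    · refine ⟨-s₀, ?_⟩
      rw [abs_of_nonpos h] at a5
      rw [Real.cosh_neg]
      linarith
  -- small gaps
  set l : ℝ := 1 / 2 ^ (P.r' + 2) with hl
  have hvr : ((P.vr : ℚ) : ℝ) = 1 - l := vr_eq P
  have hl0 : 0 < l := by positivity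
  have hl1 : l ≤ 1 / 1048576 := lam_le hP
  have hlG : l * P.G = 16 * P.E := lam_G hP
  have hG1 := G_ge hP
  have hlα : l ≤ 64.0001 * P.E * α := by
    have : l * P.G ≤ 64.0001 * P.E * α * P.G := by
      rw [hlG, mul_assoc]; nlinarith
    exact le_of_mul_le_mul_right this (by linarith)
  have hone : ∀ x : ℕ, x ≤ P.G →
      f x * Real.exp (-(P.M / 8 * (1 - Real.cos (α * x)))) ≤ Real.exp (0.04028 * P.E) := by
    intro x hx
    have hxG : (x : ℝ) ≤ P.G := by exact_mod_cast hx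
    have b0 : 0 ≤ α * x := by positivity
    have b1 : α * x ≤ 1 / 4 := le_trans (by gcongr) hα1
    have b2 := one_sub_cos_ge b0 b1
    have b3 : 1 / (P.vr : ℝ) ≤ Real.exp (1.00001 * l) := by
      have := Real.add_one_le_exp (1.00001 * l)
      rw [hvr, div_le_iff₀ (by linarith)]
      nlinarith
    have b4 : f x ≤ Real.exp (x * (1.00001 * l)) := by
      rw [Real.exp_nat_mul]
      calc f x ≤ 1 / (P.vr : ℝ) ^ x := by simp only [hf]; gcongr; exact hc1 x
        _ = (1 / (P.vr : ℝ)) ^ x := by rw [one_div_pow]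
        _ ≤ _ := by gcongr
    calc _ ≤ Real.exp (x * (1.00001 * l)) * Real.exp (-(P.M / 8 * (1 - Real.cos (α * x)))) := by
          gcongr
      _ ≤ _ := by
          rw [← Real.exp_add]
          apply Real.exp_le_exp.2
          have c1 : x * (1.00001 * l) ≤ 64.001 * P.E * (α * x) := by
            have : x * l ≤ x * (64.0001 * P.E * α) := by gcongr
            have : 0 ≤ P.E * (α * x) := by positivity
            nlinarith
          have c2 : P.M / 8 * (0.4967 * (α * x) ^ 2) ≤ P.M / 8 * (1 - Real.cos (α * x)) := by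
            gcongr
          have c3 : 64.001 * (α * x) - 51200 * 0.4967 * (α * x) ^ 2 ≤ 0.04028 := by
            nlinarith [sq_nonneg (α * x - 0.0012583)]
          have c4 : P.E * (64.001 * (α * x) - 51200 * 0.4967 * (α * x) ^ 2) ≤ P.E * 0.04028 := by
            gcongr
          rw [hM] at c2 ⊢
          nlinarith
  have hsmall : ∀ g ∈ Gs i, (∀ b, g b ≤ P.G) → (∏ b, f (g b)) * N g ≤
      (2 : ℝ) ^ (0.17435 * (P.E : ℝ) - σ ^ 2 / (1179648 * P.E)) := by
    intro g hg hb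
    obtain ⟨b₀, hb₀⟩ := (mem_filter.1 hg).2
    have c1 := hK P.M t (fun b => α * g b) b₀ s
    have c2 : Real.exp (-s * ((t : ℝ) - 4 * P.M) + 2 * P.M * (Real.cosh s - 1) -
        P.M / 8 * ∑ a, (1 - Real.cos (α * g a - α * g b₀))) =
        Real.exp (-s * τ + 2 * P.M * (Real.cosh s - 1)) *
          ∏ a, Real.exp (-(P.M / 8 * (1 - Real.cos (α * g a)))) := by
      rw [← Real.exp_sum, ← Real.exp_add, hb₀, mul_sum, sum_neg_distrib]
      simp only [Nat.cast_zero, mul_zero, sub_zero]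
      rfl
    have c3 : ∏ b, (f (g b) * Real.exp (-(P.M / 8 * (1 - Real.cos (α * g b))))) ≤
        Real.exp (0.04028 * P.E) ^ 3 := by
      rw [← mul_prod_erase _ _ (mem_univ b₀)]
      have d1 : ∏ b ∈ univ.erase b₀, (f (g b) * Real.exp (-(P.M / 8 * (1 - Real.cos (α * g b))))) ≤
          ∏ _b ∈ univ.erase b₀, Real.exp (0.04028 * P.E) :=
        prod_le_prod (fun b _ => mul_nonneg (hf0 _) (Real.exp_pos _).le) fun b _ => hone _ (hb b)
      simp only [prod_const, card_erase_of_mem (mem_univ b₀), card_univ, Fintype.card_fin] at d1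
      have d2 : f (g b₀) * Real.exp (-(P.M / 8 * (1 - Real.cos (α * g b₀)))) ≤ 1 := by
        rw [hb₀]; simpa [hf] using hc1 0
      calc _ ≤ 1 * Real.exp (0.04028 * P.E) ^ 3 :=
            mul_le_mul d2 d1
              (prod_nonneg fun b _ => mul_nonneg (hf0 _) (Real.exp_pos _).le) zero_le_one
        _ = _ := one_mul _
    calc (∏ b, f (g b)) * N g ≤ (∏ b, f (g b)) * (Real.exp (-s * τ + 2 * P.M * (Real.cosh s - 1)) *
          ∏ a, Real.exp (-(P.M / 8 * (1 - Real.cos (α * g a))))) :=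
          mul_le_mul_of_nonneg_left (c1.trans c2.le) (prod_nonneg fun b _ => hf0 _)
      _ = Real.exp (-s * τ + 2 * P.M * (Real.cosh s - 1)) *
          ∏ b, (f (g b) * Real.exp (-(P.M / 8 * (1 - Real.cos (α * g b))))) := by
          rw [prod_mul_distrib]; ring
      _ ≤ Real.exp (Real.log 2 * -(σ ^ 2 / (1179648 * P.E))) * Real.exp (0.04028 * P.E) ^ 3 := by
          gcongr
          exact prod_nonneg fun b _ => mul_nonneg (hf0 _) (Real.exp_pos _).le
      _ ≤ _ := by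
          rw [← Real.exp_nat_mul, ← Real.exp_add, Real.rpow_def_of_pos (by norm_num)]
          apply Real.exp_le_exp.2
          push_cast
          nlinarith
  rw [← sum_filter_add_sum_filter_not _ (fun g : Fin 4 → ℕ => ∀ b, g b ≤ P.G)]
  have s1 : ∑ g ∈ (Gs i).filter (fun g => ∀ b, g b ≤ P.G), (∏ b, f (g b)) * N g ≤ P.Hn t / 2 := by
    have a1 : ((Gs i).filter fun g => ∀ b, g b ≤ P.G).card ≤ (P.G + 1) ^ 4 := by
      refine (card_le_card (t := Fintype.piFinset fun _ : Fin 4 => range (P.G + 1))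
        fun g hg => ?_).trans (by simp)
      have := (mem_filter.1 hg).2
      simp only [Fintype.mem_piFinset, mem_range]
      exact fun b => Nat.lt_succ_of_le (this b)
    have a2 : (((Gs i).filter fun g => ∀ b, g b ≤ P.G).card : ℝ) ≤
        (2 : ℝ) ^ (4 * (1 + (P.E : ℝ) / 16384)) := by
      calc _ ≤ (((P.G + 1) ^ 4 : ℕ) : ℝ) := by exact_mod_cast a1
        _ ≤ ((2 : ℝ) ^ (1 + (P.E : ℝ) / 16384)) ^ 4 := by
            push_cast
            gcongr
            rw [Real.rpow_add (by norm_num), Real.rpow_one]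
            have := hP.hGE
            linarith
        _ = _ := by rw [← Real.rpow_natCast, ← Real.rpow_mul (by norm_num)]; congr 1; push_cast; ring
    calc _ ≤ ∑ _g ∈ (Gs i).filter (fun g => ∀ b, g b ≤ P.G),
          (2 : ℝ) ^ (0.17435 * (P.E : ℝ) - σ ^ 2 / (1179648 * P.E)) :=
          sum_le_sum fun g hg => hsmall g (mem_filter.1 hg).1 (mem_filter.1 hg).2
      _ ≤ (2 : ℝ) ^ (4 * (1 + (P.E : ℝ) / 16384)) *
          (2 : ℝ) ^ (0.17435 * (P.E : ℝ) - σ ^ 2 / (1179648 * P.E)) := by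
          rw [sum_const, nsmul_eq_mul]; gcongr
      _ ≤ (2 : ℝ) ^ (45 * (P.E : ℝ) / 256 - σ ^ 2 / (1179648 * P.E) - 1) := by
          rw [← Real.rpow_add (by norm_num)]
          apply Real.rpow_le_rpow_of_exponent_le (by norm_num)
          linarith
      _ ≤ _ := by
          rw [Real.rpow_sub_one (by norm_num)]; gcongr
  have s2 : ∑ g ∈ (Gs i).filter (fun g => ¬ ∀ b, g b ≤ P.G), (∏ b, f (g b)) * N g ≤
      P.Hn t / 2 := by
    set y : ℝ := 2 ^ P.E with hy
    have hy1 : (1048576 : ℝ) ≤ y := by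
      have := two_pow_ge (show 20 ≤ P.E by have := E_ge hP; omega)
      norm_num at this
      exact this
    have hy0 : 0 < y := by linarith
    have hpw : ∀ c : ℕ, (2 : ℝ) ^ (c * P.E) = y ^ c := fun c => by rw [hy, ← pow_mul, mul_comm]
    have hB : ∑ x ∈ range i, f x ≤ y ^ 24 := by
      rw [← hpw]; simp only [hf]; exact_mod_cast hc4 i
    have hA : ∑ x ∈ (range i).filter (fun x => P.G < x), f x ≤ 1 / y ^ 200 := by
      have h9 := (Rat.cast_le (K := ℝ)).2 (hc5 i)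
      push_cast at h9
      rw [← hpw]; exact h9
    have a1 := sum_ex_le i f hf0 (fun x => P.G < x) _ _ hA hB
    rw [hpw] at hH2
    calc _ ≤ ∑ g ∈ (Gs i).filter (fun g => ¬ ∀ b, g b ≤ P.G), ∏ b, f (g b) :=
          sum_le_sum fun g _ => mul_le_of_le_one_right (prod_nonneg fun b _ => hf0 _) (hN1 g)
      _ ≤ _ := by
          refine le_trans (sum_le_sum_of_subset_of_nonneg (fun g hg => ?_) fun g _ _ =>
            prod_nonneg fun b _ => hf0 _) a1
          refine mem_filter.2 ⟨(mem_filter.1 (mem_filter.1 hg).1).1, ?_⟩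
          simpa using (mem_filter.1 hg).2
      _ ≤ 1 / y ^ 2 / 2 := by
          have : 4 * (1 / y ^ 200) * (y ^ 24) ^ 3 = 4 / y ^ 128 := by field_simp
          rw [this, div_div, div_le_div_iff₀ (by positivity) (by positivity)]
          have : y ^ 3 ≤ y ^ 128 := pow_le_pow_right₀ (by linarith) (by norm_num)
          have : y ^ 2 * 8 ≤ y ^ 3 := by rw [pow_succ y 2]; gcongr; linarith
          linarith
      _ ≤ _ := by gcongr
  linarith

end Ker2

open Ker2

theorem ker2_proof (hK : Ker1Stmt) (hOm : OmStmt) (hChi : ChiStmt) (hCV : ChildValStmt)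
    (hT : TensStmt) : Ker2Stmt := by
  intro P hP
  refine ⟨part1 hK hOm hChi hP, ?_⟩
  intro ℓ h a e0 e1 e2 e3 t ha x hx
  obtain ⟨hmc, hβ0, hβ1, -⟩ := hChi.2 P hP
  have hc0 : ∀ x, (0 : ℝ) ≤ chi P.β P.mc x := fun x => by
    exact_mod_cast (hChi.1 P.β P.mc x hβ0.le (by linarith)).1
  have hv := (hCV P ℓ h a ![e0, e1, e2, e3] x hmc).1 t
  set e : Fin 4 → ℕ := ![e0, e1, e2, e3] with he
  change (child P ℓ h a e0 e1 e2 e3 t).val x = _ at hv
  have hH : (0 : ℝ) < P.Hn t := lt_of_lt_of_le (by positivity) (Hn_ge hP t _ rfl).2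
  have hω : ((P.ω : GQ) : ℂ) = Complex.exp (P.θ * Complex.I) := (hOm.1 (2 * P.E)).1
  have hslot : ∀ (κ : ℕ) (w : List Bool), w ≠ [] → ‖(slotAut a κ).val w‖ ≤ 1 := by
    intro κ w hw
    unfold slotAut
    split_ifs
    · exact ha w hw
    · rw [(hT.2.2.2.1 a w).1, ← norm_coe, coe_cj, Complex.norm_conj, norm_coe]
      exact ha w hw
    · rw [(hT.2.2.2.1 a w).2]; simp
  rw [hv, norm_div, ← norm_coe (P.Hn t : GQ), coe_ratCast, Complex.norm_ratCast, abs_of_pos hH,
    div_le_one hH, sum_comm]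
  refine le_trans ?_ (part1 hK hOm hChi hP t x.length)
  refine (norm_sum_le _ _).trans (sum_le_sum fun g hg => ?_)
  rw [← norm_coe]
  have hcoe : ((∑ k ∈ Ks P.M t, ∏ b, ((cf P.M (k b) : GQ) * (chi P.β P.mc (g b) : GQ) *
      ((P.vr : GQ)⁻¹ * P.ω ^ (frq P.J (e b) - P.a * ((k b : ℤ) - P.M))) ^ g b *
      (slotAut a (e b % 3)).val (x.take (x.length - g b))) : GQ) : ℂ) =
      (∏ b, (((chi P.β P.mc (g b) : ℝ) : ℂ) * Complex.exp ((frq P.J (e b) * P.θ * g b : ℝ) * Complex.I) *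
        ((slotAut a (e b % 3)).val (x.take (x.length - g b)) : ℂ))) *
      ∑ k ∈ Ks P.M t, ∏ b, ((cf P.M (k b) : ℂ) * (((P.vr : ℝ) : ℂ)⁻¹ *
        Complex.exp (-(P.a * P.θ * ((k b : ℝ) - P.M) : ℝ) * Complex.I)) ^ g b) := by
    rw [mul_sum]
    change GF.subtype _ = _
    rw [map_sum]
    refine sum_congr rfl fun k _ => ?_
    rw [map_prod, ← prod_mul_distrib]
    refine prod_congr rfl fun b _ => ?_
    simp only [map_mul, map_pow, map_inv₀, map_zpow₀, map_ratCast, Subfield.coe_subtype, hω]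
    have e1 : Complex.exp (P.θ * Complex.I) ^ (frq P.J (e b) - P.a * ((k b : ℤ) - P.M)) =
        Complex.exp ((frq P.J (e b) * P.θ : ℝ) * Complex.I) *
          Complex.exp (-(P.a * P.θ * ((k b : ℝ) - P.M) : ℝ) * Complex.I) := by
      rw [← Complex.exp_int_mul, ← Complex.exp_add]; congr 1; push_cast; ring
    have e2 : Complex.exp ((frq P.J (e b) * P.θ * g b : ℝ) * Complex.I) =
        Complex.exp ((frq P.J (e b) * P.θ : ℝ) * Complex.I) ^ g b := by
      rw [← Complex.exp_nat_mul]; congr 1; push_cast; ring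
    rw [e1, e2]
    simp only [Complex.ofReal_ratCast, mul_pow]
    ring
  rw [hcoe, norm_mul]
  refine mul_le_mul_of_nonneg_right ?_ (norm_nonneg _)
  rw [norm_prod]
  refine prod_le_prod (fun b _ => norm_nonneg _) fun b _ => ?_
  rw [norm_mul, norm_mul, Complex.norm_exp_ofReal_mul_I, mul_one, Complex.norm_real,
    Real.norm_eq_abs, abs_of_nonneg (hc0 _), norm_coe]
  refine mul_le_of_le_one_right (hc0 _) (hslot _ _ ?_)
  have hb : g b < x.length := by
    have := Fintype.mem_piFinset.1 (mem_filter.1 hg).1 b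
    simpa using this
  intro h0
  have := congrArg List.length h0
  simp at this
  omega

end Crest.Agent.R300U
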