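import Crest.Agent.R300U.DefsB

/-!
Row 300, upper bound, task SCHUR: the Schur test for the accessible class.
-/

set_option autoImplicit false

namespace Crest.Agent.R300U

open Finset

theorem schur_test {d : ℕ} {M : ℕ → ℕ → ℂ} (hr : ∀ i < d, ∑ j ∈ range d, ‖M i j‖ ≤ 1)
    (hc : ∀ j < d, ∑ i ∈ range d, ‖M i j‖ ≤ 1) : Contr d M := by
  intro v
  calc ∑ i ∈ range d, ‖∑ j ∈ range d, M i j * v j‖ ^ 2
      ≤ ∑ i ∈ range d, ∑ j ∈ range d, ‖M i j‖ * ‖v j‖ ^ 2 := by
        refine Finset.sum_le_sum fun i hi => ?_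
        have h1 : ‖∑ j ∈ range d, M i j * v j‖ ≤ ∑ j ∈ range d, ‖M i j‖ * ‖v j‖ :=
          (norm_sum_le _ _).trans (le_of_eq (Finset.sum_congr rfl fun j _ => norm_mul _ _))
        have h2 : (∑ j ∈ range d, ‖M i j‖ * ‖v j‖) ^ 2 ≤
            (∑ j ∈ range d, ‖M i j‖) * ∑ j ∈ range d, ‖M i j‖ * ‖v j‖ ^ 2 :=
          Finset.sum_sq_le_sum_mul_sum_of_sq_eq_mul _ (fun j _ => norm_nonneg _)
            (fun j _ => by positivity) (fun j _ => by ring)
        refine (pow_le_pow_left₀ (norm_nonneg _) h1 2).trans (h2.trans ?_)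
        exact mul_le_of_le_one_left (Finset.sum_nonneg fun j _ => by positivity)
          (hr i (mem_range.1 hi))
    _ = ∑ j ∈ range d, (∑ i ∈ range d, ‖M i j‖) * ‖v j‖ ^ 2 := by
        rw [Finset.sum_comm]
        exact Finset.sum_congr rfl fun j _ => by rw [Finset.sum_mul]
    _ ≤ ∑ j ∈ range d, ‖v j‖ ^ 2 :=
        Finset.sum_le_sum fun j hj => mul_le_of_le_one_left (by positivity) (hc j (mem_range.1 hj))

theorem schur_diag {τ p' : ℝ} {z : ℂ} (h1 : 3 / 4 ≤ p') (h2 : p' ≤ 1)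
    (h3 : (1 - p') * τ ≤ 1 / 8) (hz : DiagOK τ z) : ‖z - (1 - p' : ℂ)‖ ≤ p' - (1 - ‖z‖) / 4 := by
  rcases hz with rfl | ⟨y, θ, hy, rfl, hθ⟩
  · rw [zero_sub, norm_neg, norm_zero, show (1 - p' : ℂ) = ((1 - p' : ℝ) : ℂ) by push_cast; rfl,
      Complex.norm_real, Real.norm_eq_abs, abs_of_nonneg (by linarith)]
    linarith
  · have hn : ‖Complex.exp (-y + θ * Complex.I)‖ = Real.exp (-y) := by
      rw [Complex.norm_exp]; simp
    have hρ0 : 0 < Real.exp (-y) := Real.exp_pos _
    have hρ1 : Real.exp (-y) ≤ 1 := Real.exp_le_one_iff.2 (by linarith)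
    have hρy : Real.exp (-y) * y ≤ 1 - Real.exp (-y) := by
      have h := Real.add_one_le_exp y
      have h' : Real.exp (-y) * Real.exp y = 1 := by rw [← Real.exp_add]; simp
      nlinarith
    have hre : (Complex.exp (-y + θ * Complex.I)).re = Real.exp (-y) * Real.cos θ := by
      rw [Complex.exp_re]; simp
    have him : (Complex.exp (-y + θ * Complex.I)).im = Real.exp (-y) * Real.sin θ := by
      rw [Complex.exp_im]; simp
    rw [hn]
    set ρ := Real.exp (-y)
    refine abs_le_of_sq_le_sq' ?_ (by linarith) |>.2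
    rw [Complex.sq_norm, Complex.normSq_apply]
    simp only [Complex.sub_re, Complex.sub_im, hre, him, Complex.one_re, Complex.one_im,
      Complex.ofReal_re, Complex.ofReal_im]
    have hc := Real.one_sub_sq_div_two_le_cos (x := θ)
    have hs := Real.sin_sq_add_cos_sq θ
    have e : (ρ * Real.cos θ - (1 - p')) * (ρ * Real.cos θ - (1 - p')) +
        (ρ * Real.sin θ - (0 - 0)) * (ρ * Real.sin θ - (0 - 0)) =
        (ρ - (1 - p')) ^ 2 + 2 * (ρ * (1 - p')) * (1 - Real.cos θ) := by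
      linear_combination ρ ^ 2 * hs
    rw [e]
    have hq : 0 ≤ ρ * (1 - p') := mul_nonneg hρ0.le (by linarith)
    have k1 : 2 * (ρ * (1 - p')) * (1 - Real.cos θ) ≤ ρ * (1 - p') * (τ * y) := by nlinarith
    have k2 : ρ * (1 - p') * (τ * y) ≤ (1 - ρ) / 8 := by
      have : ρ * y * ((1 - p') * τ) ≤ ρ * y * (1 / 8) :=
        mul_le_mul_of_nonneg_left h3 (by positivity)
      nlinarith
    nlinarith [mul_nonneg (sub_nonneg.2 hρ1) (sub_nonneg.2 h1), mul_nonneg (sub_nonneg.2 hρ1) hρ0.le]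

theorem schur_proof : SchurStmt := by
  intro S τ p' a hS h1 h2 _ h3 hC σ
  have hp : 0 < p' := by linarith
  have hoff : ∀ i j, i ≠ j → ‖((S : ℂ) * (a.A σ i j : ℂ) - if i = j then (1 - p' : ℂ) else 0) / p'‖ =
      S * ‖a.A σ i j‖ / p' := fun i j hij => by
    rw [if_neg hij, sub_zero, norm_div, norm_mul, Complex.norm_real, Complex.norm_real,
      Real.norm_of_nonneg hS.le, Real.norm_of_nonneg hp.le, norm_coe]
  have hdiag : ∀ i < a.d, ‖((S : ℂ) * (a.A σ i i : ℂ) - if i = i then (1 - p' : ℂ) else 0) / p'‖ ≤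
      (p' - (1 - S * ‖a.A σ i i‖) / 4) / p' := fun i hi => by
    rw [if_pos rfl, norm_div, Complex.norm_real, Real.norm_of_nonneg hp.le]
    refine div_le_div_of_nonneg_right ?_ hp.le
    have := schur_diag h1 h2 h3 (hC σ i hi).1
    rwa [norm_mul, Complex.norm_real, Real.norm_of_nonneg hS.le, norm_coe] at this
  refine schur_test (fun i hi => ?_) (fun i hi => ?_)
  · rw [← Finset.add_sum_erase _ _ (mem_range.2 hi),
      Finset.sum_congr rfl fun j hj => hoff i j (ne_of_mem_erase hj).symm, ← Finset.sum_div]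
    refine (add_le_add (hdiag i hi) (div_le_div_of_nonneg_right (hC σ i hi).2.1 hp.le)).trans ?_
    rw [← add_div, div_le_one hp]
    linarith
  · rw [← Finset.add_sum_erase _ _ (mem_range.2 hi),
      Finset.sum_congr rfl fun j hj => hoff j i (ne_of_mem_erase hj), ← Finset.sum_div]
    refine (add_le_add (hdiag i hi) (div_le_div_of_nonneg_right (hC σ i hi).2.2 hp.le)).trans ?_
    rw [← add_div, div_le_one hp]
    linarith

end Crest.Agent.R300U
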