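import Crest.Agent.R300U.DefsC
import Crest.Agent.R300U.H8Aux

/-!
Row 300, upper bound, task STEP: one level of the recursion.
-/

set_option autoImplicit false

namespace Crest.Agent.R300U

open Crest.Agent.R317 Finset

namespace Step

theorem coe_zpow (z : GQ) (k : ℤ) : ((z ^ k : GQ) : ℂ) = (z : ℂ) ^ k :=
  map_zpow₀ GF.subtype z k

theorem coe_sum (s : Finset ℕ) (f : ℕ → GQ) :
    ((∑ i ∈ s, f i : GQ) : ℂ) = ∑ i ∈ s, (f i : ℂ) := map_sum GF.subtype f s

theorem coe_two_pow (k : ℕ) : ((2 ^ k : GQ) : ℂ) = 2 ^ k := by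
  push_cast
  rfl

/-- The true coefficients. -/
noncomputable def cs (a : FA) (x y : List Bool) (j u : ℕ) : ℂ :=
  if j + u < x.length then (a.val (x.take (j + 1 + u)) : ℂ) - (a.val (y.take (j + 1 + u)) : ℂ)
  else 0

theorem val_le {a : FA} (ha : Bd a) {x : List Bool} {k : ℕ} (hk : 1 ≤ k) (hx : 0 < x.length) :
    ‖(a.val (x.take k) : ℂ)‖ ≤ 1 := by
  refine ha _ fun h => ?_
  have := congrArg List.length h
  rw [List.length_take, List.length_nil] at this
  omega

theorem cs_le {a : FA} (ha : Bd a) {x y : List Bool} (hxy : x.length = y.length) (j u : ℕ) :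
    ‖cs a x y j u‖ ≤ 2 := by
  unfold cs
  split_ifs with h
  · refine (norm_sub_le _ _).trans ?_
    have h1 := val_le ha (x := x) (k := j + 1 + u) (by omega) (by omega)
    have h2 := val_le ha (x := y) (k := j + 1 + u) (by omega) (by omega)
    linarith
  · simp

theorem tail {a : FA} (ha : Bd a) {x y : List Bool} (hxy : x.length = y.length) (j g : ℕ) {ζ : ℂ}
    {c : ℝ} (hc : 0 < c) (hζ : ‖ζ‖ ≤ 1 - c) :
    ‖∑ u ∈ range g, cs a x y j u * ζ ^ u - DD a x y j ζ‖ ≤ 2 * (1 - c) ^ g / c := by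
  have h0 : 0 ≤ 1 - c := (norm_nonneg _).trans hζ
  have e : DD a x y j ζ = ∑ u ∈ range (g + x.length), cs a x y j u * ζ ^ u := by
    unfold DD
    rw [← Finset.sum_subset (s₁ := range (x.length - j)) (s₂ := range (g + x.length))
      (range_subset_range.2 (by omega))]
    · refine Finset.sum_congr rfl fun u hu => ?_
      have := mem_range.1 hu
      rw [cs, if_pos (by omega)]
    · intro u _ hu
      rw [mem_range] at hu
      rw [cs, if_neg (by omega), zero_mul]
  rw [e, Finset.sum_range_add, sub_add_cancel_left, norm_neg]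
  refine (norm_sum_le _ _).trans ?_
  calc ∑ u ∈ range x.length, ‖cs a x y j (g + u) * ζ ^ (g + u)‖
      ≤ ∑ u ∈ range x.length, 2 * (1 - c) ^ g * (1 - c) ^ u := by
        refine Finset.sum_le_sum fun u _ => ?_
        rw [norm_mul, norm_pow, mul_assoc, ← pow_add]
        exact mul_le_mul (cs_le ha hxy j _) (pow_le_pow_left₀ (norm_nonneg _) hζ _)
          (by positivity) (by norm_num)
    _ ≤ 2 * (1 - c) ^ g / c := by
        rw [← Finset.mul_sum, div_eq_mul_inv]
        refine mul_le_mul_of_nonneg_left ?_ (by positivity)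
        have h1 := (summable_geometric_of_lt_one h0 (by linarith)).sum_le_tsum (range x.length)
          (fun u _ => by positivity)
        rwa [tsum_geometric_of_lt_one h0 (by linarith), sub_sub_cancel] at h1

theorem tail_num {P : LP} (hP : P.OK) :
    2 * (1 - 1 / (2 : ℝ) ^ (P.r + 1)) ^ (P.G + 1) / (1 / 2 ^ (P.r + 1)) ≤ 1 / 2 ^ P.E := by
  have hc : (0 : ℝ) < 1 / 2 ^ (P.r + 1) := by positivity
  have hc1 : (1 : ℝ) / 2 ^ (P.r + 1) ≤ 1 := by
    rw [div_le_one (by positivity)]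
    exact one_le_pow₀ one_le_two
  have h1 : (1 - 1 / (2 : ℝ) ^ (P.r + 1)) ^ (P.G + 1) ≤
      Real.exp (-(1 / 2 ^ (P.r + 1))) ^ (P.G + 1) :=
    pow_le_pow_left₀ (by linarith) (by linarith [Real.add_one_le_exp (-(1 / (2 : ℝ) ^ (P.r + 1)))]) _
  have h2 : 2 * (P.E : ℝ) ≤ (P.G + 1 : ℕ) * (1 / 2 ^ (P.r + 1)) := by
    have h3 : (2 : ℝ) ^ (P.r + 1) ≤ 2 ^ (P.r' + 2) := H8.two_pow_ge (by have := hP.hr'; omega)
    rw [mul_one_div, le_div_iff₀ (by positivity)]
    push_cast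
    rw [H8.G_eq hP]
    have hE : (0 : ℝ) ≤ P.E := Nat.cast_nonneg _
    have := mul_le_mul_of_nonneg_left h3 hE
    have : (0 : ℝ) ≤ P.E * 2 ^ (P.r' + 2) := by positivity
    nlinarith
  have h4 : Real.exp (-(1 / 2 ^ (P.r + 1))) ^ (P.G + 1) ≤ 1 / 2 ^ (2 * P.E) := by
    rw [← Real.exp_nat_mul]
    calc _ ≤ Real.exp (-((2 * P.E : ℕ) * 1)) := Real.exp_le_exp.2 (by push_cast at h2 ⊢; linarith)
      _ = 1 / Real.exp 1 ^ (2 * P.E) := by rw [Real.exp_neg, Real.exp_nat_mul, one_div]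
      _ ≤ 1 / 2 ^ (2 * P.E) := by
        gcongr
        linarith [Real.add_one_le_exp 1]
  have h5 : (2 : ℝ) ^ (P.r + 2) ≤ 2 ^ P.E :=
    H8.two_pow_ge (by have := hP.hr'; have := hP.hE; omega)
  calc _ ≤ 2 * (1 / (2 : ℝ) ^ (2 * P.E)) / (1 / 2 ^ (P.r + 1)) := by
        gcongr
        exact h1.trans h4
    _ = 2 ^ (P.r + 2) / 2 ^ (2 * P.E) := by field_simp; ring
    _ ≤ 2 ^ P.E / 2 ^ (2 * P.E) := by gcongr
    _ = _ := by field_simp; ring

theorem ident (hOm : OmStmt) (P : LP) {j : ℕ} {x y : List Bool} (a : FA)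
    (hxy : x.length = y.length) (hj : y.take j = x.take j) (θ : ℤ) :
    ∑ u ∈ range (P.G + 1), ((P.Wq u * P.ω ^ (-(θ * u)) / 2 ^ (P.E / 64) : GQ) : ℂ) * cs a x y j u =
      Al P x.length j (fun i => (a.val (x.take i) : ℂ)) ((P.ω : ℂ) ^ θ) / 2 ^ (P.E / 64) -
        ((alG P j y a θ / 2 ^ (P.E / 64) : GQ) : ℂ) := by
  have hW : ∀ u : ℤ, (P.Wq u : ℂ) = P.Wr u := fun u => (hOm.2.1 P u).1
  rw [Subfield.coe_div, coe_two_pow, ← sub_div]
  unfold Al alG
  rw [coe_sum, ← Finset.sum_sub_distrib, show 2 * P.G + 1 = P.G + (P.G + 1) by ring,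
    Finset.sum_range_add _ P.G (P.G + 1), Finset.sum_eq_zero (s := range P.G), zero_add,
    Finset.sum_div]
  · refine Finset.sum_congr rfl fun u _ => ?_
    unfold cs
    rw [← hxy]
    by_cases h : j + u < x.length
    · rw [if_pos h, if_pos (by omega), if_pos (by omega),
        show j + 1 + (P.G + u) - P.G = j + 1 + u by omega,
        show ((P.G + u : ℕ) : ℤ) - P.G = u by push_cast; ring]
      simp only [Subfield.coe_div, Subfield.coe_mul, coe_two_pow, coe_zpow, hW, ← zpow_mul,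
        mul_neg]
      ring
    · rw [if_neg h, if_neg (by omega), if_neg (by omega)]
      simp
  · intro i hi
    have hi := mem_range.1 hi
    rw [← hxy]
    split_ifs with h
    · have e : y.take (j + 1 + i - P.G) = x.take (j + 1 + i - P.G) := by
        have := congrArg (List.take (j + 1 + i - P.G)) hj
        rwa [List.take_take, List.take_take, min_eq_left (by omega)] at this
      simp only [Subfield.coe_mul, coe_zpow, hW, ← zpow_mul, mul_neg, e, sub_self]
    · simp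

theorem par' {P : LP} (hP : P.OK) : 4 * (P.G + 1) ^ 2 ≤ 2 ^ P.E ∧ 1 ≤ P.η := by
  have hE := H8.E_ge hP
  have hG : P.G ≤ 2 ^ (P.E / 16384) := by exact_mod_cast H8.G_le hP
  have h0 : 0 < 2 ^ (P.E / 16384) := by positivity
  constructor
  · calc 4 * (P.G + 1) ^ 2 ≤ 4 * (2 * 2 ^ (P.E / 16384)) ^ 2 := by gcongr; omega
      _ = 2 ^ (2 * (P.E / 16384) + 4) := by ring
      _ ≤ 2 ^ P.E := Nat.pow_le_pow_right (by norm_num) (by omega)
  · refine Nat.pos_of_ne_zero fun h0 => ?_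
    have := hP.hη
    rw [h0, zero_mul] at this
    exact absurd this (by positivity)

theorem final {E X a : ℝ} {n : ℕ} (hn : E = n) (h4 : 4 ≤ n)
    (ha : a = E * (3 / 20 - X ^ 2 / 160)) :
    (2 : ℝ) ^ (-a - 1) + 1 / 2 ^ n + 2 / 2 ^ n ≤ 2 ^ (-a) := by
  have h4' : (4 : ℝ) ≤ n := by exact_mod_cast h4
  have h1 : (2 : ℝ) ^ (-a - 1) = 2 ^ (-a) / 2 := by
    rw [Real.rpow_sub (by norm_num), Real.rpow_one]
  have h2 : (2 : ℝ) ^ (3 - (n : ℝ)) ≤ 2 ^ (-a) := by
    refine Real.rpow_le_rpow_of_exponent_le one_le_two ?_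
    rw [ha, hn]
    nlinarith [mul_nonneg (show (0 : ℝ) ≤ n by positivity) (sq_nonneg X)]
  rw [Real.rpow_sub (by norm_num), Real.rpow_natCast, show (3 : ℝ) = (3 : ℕ) by norm_num,
    Real.rpow_natCast] at h2
  have h3 : (0 : ℝ) < 1 / 2 ^ n := by positivity
  have h5 : (2 : ℝ) ^ 3 / 2 ^ n = 8 * (1 / 2 ^ n) := by ring
  have h6 : (2 : ℝ) / 2 ^ n = 2 * (1 / 2 ^ n) := by ring
  linarith

end Step

open Step in
theorem step_proof (hPt : PtabStmt) (hE1 : Ext1Stmt) (hE2 : Ext2Stmt) (hRc : RcStmt)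
    (hOm : OmStmt) : StepStmt := by
  intro pr perc hpr hperc P ℓ h j x y a ζ tab hP hxy hj hyx ha htab X hX hT
  obtain ⟨r1, -, r3, r4⟩ := hRc
  have hD := r4 a x y j P.r X ζ ha hxy hT
  have hE := H8.E_ge hP
  have hER := H8.E_geR hP
  have hfirst : ‖(comb pr perc P j y a ζ tab : ℂ) - DD a x y j ζ‖ ≤ 2 ^ ((P.E : ℝ) / 64) := by
    refine (r1 P.E P.r _ _ hD).2.trans ?_
    rw [← Real.rpow_natCast]
    refine Real.rpow_le_rpow_of_exponent_le one_le_two ?_
    have : 64 * (P.r + 4) ≤ P.E := by have := hP.hr'; have := hP.hE; omega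
    have : (64 : ℝ) * (P.r + 4) ≤ P.E := by exact_mod_cast this
    push_cast
    linarith
  refine ⟨hfirst, ?_⟩
  by_cases hX2 : 27 < X ^ 2
  · refine hfirst.trans (Real.rpow_le_rpow_of_exponent_le one_le_two ?_)
    nlinarith
  have hX2 : X ^ 2 ≤ 27 := not_lt.1 hX2
  obtain ⟨p1, p2⟩ := par' hP
  have hN : (1 : ℝ) ≤ 2 ^ (P.E / 64) := one_le_pow₀ one_le_two
  have hω : ‖(P.ω : ℂ)‖ = 1 := by
    rw [show (P.ω : ℂ) = _ from (hOm.1 (2 * P.E)).1, Complex.norm_exp_ofReal_mul_I]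
  have hW : ∀ u : ℤ, (P.Wq u : ℂ) = P.Wr u := fun u => (hOm.2.1 P u).1
  -- the coefficients of the windowed transform
  set co : ℕ → ℂ := fun i => (if P.G ≤ j + i ∧ j + 1 + i ≤ x.length + P.G then
    (P.Wr ((i : ℤ) - P.G) : ℂ) * (a.val (x.take (j + 1 + i - P.G)) : ℂ) else 0) / 2 ^ (P.E / 64)
    with hco
  have hco1 : ∑ i ∈ range (2 * P.G + 1), ‖co i‖ ≤ 1 := by
    calc _ ≤ ∑ i ∈ range (2 * P.G + 1), P.Wr ((i : ℤ) - P.G) / 2 ^ (P.E / 64) := by
          refine Finset.sum_le_sum fun i _ => ?_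
          have h0 := (hOm.2.1 P ((i : ℤ) - P.G)).2.1
          rw [hco]
          simp only [norm_div, norm_pow, Complex.norm_two]
          gcongr
          split_ifs with hi
          · rw [norm_mul, Complex.norm_real, Real.norm_of_nonneg h0]
            exact mul_le_of_le_one_right h0 (val_le ha (by omega) (by omega))
          · simpa using h0
      _ ≤ 1 := by
          rw [← Finset.sum_div, div_le_one (by positivity)]
          exact (hOm.2.2.1 P hP).1
  set α : ℤ → ℂ := fun θ =>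
    Al P x.length j (fun i => (a.val (x.take i) : ℂ)) ((P.ω : ℂ) ^ θ) / 2 ^ (P.E / 64) with hα
  have hαe : α = fun θ => ∑ i ∈ range (2 * P.G + 1),
      co i * (P.ω : ℂ) ^ (-(θ * ((i : ℤ) - P.G))) := by
    funext θ
    simp only [hα, hco, Al, Finset.sum_div]
    refine Finset.sum_congr rfl fun i _ => ?_
    split_ifs
    · rw [← zpow_mul, mul_neg]
      ring
    · simp
  have hα1 : ∀ θ : ℤ, |θ| ≤ P.J → ‖α θ‖ ≤ 1 := fun θ _ => by
    rw [hαe]
    refine (norm_sum_le _ _).trans (le_trans (le_of_eq ?_) hco1)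
    exact Finset.sum_congr rfl fun i _ => by rw [norm_mul, norm_zpow, hω, one_zpow, mul_one]
  have hε : (((1 / 2 ^ P.E : ℚ) : ℚ) : ℝ) = 1 / 2 ^ P.E := by push_cast; rfl
  have hgood := hpr P.J P.η P.K (1 / 2 ^ P.E) (ptab P j y a tab) α p2 hP.hK (by positivity)
    (by
      rw [show (16 : ℚ) = 2 ^ 4 by norm_num]
      gcongr
      · norm_num
      · omega) hα1
    (by rw [hε]; exact hPt P ℓ h j x y a tab hP hxy hj hyx ha htab)
  rw [hε] at hgood
  set o := pr (P.J, P.η, P.K, 1 / 2 ^ P.E, ptab P j y a tab) with ho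
  set rows := mkL (2 * P.J + 1) (fun i => mkL (P.G + 1) (fun u =>
    P.Wq u * P.ω ^ (-(((i : ℤ) - P.J) * u)) / 2 ^ (P.E / 64))) with hrows
  set bs := mkL (2 * P.J + 1)
    (fun i => o.1.getD i 0 - alG P j y a ((i : ℤ) - P.J) / 2 ^ (P.E / 64)) with hbs
  have hrow : ∀ i < 2 * P.J + 1, ∀ u ∈ range (P.G + 1), (rows.getD i []).getD u 0 =
      P.Wq u * P.ω ^ (-(((i : ℤ) - P.J) * u)) / 2 ^ (P.E / 64) := fun i hi u hu => by
    rw [hrows, getD_mkL _ _ hi, getD_mkL _ _ (mem_range.1 hu)]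
  obtain ⟨q1, q2⟩ := hperc (P.G + 1) rows bs o.2 (1 / 2 ^ P.E) P.T (cs a x y j) (by omega)
    (by positivity)
    (by
      have : (4 : ℚ) * ((P.G + 1 : ℕ) : ℚ) ^ 2 ≤ 2 ^ P.E := by exact_mod_cast p1
      refine this.trans (le_of_eq ?_)
      rw [hP.hT]
      push_cast
      field_simp
      ring)
    (by
      refine le_trans (Finset.sum_le_sum (g := fun _ => 4) fun u _ => ?_) (by simp [mul_comm])
      have := pow_le_pow_left₀ (norm_nonneg _) (cs_le ha hxy j u) 2
      linarith)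
    (fun i hi => by
      rw [hrows, length_mkL] at hi
      obtain ⟨g1, g2, -⟩ := hgood.1 ((i : ℤ) - P.J) (by rw [abs_le]; constructor <;> omega)
      simp only [sub_add_cancel, Int.toNat_natCast] at g1 g2
      refine ⟨?_, ?_, ?_⟩
      · refine le_trans (Finset.sum_le_sum (g := fun _ => 1) fun u hu => ?_) (by simp)
        rw [hrow i hi u hu, ← norm_coe, Subfield.coe_div, Subfield.coe_mul, coe_zpow, coe_two_pow,
          hW, norm_div, norm_mul, norm_zpow, hω, one_zpow, mul_one, norm_pow, Complex.norm_two,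
          Complex.norm_real, Real.norm_of_nonneg (hOm.2.1 P u).2.1]
        refine pow_le_one₀ (div_nonneg (hOm.2.1 P u).2.1 (by positivity)) ?_
        rw [div_le_one (by positivity)]
        refine (hOm.2.1 P u).2.2.1.trans (le_trans ?_ hN)
        rw [zpow_natCast]
        exact pow_le_one₀ (H8.vr_pos hP).le (H8.vr_le_one P)
      · rw [← hε] at g1
        exact_mod_cast g1
      · rw [Finset.sum_congr rfl fun u hu => by rw [hrow i hi u hu], ident hOm P a hxy hyx, hbs,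
          getD_mkL _ _ hi, Subfield.coe_sub, sub_sub_sub_cancel_right, norm_sub_rev]
        exact g2)
  set c := perc (P.G + 1, rows, bs, o.2, 1 / 2 ^ P.E, P.T) with hc
  set d : ℕ → ℂ := fun u => ((c.getD u 0 : GQ) : ℂ) - cs a x y j u with hd
  have hd1 : ∑ u ∈ range (P.G + 1), ‖d u‖ ^ 2 ≤ 4 * (P.G + 1) := by exact_mod_cast q1
  have hmain := hE2 P d X ζ hP hd1 hX hX2 hT fun y₁ φ X₁ =>
    hE1 P co d _ _ y₁ φ X₁ hP hco1 hd1 (hαe ▸ hgood) fun θ hθ => by
      rw [abs_le] at hθ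
      have hi : (θ + P.J).toNat < 2 * P.J + 1 := by omega
      have := q2 (θ + P.J).toNat (by rw [hrows, length_mkL]; exact hi)
      refine le_trans (le_of_eq ?_) this
      unfold Rz
      congr 2
      refine Finset.sum_congr rfl fun u hu => ?_
      rw [hrow _ hi u hu, Subfield.coe_div, Subfield.coe_mul, coe_zpow, coe_two_pow, hW,
        show (((θ + P.J).toNat : ℕ) : ℤ) - P.J = θ by omega, ← zpow_natCast ((P.ω : ℂ) ^ (-θ)),
        ← zpow_mul, neg_mul]
      ring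
  have htail := (tail ha hxy j (P.G + 1) (by positivity) (r3 P.r X ζ hT).1).trans (tail_num hP)
  have hz : ((∑ u ∈ range (P.G + 1), c.getD u 0 * ζ ^ u : GQ) : ℂ) - DD a x y j ζ =
      ∑ u ∈ range (P.G + 1), d u * (ζ : ℂ) ^ u +
        (∑ u ∈ range (P.G + 1), cs a x y j u * (ζ : ℂ) ^ u - DD a x y j ζ) := by
    rw [← add_sub_assoc, ← Finset.sum_add_distrib, Step.coe_sum]
    congr 1
    refine Finset.sum_congr rfl fun u _ => ?_
    simp only [hd]
    push_cast
    ring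
  refine (r1 P.E P.r (∑ u ∈ range (P.G + 1), c.getD u 0 * ζ ^ u) _ hD).1.trans ?_
  rw [hz]
  refine le_trans ?_ (final (X := X) rfl (show 4 ≤ P.E by omega) rfl)
  exact add_le_add ((norm_add_le _ _).trans (add_le_add hmain htail)) le_rfl

end Crest.Agent.R300U
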