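import Crest.Agent.R300U.CHC
import Crest.Agent.R300U.SCHUR
import Crest.Agent.R300U.STEP

/-!
Row 300, upper bound, task LEAF: the direct estimate from the traces.
-/

set_option autoImplicit false

namespace Crest.Agent.R300U

open Crest.Agent.R317 Finset Crest.FinProb Crest.TraceRecon

namespace Leaf

theorem quarter {n : ℕ} (hn : 2 ≤ n) : (1 : ℝ) / 4 ≤ (1 - 1 / n) ^ n := by
  have hn2 : (2 : ℝ) ≤ n := by exact_mod_cast hn
  have h1 := rpow_one_add_le_one_add_mul_self (s := -1 / 2) (p := 2 / n) (by norm_num)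
    (by positivity) (by rw [div_le_one (by positivity)]; exact hn2)
  have h2 := pow_le_pow_left₀ (by positivity) h1 n
  rw [← Real.rpow_natCast, ← Real.rpow_mul (by norm_num), div_mul_cancel₀ _ (by positivity),
    Real.rpow_two, show (1 : ℝ) + 2 / n * (-1 / 2) = 1 - 1 / n by ring] at h2
  linarith

theorem acc_val (ℓ h : ℕ) (a : FA) (ζ : GQ) (x : List Bool) : (accA ℓ h a ζ).val x =
    ∑ g ∈ range x.length, ζ⁻¹ ^ g * a.val (x.take (x.length - g)) := by
  unfold accA
  rw [(slotv_proof a 0 1 0 _ _ ζ⁻¹ 1 x (by positivity) (by unfold lw; positivity)).2 le_rfl]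
  simp [cf, chi]

theorem dd_eq (ℓ h : ℕ) (a : FA) {ζ : GQ} (hζ : ζ ≠ 0) {x y : List Bool} {j : ℕ}
    (hxy : y.length = x.length) (hj : j < x.length) (hyx : y.take j = x.take j) :
    DD a x y j ζ = ((ζ ^ (x.length - j - 1) *
      ((accA ℓ h a ζ).val x - (accA ℓ h a ζ).val y) : GQ) : ℂ) := by
  rw [acc_val, acc_val, hxy, ← Finset.sum_sub_distrib, Finset.mul_sum,
    ← Finset.sum_subset (s₁ := range (x.length - j)) (s₂ := range x.length)
      (range_subset_range.2 (by omega)), ← Finset.sum_range_reflect, Step.coe_sum]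
  · unfold DD
    refine Finset.sum_congr rfl fun u hu => ?_
    have hu := mem_range.1 hu
    have e : ζ ^ (x.length - j - 1) * ζ⁻¹ ^ (x.length - j - 1 - u) = ζ ^ u := by
      rw [inv_pow, ← pow_sub₀ _ hζ (by omega)]
      congr 1
      omega
    rw [← mul_sub, ← mul_assoc, e, show x.length - (x.length - j - 1 - u) = j + 1 + u by omega]
    push_cast
    ring
  · intro g hg hg'
    rw [mem_range] at hg hg'
    have e : y.take (x.length - g) = x.take (x.length - g) := by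
      have := congrArg (List.take (x.length - g)) hyx
      rwa [List.take_take, List.take_take, min_eq_left (by omega)] at this
    rw [e, sub_self, mul_zero]

theorem acc_cls (hRc : RcStmt) {n eS h r : ℕ} {a : FA} {ζ : GQ} {τ : ℝ} (hn : 2 ≤ n)
    (hC : Cls ((1 - 1 / n) ^ eS) τ a) (hτ : 1 / 2 ≤ τ) (hc : n1c a ≤ 2 ^ h) (hh : n1h a ≤ 2 ^ h)
    (hT : Tgt r 8192 ζ) (hr : n.size + 14 ≤ r) :
    Cls ((1 - 1 / n) ^ (eS + 1)) τ (accA n.size h a ζ) ∧
      n1c (accA n.size h a ζ) ≤ 2 ^ (2 * n.size + h + 13) ∧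
      n1h (accA n.size h a ζ) ≤ 2 ^ (2 * n.size + h + 13) := by
  have hn2 : (2 : ℝ) ≤ n := by exact_mod_cast hn
  have hn1 : (1 : ℝ) / n ≤ 1 / 2 := by gcongr
  have hn0 : (0 : ℝ) < 1 / n := by positivity
  have hl : (n : ℝ) ≤ 2 ^ n.size := by exact_mod_cast (Nat.lt_size_self _).le
  have hr' : 16384 * (n : ℝ) ≤ 2 ^ r := by
    calc 16384 * (n : ℝ) ≤ 16384 * 2 ^ n.size := by gcongr
      _ = 2 ^ (n.size + 14) := by ring
      _ ≤ _ := H8.two_pow_ge hr
  have hr2 : (1 : ℝ) / 2 ^ r ≤ 1 / n / 16384 := by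
    rw [div_div, mul_comm]
    gcongr
  have hζ := (hRc.2.2.1 r 8192 ζ hT).2
  rw [norm_coe] at hζ
  have hζ0 : 0 < ‖ζ‖ := by linarith
  obtain ⟨r1, r2, r3⟩ := slotc_proof a 0 1 0 (1 / 2 ^ (n.size + 4)) (lw n.size 0 h) ζ⁻¹ 1
    ((1 - 1 / n) ^ eS) (1 - 1 / n) τ (1 / n / 2) (pow_pos (by linarith) _)
    (pow_le_one₀ (by linarith) (by linarith)) (by linarith) (by linarith) (by linarith)
    (by linarith) (by linarith) le_rfl zero_le_one (by positivity) (by unfold lw; positivity)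
    (chc_link hn hc)
    (fun k _ => by
      rw [one_pow, mul_one, norm_inv]
      have k1 : (1 - 1 / n) * ‖ζ‖⁻¹ ≤ 1 - 1 / n / 2 := by
        rw [mul_inv_le_iff₀ hζ0]
        nlinarith
      refine ⟨by simpa using k1, ?_, ?_⟩
      · push_cast
        have k2 : (1 : ℝ) / 2 ^ (n.size + 4) ≤ 1 / n / 16 := by
          rw [div_div, pow_add]
          gcongr
          norm_num
        have k3 : (0 : ℝ) < 1 / 2 ^ (n.size + 4) := by positivity
        rw [zero_div, zero_add]
        nlinarith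
      · obtain ⟨φ, h1, h2⟩ := hT
        have k4 : (0 : ℝ) ≤ 1 - 1 / 2 ^ (r + 2) := by
          rw [sub_nonneg, div_le_one (by positivity)]
          exact one_le_pow₀ one_le_two
        have k5 : (‖ζ‖ : ℂ) = (1 - 1 / 2 ^ (r + 2)) ^ 4 := by
          rw [← norm_coe, h1, norm_mul, Complex.norm_exp_ofReal_mul_I, mul_one,
            show (1 - 1 / 2 ^ (r + 2) : ℂ) ^ 4 = (((1 - 1 / 2 ^ (r + 2)) ^ 4 : ℝ) : ℂ) by
              push_cast; rfl, Complex.norm_real, Real.norm_of_nonneg (by positivity)]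
        refine ⟨-φ, ?_, ?_⟩
        · rw [Subfield.coe_inv, Complex.ofReal_inv, k5, h1, mul_inv, ← Complex.exp_neg]
          simp
        · have k6 : |φ| ≤ 1 / n / 2 := by
            refine h2.trans ?_
            rw [div_eq_mul_one_div]
            linarith
          rw [neg_sq, ← sq_abs]
          have := abs_nonneg φ
          nlinarith) hC
  refine ⟨by rw [pow_succ]; exact r1, r3.trans ?_, r2 ▸ hh.trans (H8.two_pow_ge (by omega))⟩
  unfold lw
  rw [show (2 * 0 + 1 : ℕ).size = 1 from rfl]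
  push_cast
  rw [div_div_eq_mul_div, div_one, div_div_eq_mul_div, div_one]
  have : (1 : ℝ) ≤ 2 ^ (n.size + 4) := one_le_pow₀ one_le_two
  calc (1 + 32 ^ 1 * (2 : ℝ) ^ (n.size + 4)) * 2 ^ (n.size + 1 + h + 2)
      ≤ (64 * (2 : ℝ) ^ (n.size + 4)) * 2 ^ (n.size + 1 + h + 2) := by
        gcongr
        linarith
    _ = _ := by ring

theorem trs_sum {n m : ℕ} (x : Fin n → Bool) (ks : Fin m → Fin n → Bool) (f : List Bool → GQ) :
    ∑ k ∈ range (trs x ks).length, f ((trs x ks).getD k []) = ∑ k, f (traceOf x (ks k)) := by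
  rw [show (trs x ks).length = m by simp [trs], Finset.sum_range]
  exact Finset.sum_congr rfl fun k _ => by simp [trs]

end Leaf

open Leaf in
theorem leaf_proof (hMix : MixStmt) (hCheb : ChebStmt) (hPrb : PrbStmt) (hRc : RcStmt) :
    LeafStmt := by
  intro C₁ chan hC₁ hchan n m p x y j eS h E r D a ζ τ hn hp0 hp1 hpn hm hy hj hyx ha hC hτ hτ' hc hh
    hT hr hD
  have hp0' : (0 : ℝ) < p := by exact_mod_cast hp0
  have hp1' : (p : ℝ) < 1 := by exact_mod_cast hp1
  have hn2 : (2 : ℚ) ≤ n := by exact_mod_cast hn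
  have hn1 : (1 : ℚ) / n ≤ 1 / 2 := by gcongr
  have hn0 : (0 : ℚ) < 1 / n := by positivity
  have hx : (List.ofFn x).length = n := List.length_ofFn
  obtain ⟨c1, c2, c3⟩ := acc_cls hRc hn hC hτ hc hh hT hr
  set S : ℚ := (1 - 1 / n) ^ (eS + 1) with hS
  set b := accA n.size h a ζ with hb
  have hSR : (S : ℝ) = (1 - 1 / n) ^ (eS + 1) := by rw [hS]; push_cast; rfl
  have hS0 : 0 < S := pow_pos (by linarith) _
  have hS0' : (0 : ℝ) < S := by exact_mod_cast hS0
  have hC₁' : (0 : ℚ) < C₁ := by exact_mod_cast hC₁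
  obtain ⟨k1, k2⟩ := hchan p S D n b (2 ^ (2 * n.size + h + 13)) hp0 hp1 hn hpn
    (le_trans (mul_le_mul_of_nonneg_left (by
      have : (0 : ℚ) ≤ n.size := Nat.cast_nonneg _
      have : (0 : ℚ) ≤ E + 2 * eS + 2 * h + 30 := by positivity
      linarith) hC₁'.le) hD) hS0 (pow_le_one₀ (by linarith) (by linarith))
    (schur_proof S τ _ b hS0' (le_max_right _ _) (max_le hp1'.le (by norm_num)) (by linarith) hτ'
      (hSR ▸ c1)) c2 c3
  have k3 := k2 (List.ofFn x) hx.le
  rw [hx] at k3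
  have hcheb := hCheb p n m (fun k => ((chan (p, S, D, b)).val (traceOf x k) : ℂ)) _
    (1 / 2 ^ (E + 2 * eS + 3)) hp0'.le hp1'.le hm (by positivity)
    (fun k => k1 (traceOf x k) (by
      unfold traceOf
      rw [List.length_map]
      exact (List.length_filter_le _ _).trans (by simp)))
  rw [hMix] at hcheb
  refine le_trans ((hPrb p n m hp0'.le hp1'.le).1 _ _ fun ks hks => ?_) (hcheb.trans ?_)
  · by_contra hcon
    refine hks ?_
    have hcon := not_lt.1 hcon
    obtain ⟨z1, z2⟩ := hRc.2.2.1 r 8192 ζ hT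
    have hr1 : (1 : ℝ) / 2 ^ r ≤ 1 / 2 := by
      rw [← pow_one (2 : ℝ), ← pow_mul, one_mul]
      gcongr
      · norm_num
      · omega
    have hζ0 : ζ ≠ 0 := by
      rintro rfl
      simp only [ZeroMemClass.coe_zero, norm_zero] at z2
      linarith
    have hζ1 : ‖ζ‖ ≤ 1 := by
      have : (0 : ℝ) < 1 / 2 ^ (r + 1) := by positivity
      rw [norm_coe] at z1
      linarith
    refine (hRc.1 E r _ _ (hRc.2.2.2 a _ y j r 8192 ζ ha (hx.trans hy.symm) hT)).1.trans ?_
    rw [dd_eq n.size h a hζ0 (hy.trans hx.symm) (hx.symm ▸ hj) hyx, hx, ← hb, ← hS, trs_sum,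
      show (trs x ks).length = m by simp [trs], ← Subfield.coe_sub, norm_coe, ← mul_sub,
      sub_sub_sub_cancel_right, norm_mul, norm_pow]
    have hSn : 1 / 2 ^ (2 * eS + 2) ≤ (S : ℝ) ^ n := by
      rw [hSR, ← pow_mul, mul_comm (eS + 1), pow_mul (1 - 1 / (n : ℝ))]
      refine le_trans (le_of_eq ?_) (pow_le_pow_left₀ (by norm_num) (quarter hn) _)
      rw [show 2 * eS + 2 = 2 * (eS + 1) by ring, pow_mul, div_pow, one_pow]
      norm_num
    have hbias : (2 : ℝ) ^ (-(p * D / C₁ : ℝ)) * (2 ^ (2 * n.size + h + 13)) ^ 2 ≤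
        1 / 2 ^ (E + 2 * eS + 4) := by
      have h1 : ((E + 2 * eS + 4 * n.size + 2 * h + 30 : ℕ) : ℝ) ≤ p * D / C₁ := by
        rw [le_div_iff₀ (by exact_mod_cast hC₁), mul_comm]
        exact_mod_cast hD
      have h2 : (2 : ℝ) ^ (-(p * D / C₁ : ℝ)) ≤ 1 / 2 ^ (E + 2 * eS + 4 * n.size + 2 * h + 30) := by
        rw [one_div, ← Real.rpow_natCast, ← Real.rpow_neg (by norm_num)]
        exact Real.rpow_le_rpow_of_exponent_le one_le_two (neg_le_neg h1)
      refine (mul_le_mul_of_nonneg_right h2 (by positivity)).trans (le_of_eq ?_)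
      field_simp
      ring
    have hmean : ‖(∑ k, (chan (p, S, D, b)).val (traceOf x (ks k))) / (m : GQ) -
        (mix p (chan (p, S, D, b))).val (List.ofFn x)‖ ≤ 1 / 2 ^ (E + 2 * eS + 3) := by
      rw [← norm_coe]
      push_cast
      exact hcon
    have hSq : (S : GQ) ≠ 0 := by exact_mod_cast hS0.ne'
    have hfin : ‖(∑ k, (chan (p, S, D, b)).val (traceOf x (ks k))) / (m : GQ) / (S : GQ) ^ n -
        b.val (List.ofFn x)‖ ≤ 1 / 2 ^ E := by
      rw [div_sub' (pow_ne_zero _ hSq), norm_div, norm_pow, slotc_norm, abs_of_pos hS0',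
        div_le_iff₀ (by positivity)]
      refine (norm_sub_le_norm_sub_add_norm_sub _ _ _).trans
        ((add_le_add hmean (k3.trans hbias)).trans ?_)
      refine le_trans ?_ (mul_le_mul_of_nonneg_left hSn (by positivity))
      have : (0 : ℝ) < 1 / 2 ^ (E + 2 * eS + 4) := by positivity
      have e1 : (1 : ℝ) / 2 ^ (E + 2 * eS + 3) = 2 * (1 / 2 ^ (E + 2 * eS + 4)) := by
        field_simp; ring
      have e2 : (1 : ℝ) / 2 ^ E * (1 / 2 ^ (2 * eS + 2)) = 4 * (1 / 2 ^ (E + 2 * eS + 4)) := by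
        field_simp; ring
      linarith
    have := mul_le_mul (pow_le_one₀ (n := n - j - 1) (norm_nonneg _) hζ1) hfin (norm_nonneg _)
      zero_le_one
    have e3 : (3 : ℝ) / 2 ^ E = 1 * (1 / 2 ^ E) + 2 / 2 ^ E := by ring
    linarith
  · have hm' : (0 : ℝ) < m := by exact_mod_cast hm
    rw [mul_comm (m : ℝ), ← div_div]
    gcongr
    calc ((4 : ℝ) ^ (D + 1) * (2 ^ (2 * n.size + h + 13)) ^ 2) ^ 2 / (1 / 2 ^ (E + 2 * eS + 3)) ^ 2
        = 2 ^ (4 * D + 8 * n.size + 4 * h + 2 * E + 4 * eS + 62) := by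
          rw [show (4 : ℝ) ^ (D + 1) = 2 ^ (2 * D + 2) by
            rw [show 2 * D + 2 = 2 * (D + 1) by ring, pow_mul]; norm_num]
          field_simp
          ring
      _ ≤ _ := H8.two_pow_ge (by omega)

end Crest.Agent.R300U
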