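import Crest.Agent.R300U.DefsA

/-!
Row 300, upper bound: the mean of a weighted automaton over the deletion channel (task MIX).
-/

set_option autoImplicit false

namespace Crest.Agent.R300U

open Finset Crest.FinProb Crest.TraceRecon

namespace Mix

theorem traceOf_snoc {n : ℕ} (x k : Fin (n + 1) → Bool) :
    traceOf x k = traceOf (Fin.init x) (Fin.init k) ++
      (if k (Fin.last n) then [x (Fin.last n)] else []) := by
  unfold traceOf
  rw [List.finRange_succ_last, List.filter_append, List.map_append, List.filter_map, List.map_map]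
  congr 1
  by_cases h : k (Fin.last n) <;> simp [h]

theorem bw_snoc {n : ℕ} (p : ℝ) (k : Fin (n + 1) → Bool) :
    bernoulliWeight p k = bernoulliWeight p (Fin.init k) *
      (if k (Fin.last n) then p else 1 - p) := by
  unfold bernoulliWeight
  rw [Fin.prod_univ_castSucc]
  rfl

theorem sum_snoc {n : ℕ} {M : Type*} [AddCommMonoid M] (f : (Fin (n + 1) → Bool) → M) :
    ∑ k, f k = ∑ k : Fin n → Bool, (f (Fin.snoc k true) + f (Fin.snoc k false)) := by
  rw [← (Fin.snocEquiv fun _ => Bool).sum_comp, Fintype.sum_prod_type, sum_comm]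
  refine sum_congr rfl fun k _ => ?_
  rw [Fintype.sum_bool]
  rfl

theorem st_mean (p : ℚ) (a : FA) (n : ℕ) (x : Fin n → Bool) (i : ℕ) (hi : i < a.d) :
    ∑ k : Fin n → Bool, (bernoulliWeight (p : ℝ) k : ℂ) * (a.st (traceOf x k) i : ℂ) =
      ((mix p a).st (List.ofFn x) i : ℂ) := by
  induction n generalizing i with
  | zero => simp [bernoulliWeight, traceOf, mix, FA.st]
  | succ n ih =>
    rw [sum_snoc, List.ofFn_succ_last, FA.st_concat]
    have e : ∀ k : Fin n → Bool,
        (bernoulliWeight (p : ℝ) (Fin.snoc k true : Fin (n + 1) → Bool) : ℂ) *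
          (a.st (traceOf x (Fin.snoc k true)) i : ℂ) +
        (bernoulliWeight (p : ℝ) (Fin.snoc k false : Fin (n + 1) → Bool) : ℂ) *
          (a.st (traceOf x (Fin.snoc k false)) i : ℂ) =
        (1 - p) * ((bernoulliWeight (p : ℝ) k : ℂ) * (a.st (traceOf (Fin.init x) k) i : ℂ)) +
        ∑ j ∈ range a.d, (p : ℂ) * (a.A (x (Fin.last n)) i j : ℂ) *
          ((bernoulliWeight (p : ℝ) k : ℂ) * (a.st (traceOf (Fin.init x) k) j : ℂ)) := by
      intro k
      rw [traceOf_snoc, traceOf_snoc, bw_snoc, bw_snoc]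
      simp only [Fin.init_snoc, Fin.snoc_last, if_true, Bool.false_eq_true, if_false,
        List.append_nil, FA.st_concat]
      push_cast
      rw [mul_sum, add_comm]
      congr 1
      · ring
      · exact sum_congr rfl fun j _ => by ring
    simp_rw [e]
    rw [sum_add_distrib, ← mul_sum, ih _ i hi, sum_comm]
    have e2 : ∀ j ∈ range a.d, ∑ k : Fin n → Bool, (p : ℂ) * (a.A (x (Fin.last n)) i j : ℂ) *
          ((bernoulliWeight (p : ℝ) k : ℂ) * (a.st (traceOf (Fin.init x) k) j : ℂ)) =
        (p : ℂ) * (a.A (x (Fin.last n)) i j : ℂ) *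
          ((mix p a).st (List.ofFn (Fin.init x)) j : ℂ) := by
      intro j hj
      rw [← mul_sum, ih _ j (mem_range.1 hj)]
    rw [sum_congr rfl e2]
    have hd : (mix p a).d = a.d := rfl
    have hA : ∀ σ i j, (mix p a).A σ i j =
      (if i = j then ((1 - p : ℚ) : GQ) else 0) + (p : GQ) * a.A σ i j := fun _ _ _ => rfl
    have hx : (fun i : Fin n => x i.castSucc) = Fin.init x := rfl
    rw [hd, hx]
    simp only [hA, add_mul, sum_add_distrib, ite_mul, zero_mul, sum_ite_eq, mem_range, hi, if_true]
    push_cast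
    rfl

end Mix

theorem mix_proof : MixStmt := by
  intro p a n x
  have hd : (mix p a).d = a.d := rfl
  have hc : (mix p a).c = a.c := rfl
  simp only [FA.val, hd, hc]
  push_cast
  simp_rw [mul_sum]
  rw [sum_comm]
  refine sum_congr rfl fun i hi => ?_
  rw [← Mix.st_mean p a n x i (mem_range.1 hi), mul_sum]
  exact sum_congr rfl fun k _ => by ring

end Crest.Agent.R300U
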