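import Crest.Agent.R300U.DefsB

/-! Task OM: the grid, the window, the targets. -/

set_option autoImplicit false

namespace Crest.Agent.R300U

open Finset

namespace Om

theorem omg_eq (N : ℕ) : (omg N : ℂ) = Complex.exp (th N * Complex.I) := by
  obtain ⟨t, ht⟩ : ∃ t : ℝ, t = 1 / 2 ^ N := ⟨_, rfl⟩
  have h1 : (omg N : ℂ) = (1 + Complex.I * t) / (1 - Complex.I * t) := by
    unfold omg
    rw [ht]
    push_cast
    simp
    rfl
  have hc : (Real.cos (Real.arctan t) : ℂ) ≠ 0 := by exact_mod_cast (Real.cos_arctan_pos t).ne'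
  have hs : (Real.sin (Real.arctan t) : ℂ) = t * Real.cos (Real.arctan t) := by
    have := Real.tan_arctan t
    rw [Real.tan_eq_sin_div_cos, div_eq_iff (Real.cos_arctan_pos t).ne'] at this
    exact_mod_cast this
  have e1 : Complex.exp (Real.arctan t * Complex.I) =
      Real.cos (Real.arctan t) * (1 + Complex.I * t) := by
    rw [Complex.exp_mul_I, ← Complex.ofReal_cos, ← Complex.ofReal_sin, hs]; ring
  have e2 : Complex.exp (-(Real.arctan t * Complex.I)) =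
      Real.cos (Real.arctan t) * (1 - Complex.I * t) := by
    rw [← neg_mul, Complex.exp_mul_I, Complex.cos_neg, Complex.sin_neg, ← Complex.ofReal_cos,
      ← Complex.ofReal_sin, hs]; ring
  have e3 : (th N : ℂ) * Complex.I =
      Real.arctan t * Complex.I - -(Real.arctan t * Complex.I) := by
    unfold th; rw [← ht]; push_cast; ring
  rw [h1, e3, Complex.exp_sub, e1, e2, mul_div_mul_left _ _ hc]

theorem arctan_le {t : ℝ} (ht : 0 ≤ t) : Real.arctan t ≤ t := by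
  have := Real.le_tan (Real.arctan_nonneg.2 ht) (Real.arctan_lt_pi_div_two t)
  rwa [Real.tan_arctan] at this

theorem le_arctan {t : ℝ} (ht : 0 ≤ t) : t * (1 - t ^ 2) ≤ Real.arctan t := by
  refine le_trans ?_ (Real.sin_le (Real.arctan_nonneg.2 ht))
  rw [Real.sin_arctan, le_div_iff₀ (by positivity)]
  have h1 : √(1 + t ^ 2) ≤ 1 + t ^ 2 := by
    rw [Real.sqrt_le_left (by positivity)]
    nlinarith [sq_nonneg t, sq_nonneg (t ^ 2)]
  by_cases h : 0 ≤ 1 - t ^ 2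
  · calc t * (1 - t ^ 2) * √(1 + t ^ 2) ≤ t * (1 - t ^ 2) * (1 + t ^ 2) := by gcongr
      _ = t - t * (t ^ 2) ^ 2 := by ring
      _ ≤ t := by have : 0 ≤ t * (t ^ 2) ^ 2 := by positivity
                  linarith
  · have : t * (1 - t ^ 2) * √(1 + t ^ 2) ≤ 0 :=
      mul_nonpos_of_nonpos_of_nonneg (mul_nonpos_of_nonneg_of_nonpos ht (by linarith))
        (Real.sqrt_nonneg _)
    linarith

theorem th_ge (N : ℕ) : 2 / 2 ^ N * (1 - 1 / 4 ^ N) ≤ th N := by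
  have := le_arctan (t := 1 / 2 ^ N) (by positivity)
  have e : ((1 : ℝ) / 2 ^ N) ^ 2 = 1 / 4 ^ N := by
    rw [div_pow, one_pow, ← pow_mul, mul_comm, pow_mul]; norm_num
  rw [e] at this
  unfold th
  have e' : (2 : ℝ) / 2 ^ N * (1 - 1 / 4 ^ N) = 2 * (1 / 2 ^ N * (1 - 1 / 4 ^ N)) := by ring
  rw [e']; linarith

theorem th_le (N : ℕ) : th N ≤ 2 / 2 ^ N := by
  have := arctan_le (t := 1 / 2 ^ N) (by positivity)
  unfold th
  have e' : (2 : ℝ) / 2 ^ N = 2 * (1 / 2 ^ N) := by ring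
  rw [e']; linarith

theorem ω_zpow (P : LP) (n : ℤ) : (P.ω : ℂ) ^ n = Complex.exp ((n * P.θ : ℝ) * Complex.I) := by
  have : (P.ω : ℂ) = Complex.exp (P.θ * Complex.I) := omg_eq _
  rw [this, ← Complex.exp_int_mul]
  congr 1
  push_cast; ring

theorem vr_eq (P : LP) : (P.vr : ℝ) = 1 - 1 / 2 ^ (P.r' + 2) := by
  unfold LP.vr; push_cast; ring

theorem vr_pos (P : LP) : (0 : ℝ) < P.vr := by
  rw [vr_eq, sub_pos, div_lt_one (by positivity)]
  exact one_lt_pow₀ (by norm_num) (by omega)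

theorem vr_le (P : LP) : (P.vr : ℝ) ≤ 1 := by
  rw [vr_eq]
  have : (0 : ℝ) < 1 / 2 ^ (P.r' + 2) := by positivity
  linarith

theorem Wq_eq (P : LP) (u : ℤ) : (P.Wq u : ℂ) = P.Wr u := by
  have h1 : (P.Wq u : ℂ) = ((P.vr : ℝ) : ℂ) ^ u *
      ((1 + (P.ω : ℂ) ^ (P.a * u)) * (1 + (P.ω : ℂ) ^ (-(P.a * u))) / 4) ^ P.M := by
    unfold LP.Wq
    push_cast
    rfl
  have h2 : (1 + (P.ω : ℂ) ^ (P.a * u)) * (1 + (P.ω : ℂ) ^ (-(P.a * u))) / 4 =
      (((1 + Real.cos (P.a * P.θ * u)) / 2 : ℝ) : ℂ) := by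
    have h3 : (P.ω : ℂ) ^ (P.a * u) * (P.ω : ℂ) ^ (-(P.a * u)) = 1 := by
      rw [ω_zpow, ω_zpow, ← Complex.exp_add]
      convert Complex.exp_zero
      push_cast; ring
    have h4 : (P.ω : ℂ) ^ (P.a * u) + (P.ω : ℂ) ^ (-(P.a * u)) =
        2 * Complex.cos ((P.a * P.θ * u : ℝ) : ℂ) := by
      rw [ω_zpow, ω_zpow, Complex.two_cos]
      congr 2 <;> (push_cast; ring)
    rw [Complex.ofReal_div, Complex.ofReal_add, Complex.ofReal_cos]
    push_cast at h4 ⊢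
    linear_combination h3 / 4 + h4 / 4
  rw [h1, h2]
  unfold LP.Wr
  push_cast
  rfl

theorem half_cos (x : ℝ) : 0 ≤ (1 + Real.cos x) / 2 ∧ (1 + Real.cos x) / 2 ≤ 1 := by
  constructor <;> linarith [Real.neg_one_le_cos x, Real.cos_le_one x]

theorem Wr_nonneg (P : LP) (u : ℤ) : 0 ≤ P.Wr u :=
  mul_nonneg (zpow_pos (vr_pos P) u).le (pow_nonneg (half_cos _).1 _)

theorem Wr_le (P : LP) (u : ℤ) : P.Wr u ≤ (P.vr : ℝ) ^ u :=
  mul_le_of_le_one_right (zpow_pos (vr_pos P) u).le (pow_le_one₀ (half_cos _).1 (half_cos _).2)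

theorem zpow_le_exp {l : ℝ} (h0 : 0 < l) (h1 : l ≤ 1 / 1024) (u : ℤ) :
    (1 - l) ^ u ≤ Real.exp (161 / 160 * l * |(u : ℝ)|) := by
  obtain ⟨n, rfl | rfl⟩ := Int.eq_nat_or_neg u
  · rw [zpow_natCast]
    exact (pow_le_one₀ (by linarith) (by linarith)).trans (Real.one_le_exp (by positivity))
  · rw [zpow_neg, zpow_natCast, ← inv_pow]
    push_cast
    rw [abs_neg, Nat.abs_cast, mul_comm, Real.exp_nat_mul]
    refine pow_le_pow_left₀ (inv_nonneg.2 (by linarith)) ?_ n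
    refine le_trans ?_ (Real.add_one_le_exp _)
    rw [inv_le_iff_one_le_mul₀ (by linarith)]
    nlinarith

theorem cos_pow_le {x : ℝ} (hx : |x| ≤ 1 / 4) (M : ℕ) :
    ((1 + Real.cos x) / 2) ^ M ≤ Real.exp (-(M * (763 / 768 * x ^ 2 / 4))) := by
  rw [← mul_neg, Real.exp_nat_mul]
  refine pow_le_pow_left₀ (half_cos x).1 ?_ M
  refine le_trans ?_ (Real.add_one_le_exp _)
  have h1 := (abs_le.1 (Real.cos_bound (hx.trans (by norm_num)))).2
  have h2 : x ^ 2 ≤ 1 / 16 := by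
    rw [← sq_abs]; nlinarith [abs_nonneg x]
  have h3 : |x| ^ 4 = x ^ 2 * x ^ 2 := by rw [← sq_abs]; ring
  rw [h3] at h1
  nlinarith [sq_nonneg x]

theorem G_pos {P : LP} (h : P.OK) : 0 < P.G := by
  have := h.hE
  rw [h.hG]
  have : 0 < P.E := by omega
  positivity

theorem aθG {P : LP} (h : P.OK) :
    (1 - 1 / 1024) / 4 ≤ P.a * P.θ * P.G ∧ P.a * P.θ * P.G ≤ 1 / 4 := by
  have h1 : (P.a : ℝ) * P.G * 8 = 2 ^ (2 * P.E) := by exact_mod_cast h.ha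
  have h2 : P.θ ≤ 2 / 2 ^ (2 * P.E) := th_le _
  have h3 : 2 / 2 ^ (2 * P.E) * (1 - 1 / 4 ^ (2 * P.E)) ≤ P.θ := th_ge _
  have h4 : (1 : ℝ) / 4 ^ (2 * P.E) ≤ 1 / 1024 := by
    apply one_div_le_one_div_of_le (by norm_num)
    have := h.hE
    calc (1024 : ℝ) = 4 ^ 5 := by norm_num
      _ ≤ 4 ^ (2 * P.E) := pow_le_pow_right₀ (by norm_num) (by omega)
  have h5 : 2 / 2 ^ (2 * P.E) * (1 - 1 / 1024) ≤ P.θ := le_trans (by gcongr) h3
  have e : (P.a : ℝ) * P.θ * P.G = 2 ^ (2 * P.E) / 8 * P.θ := by rw [← h1]; ring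
  rw [e]
  constructor
  · calc (1 - 1 / 1024 : ℝ) / 4 = 2 ^ (2 * P.E) / 8 * (2 / 2 ^ (2 * P.E) * (1 - 1 / 1024)) := by
          field_simp; norm_num
      _ ≤ _ := by gcongr
  · calc (2 : ℝ) ^ (2 * P.E) / 8 * P.θ ≤ 2 ^ (2 * P.E) / 8 * (2 / 2 ^ (2 * P.E)) := by gcongr
      _ = _ := by field_simp; norm_num

theorem Wr_exp {P : LP} (h : P.OK) {u : ℤ} (hu : |u| ≤ P.G) :
    P.Wr u ≤ Real.exp (P.E * (16.1 * (|(u : ℝ)| / P.G) - 6336 * (|(u : ℝ)| / P.G) ^ 2)) := by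
  have hG : (0 : ℝ) < P.G := by exact_mod_cast G_pos h
  obtain ⟨s, hs⟩ : ∃ s : ℝ, s = |(u : ℝ)| / P.G := ⟨_, rfl⟩
  have hus : |(u : ℝ)| = s * P.G := by rw [hs]; field_simp
  have hs0 : 0 ≤ s := by rw [hs]; positivity
  have hs1 : s ≤ 1 := by
    rw [hs, div_le_one hG]; exact_mod_cast hu
  rw [← hs]
  obtain ⟨k1, k2⟩ := aθG h
  have hk0 : 0 ≤ (P.a : ℝ) * P.θ := by
    by_contra h0
    nlinarith
  have hx : |P.a * P.θ * u| = P.a * P.θ * P.G * s := by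
    rw [abs_mul, abs_of_nonneg hk0, hus]; ring
  have hl1 : (1 : ℝ) / 2 ^ (P.r' + 2) ≤ 1 / 1024 := by
    apply one_div_le_one_div_of_le (by norm_num)
    have := h.hr'
    calc (1024 : ℝ) = 2 ^ 10 := by norm_num
      _ ≤ 2 ^ (P.r' + 2) := pow_le_pow_right₀ (by norm_num) (by omega)
  have h1 := zpow_le_exp (by positivity) hl1 u
  have h2 := cos_pow_le (x := P.a * P.θ * u) (by rw [hx]; nlinarith) P.M
  have hGe : (P.G : ℝ) = 16 * P.E * 2 ^ (P.r' + 2) := by exact_mod_cast h.hG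
  have hM : (P.M : ℝ) = 409600 * P.E := by exact_mod_cast h.hM
  have e1 : 161 / 160 * (1 / 2 ^ (P.r' + 2)) * |(u : ℝ)| = P.E * (16.1 * s) := by
    rw [hus, hGe]; field_simp; ring
  have e2 : (P.a * P.θ * u) ^ 2 = (P.a * P.θ * P.G) ^ 2 * s ^ 2 := by
    rw [← sq_abs, hx]; ring
  unfold LP.Wr
  rw [vr_eq]
  refine (mul_le_mul h1 h2 (pow_nonneg (half_cos _).1 _) (Real.exp_pos _).le).trans ?_
  rw [← Real.exp_add, e1, e2, hM]
  apply Real.exp_le_exp.2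
  have hE0 : (0 : ℝ) ≤ P.E := Nat.cast_nonneg _
  have k3 : ((1 - 1 / 1024) / 4) ^ 2 ≤ (P.a * P.θ * P.G) ^ 2 := by gcongr
  have k4 : P.E * s ^ 2 * ((1 - 1 / 1024) / 4) ^ 2 ≤ P.E * s ^ 2 * (P.a * P.θ * P.G) ^ 2 := by
    gcongr
  have k5 : 0 ≤ P.E * s ^ 2 := by positivity
  nlinarith

theorem sum_Wr {P : LP} (h : P.OK) :
    ∑ i ∈ range (2 * P.G + 1), P.Wr ((i : ℤ) - P.G) ≤ 2 ^ (P.E / 64) := by
  have hE0 : (65536 : ℝ) ≤ P.E := by
    have := h.hE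
    exact_mod_cast (show 65536 ≤ P.E by omega)
  have h1 : ∀ i ∈ range (2 * P.G + 1), P.Wr ((i : ℤ) - P.G) ≤ Real.exp (P.E * 0.01023) := by
    intro i hi
    have hi' := mem_range.1 hi
    refine (Wr_exp h (by rw [abs_le]; constructor <;> omega)).trans (Real.exp_le_exp.2 ?_)
    gcongr
    generalize |(((i : ℤ) - P.G : ℤ) : ℝ)| / P.G = s
    nlinarith [sq_nonneg (s - 0.00127)]
  refine (Finset.sum_le_card_nsmul _ _ _ h1).trans ?_
  rw [card_range, nsmul_eq_mul]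
  obtain ⟨m, hm⟩ := h.hdvd
  have hl := Real.log_two_gt_d9
  have hl' := Real.log_two_lt_d9
  have e1 : (2 : ℝ) ^ (P.E / 64) = Real.exp (P.E / 64 * Real.log 2) := by
    have : ((P.E / 64 : ℕ) : ℝ) = P.E / 64 := by
      rw [show P.E / 64 = 1024 * m by omega, hm]; push_cast; ring
    rw [← this, Real.exp_nat_mul, Real.exp_log (by norm_num)]
  have e2 : ((2 * P.G + 1 : ℕ) : ℝ) ≤ Real.exp (3 + P.E / 16384 * Real.log 2) := by
    have h2 := h.hGE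
    rw [Real.rpow_def_of_pos (by norm_num), mul_comm] at h2
    have h3 : (1 : ℝ) ≤ P.G := by exact_mod_cast G_pos h
    have h4 := Real.add_one_le_exp (3 : ℝ)
    rw [Real.exp_add]
    push_cast
    nlinarith
  rw [e1]
  refine (mul_le_mul_of_nonneg_right e2 (Real.exp_pos _).le).trans ?_
  rw [← Real.exp_add]
  apply Real.exp_le_exp.2
  nlinarith

theorem Wr_small {P : LP} (h : P.OK) {u : ℤ} (h1 : (P.G : ℤ) ≤ 16 * |u|) (h2 : |u| ≤ P.G) :
    P.Wr u ≤ 1 / 2 ^ (16 * P.E) := by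
  have hG : (0 : ℝ) < P.G := by exact_mod_cast G_pos h
  have hs : 1 / 16 ≤ |(u : ℝ)| / P.G := by
    rw [le_div_iff₀ hG]
    have : (P.G : ℝ) ≤ 16 * |(u : ℝ)| := by exact_mod_cast h1
    linarith
  have e1 : (1 : ℝ) / 2 ^ (16 * P.E) = Real.exp (P.E * -(16 * Real.log 2)) := by
    have : (P.E : ℝ) * -(16 * Real.log 2) = -(((16 * P.E : ℕ) : ℝ) * Real.log 2) := by
      push_cast; ring
    rw [this, Real.exp_neg, Real.exp_nat_mul, Real.exp_log (by norm_num), one_div]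
  rw [e1]
  refine (Wr_exp h h2).trans (Real.exp_le_exp.2 ?_)
  gcongr
  generalize |(u : ℝ)| / P.G = s at *
  nlinarith [Real.log_two_lt_d9]

theorem tgt {P : LP} (h : P.OK) {e0 e1 e2 e3 : ℕ} (t : ℕ) (hL : Legit P.J P.η e0 e1 e2 e3) :
    Tgt P.r' (|(t : ℝ) - 4 * P.M| / (256 * P.E) + 1 / 16) (target P e0 e1 e2 e3 t) := by
  obtain ⟨F, hF⟩ : ∃ F : ℤ, F = frq P.J e0 + frq P.J e1 + frq P.J e2 + frq P.J e3 := ⟨_, rfl⟩
  have hFη : |(F : ℝ)| ≤ P.η := by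
    have := hL.2.1
    rw [← hF] at this
    exact_mod_cast this
  refine ⟨((P.a * ((t : ℤ) - 4 * P.M) - F : ℤ) : ℝ) * P.θ, ?_, ?_⟩
  · rw [← ω_zpow]
    unfold target LP.vr
    rw [← hF]
    push_cast
    rfl
  · have hG : (0 : ℝ) < P.G := by exact_mod_cast G_pos h
    have hE : (0 : ℝ) < P.E := by
      have := h.hE
      exact_mod_cast (show 0 < P.E by omega)
    obtain ⟨k1, k2⟩ := aθG h
    have hθ2 : P.θ ≤ 2 / 2 ^ (2 * P.E) := th_le _
    have hθ0 : 0 ≤ P.θ := by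
      unfold LP.θ th
      have := Real.arctan_nonneg.2 (show (0 : ℝ) ≤ 1 / 2 ^ (2 * P.E) by positivity)
      linarith
    have hGe : (P.G : ℝ) = 16 * P.E * 2 ^ (P.r' + 2) := by exact_mod_cast h.hG
    have hη : (P.η : ℝ) * 2 ^ (P.r' + 5) = 2 ^ (2 * P.E) := by exact_mod_cast h.hη
    have b1 : P.a * P.θ ≤ 1 / (256 * P.E) / 2 ^ P.r' := by
      have : P.a * P.θ ≤ 1 / 4 / P.G := by rw [le_div_iff₀ hG]; exact k2
      refine this.trans (le_of_eq ?_)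
      rw [hGe]; field_simp; ring
    have b2 : P.η * P.θ ≤ 1 / 16 / 2 ^ P.r' := by
      calc P.η * P.θ ≤ P.η * (2 / 2 ^ (2 * P.E)) := by gcongr
        _ = 1 / 16 / 2 ^ P.r' := by
          have hη0 : (P.η : ℝ) ≠ 0 := by
            intro h0
            rw [h0, zero_mul] at hη
            exact absurd hη (by positivity)
          rw [← hη]; field_simp; ring
    have e : ((P.a * ((t : ℤ) - 4 * P.M) - F : ℤ) : ℝ) * P.θ =
        P.a * P.θ * ((t : ℝ) - 4 * P.M) - F * P.θ := by push_cast; ring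
    rw [e]
    refine (abs_sub _ _).trans ?_
    rw [abs_mul, abs_mul (F : ℝ), abs_of_nonneg hθ0, abs_of_nonneg (by positivity : 0 ≤ P.a * P.θ)]
    calc P.a * P.θ * |(t : ℝ) - 4 * P.M| + |(F : ℝ)| * P.θ ≤
          1 / (256 * P.E) / 2 ^ P.r' * |(t : ℝ) - 4 * P.M| + P.η * P.θ := by gcongr
      _ ≤ 1 / (256 * P.E) / 2 ^ P.r' * |(t : ℝ) - 4 * P.M| + 1 / 16 / 2 ^ P.r' := by gcongr
      _ = _ := by ring

end Om

open Om in
theorem om_proof : OmStmt := by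
  refine ⟨fun N => ⟨omg_eq N, th_ge N, th_le N⟩,
    fun P u => ⟨Wq_eq P u, Wr_nonneg P u, Wr_le P u, by simp [LP.Wr]⟩,
    fun P h => ⟨sum_Wr h, fun u h1 h2 => Wr_small h h1 h2⟩,
    fun P h e0 e1 e2 e3 t hL ht => ⟨tgt h t hL, ?_⟩⟩
  have hE : (0 : ℝ) < P.E := by
    have := h.hE
    exact_mod_cast (show 0 < P.E by omega)
  have hM : (P.M : ℝ) = 409600 * P.E := by exact_mod_cast h.hM
  have ht' : (t : ℝ) ≤ 8 * P.M := by exact_mod_cast Nat.lt_succ_iff.1 ht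
  have h0 : (0 : ℝ) ≤ t := Nat.cast_nonneg _
  have : |(t : ℝ) - 4 * P.M| / (256 * P.E) ≤ 6400 := by
    rw [div_le_iff₀ (by positivity), abs_le]
    constructor <;> linarith
  linarith

end Crest.Agent.R300U
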