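import Crest.Agent.R300U.DefsA
import Crest.Agent.PT.Pair

/-!
Row 300, upper bound, task PAIR.
-/

set_option autoImplicit false

namespace Crest.Agent.R300U

open Crest.Agent.PT

/-- A `PT` function of the input and the tape is a randomized polynomial-time map. -/
theorem randPolyTime_of_pt {f : Raw × Raw → Raw} (hf : PT f) :
    Crest.Randomized.RandPolyTime (fun q : List Bool × List Bool => (f (⟨q.1⟩, ⟨q.2⟩)).val) :=
  hf.toPair _ _ (fun _ => rfl)

theorem pair_proof : PairStmt := by
  intro f hf
  exact randPolyTime_of_pt (f := fun p : Raw × Raw => f p.1)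
    (hf.comp (f := fun p : Raw × Raw => p.1) (by fun_prop))

end Crest.Agent.R300U
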