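import Crest.Agent.R300U.DefsC

/-! Row 300, upper bound: tasks PAR and ASY (the parameters). -/

set_option autoImplicit false

namespace Crest.Agent.R300U

open Crest.Agent.PT Crest.Agent.QC Crest.Agent.R317 Finset

namespace Par

theorem rr_ge (u e L l : ℕ) : u + L ≤ rr u e L l := by
  have : 1 * (u + e) ≤ 2 ^ l * (u + e) := Nat.mul_le_mul_right _ Nat.one_le_two_pow
  unfold rr; omega

theorem rr_succ (u e L l : ℕ) : rr u e L (l + 1) + L = 2 * rr u e L l + e := by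
  have : 1 * (u + e) ≤ 2 ^ l * (u + e) := Nat.mul_le_mul_right _ Nat.one_le_two_pow
  unfold rr
  rw [pow_succ, mul_comm (2 ^ l) 2, mul_assoc]
  omega

theorem rr_succ_ge (u e L l : ℕ) : rr u e L l + u ≤ rr u e L (l + 1) := by
  have := rr_succ u e L l
  have := rr_ge u e L l
  omega

theorem rr_lt (u e L l : ℕ) : rr u e L l + 1 ≤ 2 ^ l * 2 ^ (u + e + L).size := by
  have h1 : u + e + L + 1 ≤ 2 ^ (u + e + L).size := Nat.lt_size_self _
  have h2 : 1 * (L + 1) ≤ 2 ^ l * (L + 1) := Nat.mul_le_mul_right _ Nat.one_le_two_pow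
  calc rr u e L l + 1 ≤ 2 ^ l * (u + e) + 2 ^ l * (L + 1) := by unfold rr; omega
    _ = 2 ^ l * (u + e + L + 1) := by ring
    _ ≤ _ := Nat.mul_le_mul_left _ h1

theorem EE_eq (u e L l : ℕ) : EE u e L l = 2 ^ (3 * l + ((u + e + L).size + 20)) := by
  rw [EE, pow_add 2 (3 * l), pow_mul]
  norm_num

theorem EE_succ (u e L l : ℕ) : EE u e L (l + 1) = 8 * EE u e L l := by
  unfold EE; ring

theorem EE_mono (u e L : ℕ) {l l' : ℕ} (h : l ≤ l') : EE u e L l ≤ EE u e L l' :=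
  Nat.mul_le_mul_right _ (Nat.pow_le_pow_right (by norm_num) h)

theorem expo (u e L l : ℕ) :
    16384 * (26 + 3 * l + (u + e + L).size + rr u e L (l + 1)) ≤ EE u e L l := by
  have h1 := rr_lt u e L (l + 1)
  unfold EE
  generalize (u + e + L).size = s at *
  have a1 : l < 8 ^ l := Nat.lt_pow_self (by norm_num)
  have a2 : s < 2 ^ s := Nat.lt_two_pow_self
  have a3 : 2 ^ l ≤ 8 ^ l := Nat.pow_le_pow_left (by norm_num) l
  rw [pow_succ] at h1
  rw [pow_add]
  generalize 8 ^ l = A at *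
  generalize 2 ^ s = B at *
  generalize 2 ^ l = A' at *
  have b1 : A * 1 ≤ A * B := Nat.mul_le_mul_left _ (by omega)
  have b2 : 1 * B ≤ A * B := Nat.mul_le_mul_right _ (by omega)
  have b3 : A' * B ≤ A * B := Nat.mul_le_mul_right _ a3
  have e1 : A' * 2 * B = 2 * (A' * B) := by ring
  have e2 : A * (B * 2 ^ 20) = 1048576 * (A * B) := by ring
  omega

theorem par_ok {u : ℕ} (hu : 65536 ≤ u) (e L l : ℕ) : (par id u e L l).OK := by
  have h1 := rr_ge u e L l
  have h2 := rr_succ_ge u e L l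
  have h3 := expo u e L l
  have hG : 16 * EE u e L l * 2 ^ (rr u e L (l + 1) + 2) =
      2 ^ (26 + 3 * l + (u + e + L).size + rr u e L (l + 1)) := by
    rw [EE_eq, show 16 = 2 ^ 4 by norm_num, ← pow_add, ← pow_add]
    exact congrArg (2 ^ ·) (by omega)
  refine ⟨?_, ?_, ?_, ?_, ?_, ?_, rfl, ?_, rfl, ?_, ?_, ?_, ?_, ?_, rfl⟩ <;> simp only [par, id]
  · omega
  · omega
  · have h4 := rr_lt u e L (l + 1)
    calc 65536 * (rr u e L (l + 1) + 1) ≤ 2 ^ 16 * (2 ^ (l + 1) * 2 ^ (u + e + L).size) :=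
          Nat.mul_le_mul (by norm_num) h4
      _ ≤ _ := by
          rw [EE_eq, ← pow_add, ← pow_add]
          exact Nat.pow_le_pow_right (by norm_num) (by omega)
  · rw [EE_eq, show 65536 = 2 ^ 16 by norm_num]
    exact pow_dvd_pow 2 (by omega)
  · omega
  · omega
  · rw [hG]
    push_cast
    rw [← Real.rpow_natCast]
    refine Real.rpow_le_rpow_of_exponent_le (by norm_num) ?_
    rw [le_div_iff₀ (by norm_num), mul_comm]
    exact_mod_cast h3
  · rw [← pow_add]; exact congrArg (2 ^ ·) (by omega)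
  · rw [mul_assoc]
    refine Nat.div_mul_cancel ?_
    rw [hG, show 8 = 2 ^ 3 by norm_num, ← pow_add]
    exact pow_dvd_pow 2 (by omega)
  · rw [← pow_add]; exact congrArg (2 ^ ·) (by omega)
  · rw [← pow_add]; exact congrArg (2 ^ ·) (by omega)
  · rw [mul_assoc]
    refine Nat.div_mul_cancel ⟨2 ^ (21 + (L - 2 * l)) * 16 * EE u e L l, ?_⟩
    ring

theorem lin_le_pow (t : ℕ) : 27 + t ≤ 2 ^ (5 + t) := by
  induction t with
  | zero => norm_num
  | succ t ih => rw [← add_assoc, ← add_assoc, pow_succ]; omega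

theorem nch_le {P : LP} (h : P.OK) : P.nch ≤ 2 ^ (9 * P.E) := by
  have h1 := h.hr
  have h2 := h.hr'
  have h3 := h.hE
  have hJ : P.J * 2 ^ 11 ≤ 2 ^ (2 * P.E + 7) := by
    rw [← h.hJ]
    exact Nat.mul_le_mul_left _ (Nat.pow_le_pow_right (by norm_num) (by omega))
  have hQ : nQ P.J ≤ 2 ^ (2 * P.E) := by
    have : 2 ^ 4 ≤ 2 ^ (2 * P.E) := Nat.pow_le_pow_right (by norm_num) (by omega)
    rw [pow_add] at hJ
    unfold nQ
    omega
  have hM : 8 * P.M + 1 ≤ 2 ^ P.E := by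
    obtain ⟨t, ht⟩ : ∃ t, P.E = 27 + t := ⟨P.E - 27, by omega⟩
    have h4 := lin_le_pow t
    have e1 : 2 ^ P.E = 2 ^ 22 * 2 ^ (5 + t) := by rw [← pow_add, ht]; congr 1; omega
    rw [h.hM, e1]
    omega
  calc P.nch ≤ 2 ^ P.E * (2 ^ (2 * P.E)) ^ 4 := Nat.mul_le_mul hM (Nat.pow_le_pow_left hQ 4)
    _ = _ := by rw [← pow_mul, ← pow_add]; congr 1; omega

theorem fields_le {P : LP} (h : P.OK) : P.G ≤ 2 ^ (3 * P.E) ∧ P.J ≤ 2 ^ (3 * P.E) ∧
    P.a ≤ 2 ^ (3 * P.E) ∧ P.η ≤ 2 ^ (3 * P.E) ∧ P.K ≤ 2 ^ (3 * P.E) ∧ P.mc ≤ 2 ^ (3 * P.E) := by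
  have h3 := h.hE
  have e1 : 2 ^ (2 * P.E + 7) ≤ 2 ^ (3 * P.E) := Nat.pow_le_pow_right (by norm_num) (by omega)
  have e2 : 2 ^ (2 * P.E) ≤ 2 ^ (3 * P.E) := Nat.pow_le_pow_right (by norm_num) (by omega)
  have hpos : 0 < P.a * P.G * 8 := by rw [h.ha]; positivity
  have ha0 : 0 < P.a := Nat.pos_of_ne_zero fun h0 => by simp [h0] at hpos
  have hG0 : 0 < P.G := Nat.pos_of_ne_zero fun h0 => by simp [h0] at hpos
  have hη0 : 0 < P.η := Nat.pos_of_ne_zero fun h0 => by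
    have := h.hη
    rw [h0, zero_mul] at this
    exact absurd this (by positivity)
  have hG : P.G ≤ 2 ^ (3 * P.E) := by
    have := h.ha
    have : 1 * P.G ≤ P.a * P.G := Nat.mul_le_mul_right _ ha0
    omega
  have hJ : P.J ≤ 2 ^ (3 * P.E) :=
    (Nat.le_mul_of_pos_right _ (by positivity)).trans (h.hJ.le.trans e1)
  refine ⟨hG, hJ, ?_, (Nat.le_mul_of_pos_right _ (by positivity)).trans (h.hη.le.trans e2),
    (Nat.le_mul_of_pos_right _ hη0).trans (h.hK.le.trans hJ), le_trans ?_ hG⟩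
  · have := h.ha
    have : P.a * 1 ≤ P.a * P.G := Nat.mul_le_mul_left _ hG0
    omega
  · have h4 : 2 ^ P.bb * P.G ≤ 2 ^ P.r' * P.G :=
      Nat.mul_le_mul_right _ (Nat.pow_le_pow_right (by norm_num) (by have := h.hb'; omega))
    have h5 := h.hmc
    have h6 : 2 ^ P.r' * P.mc ≤ 2 ^ P.r' * P.G := by
      rw [mul_comm (2 ^ P.r') P.mc]; omega
    exact Nat.le_of_mul_le_mul_left h6 (by positivity)

theorem un_eq {N x : ℕ} (h : x ≤ N) : un N x = x := min_eq_left h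

theorem par_un {u : ℕ} (hu : 65536 ≤ u) (e L l N : ℕ) (hN : 2 ^ (3 * EE u e L l) ≤ N) :
    par (un N) u e L l = par id u e L l := by
  have hok := par_ok hu e L l
  obtain ⟨f1, f2, f3, f4, f5, f6⟩ := fields_le hok
  have h2 := rr_succ_ge u e L l
  have h3 := expo u e L l
  have h4 : 3 * EE u e L l < 2 ^ (3 * EE u e L l) := Nat.lt_two_pow_self
  have a1 : un N (rr u e L l) = rr u e L l := un_eq (by omega)
  have a2 : un N (rr u e L (l + 1)) = rr u e L (l + 1) := un_eq (by omega)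
  have a3 : un N (EE u e L l) = EE u e L l := un_eq (by omega)
  simp only [par, id] at f1 f2 f3 f4 f5 f6
  simp only [par, id, a1, a2, a3, un_eq (f1.trans hN), un_eq (f2.trans hN), un_eq (f3.trans hN),
    un_eq (f4.trans hN), un_eq (f5.trans hN), un_eq (f6.trans hN), un_eq hN]

theorem hh_le_succ (u n : ℕ) (p : ℚ) (l : ℕ) : hh u n p l ≤ hh u n p (l + 1) := by
  simp only [hh, hnext]; omega

theorem es_le (u n : ℕ) (p : ℚ) (l : ℕ) : es l ≤ hh u n p l := by
  induction l with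
  | zero => simp only [es, hh]; omega
  | succ l ih => simp only [es, hh, hnext]; omega

theorem ee_spec {n : ℕ} {p : ℚ} (h : Reg n p) : 2 ≤ ee p ∧ ee p ≤ n.size ∧
    min (1 - p) (1 / 4) * 2 ^ ee p ≤ 1 ∧ 1 < min (1 - p) (1 / 4) * 2 ^ (ee p + 1) := by
  obtain ⟨hn, -, hp1, -, hq⟩ := h
  have hq0 : 0 < min (1 - p) (1 / 4) := lt_min (by linarith) (by norm_num)
  set m := ⌊1 / min (1 - p) (1 / 4)⌋₊ with hm
  have h4 : 4 ≤ m := by
    rw [hm, Nat.le_floor_iff (by positivity), le_div_iff₀ hq0]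
    have := min_le_right (1 - p) (1 / 4)
    push_cast
    linarith
  have hs : 3 ≤ m.size := Nat.lt_size.mpr h4
  have hee : ee p + 1 = m.size := by change m.size - 1 + 1 = m.size; omega
  have hs2 : 2 ≤ n.size := Nat.lt_size.mpr hn
  refine ⟨by omega, ?_, ?_, ?_⟩
  · have h5 : m ≤ 2 * n := by
      rw [hm]
      refine Nat.floor_le_of_le ?_
      rw [div_le_iff₀ hq0]
      have hn' : (2 : ℚ) ≤ n := by exact_mod_cast hn
      push_cast
      rcases le_total (1 - p) (1 / 4) with h | h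
      · rw [min_eq_left h]; nlinarith
      · rw [min_eq_right h]; linarith
    have h6 : m.size ≤ n.size + 1 := by
      rw [Nat.size_le, pow_succ]
      have := Nat.lt_size_self n
      omega
    omega
  · have h5 : 2 ^ ee p ≤ m := Nat.lt_size.mp (by omega)
    have h6 : ((2 ^ ee p : ℕ) : ℚ) ≤ 1 / min (1 - p) (1 / 4) :=
      (Nat.cast_le.mpr h5).trans (Nat.floor_le (by positivity))
    rw [le_div_iff₀ hq0] at h6
    push_cast at h6
    linarith
  · have h5 : m + 1 ≤ 2 ^ (ee p + 1) := by rw [hee]; exact Nat.lt_size_self m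
    have h6 : 1 / min (1 - p) (1 / 4) < ((2 ^ (ee p + 1) : ℕ) : ℚ) :=
      (Nat.lt_floor_add_one _).trans_le (by exact_mod_cast h5)
    rw [div_lt_iff₀ hq0] at h6
    push_cast at h6
    linarith

theorem LL_spec {n : ℕ} {p : ℚ} (h : Reg n p) :
    2 * (n.size + 14) < 2 ^ LL n p * ee p ∧ 2 ^ LL n p * ee p ≤ 4 * (n.size + 14) := by
  obtain ⟨h1, h2, -⟩ := ee_spec h
  have he : 0 < ee p := by omega
  set X := 2 * (n.size + 14) / ee p with hX
  have hX1 : 1 ≤ X := (Nat.le_div_iff_mul_le he).mpr (by omega)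
  have a1 : X + 1 ≤ 2 ^ LL n p := Nat.lt_size_self X
  have a2 : 2 ^ LL n p ≤ 2 * X := by
    have hs : 0 < X.size := Nat.size_pos.mpr hX1
    have : 2 ^ (X.size - 1) ≤ X := Nat.lt_size.mp (by omega)
    have e : LL n p = X.size - 1 + 1 := by change X.size = _; omega
    rw [e, pow_succ]; omega
  have a3 : X * ee p ≤ 2 * (n.size + 14) := Nat.div_mul_le_self _ _
  have a4 : 2 * (n.size + 14) < (X + 1) * ee p := by
    rw [← Nat.div_lt_iff_lt_mul he]; omega
  refine ⟨a4.trans_le (Nat.mul_le_mul_right _ a1), ?_⟩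
  calc 2 ^ LL n p * ee p ≤ 2 * X * ee p := Nat.mul_le_mul_right _ a2
    _ = 2 * (X * ee p) := by ring
    _ ≤ _ := by omega

theorem hh_mono (u n : ℕ) (p : ℚ) : Monotone (hh u n p) :=
  monotone_nat_of_le_succ (hh_le_succ u n p)

theorem tot_ge {C₁ n : ℕ} {p : ℚ} (u : ℕ) (hC : 1 ≤ C₁) (h : Reg n p) :
    100 * WW u n p ≤ tot C₁ u n p ∧ ⌈1 / p⌉₊ ≤ tot C₁ u n p := by
  have h1 : 1 ≤ ⌈1 / p⌉₊ := Nat.one_le_ceil_iff.mpr (by have := h.2.1; positivity)
  have h2 : 1 ≤ WW u n p := by unfold WW; omega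
  unfold tot
  constructor
  · calc 100 * WW u n p = 100 * 1 * 1 * WW u n p * 1 := by ring
      _ ≤ _ := by gcongr; omega
  · calc ⌈1 / p⌉₊ = 1 * 1 * 1 * 1 * ⌈1 / p⌉₊ := by ring
      _ ≤ _ := by gcongr <;> omega

end Par

open Par in
theorem par_proof : ParStmt := by
  intro u n p hu hR e L
  obtain ⟨h1, h2, h3, -⟩ := ee_spec hR
  obtain ⟨h4, -⟩ := LL_spec hR
  refine ⟨h1, ?_, ?_, fun l => ⟨par_ok hu _ _ _, nch_le (par_ok hu _ _ _), EE_succ _ _ _ _,
    es_le _ _ _ _, hh_le_succ _ _ _ _⟩, fun l hl => ?_, fun C₁ N hC hN => ?_⟩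
  · have e1 : (1 - max (p : ℝ) (3 / 4)) = ((min (1 - p) (1 / 4) : ℚ) : ℝ) := by
      push_cast
      rw [← min_sub_sub_left]
      norm_num
    rw [e1]
    exact_mod_cast h3
  · have : 2 ^ L * e ≤ 2 ^ L * (u + e) := Nat.mul_le_mul_left _ (by omega)
    change 2 * (n.size + 14) < 2 ^ L * e at h4
    change e ≤ n.size at h2
    unfold rr
    omega
  · have h5 := rr_succ u e L l
    rw [div_mul_eq_mul_div, le_div_iff₀ (by positivity), show (8 : ℝ) = 2 ^ 3 by norm_num,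
      show (4 : ℝ) = 2 ^ 2 by norm_num, ← pow_mul, ← pow_mul, ← pow_add, ← pow_add, ← pow_add,
      ← pow_add]
    exact pow_le_pow_right₀ (by norm_num) (by omega)
  · obtain ⟨t1, t2⟩ := tot_ge u hC hR
    have t3 : tot C₁ u n p < 2 ^ tot C₁ u n p := Nat.lt_two_pow_self
    have t4 : hh u n p 0 ≤ hh u n p L := hh_mono u n p (Nat.zero_le _)
    have t5 : WW u n p = hh u n p L + EE u e L L + n.size + 30 := rfl
    have t6 : hh u n p 0 = n.size + 2 * kk id u e L + 1 := rfl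
    refine ⟨fun l hl => par_un hu _ _ _ _ (le_trans (Nat.pow_le_pow_right (by norm_num) ?_) hN), ?_,
      un_eq (by omega)⟩
    · have := EE_mono u e L hl
      omega
    · have t7 : rr u e L 0 + 3 ≤ kk id u e L := Nat.le_mul_of_pos_left _ (by positivity)
      have a1 : un N (rr u e L 0) = rr u e L 0 := un_eq (by omega)
      unfold kk
      rw [a1]
      exact un_eq (show kk id u e L ≤ N by omega)

end Crest.Agent.R300U
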