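import Crest.Agent.R300U.DefsA
import Crest.Agent.R300U.GPTQ

/-!
Row 300, upper bound, task PERC: the perceptron. The state is the list of the updates made so far
(codes `4 i + κ`: row `i`, unit number `κ`), so its size grows additively.
-/

set_option autoImplicit false

namespace Crest.Agent.R300U

open Crest.Agent.PT Crest.Agent.QC Crest.Agent.R317 Finset

namespace Perc

variable {α : Type} [Enc α]

/-! ### Arithmetic on Gaussian rationals -/

/-- `a + b I`. -/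
noncomputable def mkG (a b : ℚ) : GQ := (a : GQ) + (b : GQ) * GI

theorem coe_mkG (a b : ℚ) : ((mkG a b : GQ) : ℂ) = a + b * Complex.I := by
  simp [mkG]

theorem reQ_mkG (a b : ℚ) : reQ (mkG a b) = a := by
  apply Rat.cast_injective (α := ℝ)
  rw [cast_reQ, coe_mkG]; simp

theorem imQ_mkG (a b : ℚ) : imQ (mkG a b) = b := by
  apply Rat.cast_injective (α := ℝ)
  rw [cast_imQ, coe_mkG]; simp

theorem eq_mkG {z : GQ} {a b : ℚ} (ha : (a : ℝ) = (z : ℂ).re) (hb : (b : ℝ) = (z : ℂ).im) :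
    mkG a b = z := by
  apply Subtype.ext
  rw [coe_mkG]
  apply Complex.ext
  · simp [ha]
  · simp [hb]

theorem g_parts {f : α → GQ} (hf : PT f) : PT (fun a => (reQ (f a), imQ (f a))) :=
  hf.of_enc_eq (fun _ => enc_gq _)

theorem pt_re {f : α → GQ} (hf : PT f) : PT (fun a => reQ (f a)) := (g_parts hf).fst

theorem pt_im {f : α → GQ} (hf : PT f) : PT (fun a => imQ (f a)) := (g_parts hf).snd

theorem pt_mk {f g : α → ℚ} (hf : PT f) (hg : PT g) : PT (fun a => mkG (f a) (g a)) :=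
  (hf.pair hg).of_enc_eq (fun a => by
    rw [enc_gq, reQ_mkG, imQ_mkG])

theorem pt_sub {f g : α → GQ} (hf : PT f) (hg : PT g) : PT (fun a => f a - g a) :=
  (pt_mk (pt_qsub (pt_re hf) (pt_re hg)) (pt_qsub (pt_im hf) (pt_im hg))).congr
    (fun a => eq_mkG (by simp) (by simp))

theorem pt_mul {f g : α → GQ} (hf : PT f) (hg : PT g) : PT (fun a => f a * g a) :=
  (pt_mk (pt_qsub (pt_qmul (pt_re hf) (pt_re hg)) (pt_qmul (pt_im hf) (pt_im hg)))
    (pt_qadd (pt_qmul (pt_re hf) (pt_im hg)) (pt_qmul (pt_im hf) (pt_re hg)))).congr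
    (fun a => eq_mkG (by simp) (by simp))

theorem pt_cj {f : α → GQ} (hf : PT f) : PT (fun a => cj (f a)) :=
  (pt_mk (pt_re hf) (pt_qneg (pt_im hf))).congr (fun a => eq_mkG (by simp) (by simp))

theorem pt_cast {f : α → ℚ} (hf : PT f) : PT (fun a => ((f a : ℚ) : GQ)) :=
  (pt_mk hf (PT.const 0)).congr (fun a => eq_mkG (by simp) (by simp))

theorem pt_sum {g : α → ℕ} {f : α → ℕ → GQ} (hg : PT g)
    (hf : PT (fun p : α × ℕ => f p.1 p.2)) : PT (fun a => ∑ i ∈ range (g a), f a i) :=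
  (pt_mk (pt_qsum (f := fun a i => reQ (f a i)) hg (pt_re hf))
    (pt_qsum (f := fun a i => imQ (f a i)) hg (pt_im hf))).congr
    (fun a => eq_mkG (by simp [Complex.re_sum]) (by simp [Complex.im_sum]))

/-! ### The algorithm -/

/-- The four units. -/
noncomputable def un4 (k : ℕ) : GQ :=
  if k = 0 then 1 else if k = 1 then -1 else if k = 2 then GI else -GI

theorem norm_un4 (k : ℕ) : ‖(un4 k : ℂ)‖ = 1 := by
  unfold un4; split_ifs <;> simp

/-- Matrix entry. -/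
noncomputable def ent (rows : List (List GQ)) (i u : ℕ) : GQ := (rows.getD i []).getD u 0

/-- The vector after the updates `hs`. -/
noncomputable def cv (g : ℕ) (rows : List (List GQ)) (ε : ℚ) (hs : List ℕ) (u : ℕ) : GQ :=
  ∑ k ∈ range hs.length,
    ((-(ε / g) : ℚ) : GQ) * (un4 (hs.getD k 0 % 4) * cj (ent rows (hs.getD k 0 / 4) u))

/-- The residual of row `j / 4` in direction `j % 4`. -/
noncomputable def sval (g : ℕ) (rows : List (List GQ)) (b : List GQ) (ε : ℚ) (hs : List ℕ)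
    (j : ℕ) : ℚ :=
  reQ (cj (un4 (j % 4)) * (∑ u ∈ range g, ent rows (j / 4) u * cv g rows ε hs u - b.getD (j / 4) 0))

/-- A violated constraint. -/
def Viol (g : ℕ) (rows : List (List GQ)) (b : List GQ) (e2 : List ℚ) (ε : ℚ) (hs : List ℕ)
    (j : ℕ) : Prop :=
  0 < sval g rows b ε hs j ∧ 4 * e2.getD (j / 4) 0 < sval g rows b ε hs j ^ 2

open Classical in
/-- The first violated constraint. -/
noncomputable def pick (g : ℕ) (rows : List (List GQ)) (b : List GQ) (e2 : List ℚ) (ε : ℚ)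
    (hs : List ℕ) : ℕ :=
  ∑ j ∈ range (4 * rows.length), if Ex (j + 1) (Viol g rows b e2 ε hs) then 0 else 1

open Classical in
/-- One step. -/
noncomputable def step (g : ℕ) (rows : List (List GQ)) (b : List GQ) (e2 : List ℚ) (ε : ℚ)
    (hs : List ℕ) : List ℕ :=
  if Ex (4 * rows.length) (Viol g rows b e2 ε hs) then pick g rows b e2 ε hs :: hs else hs

/-- The state after `t` steps. -/
noncomputable def run (g : ℕ) (rows : List (List GQ)) (b : List GQ) (e2 : List ℚ) (ε : ℚ)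
    (t : ℕ) : List ℕ :=
  Nat.rec [] (fun _ hs => step g rows b e2 ε hs) t

theorem pt_un4 {k : α → ℕ} (hk : PT k) : PT (fun a => un4 (k a)) := by
  unfold un4; fun_prop

theorem pt_ent {rows : α → List (List GQ)} {i u : α → ℕ} (hr : PT rows) (hi : PT i) (hu : PT u) :
    PT (fun a => ent (rows a) (i a) (u a)) := by
  unfold ent; fun_prop

theorem pt_cv {g : α → ℕ} {rows : α → List (List GQ)} {ε : α → ℚ} {hs : α → List ℕ} {u : α → ℕ}
    (hg : PT g) (hr : PT rows) (hε : PT ε) (hh : PT hs) (hu : PT u) :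
    PT (fun a => cv (g a) (rows a) (ε a) (hs a) (u a)) := by
  have h1 : PT (fun a => ((-(ε a / g a) : ℚ) : GQ)) :=
    pt_cast (pt_qneg (pt_qdiv hε (pt_qnat (BT.ofPT hg))))
  have h2 : PT (fun p : α × ℕ => (hs p.1).getD p.2 0) := by fun_prop
  exact pt_sum (f := fun a k => ((-(ε a / g a) : ℚ) : GQ) *
    (un4 ((hs a).getD k 0 % 4) * cj (ent (rows a) ((hs a).getD k 0 / 4) (u a)))) (pt_length hh)
    (pt_mul (h1.comp PT.id'.fst) (pt_mul (pt_un4 (h2.mod (PT.const 4)))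
      (pt_cj (pt_ent (hr.comp PT.id'.fst) (h2.div (PT.const 4)) (hu.comp PT.id'.fst)))))

theorem pt_sval {g : α → ℕ} {rows : α → List (List GQ)} {b : α → List GQ} {ε : α → ℚ}
    {hs : α → List ℕ} {j : α → ℕ}
    (hg : PT g) (hr : PT rows) (hb : PT b) (hε : PT ε) (hh : PT hs) (hj : PT j) :
    PT (fun a => sval (g a) (rows a) (b a) (ε a) (hs a) (j a)) := by
  have h1 : PT (fun a => j a / 4) := hj.div (PT.const 4)
  exact pt_re (pt_mul (pt_cj (pt_un4 (hj.mod (PT.const 4)))) (pt_sub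
    (pt_sum (f := fun a u => ent (rows a) (j a / 4) u * cv (g a) (rows a) (ε a) (hs a) u) hg
      (pt_mul (pt_ent (hr.comp PT.id'.fst) (h1.comp PT.id'.fst) PT.id'.snd)
        (pt_cv (hg.comp PT.id'.fst) (hr.comp PT.id'.fst) (hε.comp PT.id'.fst)
          (hh.comp PT.id'.fst) PT.id'.snd)))
    (pt_getD hb h1 (PT.const 0))))

theorem dt_viol {g : α → ℕ} {rows : α → List (List GQ)} {b : α → List GQ} {e2 : α → List ℚ}
    {ε : α → ℚ} {hs : α → List ℕ} {j : α → ℕ}
    (hg : PT g) (hr : PT rows) (hb : PT b) (he : PT e2) (hε : PT ε) (hh : PT hs) (hj : PT j) :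
    DT (fun a => Viol (g a) (rows a) (b a) (e2 a) (ε a) (hs a) (j a)) := by
  have h := pt_sval hg hr hb hε hh hj
  have h2 : PT (fun a => 4 * (e2 a).getD (j a / 4) 0) := by fun_prop
  exact (dt_qlt (PT.const 0) h).and (dt_qlt h2 (pt_qpow h (PT.const 2)))

theorem pt_pick {g : α → ℕ} {rows : α → List (List GQ)} {b : α → List GQ} {e2 : α → List ℚ}
    {ε : α → ℚ} {hs : α → List ℕ}
    (hg : PT g) (hr : PT rows) (hb : PT b) (he : PT e2) (hε : PT ε) (hh : PT hs) :
    PT (fun a => pick (g a) (rows a) (b a) (e2 a) (ε a) (hs a)) := by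
  classical
  exact PT.sumNat (f := fun a j =>
    if Ex (j + 1) (Viol (g a) (rows a) (b a) (e2 a) (ε a) (hs a)) then 0 else 1)
    ((PT.const 4).mul (pt_length hr)) (PT.iteD (DT.ex (PT.id'.snd.add (PT.const 1))
      (dt_viol (hg.comp PT.id'.fst.fst) (hr.comp PT.id'.fst.fst) (hb.comp PT.id'.fst.fst)
        (he.comp PT.id'.fst.fst) (hε.comp PT.id'.fst.fst) (hh.comp PT.id'.fst.fst) PT.id'.snd))
      (PT.const 0) (PT.const 1))

theorem pt_step {g : α → ℕ} {rows : α → List (List GQ)} {b : α → List GQ} {e2 : α → List ℚ}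
    {ε : α → ℚ} {hs : α → List ℕ}
    (hg : PT g) (hr : PT rows) (hb : PT b) (he : PT e2) (hε : PT ε) (hh : PT hs) :
    PT (fun a => step (g a) (rows a) (b a) (e2 a) (ε a) (hs a)) := by
  classical
  exact PT.iteD (DT.ex ((PT.const 4).mul (pt_length hr))
    (dt_viol (hg.comp PT.id'.fst) (hr.comp PT.id'.fst) (hb.comp PT.id'.fst)
      (he.comp PT.id'.fst) (hε.comp PT.id'.fst) (hh.comp PT.id'.fst) PT.id'.snd))
    (pt_cons (pt_pick hg hr hb he hε hh) hh) hh

theorem pick_le (g : ℕ) (rows : List (List GQ)) (b : List GQ) (e2 : List ℚ) (ε : ℚ)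
    (hs : List ℕ) : pick g rows b e2 ε hs ≤ 4 * rows.length := by
  unfold pick
  refine (sum_le_card_nsmul _ _ 1 (fun j _ => by split_ifs <;> simp)).trans (by simp)

theorem pt_run {g : α → ℕ} {rows : α → List (List GQ)} {b : α → List GQ} {e2 : α → List ℚ}
    {ε : α → ℚ} {t : α → ℕ}
    (hg : PT g) (hr : PT rows) (hb : PT b) (he : PT e2) (hε : PT ε) (ht : PT t) :
    PT (fun a => run (g a) (rows a) (b a) (e2 a) (ε a) (t a)) := by
  have hC : PT (fun p : α × ℕ => 2 * (4 * (rows p.1).length) + 1) := by fun_prop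
  refine PT.natRec_add (s := fun a _ hs => step (g a) (rows a) (b a) (e2 a) (ε a) hs) ht
    (PT.const []) (pt_step (by fun_prop) (by fun_prop) (by fun_prop) (by fun_prop) (by fun_prop)
      (by fun_prop)) hC.pbNat (fun a i hs => ?_)
  unfold step
  split_ifs
  · have := pick_le (g a) (rows a) (b a) (e2 a) (ε a) hs
    simp only [sz_cons, sz_nat]; omega
  · omega

/-! ### Correctness -/

theorem pick_spec {g : ℕ} {rows : List (List GQ)} {b : List GQ} {e2 : List ℚ} {ε : ℚ}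
    {hs : List ℕ} (h : Ex (4 * rows.length) (Viol g rows b e2 ε hs)) :
    pick g rows b e2 ε hs < 4 * rows.length ∧ Viol g rows b e2 ε hs (pick g rows b e2 ε hs) := by
  classical
  have hex : ∃ j, Viol g rows b e2 ε hs j := let ⟨j, _, hj⟩ := h; ⟨j, hj⟩
  have hlt : Nat.find hex < 4 * rows.length := by
    obtain ⟨j, hj, hv⟩ := h
    exact lt_of_le_of_lt (Nat.find_min' hex hv) hj
  have e : pick g rows b e2 ε hs = Nat.find hex := by
    unfold pick
    have : ∀ j, Ex (j + 1) (Viol g rows b e2 ε hs) ↔ ¬ j < Nat.find hex := by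
      intro j
      constructor
      · rintro ⟨i, hi, hv⟩
        have := Nat.find_min' hex hv
        omega
      · intro hj
        exact ⟨Nat.find hex, by omega, Nat.find_spec hex⟩
    simp only [this, ite_not]
    rw [sum_ite, sum_const_zero, add_zero, sum_const, smul_eq_mul, mul_one]
    have : (range (4 * rows.length)).filter (fun j => j < Nat.find hex) = range (Nat.find hex) := by
      ext j; simp only [mem_filter, mem_range]; omega
    rw [this, card_range]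
  rw [e]
  exact ⟨hlt, Nat.find_spec hex⟩

theorem cv_cons (g : ℕ) (rows : List (List GQ)) (ε : ℚ) (j : ℕ) (hs : List ℕ) (u : ℕ) :
    ((cv g rows ε (j :: hs) u : GQ) : ℂ) = cv g rows ε hs u -
      (((ε : ℝ) / g : ℝ) : ℂ) * ((un4 (j % 4) : ℂ) * (starRingEnd ℂ) (ent rows (j / 4) u : ℂ)) := by
  unfold cv
  rw [List.length_cons, sum_range_succ']
  simp only [List.getD_cons_succ, List.getD_cons_zero]
  push_cast
  simp only [coe_cj]
  ring

theorem cast_sval (g : ℕ) (rows : List (List GQ)) (b : List GQ) (ε : ℚ) (hs : List ℕ) (j : ℕ) :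
    (sval g rows b ε hs j : ℝ) = ((starRingEnd ℂ) (un4 (j % 4) : ℂ) *
      (∑ u ∈ range g, (ent rows (j / 4) u : ℂ) * (cv g rows ε hs u : ℂ) -
        (b.getD (j / 4) 0 : GQ))).re := by
  unfold sval
  rw [cast_reQ]
  push_cast
  rfl

theorem norm_sub_sq (x y : ℂ) (l : ℝ) :
    ‖x - l * y‖ ^ 2 = ‖x‖ ^ 2 - 2 * l * ((starRingEnd ℂ) y * x).re + l ^ 2 * ‖y‖ ^ 2 := by
  simp only [Complex.sq_norm, Complex.normSq_apply, Complex.sub_re, Complex.sub_im, Complex.mul_re,
    Complex.mul_im, Complex.ofReal_re, Complex.ofReal_im, Complex.conj_re, Complex.conj_im]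
  ring

/-- The abstract descent step. -/
theorem descent (g : ℕ) (hg : 1 ≤ g) (r c cs : ℕ → ℂ) (w β : ℂ) (ε e s : ℝ) (hε : 0 < ε)
    (hw : ‖w‖ = 1) (hr : ∑ u ∈ range g, ‖r u‖ ^ 2 ≤ g) (he : ε ^ 2 ≤ e)
    (hcs : ‖∑ u ∈ range g, r u * cs u - β‖ ^ 2 ≤ e)
    (hs : s = ((starRingEnd ℂ) w * (∑ u ∈ range g, r u * c u - β)).re) (h0 : 0 < s)
    (h1 : 4 * e < s ^ 2) :
    ∑ u ∈ range g, ‖c u - ((ε / g : ℝ) : ℂ) * (w * (starRingEnd ℂ) (r u)) - cs u‖ ^ 2 ≤
      ∑ u ∈ range g, ‖c u - cs u‖ ^ 2 - ε ^ 2 / g := by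
  have hg' : (0 : ℝ) < g := by exact_mod_cast hg
  have e1 : ∀ u, ‖c u - ((ε / g : ℝ) : ℂ) * (w * (starRingEnd ℂ) (r u)) - cs u‖ ^ 2 =
      ‖c u - cs u‖ ^ 2 - 2 * (ε / g) * ((starRingEnd ℂ) w * (r u * (c u - cs u))).re +
        (ε / g) ^ 2 * ‖r u‖ ^ 2 := by
    intro u
    rw [sub_right_comm, norm_sub_sq, norm_mul, hw, one_mul, Complex.norm_conj, map_mul,
      Complex.conj_conj, mul_assoc ((starRingEnd ℂ) w)]
  simp only [e1]
  rw [sum_add_distrib, sum_sub_distrib, ← mul_sum, ← mul_sum, ← Complex.re_sum, ← mul_sum]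
  have e2 : ∑ u ∈ range g, r u * (c u - cs u) =
      (∑ u ∈ range g, r u * c u - β) - (∑ u ∈ range g, r u * cs u - β) := by
    simp only [mul_sub, sum_sub_distrib]; ring
  rw [e2, mul_sub, Complex.sub_re, ← hs]
  set z := ∑ u ∈ range g, r u * cs u - β
  have h2 : ((starRingEnd ℂ) w * z).re ≤ ‖z‖ := by
    refine (Complex.re_le_norm _).trans ?_
    rw [norm_mul, Complex.norm_conj, hw, one_mul]
  have h3 : 2 * ‖z‖ ≤ s := by
    refine le_of_sq_le_sq ?_ h0.le
    nlinarith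
  have h4 : 2 * ε ≤ s := by
    refine le_of_sq_le_sq ?_ h0.le
    nlinarith
  have h5 : ε ≤ s - ((starRingEnd ℂ) w * z).re := by linarith
  have h6 : (ε / g) ^ 2 * ∑ u ∈ range g, ‖r u‖ ^ 2 ≤ ε ^ 2 / g := by
    refine (mul_le_mul_of_nonneg_left hr (sq_nonneg _)).trans (le_of_eq ?_)
    field_simp
  have h7 : 2 * (ε ^ 2 / g) ≤ 2 * (ε / g) * (s - ((starRingEnd ℂ) w * z).re) := by
    have := mul_le_mul_of_nonneg_left h5 (by positivity : 0 ≤ 2 * (ε / g))
    refine le_trans (le_of_eq ?_) this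
    ring
  linarith

/-- The conclusion when nothing is violated. -/
theorem final (z z' : ℂ) (e : ℝ) (h' : ‖z'‖ ^ 2 ≤ e)
    (h : ∀ k < 4, ¬ (0 < ((starRingEnd ℂ) (un4 k : ℂ) * z).re ∧
      4 * e < ((starRingEnd ℂ) (un4 k : ℂ) * z).re ^ 2)) : ‖z - z'‖ ^ 2 ≤ 16 * e := by
  have he : 0 ≤ e := (sq_nonneg _).trans h'
  have h0 := h 0 (by norm_num)
  have h1 := h 1 (by norm_num)
  have h2 := h 2 (by norm_num)
  have h3 := h 3 (by norm_num)
  simp [un4] at h0 h1 h2 h3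
  have hre : z.re ^ 2 ≤ 4 * e := by
    rcases lt_trichotomy z.re 0 with h | h | h
    · exact h1 h
    · rw [h]; linarith
    · exact h0 h
  have him : z.im ^ 2 ≤ 4 * e := by
    rcases lt_trichotomy z.im 0 with h | h | h
    · exact h3 h
    · rw [h]; linarith
    · exact h2 h
  have hz : ‖z‖ ^ 2 ≤ 8 * e := by
    rw [Complex.sq_norm, Complex.normSq_apply]; nlinarith
  have h4 := norm_sub_le z z'
  have h5 : ‖z - z'‖ ^ 2 ≤ (‖z‖ + ‖z'‖) ^ 2 := pow_le_pow_left₀ (norm_nonneg _) h4 2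
  nlinarith [sq_nonneg (‖z‖ - 3 * ‖z'‖)]

theorem run_spec (g : ℕ) (rows : List (List GQ)) (b : List GQ) (e2 : List ℚ) (ε : ℚ)
    (cs : ℕ → ℂ) (hg : 1 ≤ g) (hε : 0 < ε) (hcs : ∑ u ∈ range g, ‖cs u‖ ^ 2 ≤ 4 * g)
    (hrow : ∀ i < rows.length, ∑ u ∈ range g, ‖(rows.getD i []).getD u 0‖ ^ 2 ≤ g ∧
      ε ^ 2 ≤ e2.getD i 0 ∧
      ‖∑ u ∈ range g, (((rows.getD i []).getD u 0 : GQ) : ℂ) * cs u - (b.getD i 0 : GQ)‖ ^ 2 ≤
        e2.getD i 0) (t : ℕ) :
    ∑ u ∈ range g, ‖(cv g rows ε (run g rows b e2 ε t) u : ℂ) - cs u‖ ^ 2 ≤ 4 * g ∧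
    (¬ Ex (4 * rows.length) (Viol g rows b e2 ε (run g rows b e2 ε t)) ∨
      ∑ u ∈ range g, ‖(cv g rows ε (run g rows b e2 ε t) u : ℂ) - cs u‖ ^ 2 ≤
        4 * g - t * ((ε : ℝ) ^ 2 / g)) := by
  induction t with
  | zero =>
    have : ∑ u ∈ range g, ‖(cv g rows ε (run g rows b e2 ε 0) u : ℂ) - cs u‖ ^ 2 ≤ 4 * g := by
      simpa [run, cv] using hcs
    exact ⟨this, Or.inr (by simpa using this)⟩
  | succ t ih =>
    have e : run g rows b e2 ε (t + 1) = step g rows b e2 ε (run g rows b e2 ε t) := rfl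
    generalize run g rows b e2 ε t = hs at ih e
    by_cases hv : Ex (4 * rows.length) (Viol g rows b e2 ε hs)
    · obtain ⟨h1, h2, h3⟩ := pick_spec hv
      rw [e, step, if_pos hv]
      generalize pick g rows b e2 ε hs = j at h1 h2 h3
      obtain ⟨r1, r2, r3⟩ := hrow (j / 4) (by omega)
      have hε' : (0 : ℝ) < ε := by exact_mod_cast hε
      have hd := descent g hg (fun u => (ent rows (j / 4) u : ℂ)) (fun u => (cv g rows ε hs u : ℂ))
        cs (un4 (j % 4) : ℂ) (b.getD (j / 4) 0 : GQ) ε (e2.getD (j / 4) 0 : ℚ)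
        (sval g rows b ε hs j) hε' (norm_un4 _) r1 (by exact_mod_cast r2) r3
        (cast_sval _ _ _ _ _ _) (by exact_mod_cast h2) (by exact_mod_cast h3)
      simp only [cv_cons]
      have h4 : (0 : ℝ) ≤ (ε : ℝ) ^ 2 / g := by positivity
      refine ⟨by linarith [ih.1], Or.inr ?_⟩
      have := ih.2.resolve_left (not_not.2 hv)
      rw [Nat.cast_add, Nat.cast_one, add_mul, one_mul]
      linarith
    · rw [e, step, if_neg hv]
      exact ⟨ih.1, Or.inl hv⟩

end Perc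

open Perc in
theorem perc_proof : PercStmt := by
  refine ⟨fun x => mkL x.1 (cv x.1 x.2.1 x.2.2.2.2.1
    (run x.1 x.2.1 x.2.2.1 x.2.2.2.1 x.2.2.2.2.1 (x.2.2.2.2.2 + 1))), ?_, ?_⟩
  · refine pt_mkL (by fun_prop) (pt_cv (by fun_prop) (by fun_prop) (by fun_prop)
      (pt_run (by fun_prop) (by fun_prop) (by fun_prop) (by fun_prop) (by fun_prop) (by fun_prop))
      (by fun_prop))
  intro g rows b e2 ε T cs hg hε hT hcs hrow
  obtain ⟨h1, h2⟩ := run_spec g rows b e2 ε cs hg hε hcs hrow (T + 1)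
  dsimp only
  generalize run g rows b e2 ε (T + 1) = hs at h1 h2
  have hg' : (0 : ℝ) < g := by exact_mod_cast hg
  have hε' : (0 : ℝ) < ε := by exact_mod_cast hε
  have hnv : ¬ Ex (4 * rows.length) (Viol g rows b e2 ε hs) := by
    refine h2.resolve_right (fun h => ?_)
    have h3 : (0 : ℝ) ≤ ∑ u ∈ range g, ‖(cv g rows ε hs u : ℂ) - cs u‖ ^ 2 :=
      sum_nonneg (fun _ _ => sq_nonneg _)
    have h4 : 4 * (g : ℝ) ^ 2 ≤ T * (ε : ℝ) ^ 2 := by exact_mod_cast hT
    have h5 : 4 * (g : ℝ) ≤ T * ((ε : ℝ) ^ 2 / g) := by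
      rw [← mul_div_assoc, le_div_iff₀ hg']; nlinarith
    have h6 : (0 : ℝ) < (ε : ℝ) ^ 2 / g := by positivity
    push_cast at h
    linarith
  refine ⟨?_, fun i hi => ?_⟩
  · refine le_trans (le_of_eq (sum_congr rfl (fun u hu => ?_))) h1
    rw [getD_mkL _ _ (mem_range.1 hu)]
  · have e : ∑ u ∈ range g, (((rows.getD i []).getD u 0 : GQ) : ℂ) *
        ((((mkL g (cv g rows ε hs)).getD u 0 : GQ) : ℂ) - cs u) =
        (∑ u ∈ range g, (ent rows i u : ℂ) * (cv g rows ε hs u : ℂ) - (b.getD i 0 : GQ)) -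
        (∑ u ∈ range g, (((rows.getD i []).getD u 0 : GQ) : ℂ) * cs u - (b.getD i 0 : GQ)) := by
      rw [sub_sub_sub_cancel_right, ← sum_sub_distrib]
      refine sum_congr rfl (fun u hu => ?_)
      rw [getD_mkL _ _ (mem_range.1 hu), mul_sub]; rfl
    rw [e]
    refine final _ _ _ (hrow i hi).2.2 (fun k hk hv => hnv ⟨4 * i + k, by omega, ?_⟩)
    have e1 : (4 * i + k) % 4 = k := by omega
    have e2' : (4 * i + k) / 4 = i := by omega
    have e3 := cast_sval g rows b ε hs (4 * i + k)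
    rw [e1, e2'] at e3
    rw [← e3] at hv
    unfold Viol
    rw [e2']
    exact ⟨by exact_mod_cast hv.1, by exact_mod_cast hv.2⟩

end Crest.Agent.R300U
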