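import Crest.Agent.R300U.DefsA

/-!
Row 300, upper bound: task PJ (a Poisson–Jensen estimate for polynomials).
-/

set_option autoImplicit false

namespace Crest.Agent.R300U

open Finset Real

namespace PJ

/-- `f` is dominated on the closed disc by zero-free entire functions that are almost as small on
the circle. -/
def Dom (f : ℂ → ℂ) : Prop := (∃ M : ℝ, 0 ≤ M ∧ ∀ w : ℂ, ‖w‖ = 1 → ‖f w‖ ≤ M) ∧
  ∀ η : ℝ, 0 < η → ∃ Q : ℂ → ℂ, Differentiable ℂ Q ∧ (∀ w : ℂ, ‖w‖ ≤ 1 → Q w ≠ 0) ∧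
    (∀ w : ℂ, ‖w‖ ≤ 1 → ‖f w‖ ≤ ‖Q w‖) ∧ ∀ w : ℂ, ‖w‖ = 1 → ‖Q w‖ ≤ ‖f w‖ + η

theorem dom_const (a : ℂ) : Dom (fun _ => a) := by
  refine ⟨⟨‖a‖, norm_nonneg _, fun _ _ => le_rfl⟩, fun η hη => ?_⟩
  have h : ‖((‖a‖ + η : ℝ) : ℂ)‖ = ‖a‖ + η := by
    rw [Complex.norm_real, Real.norm_eq_abs, abs_of_pos (by positivity)]
  refine ⟨fun _ => ((‖a‖ + η : ℝ) : ℂ), differentiable_const _, fun w _ => ?_, fun w _ => ?_,
    fun w _ => ?_⟩
  · intro h0
    have : ‖((‖a‖ + η : ℝ) : ℂ)‖ = 0 := by simp only [h0, norm_zero]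
    rw [h] at this
    have := norm_nonneg a
    linarith
  · simp only [h]; linarith
  · simp only [h]; exact le_rfl

theorem dom_lin (a : ℂ) : Dom (fun w => w + a) := by
  refine ⟨⟨1 + ‖a‖, by positivity, fun w hw => ?_⟩, fun η hη => ?_⟩
  · exact (norm_add_le _ _).trans (by rw [hw])
  by_cases ha : 1 < ‖a‖
  · refine ⟨fun w => w + a, by fun_prop, fun w hw h0 => ?_, fun w _ => le_rfl,
      fun w _ => by simp only; linarith⟩
    have : w = -a := eq_neg_of_add_eq_zero_left h0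
    rw [this, norm_neg] at hw
    linarith
  · push Not at ha
    refine ⟨fun w => ((1 + η : ℝ) : ℂ) + (starRingEnd ℂ) a * w, by fun_prop, fun w hw h0 => ?_,
      fun w hw => ?_, fun w hw => ?_⟩
    · have h1 : ((1 + η : ℝ) : ℂ) = -((starRingEnd ℂ) a * w) := eq_neg_of_add_eq_zero_left h0
      have h2 := congrArg norm h1
      rw [norm_neg, norm_mul, Complex.norm_conj, Complex.norm_real, Real.norm_eq_abs,
        abs_of_pos (by positivity)] at h2
      have : ‖a‖ * ‖w‖ ≤ 1 * 1 := mul_le_mul ha hw (norm_nonneg _) zero_le_one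
      linarith
    · simp only
      apply le_of_sq_le_sq _ (norm_nonneg _)
      have ha2 : ‖a‖ ^ 2 ≤ 1 := by nlinarith [norm_nonneg a]
      have hw2 : ‖w‖ ^ 2 ≤ 1 := by nlinarith [norm_nonneg w]
      rw [Complex.sq_norm, Complex.normSq_apply] at ha2 hw2
      rw [Complex.sq_norm, Complex.sq_norm, Complex.normSq_apply, Complex.normSq_apply]
      simp only [Complex.add_re, Complex.add_im, Complex.ofReal_re, Complex.ofReal_im,
        Complex.mul_re, Complex.mul_im, Complex.conj_re, Complex.conj_im]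
      have h1 := mul_nonneg (sub_nonneg.2 ha2) (sub_nonneg.2 hw2)
      have h2 : 0 ≤ 1 + (a.re * w.re + a.im * w.im) := by
        nlinarith [sq_nonneg (a.re + w.re), sq_nonneg (a.im + w.im)]
      have h3 := mul_nonneg hη.le h2
      nlinarith [sq_nonneg η]
    · simp only
      have e : ((1 + η : ℝ) : ℂ) + (starRingEnd ℂ) a * w =
          (starRingEnd ℂ) (w + a) * w + (η : ℂ) := by
        have : (starRingEnd ℂ) w * w = 1 := by
          rw [Complex.conj_mul', hw]; simp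
        rw [map_add]; push_cast
        linear_combination -this
      rw [e]
      refine (norm_add_le _ _).trans ?_
      rw [norm_mul, Complex.norm_conj, hw, mul_one, Complex.norm_real, Real.norm_eq_abs,
        abs_of_pos hη]

theorem dom_mul {f g : ℂ → ℂ} (hf : Dom f) (hg : Dom g) : Dom (fun w => f w * g w) := by
  obtain ⟨⟨M, hM, hfM⟩, hf⟩ := hf
  obtain ⟨⟨N, hN, hgN⟩, hg⟩ := hg
  refine ⟨⟨M * N, by positivity, fun w hw => ?_⟩, fun η hη => ?_⟩
  · rw [norm_mul]; exact mul_le_mul (hfM w hw) (hgN w hw) (norm_nonneg _) hM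
  set e : ℝ := min 1 (η / (M + N + 1)) with he
  have he0 : 0 < e := lt_min one_pos (by positivity)
  have he1 : e ≤ 1 := min_le_left _ _
  have he2 : e * (M + N + 1) ≤ η := by
    have : e ≤ η / (M + N + 1) := min_le_right _ _
    rwa [le_div_iff₀ (by positivity)] at this
  obtain ⟨P, hP, hP0, hP1, hP2⟩ := hf e he0
  obtain ⟨Q, hQ, hQ0, hQ1, hQ2⟩ := hg e he0
  refine ⟨fun w => P w * Q w, hP.mul hQ, fun w hw => mul_ne_zero (hP0 w hw) (hQ0 w hw),
    fun w hw => ?_, fun w hw => ?_⟩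
  · simp only [norm_mul]
    exact mul_le_mul (hP1 w hw) (hQ1 w hw) (norm_nonneg _) (norm_nonneg _)
  · simp only [norm_mul]
    have h1 : ‖P w‖ * ‖Q w‖ ≤ (‖f w‖ + e) * (‖g w‖ + e) :=
      mul_le_mul (hP2 w hw) (hQ2 w hw) (norm_nonneg _) (by positivity)
    have h2 := mul_le_mul_of_nonneg_left (hfM w hw) he0.le
    have h3 := mul_le_mul_of_nonneg_left (hgN w hw) he0.le
    have h4 := mul_le_mul_of_nonneg_left he1 he0.le
    nlinarith

theorem dom_poly (R : Polynomial ℂ) : Dom (fun w => R.eval w) := by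
  have h : R.Splits := IsAlgClosed.splits R
  induction h using Submonoid.closure_induction with
  | mem x hx =>
    rcases hx with ⟨a, rfl⟩ | ⟨a, rfl⟩
    · simpa using dom_const a
    · simpa using dom_lin a
  | one => simpa using dom_const 1
  | mul x y _ _ hx hy => simpa using dom_mul hx hy

theorem dom_sum (g : ℕ) (a : ℕ → ℂ) : Dom (fun w => ∑ u ∈ range g, a u * w ^ u) := by
  have := dom_poly (∑ u ∈ range g, Polynomial.C (a u) * Polynomial.X ^ u)
  simpa [Polynomial.eval_finsetSum] using this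

/-- The Poisson formula for `log ‖Q‖`. -/
theorem poisson (Q : ℂ → ℂ) (hQ : Differentiable ℂ Q) (h0 : ∀ w : ℂ, ‖w‖ ≤ 1 → Q w ≠ 0) (z : ℂ)
    (hz : ‖z‖ < 1) :
    Real.log ‖Q z‖ = (2 * π)⁻¹ * ∫ φ in (-π)..π,
      (1 - ‖z‖ ^ 2) / ‖Complex.exp (φ * Complex.I) - z‖ ^ 2 *
        Real.log ‖Q (Complex.exp (φ * Complex.I))‖ := by
  have hh : InnerProductSpace.HarmonicOnNhd (fun w => Real.log ‖Q w‖) (Metric.closedBall 0 1) :=
    fun w hw => (hQ.analyticAt w).harmonicAt_log_norm (h0 w (by simpa using hw))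
  have h := hh.circleAverage_poissonKernel_smul (w := z) (by simpa using hz)
  rw [← h, circleAverage_eq_integral_add (-π)]
  rw [intervalIntegral.integral_comp_add_right
    (fun θ => (poissonKernel 0 z • fun w => Real.log ‖Q w‖) (circleMap 0 1 θ))]
  rw [smul_eq_mul]
  congr 1
  rw [zero_add, show 2 * π + -π = π by ring]
  congr 1
  funext φ
  simp [poissonKernel, circleMap]

/-- The Cauchy kernel. -/
noncomputable def ck (y t : ℝ) : ℝ := y / (y ^ 2 + t ^ 2) / π

theorem ck_pos {y : ℝ} (hy : 0 < y) (t : ℝ) : 0 < ck y t := by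
  unfold ck; have := pi_pos; positivity

theorem ck_cont {y : ℝ} (hy : 0 < y) : Continuous (ck y) := by
  unfold ck
  refine Continuous.div_const (Continuous.div continuous_const (by fun_prop) fun t => ?_) _
  positivity

theorem ck_mono {y s t : ℝ} (hy : 0 < y) (h : s ^ 2 ≤ t ^ 2) : ck y t ≤ ck y s := by
  unfold ck; have := pi_pos
  gcongr

theorem ck_int {y : ℝ} (hy : 0 < y) (c a b : ℝ) :
    ∫ φ in a..b, ck y (φ - c) = (arctan ((b - c) / y) - arctan ((a - c) / y)) / π := by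
  have hd : ∀ φ ∈ Set.uIcc a b,
      HasDerivAt (fun φ => arctan ((φ - c) / y) / π) (ck y (φ - c)) φ := by
    intro φ _
    have h1 : HasDerivAt (fun φ => (φ - c) / y) (1 / y) φ :=
      ((hasDerivAt_id φ).sub_const c).div_const y
    have h2 := (h1.arctan).div_const π
    refine h2.congr_deriv ?_
    unfold ck
    field_simp
  rw [intervalIntegral.integral_eq_sub_of_hasDerivAt hd
    (((ck_cont hy).comp (by fun_prop : Continuous fun φ => φ - c)).intervalIntegrable _ _)]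
  ring

theorem mu_anti {S u X : ℝ} (hS : 0 ≤ S) (hu : |u| ≤ X) : mu S X ≤ mu S u := by
  have hev : mu S u = mu S |u| := by
    rcases abs_choice u with h | h <;> rw [h]
    unfold mu; rw [sub_neg_eq_add, ← sub_eq_add_neg, add_comm]
  rw [hev]
  have hd : ∀ x : ℝ, HasDerivAt (fun x => arctan (S - x) + arctan (S + x))
      (1 / (1 + (S - x) ^ 2) * (-1) + 1 / (1 + (S + x) ^ 2) * 1) x := by
    intro x
    exact (((hasDerivAt_id x).const_sub S).arctan).add (((hasDerivAt_id x).const_add S).arctan)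
  have hanti : AntitoneOn (fun x => arctan (S - x) + arctan (S + x)) (Set.Ici 0) := by
    apply antitoneOn_of_deriv_nonpos (convex_Ici 0)
    · exact fun x _ => (hd x).continuousAt.continuousWithinAt
    · exact fun x _ => (hd x).differentiableAt.differentiableWithinAt
    · intro x hx
      rw [interior_Ici] at hx
      have hx : 0 < x := hx
      rw [(hd x).deriv]
      have : 1 / (1 + (S + x) ^ 2) ≤ 1 / (1 + (S - x) ^ 2) := by
        apply one_div_le_one_div_of_le (by positivity)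
        nlinarith [mul_nonneg hS hx.le]
      linarith
  unfold mu
  have := hanti (abs_nonneg u) ((abs_nonneg u).trans hu) hu
  have hp := pi_pos
  exact div_le_div_of_nonneg_right this hp.le

theorem arctan_big {t : ℝ} (ht : 194 ≤ t) : π / 2 - 1 / 194 ≤ arctan t := by
  have h1 : arctan (194 : ℝ) ≤ arctan t := arctan_mono ht
  have h2 := arctan_inv_of_pos (x := (194 : ℝ)) (by norm_num)
  have h3 : arctan (194 : ℝ)⁻¹ ≤ (194 : ℝ)⁻¹ := by
    have h := le_tan (x := arctan (194 : ℝ)⁻¹) (arctan_nonneg.2 (by norm_num))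
      (arctan_lt_pi_div_two _)
    rwa [tan_arctan] at h
  rw [one_div]
  linarith

/-- The real-variable estimate. -/
theorem real_est (y φ₀ X S s Θ D L : ℝ) (v w : ℝ → ℝ) (hy : 0 < y) (hφ : |φ₀| ≤ X * y)
    (hX : X ≤ 6) (hS0 : 0 ≤ S) (hS : S ≤ 4) (hs0 : 0 ≤ s) (hs : s ≤ S * y) (hΘ : 200 * y ≤ Θ)
    (hΘ1 : Θ ≤ 1) (hD : 0 ≤ D) (hL : 0 ≤ L) (hv : Continuous v) (hw : Continuous w)
    (hv0 : ∀ φ, 0 ≤ v φ) (hw0 : ∀ φ, 0 ≤ w φ) (h1 : ∀ φ, |φ| ≤ Θ → w φ ≤ v φ)
    (h2 : ∀ φ, |φ| ≤ S * y → w φ + D ≤ v φ)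
    (h3 : ∀ φ, s - Θ ≤ φ → φ ≤ Θ → L ≤ w φ + w (φ - s)) :
    mu S X * D + (om S - 1 / 250) / 2 * L ≤ ∫ φ in (-π)..π, ck y (φ - φ₀) * v φ := by
  have hp := pi_pos
  have hp3 := pi_gt_d2
  have hc : ∀ c, Continuous fun φ => ck y (φ - c) := fun c => (ck_cont hy).comp (by fun_prop)
  have hc0 : ∀ t, 0 ≤ ck y t := fun t => (ck_pos hy t).le
  have hφ6 : |φ₀| ≤ 6 * y := hφ.trans (mul_le_mul_of_nonneg_right hX hy.le)
  have hφa := abs_le.1 hφ6
  have hSy : S * y ≤ 4 * y := mul_le_mul_of_nonneg_right hS hy.le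
  have hSy0 : 0 ≤ S * y := mul_nonneg hS0 hy.le
  -- step 1
  have s1 : ∫ φ in (-Θ)..Θ, ck y (φ - φ₀) * v φ ≤ ∫ φ in (-π)..π, ck y (φ - φ₀) * v φ :=
    intervalIntegral.integral_mono_interval (by linarith) (by linarith) (by linarith)
      (Filter.Eventually.of_forall fun φ => mul_nonneg (hc0 _) (hv0 _))
      (((hc φ₀).mul hv).intervalIntegrable _ _)
  have s2 : ∫ φ in (-Θ)..Θ, ck y (φ - φ₀) * v φ = (∫ φ in (-Θ)..Θ, ck y (φ - φ₀) * w φ) +
      ∫ φ in (-Θ)..Θ, ck y (φ - φ₀) * (v φ - w φ) := by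
    refine Eq.trans ?_ (intervalIntegral.integral_add (((hc φ₀).mul hw).intervalIntegrable _ _)
      (((hc φ₀).mul (hv.sub hw)).intervalIntegrable _ _))
    congr 1; funext φ; ring
  have s3 : ∫ φ in (-(S * y))..(S * y), ck y (φ - φ₀) * (v φ - w φ) ≤
      ∫ φ in (-Θ)..Θ, ck y (φ - φ₀) * (v φ - w φ) := by
    refine intervalIntegral.integral_mono_interval (by linarith) (by linarith) (by linarith) ?_
      (((hc φ₀).mul (hv.sub hw)).intervalIntegrable _ _)
    filter_upwards [MeasureTheory.ae_restrict_mem measurableSet_Ioc] with φ hφ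
    exact mul_nonneg (hc0 _) (sub_nonneg.2 (h1 φ (abs_le.2 ⟨hφ.1.le, hφ.2⟩)))
  have s4 : ∫ φ in (-(S * y))..(S * y), ck y (φ - φ₀) * D ≤
      ∫ φ in (-(S * y))..(S * y), ck y (φ - φ₀) * (v φ - w φ) := by
    refine intervalIntegral.integral_mono_on (by linarith)
      (((hc φ₀).mul continuous_const).intervalIntegrable _ _)
      (((hc φ₀).mul (hv.sub hw)).intervalIntegrable _ _) fun φ hφ => ?_
    exact mul_le_mul_of_nonneg_left (by linarith [h2 φ (abs_le.2 ⟨hφ.1, hφ.2⟩)]) (hc0 _)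
  have s5 : mu S X * D ≤ ∫ φ in (-(S * y))..(S * y), ck y (φ - φ₀) * D := by
    rw [intervalIntegral.integral_mul_const, ck_int hy]
    refine mul_le_mul_of_nonneg_right ?_ hD
    have : mu S X ≤ mu S (φ₀ / y) := by
      apply mu_anti hS0
      rw [abs_div, abs_of_pos hy, div_le_iff₀ hy]; exact hφ
    refine this.trans (le_of_eq ?_)
    unfold mu
    rw [show (S * y - φ₀) / y = S - φ₀ / y by field_simp,
      show (-(S * y) - φ₀) / y = -(S + φ₀ / y) by field_simp; ring, arctan_neg]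
    ring
  -- step 3
  have t1 : ∫ φ in (s - Θ)..Θ, ck y (φ - φ₀) * w φ ≤ ∫ φ in (-Θ)..Θ, ck y (φ - φ₀) * w φ :=
    intervalIntegral.integral_mono_interval (by linarith) (by linarith) (by linarith)
      (Filter.Eventually.of_forall fun φ => mul_nonneg (hc0 _) (hw0 _))
      (((hc φ₀).mul hw).intervalIntegrable _ _)
  have t2 : ∫ φ in (-Θ)..(Θ - s), ck y (φ - φ₀) * w φ ≤ ∫ φ in (-Θ)..Θ, ck y (φ - φ₀) * w φ :=
    intervalIntegral.integral_mono_interval (by linarith) (by linarith) (by linarith)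
      (Filter.Eventually.of_forall fun φ => mul_nonneg (hc0 _) (hw0 _))
      (((hc φ₀).mul hw).intervalIntegrable _ _)
  have t3 : ∫ φ in (s - Θ)..Θ, ck y (φ - (s + φ₀)) * w (φ - s) =
      ∫ φ in (-Θ)..(Θ - s), ck y (φ - φ₀) * w φ := by
    have := intervalIntegral.integral_comp_sub_right (a := s - Θ) (b := Θ)
      (fun φ => ck y (φ - φ₀) * w φ) s
    rw [show s - Θ - s = -Θ by ring] at this
    rw [← this]
    congr 1; funext φ; rw [sub_sub]
  set F : ℝ → ℝ := fun φ => ck y (φ - φ₀) * w φ + ck y (φ - (s + φ₀)) * w (φ - s) with hF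
  have hws : Continuous fun φ => w (φ - s) := hw.comp (by fun_prop)
  have hFc : Continuous F := ((hc _).mul hw).add ((hc _).mul hws)
  have t4 : ∫ φ in (s - Θ)..Θ, F φ = (∫ φ in (s - Θ)..Θ, ck y (φ - φ₀) * w φ) +
      ∫ φ in (s - Θ)..Θ, ck y (φ - (s + φ₀)) * w (φ - s) :=
    intervalIntegral.integral_add (((hc _).mul hw).intervalIntegrable _ _)
      (((hc _).mul hws).intervalIntegrable _ _)
  have t5 : (∫ φ in (s - Θ)..(φ₀ + s / 2), F φ) + ∫ φ in (φ₀ + s / 2)..Θ, F φ =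
      ∫ φ in (s - Θ)..Θ, F φ :=
    intervalIntegral.integral_add_adjacent_intervals (hFc.intervalIntegrable _ _)
      (hFc.intervalIntegrable _ _)
  have t6 : ∫ φ in (s - Θ)..(φ₀ + s / 2), ck y (φ - (s + φ₀)) * L ≤
      ∫ φ in (s - Θ)..(φ₀ + s / 2), F φ := by
    refine intervalIntegral.integral_mono_on (by linarith)
      (((hc _).mul continuous_const).intervalIntegrable _ _) (hFc.intervalIntegrable _ _)
      fun φ hφ => ?_
    have a1 : ck y (φ - (s + φ₀)) ≤ ck y (φ - φ₀) := ck_mono hy (by nlinarith [hφ.2])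
    have a2 := h3 φ hφ.1 (by linarith [hφ.2])
    have a3 := mul_le_mul_of_nonneg_left a2 (hc0 (φ - (s + φ₀)))
    have a4 := mul_le_mul_of_nonneg_right a1 (hw0 φ)
    simp only [hF]; linarith
  have t7 : ∫ φ in (φ₀ + s / 2)..Θ, ck y (φ - φ₀) * L ≤ ∫ φ in (φ₀ + s / 2)..Θ, F φ := by
    refine intervalIntegral.integral_mono_on (by linarith)
      (((hc _).mul continuous_const).intervalIntegrable _ _) (hFc.intervalIntegrable _ _)
      fun φ hφ => ?_
    have a1 : ck y (φ - φ₀) ≤ ck y (φ - (s + φ₀)) := ck_mono hy (by nlinarith [hφ.1])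
    have a2 := h3 φ (by linarith [hφ.1]) hφ.2
    have a3 := mul_le_mul_of_nonneg_left a2 (hc0 (φ - φ₀))
    have a4 := mul_le_mul_of_nonneg_right a1 (hw0 (φ - s))
    simp only [hF]; linarith
  rw [intervalIntegral.integral_mul_const, ck_int hy] at t6 t7
  have u1 : arctan (s / 2 / y) ≤ arctan (S / 2) := by
    apply arctan_mono
    rw [div_le_iff₀ hy]; linarith
  have u2 : π / 2 - 1 / 194 ≤ arctan ((Θ + φ₀) / y) := by
    apply arctan_big; rw [le_div_iff₀ hy]; linarith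
  have u3 : π / 2 - 1 / 194 ≤ arctan ((Θ - φ₀) / y) := by
    apply arctan_big; rw [le_div_iff₀ hy]; linarith
  rw [show (φ₀ + s / 2 - (s + φ₀)) / y = -(s / 2 / y) by ring,
    show (s - Θ - (s + φ₀)) / y = -((Θ + φ₀) / y) by ring, arctan_neg, arctan_neg] at t6
  rw [show (φ₀ + s / 2 - φ₀) / y = s / 2 / y by ring] at t7
  have u4 : om S - 1 / 250 ≤ (-arctan (s / 2 / y) - -arctan ((Θ + φ₀) / y)) / π +
      (arctan ((Θ - φ₀) / y) - arctan (s / 2 / y)) / π := by
    rw [← add_div, le_div_iff₀ hp]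
    unfold om
    have : (1 - 2 / π * arctan (S / 2) - 1 / 250) * π = π - 2 * arctan (S / 2) - π / 250 := by
      field_simp
    rw [this]
    linarith
  have u5 := mul_le_mul_of_nonneg_right u4 hL
  nlinarith

theorem kernel_le {y : ℝ} (hy : 0 < y) (hy1 : y ≤ 1) (φ φ₀ : ℝ) :
    (1 - y) * ck y (φ - φ₀) ≤ (2 * π)⁻¹ * ((1 - ‖(1 - (y : ℂ)) * Complex.exp (φ₀ * Complex.I)‖ ^ 2) /
      ‖Complex.exp (φ * Complex.I) - (1 - y) * Complex.exp (φ₀ * Complex.I)‖ ^ 2) := by
  have hp := pi_pos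
  have e1 : ‖(1 - (y : ℂ)) * Complex.exp (φ₀ * Complex.I)‖ = 1 - y := by
    rw [norm_mul, Complex.norm_exp_ofReal_mul_I, mul_one]
    have : (1 - (y : ℂ)) = ((1 - y : ℝ) : ℂ) := by push_cast; rfl
    rw [this, Complex.norm_real, Real.norm_eq_abs, abs_of_nonneg (by linarith)]
  have e2 : ‖Complex.exp (φ * Complex.I) - (1 - y) * Complex.exp (φ₀ * Complex.I)‖ ^ 2 =
      y ^ 2 + 2 * (1 - y) * (1 - Real.cos (φ - φ₀)) := by
    rw [Complex.sq_norm, Complex.normSq_apply, Real.cos_sub]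
    simp only [Complex.sub_re, Complex.sub_im, Complex.mul_re, Complex.mul_im, Complex.one_re,
      Complex.one_im, Complex.ofReal_re, Complex.ofReal_im, Complex.exp_ofReal_mul_I_re,
      Complex.exp_ofReal_mul_I_im]
    have a1 := Real.sin_sq_add_cos_sq φ
    have a2 := Real.sin_sq_add_cos_sq φ₀
    linear_combination a1 + (1 - y) ^ 2 * a2
  rw [e1, e2]
  have c1 : 0 ≤ 1 - Real.cos (φ - φ₀) := by linarith [Real.cos_le_one (φ - φ₀)]
  have c2 : 1 - Real.cos (φ - φ₀) ≤ (φ - φ₀) ^ 2 / 2 := by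
    linarith [Real.one_sub_sq_div_two_le_cos (x := φ - φ₀)]
  have c3 : 2 * (1 - y) * (1 - Real.cos (φ - φ₀)) ≤ (φ - φ₀) ^ 2 := by nlinarith
  have c4 : 0 ≤ 2 * (1 - y) * (1 - Real.cos (φ - φ₀)) := by
    have : 0 ≤ 1 - y := by linarith
    positivity
  unfold ck
  calc (1 - y) * (y / (y ^ 2 + (φ - φ₀) ^ 2) / π)
      = (2 * π)⁻¹ * ((2 * (1 - y) * y) / (y ^ 2 + (φ - φ₀) ^ 2)) := by field_simp
    _ ≤ _ := by
      refine mul_le_mul_of_nonneg_left ?_ (by positivity)
      apply div_le_div₀ (by nlinarith) (by nlinarith) (by positivity) (by linarith)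

end PJ

open PJ in
theorem pj_proof : PJStmt := by
  intro g a y φ₀ X S s Θ δ ν B hy hy1 hφ hX0 hX hS0 hS hs0 hs hΘ hΘ1 hB hB01 hδ hδ1 hν hν1 h1 h2 h3 h4
  have hp := pi_pos
  set z : ℂ := (1 - y) * Complex.exp (φ₀ * Complex.I) with hz
  have hz1 : ‖z‖ < 1 := by
    rw [hz, norm_mul, Complex.norm_exp_ofReal_mul_I, mul_one]
    have : (1 - (y : ℂ)) = ((1 - y : ℝ) : ℂ) := by push_cast; rfl
    rw [this, Complex.norm_real, Real.norm_eq_abs, abs_of_nonneg (by linarith)]
    linarith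
  obtain ⟨φ₁, -, hφ₁⟩ := (isCompact_Icc (a := -Θ) (b := Θ)).exists_isMinOn
    ⟨0, by constructor <;> linarith⟩ hB.continuousOn
  have hm : ∀ φ, |φ| ≤ Θ → B φ₁ ≤ B φ := fun φ hφ => hφ₁ (abs_le.1 hφ)
  have hc : 0 < δ * B φ₁ := mul_pos hδ (hB01 _).1
  have hc1 : δ * B φ₁ ≤ 1 := mul_le_one₀ hδ1 (hB01 _).1.le (hB01 _).2
  set E := Real.exp ((1 - y) * (mu S X * Real.log δ + (om S - 1 / 250) / 2 * Real.log ν)) with hE
  have key : ∀ η : ℝ, 0 < η → ‖∑ u ∈ range g, a u * z ^ u‖ ≤ (1 + η) * E := by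
    intro η hη
    obtain ⟨Q, hQ, hQ0, hQ1, hQ2⟩ := (dom_sum g a).2 (η * (δ * B φ₁)) (by positivity)
    have hn : ∀ w, ‖Q w / ((1 + η : ℝ) : ℂ)‖ = ‖Q w‖ / (1 + η) := fun w => by
      rw [norm_div, Complex.norm_real, Real.norm_eq_abs, abs_of_pos (by positivity)]
    have hne : ((1 + η : ℝ) : ℂ) ≠ 0 := by
      have : (1 + η : ℝ) ≠ 0 := by positivity
      exact_mod_cast this
    have hP := poisson (fun w => Q w / ((1 + η : ℝ) : ℂ)) (hQ.div_const _)
      (fun w hw => div_ne_zero (hQ0 w hw) hne) z hz1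
    simp only [hn] at hP
    have hce : ∀ φ : ℝ, ‖Complex.exp (φ * Complex.I)‖ = 1 := Complex.norm_exp_ofReal_mul_I
    have hpos : ∀ φ : ℝ, 0 < ‖Q (Complex.exp (φ * Complex.I))‖ / (1 + η) := fun φ =>
      div_pos (norm_pos_iff.2 (hQ0 _ (hce φ).le)) (by positivity)
    have hb : ∀ (φ t : ℝ), δ * B φ₁ ≤ t →
        ‖∑ u ∈ range g, a u * Complex.exp (φ * Complex.I) ^ u‖ ≤ t →
        ‖Q (Complex.exp (φ * Complex.I))‖ / (1 + η) ≤ t := by
      intro φ t ht h
      rw [div_le_iff₀ (by positivity)]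
      have := hQ2 _ (hce φ)
      have := mul_le_mul_of_nonneg_left ht hη.le
      linarith
    set v : ℝ → ℝ := fun φ => -Real.log (‖Q (Complex.exp (φ * Complex.I))‖ / (1 + η)) with hv
    have hvc : Continuous v := by
      refine Continuous.neg (Continuous.log ?_ fun φ => (hpos φ).ne')
      have := hQ.continuous
      fun_prop
    have hv0 : ∀ φ, 0 ≤ v φ := fun φ => by
      have := Real.log_nonpos (hpos φ).le (hb φ 1 hc1 (h1 φ))
      simp only [hv]; linarith
    have hSy : S * y ≤ Θ := by nlinarith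
    have hr := real_est y φ₀ X S s Θ (-Real.log δ) (-Real.log ν) v (fun φ => -Real.log (B φ)) hy hφ
      hX hS0 hS hs0 hs hΘ hΘ1 (by linarith [Real.log_nonpos hδ.le hδ1])
      (by linarith [Real.log_nonpos hν.le hν1]) hvc
      (Continuous.neg (hB.log fun φ => (hB01 φ).1.ne')) hv0
      (fun φ => by linarith [Real.log_nonpos (hB01 φ).1.le (hB01 φ).2])
      (fun φ hφ => by
        have a1 : δ * B φ₁ ≤ B φ := by
          have := hm φ hφ
          have := mul_le_mul_of_nonneg_right hδ1 (hB01 φ₁).1.le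
          linarith
        have := Real.log_le_log (hpos φ) (hb φ _ a1 (h2 φ hφ))
        simp only [hv]; linarith)
      (fun φ hφ => by
        have a1 : δ * B φ₁ ≤ δ * B φ := mul_le_mul_of_nonneg_left (hm φ (hφ.trans hSy)) hδ.le
        have := Real.log_le_log (hpos φ) (hb φ _ a1 (h3 φ hφ))
        rw [Real.log_mul hδ.ne' (hB01 φ).1.ne'] at this
        simp only [hv]; linarith)
      (fun φ ha hb => by
        have := Real.log_le_log (mul_pos (hB01 _).1 (hB01 _).1) (h4 φ ha hb)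
        rw [Real.log_mul (hB01 _).1.ne' (hB01 _).1.ne'] at this
        linarith)
    have hkc : Continuous fun φ : ℝ => (1 - ‖z‖ ^ 2) / ‖Complex.exp (φ * Complex.I) - z‖ ^ 2 := by
      refine Continuous.div continuous_const (by fun_prop) fun φ => ?_
      refine pow_ne_zero _ (norm_ne_zero_iff.2 fun h => ?_)
      have := hce φ
      rw [sub_eq_zero.1 h] at this
      linarith
    have hcc : Continuous fun φ => ck y (φ - φ₀) := (ck_cont hy).comp (by fun_prop)
    have hi : ∫ φ in (-π)..π, (1 - y) * (ck y (φ - φ₀) * v φ) ≤ ∫ φ in (-π)..π, (2 * π)⁻¹ *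
        ((1 - ‖z‖ ^ 2) / ‖Complex.exp (φ * Complex.I) - z‖ ^ 2 * v φ) := by
      refine intervalIntegral.integral_mono_on (by linarith)
        ((continuous_const.mul (hcc.mul hvc)).intervalIntegrable _ _)
        ((continuous_const.mul (hkc.mul hvc)).intervalIntegrable _ _) fun φ _ => ?_
      rw [← mul_assoc, ← mul_assoc]
      exact mul_le_mul_of_nonneg_right (kernel_le hy (by linarith) φ φ₀) (hv0 φ)
    rw [intervalIntegral.integral_const_mul, intervalIntegral.integral_const_mul] at hi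
    have hP' : Real.log (‖Q z‖ / (1 + η)) = -((2 * π)⁻¹ * ∫ φ in (-π)..π,
        (1 - ‖z‖ ^ 2) / ‖Complex.exp (φ * Complex.I) - z‖ ^ 2 * v φ) := by
      rw [hP, ← mul_neg, ← intervalIntegral.integral_neg]
      congr 2; funext φ; simp only [hv]; ring
    have hr2 := mul_le_mul_of_nonneg_left hr (by linarith : 0 ≤ 1 - y)
    have hq : 0 < ‖Q z‖ / (1 + η) := div_pos (norm_pos_iff.2 (hQ0 _ hz1.le)) (by positivity)
    have hfin : ‖Q z‖ / (1 + η) ≤ E := by
      rw [← Real.exp_log hq, hE]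
      apply Real.exp_le_exp.2
      linarith
    rw [div_le_iff₀ (by positivity)] at hfin
    have := hQ1 z hz1.le
    linarith
  have hE0 : 0 < E := Real.exp_pos _
  apply le_of_forall_pos_le_add
  intro ε hε
  have := key (ε / E) (by positivity)
  rwa [add_mul, one_mul, div_mul_cancel₀ _ hE0.ne'] at this

end Crest.Agent.R300U
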