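import Crest.Agent.R300U.PRcor
import Crest.Agent.R300U.GPT

/-!
Row 300, upper bound: phase retrieval (task PR), running time.
-/

set_option autoImplicit false

namespace Crest.Agent.R300U

open Crest.Agent.PT Crest.Agent.QC Crest.Agent.R317 Finset

namespace PR

variable {α : Type} [Enc α]

@[fun_prop] theorem pt_amax {n : α → ℕ} {f : α → ℕ → ℚ} (hn : PT n)
    (hf : PT (fun p : α × ℕ => f p.1 p.2)) : PT (fun a => amax (n a) (f a)) := by
  have h1 : PT (fun p : α × ℕ × ℕ => f p.1 p.2.1) :=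
    PT.comp (g := fun p : α × ℕ => f p.1 p.2) (f := fun p : α × ℕ × ℕ => (p.1, p.2.1)) hf
      (by fun_prop)
  have h2 : PT (fun p : α × ℕ × ℕ => f p.1 p.2.2) :=
    PT.comp (g := fun p : α × ℕ => f p.1 p.2) (f := fun p : α × ℕ × ℕ => (p.1, p.2.2)) hf
      (by fun_prop)
  exact PT.natRec (z := fun _ => 0) (s := fun a i b => if f a b ≤ f a i then i else b) hn
    (PT.const 0) (PT.iteD (dt_qle h2 h1) (by fun_prop) (by fun_prop)) hn.pbNat
    (fun a i hi => by
      rw [sz_nat]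
      exact (amax_le' i (f a)).trans hi)

variable {J η K i k e0 e1 e2 e3 : α → ℕ} {ε : α → ℚ} {tab : α → List GQ}

@[fun_prop] theorem pt_PP (hJ : PT J) (ht : PT tab) (h0 : PT e0) (h1 : PT e1) (h2 : PT e2)
    (h3 : PT e3) : PT (fun a => PP (J a) (tab a) (e0 a) (e1 a) (e2 a) (e3 a)) := by
  unfold PP code4 nQ; fun_prop

@[fun_prop] theorem pt_s0 (hi : PT i) : PT (fun a => s0 (i a)) := by unfold s0; fun_prop

@[fun_prop] theorem pt_s1 (hJ : PT J) (hi : PT i) : PT (fun a => s1 (J a) (i a)) := by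
  unfold s1; fun_prop

@[fun_prop] theorem pt_s2 (hJ : PT J) : PT (fun a => s2 (J a)) := by unfold s2; fun_prop

@[fun_prop] theorem pt_AA (hJ : PT J) (ht : PT tab) (hi : PT i) :
    PT (fun a => AA (J a) (tab a) (i a)) := by unfold AA; fun_prop

@[fun_prop] theorem pt_aa (hJ : PT J) (he : PT ε) (ht : PT tab) (hi : PT i) :
    PT (fun a => aa (J a) (ε a) (tab a) (i a)) := by unfold aa; fun_prop

@[fun_prop] theorem pt_UU (hJ : PT J) (he : PT ε) (ht : PT tab) (hi : PT i) :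
    PT (fun a => UU (J a) (ε a) (tab a) (i a)) := by unfold UU; fun_prop

@[fun_prop] theorem pt_jk (hJ : PT J) (hη : PT η) (he : PT ε) (ht : PT tab) (hk : PT k) :
    PT (fun a => jk (J a) (η a) (ε a) (tab a) (k a)) := by
  unfold jk
  exact pt_amax (f := fun a j => aa (J a) (ε a) (tab a) (j + k a * η a) * aa (J a) (ε a) (tab a) j)
    (by fun_prop) (by fun_prop)

@[fun_prop] theorem pt_mm (hJ : PT J) (hη : PT η) (he : PT ε) (ht : PT tab) (hk : PT k) :
    PT (fun a => mm (J a) (η a) (ε a) (tab a) (k a)) := by unfold mm; fun_prop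

@[fun_prop] theorem pt_km (hJ : PT J) (hη : PT η) (he : PT ε) (ht : PT tab) (hk : PT k) :
    PT (fun a => km (J a) (η a) (ε a) (tab a) (k a)) := by
  unfold km
  exact pt_amax (f := fun a j => -mm (J a) (η a) (ε a) (tab a) j) (by fun_prop) (by fun_prop)

@[fun_prop] theorem pt_mu2 (hJ : PT J) (hη : PT η) (he : PT ε) (ht : PT tab) (hk : PT k) :
    PT (fun a => mu2 (J a) (η a) (ε a) (tab a) (k a)) := by unfold mu2; fun_prop

@[fun_prop] theorem pt_PC (hJ : PT J) (hη : PT η) (he : PT ε) (ht : PT tab) (hk : PT k) :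
    PT (fun a => PC (J a) (η a) (ε a) (tab a) (k a)) := by
  unfold PC
  exact PT.ite_eq hk (PT.const 0) (by fun_prop) (by fun_prop)

@[fun_prop] theorem pt_TT (hJ : PT J) (hη : PT η) (he : PT ε) (ht : PT tab) (hk : PT k) :
    PT (fun a => TT (J a) (η a) (ε a) (tab a) (k a)) := by
  unfold TT
  refine pt_gprod (f := fun a j => if (k a - j) % 2 = 0 then PC (J a) (η a) (ε a) (tab a) j
    else (cj (PC (J a) (η a) (ε a) (tab a) j))⁻¹) (by fun_prop) ?_
  exact PT.ite_eq (by fun_prop) (PT.const 0) (by fun_prop) (by fun_prop)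

@[fun_prop] theorem pt_kk (hJ : PT J) (hη : PT η) (hi : PT i) :
    PT (fun a => kk (J a) (η a) (i a)) := by
  unfold kk
  exact (PT.ite_le hJ hi (by fun_prop) (by fun_prop)).div hη

theorem dt_good (hJ : PT J) (hη : PT η) (hK : PT K) (he : PT ε) (ht : PT tab) (hi : PT i) :
    DT (fun a => 16 * ((K a : ℚ) + 1) ^ 2 * ε a ≤
      mu2 (J a) (η a) (ε a) (tab a) (kk (J a) (η a) (i a))) := by
  have h : PT (fun a => (K a : ℚ)) := pt_qnat (BT.ofPT hK)
  exact dt_qle (by fun_prop) (by fun_prop)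

theorem pt_ah (hJ : PT J) (hη : PT η) (hK : PT K) (he : PT ε) (ht : PT tab) (hi : PT i) :
    PT (fun a => ah (J a) (η a) (K a) (ε a) (tab a) (i a)) := by
  unfold ah
  exact PT.iteD (dt_good hJ hη hK he ht hi) (PT.ite_le hJ hi (by fun_prop) (by fun_prop))
    (PT.const 0)

theorem pt_ee (hJ : PT J) (hη : PT η) (hK : PT K) (he : PT ε) (ht : PT tab) (hi : PT i) :
    PT (fun a => ee (J a) (η a) (K a) (ε a) (tab a) (i a)) := by
  unfold ee
  have h : PT (fun a => (K a : ℚ)) := pt_qnat (BT.ofPT hK)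
  exact PT.iteD (dt_good hJ hη hK he ht hi) (by fun_prop) (by fun_prop)

theorem pt_pr : PT pr := by
  unfold pr
  refine PT.pair (pt_mkL (f := fun (x : ℕ × ℕ × ℕ × ℚ × List GQ) i =>
    ah x.1 x.2.1 x.2.2.1 x.2.2.2.1 x.2.2.2.2 i) (by fun_prop) ?_)
    (pt_mkL (f := fun (x : ℕ × ℕ × ℕ × ℚ × List GQ) i =>
      ee x.1 x.2.1 x.2.2.1 x.2.2.2.1 x.2.2.2.2 i) (by fun_prop) ?_)
  · exact pt_ah (by fun_prop) (by fun_prop) (by fun_prop) (by fun_prop) (by fun_prop) (by fun_prop)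
  · exact pt_ee (by fun_prop) (by fun_prop) (by fun_prop) (by fun_prop) (by fun_prop) (by fun_prop)

end PR

theorem pr_proof : PRStmt :=
  ⟨PR.pr, PR.pt_pr, fun _ _ _ _ _ _ h1 h2 h3 h4 h5 h6 =>
    PR.Hyp.good_all ⟨h1, h2, h3, h4, h5, h6⟩⟩

end Crest.Agent.R300U
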