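import Crest.Agent.R300U.DefsA

/-!
Row 300, upper bound: basic rules for `Pr` (task PRB) and Chebyshev's inequality (task CHEB).
-/

set_option autoImplicit false

namespace Crest.Agent.R300U

open Finset Crest.FinProb Crest.TraceRecon

namespace Prb

theorem bw_nonneg {ι : Type*} [Fintype ι] {p : ℝ} (h0 : 0 ≤ p) (h1 : p ≤ 1) (ω : ι → Bool) :
    0 ≤ bernoulliWeight p ω := by
  unfold bernoulliWeight
  refine prod_nonneg fun i _ => ?_
  split_ifs <;> linarith

theorem bw_sum {ι : Type*} [Fintype ι] [DecidableEq ι] (p : ℝ) :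
    ∑ ω : ι → Bool, bernoulliWeight p ω = 1 := by
  unfold bernoulliWeight
  have h := Finset.prod_univ_sum (fun _ : ι => (univ : Finset Bool))
    (fun _ b => if b = true then p else 1 - p)
  simp only [Fintype.piFinset_univ] at h
  rw [← h]
  simp

/-- Product formula for independent coordinates. -/
theorem sum_prod_pi {m : ℕ} {Ω R : Type*} [Fintype Ω] [CommSemiring R] (f : Fin m → Ω → R) :
    ∑ ks : Fin m → Ω, ∏ k, f k (ks k) = ∏ k, ∑ ω, f k ω := by
  classical
  have h := Finset.prod_univ_sum (fun _ : Fin m => (univ : Finset Ω)) f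
  simp only [Fintype.piFinset_univ] at h
  exact h.symm

theorem w_nonneg {p : ℝ} {n m : ℕ} (h0 : 0 ≤ p) (h1 : p ≤ 1) (ks : Fin m → Fin n → Bool) :
    0 ≤ ∏ k, bernoulliWeight p (ks k) :=
  prod_nonneg fun _ _ => bw_nonneg h0 h1 _

theorem w_sum (p : ℝ) (n m : ℕ) :
    ∑ ks : Fin m → Fin n → Bool, ∏ k, bernoulliWeight p (ks k) = 1 := by
  rw [sum_prod_pi (fun _ (ω : Fin n → Bool) => bernoulliWeight p ω)]
  simp [bw_sum]

theorem Pr_mono {p : ℝ} {n m : ℕ} (h0 : 0 ≤ p) (h1 : p ≤ 1)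
    {E F : (Fin m → Fin n → Bool) → Prop} (h : ∀ ks, E ks → F ks) : Pr p n m E ≤ Pr p n m F := by
  unfold Pr
  refine sum_le_sum fun ks _ => mul_le_mul_of_nonneg_left ?_ (w_nonneg h0 h1 ks)
  by_cases hE : E ks
  · simp [hE, h ks hE]
  · by_cases hF : F ks <;> simp [hE, hF]

theorem Pr_nonneg {p : ℝ} {n m : ℕ} (h0 : 0 ≤ p) (h1 : p ≤ 1)
    (E : (Fin m → Fin n → Bool) → Prop) : 0 ≤ Pr p n m E := by
  unfold Pr
  refine sum_nonneg fun ks _ => mul_nonneg (w_nonneg h0 h1 ks) ?_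
  split_ifs <;> norm_num

theorem Pr_add_not (p : ℝ) (n m : ℕ) (E : (Fin m → Fin n → Bool) → Prop) :
    Pr p n m E + Pr p n m (fun ks => ¬ E ks) = 1 := by
  unfold Pr
  rw [← sum_add_distrib]
  refine Eq.trans (sum_congr rfl fun ks _ => ?_) (w_sum p n m)
  by_cases hE : E ks <;> simp [hE]

theorem Pr_or_le {p : ℝ} {n m : ℕ} (h0 : 0 ≤ p) (h1 : p ≤ 1)
    (E F : (Fin m → Fin n → Bool) → Prop) :
    Pr p n m (fun ks => E ks ∨ F ks) ≤ Pr p n m E + Pr p n m F := by
  unfold Pr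
  rw [← sum_add_distrib]
  refine sum_le_sum fun ks _ => ?_
  rw [← mul_add]
  refine mul_le_mul_of_nonneg_left ?_ (w_nonneg h0 h1 ks)
  by_cases hE : E ks <;> by_cases hF : F ks <;> simp [hE, hF]

theorem Pr_false (p : ℝ) (n m : ℕ) : Pr p n m (fun _ => False) = 0 := by
  unfold Pr
  simp

theorem Pr_exists_le {p : ℝ} {n m : ℕ} (h0 : 0 ≤ p) (h1 : p ≤ 1) (k : ℕ)
    (E : ℕ → (Fin m → Fin n → Bool) → Prop) :
    Pr p n m (fun ks => ∃ i < k, E i ks) ≤ ∑ i ∈ range k, Pr p n m (E i) := by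
  induction k with
  | zero =>
    rw [sum_range_zero, ← Pr_false p n m]
    exact Pr_mono h0 h1 fun ks ⟨i, hi, _⟩ => absurd hi (Nat.not_lt_zero i)
  | succ k ih =>
    rw [sum_range_succ]
    calc Pr p n m (fun ks => ∃ i < k + 1, E i ks)
        ≤ Pr p n m (fun ks => (∃ i < k, E i ks) ∨ E k ks) := by
          refine Pr_mono h0 h1 fun ks ⟨i, hi, hE⟩ => ?_
          rcases Nat.lt_succ_iff_lt_or_eq.1 hi with h | h
          · exact Or.inl ⟨i, h, hE⟩
          · exact Or.inr (h ▸ hE)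
      _ ≤ _ := (Pr_or_le h0 h1 _ _).trans (by linarith)

/-- Markov's inequality. -/
theorem markov {p : ℝ} {n m : ℕ} (h0 : 0 ≤ p) (h1 : p ≤ 1)
    (E : (Fin m → Fin n → Bool) → Prop) (Y : (Fin m → Fin n → Bool) → ℝ)
    (hY : ∀ ks, 0 ≤ Y ks) (hE : ∀ ks, E ks → 1 ≤ Y ks) :
    Pr p n m E ≤ ∑ ks : Fin m → Fin n → Bool, (∏ k, bernoulliWeight p (ks k)) * Y ks := by
  unfold Pr
  refine sum_le_sum fun ks _ => mul_le_mul_of_nonneg_left ?_ (w_nonneg h0 h1 ks)
  by_cases h : E ks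
  · simp [h, hE ks h]
  · simp [h, hY ks]

/-- Second moments of independent centred variables. -/
theorem cross {n m : ℕ} (p : ℝ) (f g : (Fin n → Bool) → ℝ) (k l : Fin m)
    (hf : ∑ ω, bernoulliWeight p ω * f ω = 0) :
    ∑ ks : Fin m → Fin n → Bool, (∏ j, bernoulliWeight p (ks j)) * (f (ks k) * g (ks l)) =
      if k = l then ∑ ω, bernoulliWeight p ω * (f ω * g ω) else 0 := by
  have key : ∀ ks : Fin m → Fin n → Bool,
      (∏ j, bernoulliWeight p (ks j)) * (f (ks k) * g (ks l)) =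
        ∏ j, (bernoulliWeight p (ks j) * ((if j = k then f (ks j) else 1) *
          (if j = l then g (ks j) else 1))) := by
    intro ks
    rw [prod_mul_distrib, prod_mul_distrib]
    simp
  simp_rw [key]
  rw [sum_prod_pi (fun j (ω : Fin n → Bool) => bernoulliWeight p ω *
    ((if j = k then f ω else 1) * (if j = l then g ω else 1)))]
  split_ifs with hkl
  · subst hkl
    rw [← Finset.mul_prod_erase univ _ (mem_univ k)]
    rw [prod_eq_one]
    · simp
    · intro j hj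
      have : j ≠ k := (mem_erase.1 hj).1
      simp [this, bw_sum]
  · refine prod_eq_zero (mem_univ k) ?_
    simpa [hkl] using hf

theorem second_moment {n m : ℕ} (p : ℝ) (f : (Fin n → Bool) → ℝ)
    (hf : ∑ ω, bernoulliWeight p ω * f ω = 0) :
    ∑ ks : Fin m → Fin n → Bool, (∏ j, bernoulliWeight p (ks j)) * (∑ k, f (ks k)) ^ 2 =
      m * ∑ ω, bernoulliWeight p ω * (f ω * f ω) := by
  have : ∀ ks : Fin m → Fin n → Bool, (∏ j, bernoulliWeight p (ks j)) * (∑ k, f (ks k)) ^ 2 =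
      ∑ k, ∑ l, (∏ j, bernoulliWeight p (ks j)) * (f (ks k) * f (ks l)) := by
    intro ks
    rw [sq, sum_mul_sum, mul_sum]
    exact sum_congr rfl fun k _ => mul_sum _ _ _
  simp_rw [this]
  rw [sum_comm]
  have h2 : ∀ k : Fin m, ∑ ks : Fin m → Fin n → Bool, ∑ l,
      (∏ j, bernoulliWeight p (ks j)) * (f (ks k) * f (ks l)) =
      ∑ ω, bernoulliWeight p ω * (f ω * f ω) := by
    intro k
    rw [sum_comm]
    simp_rw [cross p f f k _ hf]
    simp
  simp_rw [h2]
  simp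

theorem var_le {n : ℕ} (p : ℝ) (f : (Fin n → Bool) → ℝ) :
    ∑ ω, bernoulliWeight p ω * ((f ω - ∑ ω', bernoulliWeight p ω' * f ω') *
      (f ω - ∑ ω', bernoulliWeight p ω' * f ω')) ≤ ∑ ω, bernoulliWeight p ω * f ω ^ 2 := by
  set μ := ∑ ω', bernoulliWeight p ω' * f ω' with hμ
  have : ∀ ω, bernoulliWeight p ω * ((f ω - μ) * (f ω - μ)) =
      bernoulliWeight p ω * f ω ^ 2 - 2 * μ * (bernoulliWeight p ω * f ω) +
        μ ^ 2 * bernoulliWeight p ω := fun ω => by ring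
  simp_rw [this]
  rw [sum_add_distrib, sum_sub_distrib, ← mul_sum, ← mul_sum, bw_sum, ← hμ]
  nlinarith [sq_nonneg μ]

theorem centred {n : ℕ} (p : ℝ) (f : (Fin n → Bool) → ℝ) :
    ∑ ω, bernoulliWeight p ω * (f ω - ∑ ω', bernoulliWeight p ω' * f ω') = 0 := by
  simp_rw [mul_sub]
  rw [sum_sub_distrib, ← sum_mul, bw_sum]
  ring

end Prb

open Prb

theorem prb_proof : PrbStmt := fun p n m h0 h1 =>
  ⟨fun _ _ h => Pr_mono h0 h1 h, fun E => ⟨Pr_nonneg h0 h1 E, Pr_add_not p n m E⟩,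
    fun E F => Pr_or_le h0 h1 E F, fun k E => Pr_exists_le h0 h1 k E⟩

theorem cheb_proof : ChebStmt := by
  intro p n m Z H t h0 h1 hm ht hZ
  set f : (Fin n → Bool) → ℝ := fun ω => (Z ω).re - ∑ ω', bernoulliWeight p ω' * (Z ω').re
    with hf
  set g : (Fin n → Bool) → ℝ := fun ω => (Z ω).im - ∑ ω', bernoulliWeight p ω' * (Z ω').im
    with hg
  have hm' : (0 : ℝ) < m := by exact_mod_cast hm
  have hnorm : ∀ ks : Fin m → Fin n → Bool,
      ‖(∑ k, Z (ks k)) / m - ∑ k, (bernoulliWeight p k : ℂ) * Z k‖ ^ 2 =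
        ((∑ k, f (ks k)) ^ 2 + (∑ k, g (ks k)) ^ 2) / m ^ 2 := by
    intro ks
    rw [Complex.sq_norm, Complex.normSq_apply]
    have e1 : ((∑ k, Z (ks k)) / m - ∑ k, (bernoulliWeight p k : ℂ) * Z k).re =
        (∑ k, f (ks k)) / m := by
      simp only [hf, sum_sub_distrib, Complex.sub_re, Complex.div_natCast_re, Complex.re_sum,
        Complex.re_ofReal_mul, sum_const, card_univ, Fintype.card_fin, nsmul_eq_mul]
      field_simp
    have e2 : ((∑ k, Z (ks k)) / m - ∑ k, (bernoulliWeight p k : ℂ) * Z k).im =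
        (∑ k, g (ks k)) / m := by
      simp only [hg, sum_sub_distrib, Complex.sub_im, Complex.div_natCast_im, Complex.im_sum,
        Complex.im_ofReal_mul, sum_const, card_univ, Fintype.card_fin, nsmul_eq_mul]
      field_simp
    rw [e1, e2]
    field_simp
  refine (markov h0 h1 _
    (fun ks => ((∑ k, f (ks k)) ^ 2 + (∑ k, g (ks k)) ^ 2) / (m ^ 2 * t ^ 2))
    (fun ks => by positivity) (fun ks h => ?_)).trans ?_
  · rw [← div_div, ← hnorm ks, one_le_div (by positivity)]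
    exact pow_le_pow_left₀ ht.le h.le 2
  · have e : ∀ ks : Fin m → Fin n → Bool, (∏ k, bernoulliWeight p (ks k)) *
        (((∑ k, f (ks k)) ^ 2 + (∑ k, g (ks k)) ^ 2) / (m ^ 2 * t ^ 2)) =
        ((∏ k, bernoulliWeight p (ks k)) * (∑ k, f (ks k)) ^ 2 +
          (∏ k, bernoulliWeight p (ks k)) * (∑ k, g (ks k)) ^ 2) / (m ^ 2 * t ^ 2) := fun ks => by
      ring
    simp_rw [e]
    rw [← sum_div, sum_add_distrib, second_moment p f (centred p fun ω => (Z ω).re),
      second_moment p g (centred p fun ω => (Z ω).im)]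
    have v1 := var_le p fun ω => (Z ω).re
    have v2 := var_le p fun ω => (Z ω).im
    have v3 : ∑ ω, bernoulliWeight p ω * (Z ω).re ^ 2 + ∑ ω, bernoulliWeight p ω * (Z ω).im ^ 2 ≤
        H ^ 2 := by
      rw [← sum_add_distrib]
      calc _ ≤ ∑ ω : Fin n → Bool, bernoulliWeight p ω * H ^ 2 := by
            refine sum_le_sum fun ω _ => ?_
            rw [← mul_add]
            refine mul_le_mul_of_nonneg_left ?_ (bw_nonneg h0 h1 ω)
            have := pow_le_pow_left₀ (norm_nonneg _) (hZ ω) 2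
            rw [Complex.sq_norm, Complex.normSq_apply] at this
            nlinarith
        _ = H ^ 2 := by rw [← sum_mul, bw_sum, one_mul]
    rw [div_le_div_iff₀ (by positivity) (by positivity), ← mul_add]
    have v4 : ∑ ω, bernoulliWeight p ω * (f ω * f ω) + ∑ ω, bernoulliWeight p ω * (g ω * g ω) ≤
        H ^ 2 := by
      simp only [hf, hg]
      linarith
    have := mul_le_mul_of_nonneg_left v4 (show 0 ≤ (m : ℝ) * (m * t ^ 2) by positivity)
    nlinarith

end Crest.Agent.R300U
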