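import Crest.Agent.R300U.DefsC

/-!
Row 300, upper bound, task PTAB.
-/

set_option autoImplicit false

namespace Crest.Agent.R300U

open Crest.Agent.R317 Finset

namespace Ptab

theorem code4_lt {Q e0 e1 e2 e3 : ℕ} (h0 : e0 < Q) (h1 : e1 < Q) (h2 : e2 < Q) (h3 : e3 < Q) :
    code4 Q e0 e1 e2 e3 < Q ^ 4 := by
  have step : ∀ a b B : ℕ, a < Q → b < B → a + Q * b < Q * B := by
    intro a b B ha hb
    have : Q * (b + 1) ≤ Q * B := Nat.mul_le_mul_left _ hb
    rw [Nat.mul_add] at this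
    omega
  have := step _ _ _ h0 (step _ _ _ h1 (step _ _ _ h2 h3))
  unfold code4
  calc _ < Q * (Q * (Q * Q)) := this
    _ = Q ^ 4 := by ring

theorem ptab_code (P : LP) (j : ℕ) (y : List Bool) (a : FA) (tab : List GQ) {e0 e1 e2 e3 : ℕ}
    (h0 : e0 < nQ P.J) (h1 : e1 < nQ P.J) (h2 : e2 < nQ P.J) (h3 : e3 < nQ P.J) :
    (ptab P j y a tab).getD (code4 (nQ P.J) e0 e1 e2 e3) 0 = prodE P j y a tab e0 e1 e2 e3 := by
  have hQ : 0 < nQ P.J := by omega
  have m : ∀ a b : ℕ, a < nQ P.J → (a + nQ P.J * b) % nQ P.J = a := fun a b ha => by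
    rw [Nat.add_mul_mod_self_left, Nat.mod_eq_of_lt ha]
  have d : ∀ a b : ℕ, a < nQ P.J → (a + nQ P.J * b) / nQ P.J = b := fun a b ha => by
    rw [Nat.add_mul_div_left _ _ hQ, Nat.div_eq_of_lt ha, zero_add]
  rw [ptab, getD_mkL _ _ (code4_lt h0 h1 h2 h3)]
  unfold code4
  rw [m _ _ h0, d _ _ h0, m _ _ h1, d _ _ h1, m _ _ h2, d _ _ h2]

theorem coe_zpow (z : GQ) (k : ℤ) : ((z ^ k : GQ) : ℂ) = (z : ℂ) ^ k :=
  map_zpow₀ GF.subtype z k

theorem coe_alG (hO : OmStmt) (P : LP) (j : ℕ) (y : List Bool) (b : FA) (θ : ℤ) :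
    (alG P j y b θ : ℂ) =
      Al P y.length j (fun i => (b.val (y.take i) : ℂ)) ((P.ω : ℂ) ^ θ) := by
  unfold alG Al
  push_cast
  refine sum_congr rfl fun i _ => ?_
  split_ifs
  · push_cast
    rw [(hO.2.1 P _).1, coe_zpow, ← zpow_mul, mul_neg]
  · rfl

theorem norm_om (hO : OmStmt) (P : LP) : ‖(P.ω : ℂ)‖ = 1 := by
  unfold LP.ω
  rw [(hO.1 _).1, Complex.norm_exp_ofReal_mul_I]

theorem al_conj (P : LP) (n j : ℕ) (φ : ℕ → ℂ) (z : ℂ) (hz : ‖z‖ = 1) :
    Al P n j (fun i => (starRingEnd ℂ) (φ i)) z = (starRingEnd ℂ) (Al P n j φ z⁻¹) := by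
  unfold Al
  rw [map_sum]
  refine sum_congr rfl fun i _ => ?_
  split_ifs
  · rw [map_mul, map_mul, Complex.conj_ofReal, map_zpow₀, map_inv₀, ← Complex.inv_eq_conj hz,
      inv_inv]
  · simp

theorem al_one (hO : OmStmt) (P : LP) (n j : ℕ) (hj : j < n) :
    1 ≤ ‖Al P n j (fun _ => 1) 1‖ := by
  have e : Al P n j (fun _ => 1) 1 = ((∑ i ∈ range (2 * P.G + 1),
      if P.G ≤ j + i ∧ j + 1 + i ≤ n + P.G then P.Wr ((i : ℤ) - P.G) else 0 : ℝ) : ℂ) := by
    unfold Al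
    push_cast
    refine sum_congr rfl fun i _ => ?_
    split_ifs <;> simp
  rw [e, Complex.norm_real, Real.norm_eq_abs]
  refine le_trans ?_ (le_abs_self _)
  have := single_le_sum (s := range (2 * P.G + 1)) (f := fun i : ℕ =>
    if P.G ≤ j + i ∧ j + 1 + i ≤ n + P.G then P.Wr ((i : ℤ) - P.G) else 0)
    (fun i _ => by
      split_ifs
      · exact (hO.2.1 P _).2.1
      · exact le_rfl) (a := P.G) (mem_range.2 (by omega))
  rw [if_pos ⟨by omega, by omega⟩, sub_self, (hO.2.1 P 0).2.2.2] at this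
  exact this

theorem slot_bd (hT : TensStmt) (a : FA) (ha : Bd a) (κ : ℕ) (w : List Bool) (hw : w ≠ []) :
    ‖((slotAut a κ).val w : ℂ)‖ ≤ 1 := by
  unfold slotAut
  split_ifs
  · exact ha w hw
  · rw [(hT.2.2.2.1 a w).1, coe_cj, Complex.norm_conj]; exact ha w hw
  · rw [(hT.2.2.2.1 a w).2]; simp

theorem slot_sv (hO : OmStmt) (hT : TensStmt) (P : LP) (j : ℕ) (x y : List Bool) (a : FA)
    (hl : x.length = y.length) (hj : j < x.length) (e : ℕ) (he : e % 3 = 2 → frq P.J e = 0) :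
    1 ≤ ‖(nrm P j y e : ℂ)‖ ∧
    Al P x.length j (fun i => ((slotAut a (e % 3)).val (x.take i) : ℂ)) ((P.ω : ℂ) ^ frq P.J e) =
      sv P.J (fun θ => Al P x.length j (fun i => (a.val (x.take i) : ℂ)) ((P.ω : ℂ) ^ θ) /
        2 ^ (P.E / 64)) e * (nrm P j y e : ℂ) := by
  have h2 : (1 : ℝ) ≤ ‖((2 ^ (P.E / 64) : GQ) : ℂ)‖ := by
    push_cast
    have : ((2 : GQ) : ℂ) = 2 := rfl
    rw [this, norm_pow, Complex.norm_ofNat]
    exact one_le_pow₀ (by norm_num)
  have h3 : ((2 ^ (P.E / 64) : GQ) : ℂ) = 2 ^ (P.E / 64) := by push_cast; rfl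
  have h4 : (2 : ℂ) ^ (P.E / 64) ≠ 0 := pow_ne_zero _ two_ne_zero
  obtain h | h | h : e % 3 = 0 ∨ e % 3 = 1 ∨ e % 3 = 2 := by omega
  · simp only [nrm, sv, slotAut, h, if_true, OfNat.zero_ne_ofNat, if_false]
    refine ⟨h2, ?_⟩
    rw [h3, div_mul_cancel₀ _ h4]
  · simp only [nrm, sv, slotAut, h, if_true, one_ne_zero, if_false, OfNat.one_ne_ofNat]
    refine ⟨h2, ?_⟩
    have hz : ‖(P.ω : ℂ) ^ frq P.J e‖ = 1 := by rw [norm_zpow, norm_om hO, one_zpow]
    simp only [(hT.2.2.2.1 a _).1, coe_cj]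
    rw [al_conj P _ _ _ _ hz, h3, map_div₀, map_pow, Complex.conj_ofNat, div_mul_cancel₀ _ h4,
      zpow_neg]
  · simp only [nrm, sv, slotAut, h, if_true, OfNat.ofNat_ne_zero, if_false, OfNat.ofNat_ne_one,
      one_mul, he h, coe_alG hO, (hT.2.2.2.1 a _).2, zpow_zero, hl]
    refine ⟨?_, trivial⟩
    have := al_one hO P y.length j (hl ▸ hj)
    exact this

theorem sum_child (hC : ChildValStmt) (hO : OmStmt) (P : LP) (hmc : 1 ≤ P.mc) (ℓ h j : ℕ) (a : FA)
    (e : Fin 4 → ℕ) (x : List Bool) :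
    ∑ t ∈ range (8 * P.M + 1), (P.Hn t : ℂ) * ∑ u ∈ range (x.length - j),
      ((child P ℓ h a (e 0) (e 1) (e 2) (e 3) t).val (x.take (j + 1 + u)) : ℂ) *
        (target P (e 0) (e 1) (e 2) (e 3) t : ℂ) ^ u =
    SumV P x.length j (fun b i => ((slotAut a (e b % 3)).val (x.take i) : ℂ))
      (fun b => (P.ω : ℂ) ^ frq P.J (e b)) := by
  simp only [mul_sum]
  rw [sum_comm]
  unfold SumV
  refine sum_congr rfl fun u hu => ?_
  have hu' := mem_range.1 hu
  have hlen : (x.take (j + 1 + u)).length = j + 1 + u := by rw [List.length_take]; omega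
  have key := congrArg (fun z : GQ => (z : ℂ)) ((hC P ℓ h a e (x.take (j + 1 + u)) hmc).2 u)
  rw [hlen] at key
  push_cast at key
  simp only [← mul_assoc]
  refine key.trans (sum_congr rfl fun g _ => prod_congr rfl fun b _ => ?_)
  rw [(hO.2.1 P _).1, coe_zpow, ← zpow_mul, mul_neg, List.take_take, min_eq_left (by omega)]

end Ptab

open Ptab in
theorem ptab_proof (hC : ChildValStmt) (hM : CmpStmt) (hS : SumStmt) (hO : OmStmt) (hX : ChiStmt)
    (hT : TensStmt) : PtabStmt := by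
  intro P ℓ h j x y a tab hP hl hj hy ha hG α e0 e1 e2 e3 hL
  have hmc := (hX.2 P hP).1
  obtain ⟨⟨l0, l1, l2, l3⟩, -, z0, z1, z2, z3⟩ := id hL
  set e : Fin 4 → ℕ := ![e0, e1, e2, e3] with he
  have hx := sum_child hC hO P hmc ℓ h j a e x
  have hy' := sum_child hC hO P hmc ℓ h j a e y
  rw [← hl] at hy'
  have hcmp := hM P x.length j (fun b i => ((slotAut a (e b % 3)).val (x.take i) : ℂ))
    (fun b i => ((slotAut a (e b % 3)).val (y.take i) : ℂ)) (fun b => (P.ω : ℂ) ^ frq P.J (e b))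
    hP hj (fun b => by rw [norm_zpow, norm_om hO, one_zpow])
    (fun b i hi => slot_bd hT a ha _ _ (by rw [← List.length_pos_iff, List.length_take]; omega))
    (fun b i hi => slot_bd hT a ha _ _ (by rw [← List.length_pos_iff, List.length_take]; omega))
    (fun b i hi => by
      have : x.take i = y.take i := by
        have := congrArg (List.take i) hy
        rw [List.take_take, List.take_take, min_eq_left hi] at this
        exact this.symm
      simp only [this])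
  have hsum := hS P (fun t =>
    ‖((tab.getD (t + (8 * P.M + 1) * code4 (nQ P.J) e0 e1 e2 e3) 0 : GQ) : ℂ) -
        DD (child P ℓ h a e0 e1 e2 e3 t) x y j (target P e0 e1 e2 e3 t)‖) hP (fun t ht =>
    hG e0 e1 e2 e3 t hL ht _ (by positivity) (hO.2.2.2 P hP e0 e1 e2 e3 t hL ht).1)
  have hD : ∑ t ∈ range (8 * P.M + 1), (P.Hn t : ℂ) *
      DD (child P ℓ h a e0 e1 e2 e3 t) x y j (target P e0 e1 e2 e3 t) =
      SumV P x.length j (fun b i => ((slotAut a (e b % 3)).val (x.take i) : ℂ))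
        (fun b => (P.ω : ℂ) ^ frq P.J (e b)) -
      SumV P x.length j (fun b i => ((slotAut a (e b % 3)).val (y.take i) : ℂ))
        (fun b => (P.ω : ℂ) ^ frq P.J (e b)) := by
    rw [← hx, ← hy', ← sum_sub_distrib]
    refine sum_congr rfl fun t _ => ?_
    rw [← mul_sub, ← sum_sub_distrib]
    unfold DD
    simp only [sub_mul]
    rfl
  have hE : ‖∑ t ∈ range (8 * P.M + 1), (P.Hn t : ℂ) *
      ((tab.getD (t + (8 * P.M + 1) * code4 (nQ P.J) e0 e1 e2 e3) 0 : GQ) : ℂ) -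
      ∑ t ∈ range (8 * P.M + 1), (P.Hn t : ℂ) *
      DD (child P ℓ h a e0 e1 e2 e3 t) x y j (target P e0 e1 e2 e3 t)‖ ≤ 1 / 2 ^ (P.E + 1) := by
    rw [← sum_sub_distrib]
    refine (norm_sum_le _ _).trans (le_trans (sum_le_sum fun t _ => ?_) hsum)
    rw [← mul_sub, norm_mul, Complex.norm_ratCast, abs_of_nonneg]
    have : 0 ≤ P.Hn t := by unfold LP.Hn; positivity
    exact_mod_cast this
  obtain ⟨n0, s0⟩ := slot_sv hO hT P j x y a hl hj e0 z0
  obtain ⟨n1, s1⟩ := slot_sv hO hT P j x y a hl hj e1 z1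
  obtain ⟨n2, s2⟩ := slot_sv hO hT P j x y a hl hj e2 z2
  obtain ⟨n3, s3⟩ := slot_sv hO hT P j x y a hl hj e3 z3
  rw [ptab_code P j y a tab l0 l1 l2 l3, prodE]
  push_cast
  simp only [coe_alG hO, ← hl]
  rw [← hD, Fin.prod_univ_four, Fin.prod_univ_four] at hcmp
  simp only [he, Matrix.cons_val_zero, Matrix.cons_val_one, Matrix.cons_val] at hcmp
  rw [s0, s1, s2, s3] at hcmp
  set N : ℂ := (nrm P j y e0 : ℂ) * (nrm P j y e1 : ℂ) * (nrm P j y e2 : ℂ) * (nrm P j y e3 : ℂ)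
    with hN
  have hN1 : 1 ≤ ‖N‖ := by
    rw [hN, norm_mul, norm_mul, norm_mul]
    exact one_le_mul_of_one_le_of_one_le (one_le_mul_of_one_le_of_one_le
      (one_le_mul_of_one_le_of_one_le n0 n1) n2) n3
  have hN0 : N ≠ 0 := by rw [← norm_pos_iff]; linarith
  have hfin : ∀ A D B S : ℂ, ‖A - D‖ ≤ 1 / 2 ^ (P.E + 1) → ‖D - (S * N - B)‖ ≤ 1 / 2 ^ (P.E + 1) →
      ‖(A + B) / N - S‖ ≤ 1 / 2 ^ P.E := by
    intro A D B S h1 h2
    have e1 : (A + B) / N - S = ((A - D) + (D - (S * N - B))) / N := by field_simp; ring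
    rw [e1, norm_div]
    have h3 := norm_add_le (A - D) (D - (S * N - B))
    have h4 : (1 : ℝ) / 2 ^ P.E = 1 / 2 ^ (P.E + 1) + 1 / 2 ^ (P.E + 1) := by
      rw [pow_succ]; field_simp; ring
    refine (div_le_self (norm_nonneg _) hN1).trans ?_
    linarith
  refine hfin _ _ _ _ hE (le_of_eq_of_le ?_ hcmp)
  congr 2
  rw [hN]
  simp only [α]
  ring

end Crest.Agent.R300U
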