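import Crest.Agent.R300U.DefsC

/-!
Row 300, upper bound, task RC.
-/

set_option autoImplicit false

namespace Crest.Agent.R300U

open Finset

namespace Rc

theorem norm_le_of_abs {w w' : ℂ} (h1 : |w.re| ≤ |w'.re|) (h2 : |w.im| ≤ |w'.im|) :
    ‖w‖ ≤ ‖w'‖ := by
  rw [← sq_le_sq₀ (norm_nonneg _) (norm_nonneg _), Complex.sq_norm, Complex.sq_norm,
    Complex.normSq_apply, Complex.normSq_apply]
  have a := sq_le_sq.2 h1
  have b := sq_le_sq.2 h2
  nlinarith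

theorem clamp_abs (R f d : ℝ) (hd : |d| ≤ R) : |max (-R) (min R f) - d| ≤ |f - d| := by
  have h := abs_le.1 hd
  rcases le_total R f with h1 | h1
  · rw [min_eq_left h1, max_eq_right (by linarith), abs_of_nonneg (by linarith),
      abs_of_nonneg (by linarith)]
    linarith
  · rw [min_eq_right h1]
    rcases le_total (-R) f with h2 | h2
    · rw [max_eq_right h2]
    · rw [max_eq_left h2, abs_of_nonpos (by linarith), abs_of_nonpos (by linarith)]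
      linarith

theorem clamp_le (R f : ℝ) (hR : 0 ≤ R) : |max (-R) (min R f)| ≤ R := by
  rw [abs_le]
  exact ⟨le_max_left _ _, max_le (by linarith) (min_le_left _ _)⟩

theorem cast_rcq (E r : ℕ) (x : ℚ) : ((rcq E r x : ℚ) : ℝ) =
    max (-2 ^ (r + 2)) (min (2 ^ (r + 2)) ((⌊x * 2 ^ E⌋ : ℝ) / 2 ^ E)) := by
  simp [rcq]

theorem fl_abs (E : ℕ) (x : ℚ) : |(⌊x * 2 ^ E⌋ : ℝ) / 2 ^ E - x| ≤ 1 / 2 ^ E := by
  have h1 : ((⌊x * 2 ^ E⌋ : ℚ) : ℝ) ≤ ((x * 2 ^ E : ℚ) : ℝ) := by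
    exact_mod_cast Int.floor_le (x * 2 ^ E)
  have h2 : ((x * 2 ^ E : ℚ) : ℝ) < ((⌊x * 2 ^ E⌋ + 1 : ℚ) : ℝ) := by
    exact_mod_cast Int.lt_floor_add_one (x * 2 ^ E)
  push_cast at h1 h2
  have hp : (0 : ℝ) < 2 ^ E := by positivity
  have e : (⌊x * 2 ^ E⌋ : ℝ) / 2 ^ E - x = ((⌊x * 2 ^ E⌋ : ℝ) - x * 2 ^ E) / 2 ^ E := by
    field_simp
  rw [e, abs_div, abs_of_pos hp]
  refine div_le_div_of_nonneg_right ?_ hp.le
  rw [abs_le]; constructor <;> linarith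

theorem coe_rc (E r : ℕ) (z : GQ) : (rc E r z : ℂ) =
    ((rcq E r (reQ z) : ℝ) : ℂ) + Complex.I * ((rcq E r (imQ z) : ℝ) : ℂ) := by
  simp [rc]

theorem rc_re (E r : ℕ) (z : GQ) : (rc E r z : ℂ).re = rcq E r (reQ z) := by
  rw [coe_rc]; simp

theorem rc_im (E r : ℕ) (z : GQ) : (rc E r z : ℂ).im = rcq E r (imQ z) := by
  rw [coe_rc]; simp

theorem part1 (E r : ℕ) (z : GQ) (D : ℂ) (hD : ‖D‖ ≤ 2 ^ (r + 2)) :
    ‖(rc E r z : ℂ) - D‖ ≤ ‖(z : ℂ) - D‖ + 2 / 2 ^ E ∧ ‖(rc E r z : ℂ) - D‖ ≤ 2 ^ (r + 4) := by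
  have d1 : |D.re| ≤ 2 ^ (r + 2) := (Complex.abs_re_le_norm D).trans hD
  have d2 : |D.im| ≤ 2 ^ (r + 2) := (Complex.abs_im_le_norm D).trans hD
  constructor
  · set f : ℂ := ⟨(⌊reQ z * 2 ^ E⌋ : ℝ) / 2 ^ E, (⌊imQ z * 2 ^ E⌋ : ℝ) / 2 ^ E⟩ with hf
    have h1 : ‖(rc E r z : ℂ) - D‖ ≤ ‖f - D‖ := by
      refine norm_le_of_abs ?_ ?_
      · rw [Complex.sub_re, Complex.sub_re, rc_re, cast_rcq]; exact clamp_abs _ _ _ d1
      · rw [Complex.sub_im, Complex.sub_im, rc_im, cast_rcq]; exact clamp_abs _ _ _ d2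
    have h2 : ‖f - z‖ ≤ 2 / 2 ^ E := by
      refine (Complex.norm_le_abs_re_add_abs_im _).trans ?_
      have a := fl_abs E (reQ z)
      have b := fl_abs E (imQ z)
      rw [cast_reQ] at a
      rw [cast_imQ] at b
      rw [Complex.sub_re, Complex.sub_im]
      have : (2 : ℝ) / 2 ^ E = 1 / 2 ^ E + 1 / 2 ^ E := by ring
      rw [this]
      exact add_le_add a b
    have h3 : ‖f - D‖ ≤ ‖f - z‖ + ‖(z : ℂ) - D‖ := norm_sub_le_norm_sub_add_norm_sub _ _ _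
    linarith
  · have h1 : ‖(rc E r z : ℂ)‖ ≤ 2 ^ (r + 2) + 2 ^ (r + 2) := by
      refine (Complex.norm_le_abs_re_add_abs_im _).trans ?_
      rw [rc_re, rc_im, cast_rcq, cast_rcq]
      exact add_le_add (clamp_le _ _ (by positivity)) (clamp_le _ _ (by positivity))
    have h2 := norm_sub_le (rc E r z : ℂ) D
    have h3 : (2 : ℝ) ^ (r + 4) = 4 * 2 ^ (r + 2) := by ring
    have h4 : (0 : ℝ) < 2 ^ (r + 2) := by positivity
    linarith

theorem rcq_eq (E r : ℕ) (x : ℚ) :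
    ∃ m : ℤ, ((rcq E r x : ℚ) : ℝ) = m / 2 ^ E ∧ |(m : ℝ)| ≤ 2 ^ (E + r + 2) := by
  have hp : (0 : ℝ) < 2 ^ E := by positivity
  have e : ((rcq E r x : ℚ) : ℝ) =
      ((max (-2 ^ (E + r + 2)) (min (2 ^ (E + r + 2)) ⌊x * 2 ^ E⌋) : ℤ) : ℝ) / 2 ^ E := by
    rw [cast_rcq]
    push_cast
    rw [← max_div_div_right hp.le, ← min_div_div_right hp.le]
    congr 1
    · field_simp; ring
    · congr 1; field_simp; ring
  refine ⟨_, e, ?_⟩
  push_cast
  exact clamp_le _ _ (by positivity)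

theorem part2 (E r : ℕ) (z : GQ) : Ht (E + r + 3) (rc E r z) := by
  obtain ⟨m1, e1, h1⟩ := rcq_eq E r (reQ z)
  obtain ⟨m2, e2, h2⟩ := rcq_eq E r (imQ z)
  refine ⟨⟨m1, m2⟩, 2 ^ E, pow_ne_zero _ (by decide), ?_, ?_, ?_⟩
  · rw [coe_rc, e1, e2, GaussianInt.toComplex_def']
    simp only [map_pow, map_ofNat]
    push_cast
    ring
  · refine (Complex.norm_le_abs_re_add_abs_im _).trans ?_
    rw [GaussianInt.toComplex_def']
    simp only [Complex.add_re, Complex.intCast_re, Complex.mul_re, Complex.I_re, mul_zero,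
      Complex.intCast_im, Complex.I_im, sub_self, add_zero, Complex.add_im,
      Complex.mul_im, mul_one, zero_add]
    have : (2 : ℝ) ^ (E + r + 3) = 2 ^ (E + r + 2) + 2 ^ (E + r + 2) := by ring
    rw [this]
    exact add_le_add h1 h2
  · simp only [map_pow, map_ofNat, norm_pow, Complex.norm_ofNat]
    exact pow_le_pow_right₀ (by norm_num) (by omega)

theorem part3 (r : ℕ) (X : ℝ) (ζ : ℂ) (h : Tgt r X ζ) :
    ‖ζ‖ ≤ 1 - 1 / 2 ^ (r + 1) ∧ 1 - 1 / 2 ^ r ≤ ‖ζ‖ := by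
  obtain ⟨φ, rfl, -⟩ := h
  set t : ℝ := 1 / 2 ^ (r + 2) with ht
  have t0 : 0 < t := by positivity
  have t1 : t ≤ 1 / 4 := by
    rw [ht]
    refine one_div_le_one_div_of_le (by norm_num) ?_
    have : (1 : ℝ) ≤ 2 ^ r := one_le_pow₀ (by norm_num)
    rw [pow_add]; linarith
  have e : (1 - 1 / 2 ^ (r + 2) : ℂ) = ((1 - t : ℝ) : ℂ) := by rw [ht]; push_cast; rfl
  have e1 : (1 : ℝ) / 2 ^ (r + 1) = 2 * t := by rw [ht]; field_simp; ring
  have e2 : (1 : ℝ) / 2 ^ r = 4 * t := by rw [ht]; field_simp; ring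
  rw [norm_mul, Complex.norm_exp_ofReal_mul_I, mul_one, e, norm_pow, Complex.norm_real,
    Real.norm_eq_abs, abs_of_nonneg (by linarith), e1, e2]
  constructor
  · nlinarith [mul_pos t0 t0, mul_pos (mul_pos t0 t0) t0, mul_pos (mul_pos t0 t0) (mul_pos t0 t0)]
  · have := one_add_mul_le_pow (a := -t) (by linarith) 4
    push_cast at this
    rw [sub_eq_add_neg 1 t]
    linarith

theorem part4 (a : FA) (x y : List Bool) (j r : ℕ) (X : ℝ) (ζ : ℂ) (ha : Bd a)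
    (hl : x.length = y.length) (h : Tgt r X ζ) : ‖DD a x y j ζ‖ ≤ 2 ^ (r + 2) := by
  have h1 := (part3 r X ζ h).1
  have hp : (0 : ℝ) < 1 / 2 ^ (r + 1) := by positivity
  have h2 : ‖DD a x y j ζ‖ ≤ ∑ u ∈ range (x.length - j), 2 * ‖ζ‖ ^ u := by
    refine (norm_sum_le _ _).trans (sum_le_sum fun u hu => ?_)
    have hu' := mem_range.1 hu
    rw [norm_mul, norm_pow]
    refine mul_le_mul_of_nonneg_right ?_ (by positivity)
    have a1 := ha (x.take (j + 1 + u)) (by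
      rw [← List.length_pos_iff, List.length_take]; omega)
    have a2 := ha (y.take (j + 1 + u)) (by
      rw [← List.length_pos_iff, List.length_take]; omega)
    rw [← norm_coe] at a1 a2
    have := norm_sub_le (a.val (x.take (j + 1 + u)) : ℂ) (a.val (y.take (j + 1 + u)) : ℂ)
    linarith
  refine h2.trans ?_
  rw [← mul_sum]
  have h3 : ∑ u ∈ range (x.length - j), ‖ζ‖ ^ u ≤ (1 - ‖ζ‖)⁻¹ :=
    (summable_geometric_of_lt_one (norm_nonneg _) (by linarith)).sum_le_tsum _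
      (fun _ _ => by positivity) |>.trans_eq
      (tsum_geometric_of_lt_one (norm_nonneg _) (by linarith))
  have h4 : (1 - ‖ζ‖)⁻¹ ≤ 2 ^ (r + 1) := by
    rw [inv_le_comm₀ (by linarith) (by positivity), ← one_div]
    linarith
  rw [pow_succ]
  linarith

end Rc

theorem rc_proof : RcStmt := ⟨Rc.part1, Rc.part2, Rc.part3, Rc.part4⟩

end Crest.Agent.R300U
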