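import Crest.Agent.R300U.SLOTV

/-!
Row 300, upper bound, task SLOTC: the class and the norms of the slot automaton.
-/

set_option autoImplicit false

namespace Crest.Agent.R300U

open Finset

theorem slotc_norm (q : ℚ) : ‖(q : GQ)‖ = |(q : ℝ)| := by
  rw [← norm_coe, coe_ratCast, Complex.norm_ratCast]

theorem cT_nonneg {β ν : ℚ} (h0 : 0 ≤ β) (h1 : β ≤ 1) (hν : 0 < ν) (s s' : ℕ) :
    0 ≤ cT β ν s s' := by
  have : 0 ≤ 1 - β := by linarith
  unfold cT
  split_ifs <;> positivity

theorem slotc_ite_le (m j : ℕ) {c : ℚ} (hc : 0 ≤ c) :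
    ∑ s ∈ range m, (if s = j then c else 0) ≤ c := by
  rw [Finset.sum_ite_eq']
  split_ifs
  · exact le_rfl
  · exact hc

theorem cT_row_le {β ν : ℚ} (h0 : 0 ≤ β) (h1 : β ≤ 1) (hν : 0 < ν) (m s : ℕ) :
    ∑ s' ∈ range m, cT β ν s s' ≤ cT β ν s s + (β / 32 + ν) := by
  have hc := cT_nonneg h0 h1 hν s s
  have k1 : (1 - β) * ν ≤ ν := by nlinarith
  have k2 : β * ν / 32 ≤ ν := by nlinarith
  calc ∑ s' ∈ range m, cT β ν s s'
      ≤ ∑ s' ∈ range m, ((if s' = s then cT β ν s s else 0) +
          ((if s' = s - 1 then β / 32 else 0) + if s' = 0 then ν else 0)) := by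
        refine Finset.sum_le_sum fun s' _ => ?_
        by_cases h : s' = s
        · subst h
          rw [if_pos rfl]
          exact le_add_of_nonneg_right (by split_ifs <;> positivity)
        · rw [if_neg h, zero_add]
          unfold cT
          split_ifs <;> first | omega | linarith
    _ ≤ _ := by
        rw [Finset.sum_add_distrib, Finset.sum_add_distrib]
        exact add_le_add (slotc_ite_le _ _ hc)
          (add_le_add (slotc_ite_le _ _ (by positivity)) (slotc_ite_le _ _ hν.le))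

theorem cT_col_le {β ν : ℚ} (h0 : 0 ≤ β) (h1 : β ≤ 1) (hν : 0 < ν) (m s : ℕ) :
    ∑ s' ∈ range m, cT β ν s' s ≤ cT β ν s s + (β / 32 + ν) := by
  have hc := cT_nonneg h0 h1 hν s s
  have k0 : 0 ≤ β * ν := by positivity
  have k1 : 0 ≤ (1 - β) * ν := by nlinarith
  by_cases hs : s = 0
  · subst hs
    calc ∑ s' ∈ range m, cT β ν s' 0
        ≤ ∑ s' ∈ range m, ((if s' = 1 then (1 - β) * ν else 0) +
            if s' = 2 then β * ν / 32 else 0) := by
          refine Finset.sum_le_sum fun s' _ => ?_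
          unfold cT
          split_ifs <;> first | omega | linarith
      _ ≤ _ := by
          rw [Finset.sum_add_distrib]
          refine (add_le_add (slotc_ite_le _ _ k1) (slotc_ite_le _ _ (by positivity))).trans ?_
          linarith
  · calc ∑ s' ∈ range m, cT β ν s' s
        ≤ ∑ s' ∈ range m, ((if s' = s then cT β ν s s else 0) +
            if s' = s + 1 then β / 32 else 0) := by
          refine Finset.sum_le_sum fun s' _ => ?_
          by_cases h : s' = s
          · subst h
            rw [if_pos rfl]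
            exact le_add_of_nonneg_right (by split_ifs <;> positivity)
          · rw [if_neg h, zero_add]
            unfold cT
            split_ifs <;> first | omega | linarith
      _ ≤ _ := by
          rw [Finset.sum_add_distrib]
          refine (add_le_add (slotc_ite_le _ _ hc) (slotc_ite_le _ _ (by positivity))).trans ?_
          linarith

theorem diagOK_scale {τ s : ℝ} {z : ℂ} (hτ : 0 ≤ τ) (hs : 0 < s) (hs1 : s ≤ 1) (h : DiagOK τ z) :
    DiagOK τ (s * z) := by
  rcases h with rfl | ⟨y, θ, hy, rfl, hθ⟩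
  · exact Or.inl (mul_zero _)
  have hl : Real.log s ≤ 0 := Real.log_nonpos hs.le hs1
  refine Or.inr ⟨y - Real.log s, θ, by linarith, ?_, by nlinarith⟩
  rw [show (s : ℂ) = Complex.exp (Real.log s) by rw [← Complex.ofReal_exp, Real.exp_log hs],
    ← Complex.exp_add]
  congr 1
  push_cast
  ring

theorem diagOK_polar {τ δ ρ θ : ℝ} (hτ : 0 ≤ τ) (hδ : 0 < δ) (h0 : 0 ≤ ρ) (h1 : ρ ≤ 1 - δ)
    (hθ : θ ^ 2 ≤ τ * δ) : DiagOK τ (ρ * Complex.exp (θ * Complex.I)) := by
  rcases h0.eq_or_lt with rfl | h0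
  · exact Or.inl (by simp)
  have hl := Real.log_le_sub_one_of_pos h0
  refine Or.inr ⟨-Real.log ρ, θ, by linarith, ?_, by nlinarith⟩
  rw [Complex.exp_add]
  congr 1
  push_cast
  rw [neg_neg, ← Complex.ofReal_exp, Real.exp_log h0]

theorem cf_sum (M : ℕ) : ∑ k ∈ range (2 * M + 1), cf M k = 1 := by
  unfold cf
  rw [← Finset.sum_div, ← Nat.cast_sum, Nat.sum_range_choose, pow_mul]
  norm_num

theorem cR_sum {ν : ℚ} (hν : 0 < ν) (mc : ℕ) :
    ∑ s ∈ range (mc + 1), cR ν s ≤ 1 + 32 ^ mc / ν := by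
  rw [Finset.sum_range_succ', add_comm]
  simp only [cR, if_pos, if_neg (Nat.succ_ne_zero _), Nat.add_sub_cancel]
  rw [← Finset.sum_div]
  have : ∑ r ∈ range mc, (32 : ℚ) ^ r ≤ 32 ^ mc := by
    induction mc with
    | zero => simp
    | succ n ih =>
      rw [Finset.sum_range_succ, pow_succ]
      have : (0 : ℚ) < 32 ^ n := by positivity
      linarith
  gcongr

theorem slotc_proof : SlotClsStmt := by
  intro a M mc β ν w z₀ zs S s τ δ hS hS1 hs hs1 hτ hδ hδ1 hβ hβ1 hν hw hlink hk hC
  have hw' : (0 : ℝ) < w := by exact_mod_cast hw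
  have hn0 : 0 ≤ n1c a := Finset.sum_nonneg fun _ _ => norm_nonneg _
  -- row and column sums of the old automaton
  have hrow : ∀ σ, ∀ i < a.d, ∑ j ∈ range a.d, S * ‖a.A σ i j‖ ≤
      S * ‖a.A σ i i‖ + (1 - S * ‖a.A σ i i‖) / 4 := fun σ i hi => by
    have := (hC σ i hi).2.1
    rw [Finset.sum_erase_eq_sub (mem_range.2 hi)] at this
    linarith
  have hcol : ∀ σ, ∀ i < a.d, ∑ j ∈ range a.d, S * ‖a.A σ j i‖ ≤
      S * ‖a.A σ i i‖ + (1 - S * ‖a.A σ i i‖) / 4 := fun σ i hi => by
    have := (hC σ i hi).2.2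
    rw [Finset.sum_erase_eq_sub (mem_range.2 hi)] at this
    linarith
  have hρ : ∀ σ, ∀ i < a.d, S * ‖a.A σ i i‖ ≤ 1 := fun σ i hi => by
    have h1 := (hC σ i hi).2.1
    have h2 : 0 ≤ ∑ j ∈ (range a.d).erase i, S * ‖a.A σ i j‖ :=
      Finset.sum_nonneg fun _ _ => by positivity
    linarith
  have hrow1 : ∀ σ, ∀ i < a.d, ∑ j ∈ range a.d, S * ‖a.A σ i j‖ ≤ 1 := fun σ i hi => by
    have := hrow σ i hi
    have := hρ σ i hi
    linarith
  have hlk : ∀ σ j, S * ‖(w : GQ) * ∑ l ∈ range a.d, a.c l * a.A σ l j‖ ≤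
      w * ∑ l ∈ range a.d, ‖a.c l‖ * (S * ‖a.A σ l j‖) := fun σ j => by
    rw [norm_mul, slotc_norm, abs_of_pos hw', mul_left_comm]
    refine mul_le_mul_of_nonneg_left ?_ hw'.le
    refine (mul_le_mul_of_nonneg_left (norm_sum_le _ _) hS.le).trans (le_of_eq ?_)
    rw [Finset.mul_sum]
    exact Finset.sum_congr rfl fun l _ => by rw [norm_mul]; ring
  have hlk1 : ∀ σ, ∀ j < a.d, S * ‖(w : GQ) * ∑ l ∈ range a.d, a.c l * a.A σ l j‖ ≤
      w * n1c a := fun σ j hj => by
    refine (hlk σ j).trans (mul_le_mul_of_nonneg_left (Finset.sum_le_sum fun l hl => ?_) hw'.le)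
    refine mul_le_of_le_one_right (norm_nonneg _) (le_trans ?_ (hrow1 σ l (mem_range.1 hl)))
    exact Finset.single_le_sum (f := fun j => S * ‖a.A σ l j‖) (fun _ _ => by positivity)
      (mem_range.2 hj)
  have hlk2 : ∀ σ, ∑ j ∈ range a.d, S * ‖(w : GQ) * ∑ l ∈ range a.d, a.c l * a.A σ l j‖ ≤
      w * n1c a := fun σ => by
    refine (Finset.sum_le_sum fun j _ => hlk σ j).trans ?_
    rw [← Finset.mul_sum, Finset.sum_comm]
    refine mul_le_mul_of_nonneg_left (Finset.sum_le_sum fun l hl => ?_) hw'.le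
    rw [← Finset.mul_sum]
    exact mul_le_of_le_one_right (norm_nonneg _) (hrow1 σ l (mem_range.1 hl))
  have hwn : w * n1c a ≤ (1 - s) / 4 := by
    have : (0 : ℝ) ≤ 2 * M * (w * n1c a) := by positivity
    nlinarith
  refine ⟨fun σ i hi => ?_, ?_, ?_⟩
  · rw [Finset.sum_erase_eq_sub (mem_range.2 hi), Finset.sum_erase_eq_sub (mem_range.2 hi),
      slot_d, slot_sum, slot_sum]
    by_cases hi' : i < a.d
    · have h0 : 0 ≤ S * ‖a.A σ i i‖ := by positivity
      rw [slot_A11 a M mc β ν w z₀ zs σ hi' hi']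
      refine ⟨?_, ?_, ?_⟩
      · have := diagOK_scale hτ hs hs1.le (hC σ i hi').1
        convert this using 1
        push_cast
        ring
      · simp only [slot_A12 a M mc β ν w z₀ zs σ hi', norm_zero, mul_zero, Finset.sum_const_zero,
          add_zero]
        rw [show ∑ j ∈ range a.d, S * s * ‖(slot a M mc β ν w z₀ zs).A σ i j‖ =
          s * ∑ j ∈ range a.d, S * ‖a.A σ i j‖ by
          rw [Finset.mul_sum]
          exact Finset.sum_congr rfl fun j hj => by
            rw [slot_A11 a M mc β ν w z₀ zs σ hi' (mem_range.1 hj)]; ring]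
        have := mul_le_mul_of_nonneg_left (hrow σ i hi') hs.le
        nlinarith
      · rw [show ∑ j ∈ range a.d, S * s * ‖(slot a M mc β ν w z₀ zs).A σ j i‖ =
          s * ∑ j ∈ range a.d, S * ‖a.A σ j i‖ by
          rw [Finset.mul_sum]
          exact Finset.sum_congr rfl fun j hj => by
            rw [slot_A11 a M mc β ν w z₀ zs σ (mem_range.1 hj) hi']; ring]
        have h1 := mul_le_mul_of_nonneg_left (hcol σ i hi') hs.le
        have h2 : ∑ k ∈ range (2 * M + 1), ∑ s' ∈ range (mc + 1),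
            S * s * ‖(slot a M mc β ν w z₀ zs).A σ (a.d + k * (mc + 1) + s') i‖ ≤
            (2 * M + 1) * w * n1c a := by
          refine le_trans (Finset.sum_le_sum (g := fun _ => w * n1c a) fun k _ => ?_)
            (by simp [mul_assoc])
          rw [Finset.sum_eq_single_of_mem 0 (mem_range.2 (by omega)),
            slot_A21 a M mc β ν w z₀ zs σ k (by omega) hi', if_pos rfl, mul_right_comm]
          · exact (mul_le_of_le_one_right (by positivity) hs1.le).trans (hlk1 σ i hi')
          · intro s' hs' h0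
            rw [slot_A21 a M mc β ν w z₀ zs σ k (mem_range.1 hs') hi', if_neg h0, norm_zero,
              mul_zero]
        nlinarith
    · obtain ⟨k, s₀, hkM, hs₀, rfl⟩ : ∃ k s₀, k < 2 * M + 1 ∧ s₀ < mc + 1 ∧
          i = a.d + k * (mc + 1) + s₀ := by
        rw [slot_d] at hi
        have h1 : i - a.d < (2 * M + 1) * (mc + 1) := by omega
        refine ⟨_, _, (tens_lt h1).1, (tens_lt h1).2, ?_⟩
        have := Nat.div_add_mod' (i - a.d) (mc + 1)
        omega
      obtain ⟨k1, k2, θ, k3, k4⟩ := hk k hkM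
      have hT : ∀ u u', (0 : ℝ) ≤ cT β ν u u' := fun u u' => by
        exact_mod_cast cT_nonneg hβ hβ1 hν u u'
      have hN : ∀ u u', ‖z₀ * zs ^ k * ((cT β ν u u' : ℚ) : GQ)‖ = ‖z₀ * zs ^ k‖ * cT β ν u u' :=
        fun u u' => by rw [norm_mul, slotc_norm, abs_of_nonneg (hT u u')]
      have hβ1' : (0 : ℝ) ≤ 1 - β := by
        have : (β : ℝ) ≤ 1 := by exact_mod_cast hβ1
        linarith
      have hd : (cT β ν s₀ s₀ : ℝ) = if s₀ = 0 then 0 else 1 - (β : ℝ) := by
        by_cases h0 : s₀ = 0 <;> simp [cT, h0]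
      set Z := ‖z₀ * zs ^ k‖ with hZ
      have hZ0 : 0 ≤ Z := norm_nonneg _
      have hρ1 : S * s * (Z * cT β ν s₀ s₀) ≤ 1 - δ := by
        rw [hd]
        split_ifs
        · simpa using hδ1
        · refine le_trans ?_ k1
          rw [mul_assoc S, ← mul_assoc s]
          exact mul_le_of_le_one_left (by positivity) hS1
      have hoff : S * s * (Z * (β / 32 + ν)) ≤ δ / 4 := by
        have : (0 : ℝ) ≤ β := by exact_mod_cast hβ
        have : (0 : ℝ) < ν := by exact_mod_cast hν
        refine le_trans ?_ k2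
        rw [mul_assoc S, ← mul_assoc s]
        exact mul_le_of_le_one_left (by positivity) hS1
      have hSZ : 0 ≤ S * s * Z := by positivity
      rw [slot_A22 a M mc β ν w z₀ zs σ k k hs₀ hs₀, if_pos rfl, hN]
      refine ⟨?_, ?_, ?_⟩
      · have := diagOK_polar hτ hδ (mul_nonneg (by positivity) (mul_nonneg hZ0 (hT s₀ s₀))) hρ1 k4
        convert this using 1
        rw [Subfield.coe_mul, k3]
        push_cast
        ring
      · rw [Finset.sum_eq_single_of_mem k (mem_range.2 hkM) fun k' _ hk' =>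
          Finset.sum_eq_zero fun s' hs' => by
            rw [slot_A22 a M mc β ν w z₀ zs σ k k' hs₀ (mem_range.1 hs'), if_neg (Ne.symm hk'),
              norm_zero, mul_zero]]
        have h1 : ∑ s' ∈ range (mc + 1), S * s * ‖(slot a M mc β ν w z₀ zs).A σ
            (a.d + k * (mc + 1) + s₀) (a.d + k * (mc + 1) + s')‖ =
            S * s * Z * ((∑ s' ∈ range (mc + 1), cT β ν s₀ s' : ℚ) : ℝ) := by
          push_cast
          rw [Finset.mul_sum]
          exact Finset.sum_congr rfl fun s' hs' => by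
            rw [slot_A22 a M mc β ν w z₀ zs σ k k hs₀ (mem_range.1 hs'), if_pos rfl, hN]; ring
        rw [h1]
        by_cases h0 : s₀ = 0
        · subst h0
          have h2 : ∑ j ∈ range a.d, S * s * ‖(slot a M mc β ν w z₀ zs).A σ
              (a.d + k * (mc + 1) + 0) j‖ ≤ w * n1c a := by
            refine le_trans (Finset.sum_le_sum fun j hj => ?_) (hlk2 σ)
            rw [slot_A21 a M mc β ν w z₀ zs σ k hs₀ (mem_range.1 hj), if_pos rfl, mul_right_comm]
            exact mul_le_of_le_one_right (by positivity) hs1.le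
          have h3 : ∀ s', cT β ν 0 s' = 0 := fun s' => if_pos rfl
          simp only [h3, Finset.sum_const_zero, Rat.cast_zero, mul_zero, sub_zero]
          linarith
        · rw [Finset.sum_eq_zero fun j hj => by
            rw [slot_A21 a M mc β ν w z₀ zs σ k hs₀ (mem_range.1 hj), if_neg h0, norm_zero,
              mul_zero]]
          have h2 : ((∑ s' ∈ range (mc + 1), cT β ν s₀ s' : ℚ) : ℝ) ≤
              cT β ν s₀ s₀ + (β / 32 + ν) := by exact_mod_cast cT_row_le hβ hβ1 hν _ _
          have h3 := mul_le_mul_of_nonneg_left h2 hSZ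
          nlinarith
      · rw [Finset.sum_eq_single_of_mem k (mem_range.2 hkM) fun k' _ hk' =>
          Finset.sum_eq_zero fun s' hs' => by
            rw [slot_A22 a M mc β ν w z₀ zs σ k' k (mem_range.1 hs') hs₀, if_neg hk',
              norm_zero, mul_zero],
          Finset.sum_eq_zero fun j hj => by
            rw [slot_A12 a M mc β ν w z₀ zs σ (mem_range.1 hj), norm_zero, mul_zero]]
        have h1 : ∑ s' ∈ range (mc + 1), S * s * ‖(slot a M mc β ν w z₀ zs).A σ
            (a.d + k * (mc + 1) + s') (a.d + k * (mc + 1) + s₀)‖ =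
            S * s * Z * ((∑ s' ∈ range (mc + 1), cT β ν s' s₀ : ℚ) : ℝ) := by
          push_cast
          rw [Finset.mul_sum]
          exact Finset.sum_congr rfl fun s' hs' => by
            rw [slot_A22 a M mc β ν w z₀ zs σ k k (mem_range.1 hs') hs₀, if_pos rfl, hN]; ring
        rw [h1]
        have h2 : ((∑ s' ∈ range (mc + 1), cT β ν s' s₀ : ℚ) : ℝ) ≤
            cT β ν s₀ s₀ + (β / 32 + ν) := by exact_mod_cast cT_col_le hβ hβ1 hν _ _
        have h3 := mul_le_mul_of_nonneg_left h2 hSZ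
        nlinarith
  · unfold n1h
    rw [slot_d, slot_sum]
    simp only [slot_h2, norm_zero, Finset.sum_const_zero, add_zero]
    exact Finset.sum_congr rfl fun i hi => by rw [slot_h1 a M mc β ν w z₀ zs (mem_range.1 hi)]
  · unfold n1c
    rw [slot_d, slot_sum, Finset.sum_eq_zero fun i hi => by
      rw [slot_c1 a M mc β ν w z₀ zs (mem_range.1 hi), norm_zero], zero_add]
    have h1 : ∑ k ∈ range (2 * M + 1), ∑ s ∈ range (mc + 1),
        ‖(slot a M mc β ν w z₀ zs).c (a.d + k * (mc + 1) + s)‖ =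
        (((∑ k ∈ range (2 * M + 1), cf M k) * (∑ s ∈ range (mc + 1), cR ν s) / w : ℚ) : ℝ) := by
      rw [Finset.sum_mul_sum, Finset.sum_div, Rat.cast_sum]
      refine Finset.sum_congr rfl fun k _ => ?_
      rw [Finset.sum_div, Rat.cast_sum]
      refine Finset.sum_congr rfl fun s hs => ?_
      rw [slot_c2 a M mc β ν w z₀ zs k (mem_range.1 hs), slotc_norm, abs_of_nonneg]
      have : 0 ≤ cf M k * cR ν s / w := by
        unfold cf cR
        split_ifs <;> positivity
      exact_mod_cast this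
    rw [h1, cf_sum, one_mul]
    have h2 : (∑ s ∈ range (mc + 1), cR ν s) / w ≤ (1 + 32 ^ mc / ν) / w :=
      div_le_div_of_nonneg_right (cR_sum hν mc) hw.le
    exact_mod_cast h2

end Crest.Agent.R300U
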