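import Crest.Agent.R300U.TENS

/-!
Row 300, upper bound, task SLOTV: the values of the slot automaton.
-/

set_option autoImplicit false

namespace Crest.Agent.R300U

open Finset

/-- Splitting a sum over the states of a slot automaton. -/
theorem slot_sum {R : Type} [AddCommMonoid R] (d K m : ℕ) (F : ℕ → R) :
    ∑ i ∈ range (d + K * m), F i =
      ∑ i ∈ range d, F i + ∑ k ∈ range K, ∑ s ∈ range m, F (d + k * m + s) := by
  rw [Finset.sum_range_add, ← sum_range_mul_divmod K m (fun k s => F (d + k * m + s))]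
  congr 1
  refine Finset.sum_congr rfl fun i _ => ?_
  rw [add_assoc, Nat.div_add_mod']

theorem slot_idx (d k : ℕ) {m s : ℕ} (hs : s < m) :
    ¬ d + k * m + s < d ∧ (d + k * m + s - d) / m = k ∧ (d + k * m + s - d) % m = s := by
  have e : d + k * m + s - d = m * k + s := by rw [mul_comm m k]; omega
  refine ⟨by omega, ?_, ?_⟩
  · rw [e, Nat.mul_add_div (by omega), Nat.div_eq_of_lt hs, add_zero]
  · rw [e, Nat.mul_add_mod, Nat.mod_eq_of_lt hs]

section entries

variable (a : FA) (M mc : ℕ) (β ν w : ℚ) (z₀ zs : GQ)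

theorem slot_d : (slot a M mc β ν w z₀ zs).d = a.d + (2 * M + 1) * (mc + 1) := rfl

theorem slot_A11 (σ : Bool) {i j : ℕ} (hi : i < a.d) (hj : j < a.d) :
    (slot a M mc β ν w z₀ zs).A σ i j = a.A σ i j := by
  simp only [slot, if_pos hi, FA.gA_lt _ _ hi hj]

theorem slot_A12 (σ : Bool) {i : ℕ} (hi : i < a.d) (n s : ℕ) :
    (slot a M mc β ν w z₀ zs).A σ i (a.d + n + s) = 0 := by
  simp only [slot, if_pos hi, FA.gA]
  rw [if_neg (by omega)]

theorem slot_A21 (σ : Bool) (k : ℕ) {s j : ℕ} (hs : s < mc + 1) (hj : j < a.d) :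
    (slot a M mc β ν w z₀ zs).A σ (a.d + k * (mc + 1) + s) j =
      if s = 0 then (w : GQ) * ∑ l ∈ range a.d, a.c l * a.A σ l j else 0 := by
  obtain ⟨h1, h2, h3⟩ := slot_idx a.d k hs
  simp only [slot, if_neg h1, if_pos hj, h3]
  congr 2
  exact Finset.sum_congr rfl fun l hl => by
    rw [FA.gc_lt _ (mem_range.1 hl), FA.gA_lt _ _ (mem_range.1 hl) hj]

theorem slot_A22 (σ : Bool) (k k' : ℕ) {s s' : ℕ} (hs : s < mc + 1) (hs' : s' < mc + 1) :
    (slot a M mc β ν w z₀ zs).A σ (a.d + k * (mc + 1) + s) (a.d + k' * (mc + 1) + s') =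
      if k = k' then z₀ * zs ^ k * ((cT β ν s s' : ℚ) : GQ) else 0 := by
  obtain ⟨h1, h2, h3⟩ := slot_idx a.d k hs
  obtain ⟨h4, h5, h6⟩ := slot_idx a.d k' hs'
  simp only [slot, if_neg h1, if_neg h4, h2, h3, h5, h6]

theorem slot_h1 {i : ℕ} (hi : i < a.d) : (slot a M mc β ν w z₀ zs).h i = a.h i := by
  simp only [slot, FA.gh_lt _ hi]

theorem slot_h2 (n s : ℕ) : (slot a M mc β ν w z₀ zs).h (a.d + n + s) = 0 := by
  simp only [slot, FA.gh]
  rw [if_neg (by omega)]

theorem slot_c1 {i : ℕ} (hi : i < a.d) : (slot a M mc β ν w z₀ zs).c i = 0 := by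
  simp only [slot, if_pos hi]

theorem slot_c2 (k : ℕ) {s : ℕ} (hs : s < mc + 1) :
    (slot a M mc β ν w z₀ zs).c (a.d + k * (mc + 1) + s) = ((cf M k * cR ν s / w : ℚ) : GQ) := by
  obtain ⟨h1, h2, h3⟩ := slot_idx a.d k hs
  simp only [slot, if_neg h1, h2, h3]

end entries

/-- Binomial weights. -/
def bw (β : ℚ) (g r : ℕ) : ℚ := (g.choose r : ℚ) * β ^ r * (1 - β) ^ (g - r)

theorem bw_succ (β : ℚ) (g r : ℕ) :
    bw β (g + 1) r = (1 - β) * bw β g r + if r = 0 then 0 else β * bw β g (r - 1) := by
  unfold bw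
  cases r with
  | zero => simp [pow_succ']
  | succ r =>
    rw [if_neg (by omega), Nat.choose_succ_succ', Nat.add_sub_cancel, Nat.add_sub_add_right]
    rcases lt_or_ge r g with h | h
    · obtain ⟨e, rfl⟩ := Nat.exists_eq_add_of_lt h
      rw [show r + e + 1 - r = e + 1 by omega, show r + e + 1 - (r + 1) = e by omega]
      push_cast
      ring
    · rw [Nat.choose_eq_zero_of_lt (show g < r + 1 by omega)]
      push_cast
      ring

theorem cT_zero (β ν : ℚ) (r : ℕ) : cT β ν (r + 1) 0 = ν * bw β 1 r / 32 ^ r := by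
  unfold cT bw
  rcases r with _ | _ | r
  · simp [mul_comm]
  · simp [mul_comm]
  · simp [Nat.choose_eq_zero_of_lt]

theorem cT_row (β ν : ℚ) {mc r : ℕ} (hr : r < mc) (y : ℕ → GQ) :
    ∑ s ∈ range (mc + 1), ((cT β ν (r + 1) s : ℚ) : GQ) * y s =
      ((ν * bw β 1 r / 32 ^ r : ℚ) : GQ) * y 0 + ((1 - β : ℚ) : GQ) * y (r + 1) +
        if r = 0 then 0 else ((β / 32 : ℚ) : GQ) * y r := by
  rw [Finset.sum_range_succ', cT_zero, add_comm, add_assoc]
  congr 1
  have : ∀ s, ((cT β ν (r + 1) (s + 1) : ℚ) : GQ) * y (s + 1) =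
      (if s = r then ((1 - β : ℚ) : GQ) * y (r + 1) else 0) +
        if s = r - 1 then (if r = 0 then 0 else ((β / 32 : ℚ) : GQ) * y r) else 0 := by
    intro s
    unfold cT
    rw [if_neg (by omega), if_neg (by omega)]
    by_cases h1 : s = r
    · subst h1
      by_cases h0 : s = 0
      · simp [h0]
      · rw [if_pos rfl, if_pos rfl, if_neg (by omega), add_zero]
    · rw [if_neg (by omega), if_neg h1, zero_add]
      by_cases h2 : r = s + 1
      · subst h2
        simp
      · rw [if_neg (by omega)]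
        split_ifs with h3 h4
        · simp
        · omega
        · simp
  simp only [this]
  rw [Finset.sum_add_distrib, Finset.sum_ite_eq', Finset.sum_ite_eq', if_pos (mem_range.2 hr),
    if_pos (mem_range.2 (by omega))]

theorem slot_st (a : FA) (M mc : ℕ) (β ν w : ℚ) (z₀ zs : GQ) (x : List Bool) :
    (∀ i < a.d, (slot a M mc β ν w z₀ zs).st x i = a.st x i) ∧
    (∀ k < 2 * M + 1, (slot a M mc β ν w z₀ zs).st x (a.d + k * (mc + 1) + 0) =
      if x = [] then 0 else (w : GQ) * a.val x) ∧
    ∀ k < 2 * M + 1, ∀ r < mc, (slot a M mc β ν w z₀ zs).st x (a.d + k * (mc + 1) + (r + 1)) =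
      ∑ g ∈ Ico 1 x.length, ((w * ν * bw β g r / 32 ^ r : ℚ) : GQ) * (z₀ * zs ^ k) ^ g *
        a.val (x.take (x.length - g)) := by
  induction x using List.reverseRecOn with
  | nil =>
    refine ⟨fun i hi => slot_h1 a M mc β ν w z₀ zs hi, fun k _ => slot_h2 a M mc β ν w z₀ zs _ _,
      fun k _ r _ => ?_⟩
    rw [FA.st_nil, slot_h2]
    simp
  | append_singleton x σ ih =>
    obtain ⟨ih1, ih2, ih3⟩ := ih
    have key : ∀ k < 2 * M + 1, ∀ s < mc + 1,
        (slot a M mc β ν w z₀ zs).st (x ++ [σ]) (a.d + k * (mc + 1) + s) =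
          (if s = 0 then (w : GQ) * a.val (x ++ [σ]) else 0) +
            z₀ * zs ^ k * ∑ s' ∈ range (mc + 1), ((cT β ν s s' : ℚ) : GQ) *
              (slot a M mc β ν w z₀ zs).st x (a.d + k * (mc + 1) + s') := by
      intro k hk s hs
      rw [FA.st_concat, slot_d, slot_sum]
      congr 1
      · rw [Finset.sum_congr rfl fun j hj => by
          rw [slot_A21 a M mc β ν w z₀ zs σ k hs (mem_range.1 hj), ih1 j (mem_range.1 hj)]]
        split_ifs
        · unfold FA.val
          simp only [FA.st_concat, Finset.mul_sum, Finset.sum_mul]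
          rw [Finset.sum_comm]
          exact Finset.sum_congr rfl fun l _ => Finset.sum_congr rfl fun j _ => by ring
        · simp
      · rw [Finset.sum_eq_single_of_mem k (mem_range.2 hk), Finset.mul_sum]
        · refine Finset.sum_congr rfl fun s' hs' => ?_
          rw [slot_A22 a M mc β ν w z₀ zs σ k k hs (mem_range.1 hs'), if_pos rfl]
          ring
        · intro k' _ hk'
          refine Finset.sum_eq_zero fun s' hs' => ?_
          rw [slot_A22 a M mc β ν w z₀ zs σ k k' hs (mem_range.1 hs'), if_neg (Ne.symm hk'),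
            zero_mul]
    refine ⟨fun i hi => ?_, fun k hk => ?_, fun k hk r hr => ?_⟩
    · rw [FA.st_concat, FA.st_concat, slot_d, slot_sum]
      simp only [slot_A12 a M mc β ν w z₀ zs σ hi, zero_mul, Finset.sum_const_zero, add_zero]
      exact Finset.sum_congr rfl fun j hj => by
        rw [slot_A11 a M mc β ν w z₀ zs σ hi (mem_range.1 hj), ih1 j (mem_range.1 hj)]
    · rw [key k hk 0 (by omega)]
      simp [cT]
    · rw [key k hk (r + 1) (by omega), if_neg (by omega), zero_add,
        cT_row β ν hr (fun s' => (slot a M mc β ν w z₀ zs).st x (a.d + k * (mc + 1) + s')),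
        ih2 k hk, ih3 k hk r hr]
      have h3 : (if r = 0 then 0 else ((β / 32 : ℚ) : GQ) *
          (slot a M mc β ν w z₀ zs).st x (a.d + k * (mc + 1) + r)) =
          ∑ g ∈ Ico 1 x.length, ((w * ν * (if r = 0 then 0 else β * bw β g (r - 1)) / 32 ^ r : ℚ) :
            GQ) * (z₀ * zs ^ k) ^ g * a.val (x.take (x.length - g)) := by
        cases r with
        | zero => simp
        | succ r =>
          rw [if_neg (by omega), ih3 k hk r (by omega), Finset.mul_sum]
          refine Finset.sum_congr rfl fun g _ => ?_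
          rw [if_neg (by omega), Nat.add_sub_cancel]
          push_cast
          ring
      rw [h3]
      by_cases hx : x = []
      · subst hx
        simp
      · have hl : 1 ≤ x.length := List.length_pos_iff.2 hx
        rw [if_neg hx, List.length_append, List.length_singleton,
          Finset.sum_eq_sum_Ico_succ_bot (show 1 < x.length + 1 by omega),
          ← Finset.sum_Ico_add' _ 1 x.length 1, Finset.mul_sum, add_assoc, ← Finset.sum_add_distrib,
          mul_add, Finset.mul_sum]
        congr 1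
        · rw [Nat.add_sub_cancel, List.take_left' rfl]
          push_cast
          ring
        · refine Finset.sum_congr rfl fun g hg => ?_
          rw [Nat.add_sub_add_right, List.take_append_of_le_length (by omega), bw_succ]
          push_cast
          ring

theorem slotv_proof : SlotValStmt := by
  intro a M mc β ν w z₀ zs x hν hw
  obtain ⟨h1, h2, h3⟩ := slot_st a M mc β ν w z₀ zs x
  have hw' : (w : GQ) ≠ 0 := by exact_mod_cast hw
  have hν' : (ν : GQ) ≠ 0 := by exact_mod_cast hν
  have key : ∀ k < 2 * M + 1,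
      (slot a M mc β ν w z₀ zs).c (a.d + k * (mc + 1)) *
          (slot a M mc β ν w z₀ zs).st x (a.d + k * (mc + 1)) =
        (if x = [] then 0 else (cf M k : GQ) * a.val x) ∧
      ∑ s ∈ Ico 1 (mc + 1), (slot a M mc β ν w z₀ zs).c (a.d + k * (mc + 1) + s) *
          (slot a M mc β ν w z₀ zs).st x (a.d + k * (mc + 1) + s) =
        (cf M k : GQ) * ∑ g ∈ Ico 1 x.length,
          (chi β mc g : GQ) * (z₀ * zs ^ k) ^ g * a.val (x.take (x.length - g)) := by
    intro k hk
    constructor
    · have e1 := slot_c2 a M mc β ν w z₀ zs k (s := 0) (by omega)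
      have e2 := h2 k hk
      rw [add_zero] at e1 e2
      rw [e1, e2]
      split_ifs
      · simp
      · simp only [cR, if_pos]
        push_cast
        field_simp
    · rw [Finset.sum_Ico_eq_sum_range, Nat.add_sub_cancel,
        Finset.sum_congr rfl fun r hr => by
          rw [add_comm 1 r, slot_c2 a M mc β ν w z₀ zs k (s := r + 1)
            (by have := mem_range.1 hr; omega), h3 k hk r (mem_range.1 hr), Finset.mul_sum],
        Finset.sum_comm, Finset.mul_sum]
      refine Finset.sum_congr rfl fun g _ => ?_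
      unfold chi
      push_cast
      simp only [Finset.sum_mul, Finset.mul_sum]
      refine Finset.sum_congr rfl fun r _ => ?_
      simp only [cR, bw, if_neg (Nat.succ_ne_zero r), Nat.add_sub_cancel]
      push_cast
      field_simp
  refine ⟨key, fun hmc => ?_⟩
  unfold FA.val
  rw [slot_d, slot_sum, Finset.sum_eq_zero fun i hi => by
    rw [slot_c1 a M mc β ν w z₀ zs (mem_range.1 hi), zero_mul], zero_add]
  refine Finset.sum_congr rfl fun k hk => ?_
  obtain ⟨k1, k2⟩ := key k (mem_range.1 hk)
  rw [Finset.range_eq_Ico, Finset.sum_eq_sum_Ico_succ_bot (by omega), zero_add, k2, add_zero, k1]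
  by_cases hx : x = []
  · subst hx
    simp
  · have hl : 0 < x.length := List.length_pos_iff.2 hx
    have hchi : chi β mc 0 = 1 := by
      unfold chi
      rw [Finset.sum_eq_single_of_mem 0 (mem_range.2 hmc)]
      · simp
      · intro s _ hs
        rw [Nat.choose_eq_zero_of_lt (Nat.pos_of_ne_zero hs)]
        simp
    rw [if_neg hx, Finset.range_eq_Ico, Finset.sum_eq_sum_Ico_succ_bot hl, hchi, mul_add]
    simp [FA.val]

end Crest.Agent.R300U
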