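import Crest.Agent.R300U.DefsC
import Crest.Agent.R300U.VAL

/-!
Row 300, upper bound, task SMALL: all nodes of the recursion tree are small.
-/

set_option autoImplicit false

namespace Crest.Agent.R300U

open Crest.Agent.PT Crest.Agent.QC Crest.Agent.R317 Finset

namespace Sml

theorem le_es (l : ℕ) : l ≤ es l := by
  induction l with
  | zero => simp
  | succ l ih => simp only [es]; omega

theorem sz_node {l eS h H W : ℕ} {a : FA} {ζ : GQ} (hl : l ≤ H) (he : eS ≤ H) (hh : h ≤ H)
    (hW : H + 30 ≤ W) (hd : a.d ≤ 2 ^ h) (hA : a.HtA (4 ^ h)) (hζ : Ht (4 ^ h) ζ) :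
    sz ((l, a, eS, h, ζ) : Node) ≤ 2 ^ (10 * W) := by
  have h1 := sz_fa_of_ht hd hA
  have h2 := hζ.sz_le
  have h3 : 2 ^ (4 * h + 12) ≤ 2 ^ (4 * H + 12) := Nat.pow_le_pow_right (by omega) (by omega)
  have h4 : 4 ^ h ≤ 2 ^ (4 * H + 12) := by
    rw [show (4 : ℕ) = 2 ^ 2 by norm_num, ← pow_mul]
    exact Nat.pow_le_pow_right (by omega) (by omega)
  have h5 : 4 * H + 12 < 2 ^ (4 * H + 12) := Nat.lt_two_pow_self
  have h6 : 2 ^ (4 * H + 12) * 2 ^ 7 ≤ 2 ^ (10 * W) := by
    rw [← pow_add]; exact Nat.pow_le_pow_right (by omega) (by omega)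
  simp only [sz_pair, sz_nat]
  omega

theorem sz_rc (hRc : RcStmt) {E r W : ℕ} (hr : r ≤ E) (hW : E + 30 ≤ W) (z : GQ) :
    sz (rc E r z) ≤ 2 ^ (10 * W) := by
  have h1 := (hRc.2.1 E r z).sz_le
  have h2 : W < 2 ^ W := Nat.lt_two_pow_self
  have h6 : 2 ^ W * 2 ^ 7 ≤ 2 ^ (10 * W) := by
    rw [← pow_add]; exact Nat.pow_le_pow_right (by omega) (by omega)
  omega

end Sml

open Sml in
theorem small_proof (hPar : ParStmt) (hCS : ChildSzStmt) (hBA : BaseAStmt) (hRc : RcStmt) :
    SmallStmt := by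
  intro pr perc C₁ chan u n p N T pre hu hC hReg hN
  obtain ⟨-, -, -, h4, -, h6⟩ := hPar u n p hu hReg
  obtain ⟨h7, -, -⟩ := h6 C₁ N hC hN
  set e := ee p with he
  set L := LL n p with hL
  set W := WW u n p with hW
  have hWe : W = hh u n p L + EE u e L L + n.size + 30 := rfl
  have hmono : Monotone (hh u n p) := monotone_nat_of_le_succ (fun l => (h4 l).2.2.2.2)
  have Emono : Monotone (EE u e L) :=
    monotone_nat_of_le_succ (fun l => by rw [(h4 l).2.2.1]; omega)
  have hcP : ∀ l ≤ L, cP u (ctx n p N T pre) l = par id u e L l := fun l hl => h7 l hl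
  have hrE : ∀ l, (par id u e L l).r ≤ (par id u e L l).E := fun l => by
    have := (h4 l).1.hr'
    have := (h4 l).1.hE
    omega
  have hEW : ∀ l ≤ L, (par id u e L l).E + 30 ≤ W := fun l hl => by
    have : EE u e L l ≤ EE u e L L := Emono hl
    show EE u e L l + 30 ≤ W
    omega
  have key : ∀ d l (a : FA) (ζ : GQ), l + d = L → a.d ≤ 2 ^ hh u n p l → a.HtA (4 ^ hh u n p l) →
      Ht (4 ^ hh u n p l) ζ →
      Small (nchF u) (chF u) (cmbF pr perc u) (lfF C₁ chan u) (ctx n p N T pre) (2 ^ (10 * W)) d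
        (l, a, es l, hh u n p l, ζ) := by
    intro d
    induction d with
    | zero =>
      intro l a ζ hl hd hA hζ
      have e1 : hh u n p l ≤ hh u n p L := hmono (by omega)
      have e2 := (h4 l).2.2.2.1
      have e3 := le_es l
      refine ⟨sz_node (H := hh u n p L) (by omega) (by omega) e1 (by omega) hd hA hζ, ?_⟩
      unfold lfF leaf
      simp only [hcP l (by omega)]
      exact sz_rc hRc (hrE l) (hEW l (by omega)) _
    | succ d ih =>
      intro l a ζ hl hd hA hζ
      have e1 : hh u n p l ≤ hh u n p L := hmono (by omega)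
      have e2 := (h4 l).2.2.2.1
      have e3 := le_es l
      have e4 : nchF u (ctx n p N T pre) (l, a, es l, hh u n p l, ζ) = (par id u e L l).nch := by
        unfold nchF; simp only [hcP l (by omega)]
      refine ⟨sz_node (H := hh u n p L) (by omega) (by omega) e1 (by omega) hd hA hζ, ?_, ?_,
        fun i hi => ?_⟩
      · rw [e4]
        refine (h4 l).2.1.trans (Nat.pow_le_pow_right (by omega) ?_)
        have : EE u e L l ≤ EE u e L L := Emono (by omega)
        omega
      · show sz (cmbF pr perc u _ _ _) ≤ _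
        unfold cmbF comb
        simp only [hcP l (by omega)]
        exact sz_rc hRc (hrE l) (hEW l (by omega)) _
      · rw [e4] at hi
        unfold chF
        simp only [hcP l (by omega)]
        set P := par id u e L l with hP
        have hQ : 0 < nQ P.J := by unfold nQ; omega
        have hcd : i / (8 * P.M + 1) / nQ P.J / nQ P.J / nQ P.J < nQ P.J := by
          refine Nat.div_lt_of_lt_mul (Nat.div_lt_of_lt_mul (Nat.div_lt_of_lt_mul
            (Nat.div_lt_of_lt_mul (hi.trans_le (le_of_eq ?_)))))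
          unfold LP.nch; ring
        obtain ⟨c1, c2, c3⟩ := hCS P n.size (hh u n p l) a _ _ _ _ _ (h4 l).1
          (Nat.mod_lt (i / (8 * P.M + 1)) hQ) (Nat.mod_lt (i / (8 * P.M + 1) / nQ P.J) hQ)
          (Nat.mod_lt (i / (8 * P.M + 1) / nQ P.J / nQ P.J) hQ) hcd
          (Nat.mod_lt i (show 0 < 8 * P.M + 1 by omega)) hd hA
        exact ih (l + 1) _ _ (by omega) c1 c2 c3
  refine ⟨2 ^ (10 * W), ?_, ?_⟩
  · set k := kk id u e L with hk
    set r := rr u e L 0 with hr
    have hkr : r + 3 ≤ k := Nat.le_mul_of_pos_left _ (by positivity)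
    have hlen : (kw k pre).length = k := by
      simp only [kw, kwb, List.length_append, List.length_drop, List.length_replicate,
        List.length_singleton]
      omega
    have hne : kw k pre ≠ [] := by
      intro h; rw [h] at hlen; simp at hlen; omega
    obtain ⟨-, -, -, -, b1, b2⟩ := hBA n _ hReg.1 hne
    rw [hlen] at b1 b2
    refine key L 0 _ _ (by omega) b1 b2 ?_
    have t1 : Ht (r + 2) ((1 / 2 ^ (r + 2) : ℚ) : GQ) :=
      ht_of_parts (x := 1) (d := 2 ^ (r + 2)) (by push_cast; rfl) Nat.one_le_two_pow le_rfl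
    have t2 := ((ht_one 0).sub t1).pow 4
    have t3 : (rho0 r : GQ) = (1 - ((1 / 2 ^ (r + 2) : ℚ) : GQ)) ^ 4 := by
      unfold rho0; push_cast; rfl
    rw [t3]
    refine t2.mono ?_
    have t4 : hh u n p 0 = n.size + 2 * k + 1 := rfl
    have t5 : 2 * hh u n p 0 < 4 ^ hh u n p 0 := by
      rw [show (4 : ℕ) = 2 ^ 2 by norm_num, ← pow_mul]; exact Nat.lt_two_pow_self
    omega
  · refine le_trans ?_ hN
    have e1 : L ≤ hh u n p L := (le_es L).trans (h4 L).2.2.2.1
    have e2 : 10 * W < 2 ^ (10 * W) := Nat.lt_two_pow_self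
    have e3 : 2 ^ (10 * W) + L + 2 ≤ 2 ^ (11 * W) := by
      have : 2 ^ (10 * W) * 2 ^ 1 ≤ 2 ^ (11 * W) := by
        rw [← pow_add]; exact Nat.pow_le_pow_right (by omega) (by omega)
      omega
    refine (Nat.pow_le_pow_left e3 _).trans ?_
    rw [← pow_mul]
    refine Nat.pow_le_pow_right (by omega) ?_
    have e4 : 1 ≤ ⌈1 / p⌉₊ := Nat.one_le_ceil_iff.2 (by have := hReg.2.1; positivity)
    calc 11 * W * (4 * (L + 1)) ≤ 100 * (L + 1) * 1 * W * 1 := by nlinarith
      _ ≤ tot C₁ u n p := by unfold tot; gcongr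

end Crest.Agent.R300U
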