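import Crest.Agent.R300U.DefsB

/-! Row 300, upper bound: summing the errors of the children. -/

set_option autoImplicit false

namespace Crest.Agent.R300U

open Finset

theorem Hn_pos (P : LP) (t : ℕ) : 0 < P.Hn t := by unfold LP.Hn; positivity

theorem sum_term (P : LP) (hP : P.OK) (t : ℕ) (err : ℝ)
    (h : AccE (8 * P.E) (|(t : ℝ) - 4 * P.M| / (256 * P.E) + 1 / 16) err) :
    P.Hn t * err ≤ 2 ^ (-(P.E * (51 / 50) : ℝ) + 1) := by
  obtain ⟨c, hc⟩ := hP.hdvd
  have hE : (65536 : ℝ) ≤ P.E := by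
    have := hP.hE
    exact_mod_cast (by nlinarith : 65536 ≤ P.E)
  have hE0 : (0 : ℝ) < P.E := by linarith
  have hH : (0 : ℝ) < P.Hn t := by exact_mod_cast Hn_pos P t
  set w : ℕ := ((t : ℤ) - 4 * P.M).natAbs ^ 2 / (1179648 * P.E) with hw
  set τ : ℝ := |(t : ℝ) - 4 * P.M| with hτ
  have hτ0 : 0 ≤ τ := abs_nonneg _
  have hτn : (((t : ℤ) - 4 * P.M).natAbs : ℝ) = τ := by
    rw [hτ, ← Int.cast_natCast, Int.natCast_natAbs]; push_cast; rfl
  have hn0 : ((45 * P.E / 256 : ℕ) : ℝ) = 45 * P.E / 256 := by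
    have : 45 * P.E / 256 = 45 * 256 * c := by omega
    rw [this, hc]; push_cast; ring
  have hHn : (P.Hn t : ℝ) = 2 ^ (((45 * P.E / 256 + 2 * P.E - w : ℕ) : ℝ) - 2 * P.E) := by
    unfold LP.Hn
    rw [Real.rpow_sub (by norm_num), Real.rpow_natCast, ← hw]
    push_cast
    congr 1
    rw [← Real.rpow_natCast]; push_cast; rfl
  by_cases hle : w ≤ 45 * P.E / 256 + 2 * P.E
  · have hwl : τ ^ 2 / (1179648 * P.E) - 1 ≤ w := by
      have h1 : ((t : ℤ) - 4 * P.M).natAbs ^ 2 < (w + 1) * (1179648 * P.E) := by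
        have hE1 : 0 < P.E := by exact_mod_cast hE0
        rw [hw, ← Nat.div_lt_iff_lt_mul (by omega)]; exact Nat.lt_succ_self _
      have h2 : τ ^ 2 < (w + 1) * (1179648 * P.E) := by rw [← hτn]; exact_mod_cast h1
      rw [sub_le_iff_le_add, div_le_iff₀ (by positivity)]
      exact h2.le
    refine (mul_le_mul_of_nonneg_left h.2 hH.le).trans ?_
    rw [hHn, ← Real.rpow_add (by norm_num)]
    apply Real.rpow_le_rpow_of_exponent_le (by norm_num)
    rw [Nat.cast_sub hle]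
    push_cast
    rw [hn0]
    set x : ℝ := τ / (256 * P.E) with hx
    have hx0 : 0 ≤ x := by positivity
    have e1 : τ ^ 2 / (1179648 * P.E) = P.E * x ^ 2 / 18 := by
      rw [hx]; field_simp; ring
    rw [e1] at hwl
    have : (x + 1 / 16) ^ 2 ≤ 17 / 16 * x ^ 2 + 17 / 256 := by nlinarith [sq_nonneg (x - 1)]
    nlinarith [mul_le_mul_of_nonneg_left this hE0.le, mul_nonneg hE0.le (sq_nonneg x)]
  · refine (mul_le_mul_of_nonneg_left h.1 hH.le).trans ?_
    rw [hHn, ← Real.rpow_add (by norm_num)]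
    apply Real.rpow_le_rpow_of_exponent_le (by norm_num)
    rw [Nat.sub_eq_zero_of_le (by omega)]
    push_cast
    linarith

theorem sum_proof : SumStmt := by
  intro P err hP h
  have hE : (65536 : ℝ) ≤ P.E := by
    have := hP.hE
    exact_mod_cast (by nlinarith : 65536 ≤ P.E)
  have hMG : 8 * P.M + 1 ≤ P.G := by
    rw [hP.hG, hP.hM]
    have h1 : 2 ^ 20 ≤ 2 ^ (P.r' + 2) := Nat.pow_le_pow_right (by norm_num) (by have := hP.hr'; omega)
    have h2 : 1 ≤ P.E := by exact_mod_cast (by linarith : (1 : ℝ) ≤ P.E)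
    nlinarith
  calc ∑ t ∈ range (8 * P.M + 1), P.Hn t * err t
      ≤ ∑ _t ∈ range (8 * P.M + 1), (2 : ℝ) ^ (-(P.E * (51 / 50) : ℝ) + 1) :=
        sum_le_sum (fun t ht => sum_term P hP t _ (h t (mem_range.1 ht)))
    _ = (8 * P.M + 1 : ℕ) * (2 : ℝ) ^ (-(P.E * (51 / 50) : ℝ) + 1) := by simp
    _ ≤ 2 ^ ((P.E : ℝ) / 16384) * (2 : ℝ) ^ (-(P.E * (51 / 50) : ℝ) + 1) := by
        gcongr
        exact le_trans (by exact_mod_cast hMG) hP.hGE
    _ ≤ 1 / 2 ^ (P.E + 1) := by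
        rw [← Real.rpow_add (by norm_num), one_div, ← Real.rpow_natCast, ← Real.rpow_neg (by norm_num)]
        apply Real.rpow_le_rpow_of_exponent_le (by norm_num)
        push_cast
        linarith

end Crest.Agent.R300U
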