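import Crest.Agent.R300U.BASEB
import Crest.Agent.R300U.PTAB

/-!
Row 300, upper bound, task TACC.
-/

set_option autoImplicit false

namespace Crest.Agent.R300U

open Crest.Agent.PT Crest.Agent.QC Crest.Agent.R317 Finset

namespace Tacc

theorem tgt_mono {r : ℕ} {X Y : ℝ} {ζ : ℂ} (h : Tgt r X ζ) (hXY : X ≤ Y) : Tgt r Y ζ := by
  obtain ⟨φ, h1, h2⟩ := h
  exact ⟨φ, h1, h2.trans (div_le_div_of_nonneg_right hXY (by positivity))⟩

theorem tgt_rho (r : ℕ) : Tgt r 0 ((rho0 r : GQ) : ℂ) := by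
  refine ⟨0, ?_, by simp⟩
  rw [coe_ratCast]
  unfold rho0
  push_cast
  simp

theorem good_of_le (E r : ℕ) (ζ : ℂ) (err : ℝ) (hE : 4 ≤ E) (h : err ≤ 3 / 2 ^ E) :
    Good E r ζ err := by
  intro X _ _
  have hE' : (4 : ℝ) ≤ E := by exact_mod_cast hE
  have h1 : (3 : ℝ) / 2 ^ E ≤ 2 ^ (2 - (E : ℝ)) := by
    rw [Real.rpow_sub (by norm_num), Real.rpow_natCast]
    refine div_le_div_of_nonneg_right ?_ (by positivity)
    norm_num
  refine ⟨h.trans (h1.trans (Real.rpow_le_rpow_of_exponent_le (by norm_num) (by linarith))),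
    h.trans (h1.trans (Real.rpow_le_rpow_of_exponent_le (by norm_num) ?_))⟩
  have : 0 ≤ (E : ℝ) * X ^ 2 := by positivity
  nlinarith

theorem EE_mono (u e L : ℕ) {l l' : ℕ} (h : l ≤ l') : EE u e L l ≤ EE u e L l' :=
  Nat.mul_le_mul_right _ (Nat.pow_le_pow_right (by norm_num) h)

theorem decode {Q M e0 e1 e2 e3 t : ℕ} (h0 : e0 < Q) (h1 : e1 < Q) (h2 : e2 < Q) (ht : t < M) :
    (t + M * code4 Q e0 e1 e2 e3) % M = t ∧
    (t + M * code4 Q e0 e1 e2 e3) / M % Q = e0 ∧
    (t + M * code4 Q e0 e1 e2 e3) / M / Q % Q = e1 ∧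
    (t + M * code4 Q e0 e1 e2 e3) / M / Q / Q % Q = e2 ∧
    (t + M * code4 Q e0 e1 e2 e3) / M / Q / Q / Q = e3 := by
  have m : ∀ Q a b : ℕ, a < Q → (a + Q * b) % Q = a := fun Q a b ha => by
    rw [Nat.add_mul_mod_self_left, Nat.mod_eq_of_lt ha]
  have d : ∀ Q a b : ℕ, a < Q → (a + Q * b) / Q = b := fun Q a b ha => by
    rw [Nat.add_mul_div_left _ _ (by omega), Nat.div_eq_of_lt ha, zero_add]
  unfold code4
  rw [m _ _ _ ht, d _ _ _ ht, m _ _ _ h0, d _ _ _ h0, m _ _ _ h1, d _ _ _ h1, m _ _ _ h2,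
    d _ _ _ h2]
  exact ⟨rfl, rfl, rfl, rfl, rfl⟩

theorem count (C₁ L h E ℓ eS c : ℕ) (hC : 1 ≤ C₁) (hc : 1 ≤ c) (he : eS ≤ h) :
    9 * E * L + (4 * (C₁ * (E + 2 * eS + 4 * ℓ + 2 * h + 30) * c) + 8 * ℓ + 4 * h + 2 * E +
      4 * eS + 64) + (2 * ℓ + 3) ≤ 100 * (L + 1) * C₁ * (h + E + ℓ + 30) * c := by
  set W := h + E + ℓ + 30 with hW
  have h1 : W ≤ C₁ * W * c := by
    calc W = 1 * W * 1 := by ring
      _ ≤ C₁ * W * c := by gcongr
  have h2 : C₁ * (E + 2 * eS + 4 * ℓ + 2 * h + 30) * c ≤ C₁ * (4 * W) * c := by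
    gcongr; omega
  have h3 : C₁ * (4 * W) * c = 4 * (C₁ * W * c) := by ring
  have h4 : 100 * (L + 1) * C₁ * W * c = 100 * (L * (C₁ * W * c)) + 100 * (C₁ * W * c) := by ring
  have h5 : E * L ≤ L * (C₁ * W * c) := by
    rw [mul_comm]; exact Nat.mul_le_mul_left _ (by omega)
  have h6 : 9 * E * L = 9 * (E * L) := by ring
  omega

theorem d_le (C₁ E eS ℓ h c : ℕ) (p : ℚ) (hpc : 1 ≤ p * c) :
    (C₁ * (E + 2 * eS + 4 * ℓ + 2 * h + 30) : ℚ) ≤
      p * ((C₁ * (E + 2 * eS + 4 * ℓ + 2 * h + 30) * c : ℕ) : ℚ) := by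
  push_cast
  have h0 : (0 : ℚ) ≤ C₁ * (E + 2 * eS + 4 * ℓ + 2 * h + 30) := by positivity
  nlinarith

end Tacc

open Tacc in
theorem tacc_proof (hStep : StepStmt) (hLeaf : LeafStmt) (hPar : ParStmt) (hCls : ChildClsStmt)
    (hKer : Ker2Stmt) (hO : OmStmt) (hA : BaseAStmt) (hPrb : PrbStmt) : TAccStmt := by
  intro pr perc C₁ chan hpr hperc hC₁ hchan u n m N j p x hu hReg hj hm hmN pre k r
  obtain ⟨he2, hq, hrL, hall, hτ, hcl⟩ := hPar u n p hu hReg
  obtain ⟨hcl1, -, hcl3⟩ := hcl C₁ N hC₁ (hm.trans hmN)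
  obtain ⟨hn, hp0, hp1, hpn, -⟩ := hReg
  have hp0' : (0 : ℝ) < p := by exact_mod_cast hp0
  have hp1' : (p : ℝ) < 1 := by exact_mod_cast hp1
  obtain ⟨hmono, -, -, hunion⟩ := hPrb p n m hp0'.le hp1'.le
  set e := ee p with he
  set L := LL n p with hL
  have hm0 : 0 < m := lt_of_lt_of_le (by positivity) hm
  have hpre : pre.length = j := by simp only [pre, List.length_take, List.length_ofFn]; omega
  set y := pre ++ List.replicate (n - j) false with hy
  have hyl : y.length = n := by rw [hy, List.length_append, hpre, List.length_replicate]; omega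
  have hyt : y.take j = (List.ofFn x).take j := by
    rw [hy, ← hpre, List.take_left]
    simp only [pre, hpre]
  have hctx : ∀ T, ctx n p N T pre = (n, p, N, T, y, j) := fun T => by rw [ctx, hpre]
  have hn' : (2 : ℝ) ≤ n := by exact_mod_cast hn
  have hS0 : (0 : ℝ) < 1 - 1 / n := by
    have : (1 : ℝ) / n ≤ 1 / 2 := one_div_le_one_div_of_le (by norm_num) hn'
    linarith
  have hS1 : (1 : ℝ) - 1 / n ≤ 1 := by
    have : (0 : ℝ) ≤ 1 / n := by positivity
    linarith
  set c := ⌈1 / p⌉₊ with hc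
  have hpc : (1 : ℚ) ≤ p * c := by
    have := Nat.le_ceil (1 / p)
    rw [div_le_iff₀ hp0] at this
    rwa [mul_comm]
  have hc1 : 1 ≤ c := by
    rw [hc, Nat.one_le_ceil_iff]; positivity
  set D := C₁ * (EE u e L L + 2 * es L + 4 * n.size + 2 * hh u n p L + 30) * c with hD
  set δ : ℝ := 2 ^ (4 * D + 8 * n.size + 4 * hh u n p L + 2 * EE u e L L + 4 * es L + 64) / m
    with hδ
  have hδ0 : 0 ≤ δ := by positivity
  have hEbig : ∀ l, 65536 * (rr u e L l + 1) ≤ EE u e L l := fun l => by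
    have h1 : 65536 * (rr u e L (l + 1) + 1) ≤ EE u e L l := (hall l).1.hE
    have h2 : rr u e L l + 65536 ≤ rr u e L (l + 1) := (hall l).1.hr'
    omega
  have key : ∀ d l, l + d = L → ∀ (a : FA) (ζ : GQ), Bd a →
      Cls ((1 - 1 / n) ^ es l) (4 ^ l * 2 ^ e / (8 * 4 ^ L)) a → n1c a ≤ 2 ^ hh u n p l →
      n1h a ≤ 2 ^ hh u n p l → Tgt (rr u e L l) 8192 ζ →
      Pr p n m (fun ks => ¬ Good (EE u e L l) (rr u e L l) ζ
        ‖((tev (nchF u) (chF u) (cmbF pr perc u) (lfF C₁ chan u) (n, p, N, trs x ks, y, j) d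
          (l, a, es l, hh u n p l, ζ) : GQ) : ℂ) - DD a (List.ofFn x) y j ζ‖) ≤
        (2 ^ (9 * EE u e L L)) ^ d * δ := by
    intro d
    induction d with
    | zero =>
      intro l hl a ζ hB hC h1 h2 hT
      have hl' : l = L := by omega
      subst hl'
      have hτL : (4 : ℝ) ^ L * 2 ^ e / (8 * 4 ^ L) = 2 ^ e / 8 := by field_simp
      have h2e : (2 : ℝ) ^ 2 ≤ 2 ^ e := pow_le_pow_right₀ (by norm_num) he2
      have := hLeaf C₁ chan hC₁ hchan n m p x y j (es L) (hh u n p L) (EE u e L L) (rr u e L L) D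
        a ζ _ hn hp0 hp1 hpn hm0 hyl hj hyt hB hC (by rw [hτL]; linarith)
        (by rw [hτL]; linarith) h1 h2 hT hrL (d_le C₁ _ _ _ _ c p hpc)
      rw [pow_zero, one_mul]
      refine (hmono _ _ fun ks hks hle => hks ?_).trans this
      refine good_of_le _ _ _ _ (by have := hEbig L; omega) (le_of_eq_of_le ?_ hle)
      have pE : (par id u e L L).E = EE u e L L := rfl
      have pr' : (par id u e L L).r = rr u e L L := rfl
      simp only [tev, lfF, cP, ← he, ← hL, ← hc, hcl1 L le_rfl, hcl3, pE, pr', ← hD]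
    | succ d ih =>
      intro l hl a ζ hB hC h1 h2 hT
      obtain ⟨hOK, hnch, hE8, -, -⟩ := hall l
      set P := par id u e L l with hP
      have hcP : ∀ T, cP u (n, p, N, T, y, j) l = P := fun T => by
        simp only [cP, ← he, ← hL, hcl1 l (by omega), hP]
      set Q := nQ P.J with hQ
      set M := 8 * P.M + 1 with hM
      have hE8' : ((EE u e L (l + 1) : ℕ) : ℝ) = 8 * (P.E : ℝ) := by
        rw [hE8]; push_cast; rfl
      refine (hmono _ (fun ks => ∃ i < P.nch,
        Legit P.J P.η (i / M % Q) (i / M / Q % Q) (i / M / Q / Q % Q) (i / M / Q / Q / Q) ∧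
        ¬ Good (EE u e L (l + 1)) (rr u e L (l + 1))
          (target P (i / M % Q) (i / M / Q % Q) (i / M / Q / Q % Q) (i / M / Q / Q / Q) (i % M))
          ‖((tev (nchF u) (chF u) (cmbF pr perc u) (lfF C₁ chan u) (n, p, N, trs x ks, y, j) d
            (l + 1, child P n.size (hh u n p l) a (i / M % Q) (i / M / Q % Q) (i / M / Q / Q % Q)
              (i / M / Q / Q / Q) (i % M), es (l + 1), hh u n p (l + 1),
              target P (i / M % Q) (i / M / Q % Q) (i / M / Q / Q % Q) (i / M / Q / Q / Q)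
                (i % M)) : GQ) : ℂ) -
            DD (child P n.size (hh u n p l) a (i / M % Q) (i / M / Q % Q) (i / M / Q / Q % Q)
              (i / M / Q / Q / Q) (i % M)) (List.ofFn x) y j
              (target P (i / M % Q) (i / M / Q % Q) (i / M / Q / Q % Q) (i / M / Q / Q / Q)
                (i % M))‖) ?_).trans ((hunion _ _).trans ?_)
      · intro ks hks
        by_contra hno
        push Not at hno
        apply hks
        have := hStep pr perc hpr hperc P n.size (hh u n p l) j (List.ofFn x) y a ζ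
          (mkL P.nch (fun i => tev (nchF u) (chF u) (cmbF pr perc u) (lfF C₁ chan u)
            (n, p, N, trs x ks, y, j) d
            (chF u (n, p, N, trs x ks, y, j) (l, a, es l, hh u n p l, ζ) i))) hOK
          (by rw [hyl, List.length_ofFn]) (by rw [List.length_ofFn]; exact hj) hyt hB
          (fun e0 e1 e2 e3 t hLg ht => by
            obtain ⟨l0, l1, l2, l3⟩ := hLg.1
            obtain ⟨d0, d1, d2, d3, d4⟩ := decode (e3 := e3) l0 l1 l2 ht
            have hi : t + M * code4 Q e0 e1 e2 e3 < P.nch := by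
              have h3 : M * (code4 Q e0 e1 e2 e3 + 1) ≤ M * Q ^ 4 :=
                Nat.mul_le_mul_left _ (Ptab.code4_lt l0 l1 l2 l3)
              rw [Nat.mul_add] at h3
              show _ < M * Q ^ 4
              omega
            have h4 := hno _ hi
            rw [← hQ, ← hM] at d0 d1 d2 d3 d4
            rw [d0, d1, d2, d3, d4] at h4
            have h5 := h4 hLg
            rw [hE8'] at h5
            rw [getD_mkL _ _ hi]
            simp only [chF, hcP, ← hQ, ← hM, d0, d1, d2, d3, d4]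
            exact h5)
        simp only [tev, cmbF, nchF, hcP]
        exact this
      · have hb : ∀ i ∈ range P.nch, Pr p n m (fun ks =>
          Legit P.J P.η (i / M % Q) (i / M / Q % Q) (i / M / Q / Q % Q) (i / M / Q / Q / Q) ∧
          ¬ Good (EE u e L (l + 1)) (rr u e L (l + 1))
          (target P (i / M % Q) (i / M / Q % Q) (i / M / Q / Q % Q) (i / M / Q / Q / Q) (i % M))
          ‖((tev (nchF u) (chF u) (cmbF pr perc u) (lfF C₁ chan u) (n, p, N, trs x ks, y, j) d
            (l + 1, child P n.size (hh u n p l) a (i / M % Q) (i / M / Q % Q) (i / M / Q / Q % Q)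
              (i / M / Q / Q / Q) (i % M), es (l + 1), hh u n p (l + 1),
              target P (i / M % Q) (i / M / Q % Q) (i / M / Q / Q % Q) (i / M / Q / Q / Q)
                (i % M)) : GQ) : ℂ) -
            DD (child P n.size (hh u n p l) a (i / M % Q) (i / M / Q % Q) (i / M / Q / Q % Q)
              (i / M / Q / Q / Q) (i % M)) (List.ofFn x) y j
              (target P (i / M % Q) (i / M / Q % Q) (i / M / Q / Q % Q) (i / M / Q / Q / Q)
                (i % M))‖) ≤ (2 ^ (9 * EE u e L L)) ^ d * δ := by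
          intro i _
          generalize i / M % Q = e0
          generalize i / M / Q % Q = e1
          generalize i / M / Q / Q % Q = e2
          generalize i / M / Q / Q / Q = e3
          have ht : i % M < M := Nat.mod_lt _ (by omega)
          generalize i % M = t at ht ⊢
          by_cases hLg : Legit P.J P.η e0 e1 e2 e3
          · obtain ⟨l0, l1, l2, l3⟩ := hLg.1
            obtain ⟨c1, c2, c3⟩ := hCls P n (hh u n p l) a _ _ e0 e1 e2 e3 t hOK hn
              (pow_pos hS0 _) (pow_le_one₀ hS0.le hS1) (hτ l (by omega)) l0 l1 l2 l3 h1 h2 hC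
            obtain ⟨t1, t2⟩ := hO.2.2.2 P hOK e0 e1 e2 e3 t hLg ht
            refine (hmono _ _ fun ks h => h.2).trans (ih (l + 1) (by omega) _ _
              ((hKer P hOK).2 _ _ a e0 e1 e2 e3 t hB) ?_ c2 c3 (tgt_mono t1 t2))
            have e1 : ((1 - 1 / n : ℝ) ^ es l * (1 - 1 / n)) ^ 4 = (1 - 1 / n) ^ es (l + 1) := by
              rw [← pow_succ, ← pow_mul, es, mul_comm]
            have e2 : (4 : ℝ) * (4 ^ l * 2 ^ e / (8 * 4 ^ L)) =
                4 ^ (l + 1) * 2 ^ e / (8 * 4 ^ L) := by ring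
            rwa [e1, e2] at c1
          · refine (hmono _ (fun ks => ∃ i < 0, False) fun ks h => absurd h.1 hLg).trans
              ((hunion 0 (fun _ _ => False)).trans ?_)
            rw [sum_range_zero]
            positivity
        refine (sum_le_card_nsmul _ _ _ hb).trans ?_
        rw [card_range, nsmul_eq_mul, pow_succ', mul_assoc]
        refine mul_le_mul_of_nonneg_right ?_ (by positivity)
        have : P.nch ≤ 2 ^ (9 * EE u e L L) := hnch.trans (Nat.pow_le_pow_right (by norm_num)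
          (Nat.mul_le_mul_left _ (EE_mono u e L (by omega))))
        exact_mod_cast this
  have hk1 : 1 ≤ k := Nat.mul_pos (by positivity) (by omega)
  have hwl := BaseB.length_kw k hk1 pre
  have hw0 : kw k pre ≠ [] := by rw [← List.length_pos_iff]; omega
  obtain ⟨a1, a2, a3, a4, -, -⟩ := hA n (kw k pre) hn hw0
  rw [hwl] at a3 a4
  have hroot := key L 0 (by omega) (baseA n (kw k pre)) (rho0 r : GQ)
    (fun w hw => by rw [a1 w hw]; split_ifs <;> simp)
    (by rw [es, pow_one]; exact a2 _ (by positivity)) a3 a4 (tgt_mono (tgt_rho r) (by norm_num))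
  refine le_trans (hmono _ _ fun ks hks => ?_) (hroot.trans ?_)
  · intro hG
    apply hks
    have h1 := (hG 0 le_rfl (tgt_rho r)).2
    rw [hctx]
    refine h1.trans ?_
    have h2 : ((65536 * (r + 1) : ℕ) : ℝ) ≤ EE u e L 0 := by exact_mod_cast hEbig 0
    push_cast at h2
    rw [one_div, ← Real.rpow_natCast 2 (r + 4), ← Real.rpow_neg (by norm_num)]
    refine Real.rpow_le_rpow_of_exponent_le (by norm_num) ?_
    have : (0 : ℝ) ≤ r := Nat.cast_nonneg r
    push_cast
    linarith
  · have hcount := count C₁ L (hh u n p L) (EE u e L L) n.size (es L) c hC₁ hc1 (hall L).2.2.2.1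
    have hn2 : 8 * n ^ 2 ≤ 2 ^ (2 * n.size + 3) := by
      have := (Nat.lt_size_self n).le
      calc 8 * n ^ 2 ≤ 8 * (2 ^ n.size) ^ 2 := by gcongr
        _ = _ := by ring
    have h3 : 2 ^ (9 * EE u e L L * L) * 2 ^ (4 * D + 8 * n.size + 4 * hh u n p L +
        2 * EE u e L L + 4 * es L + 64) * (8 * n ^ 2) ≤ m := by
      refine (Nat.mul_le_mul_left _ hn2).trans (le_trans ?_ hm)
      rw [← pow_add, ← pow_add]
      exact Nat.pow_le_pow_right (by norm_num) hcount
    have hm' : (0 : ℝ) < m := by exact_mod_cast hm0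
    rw [hδ, ← mul_div_assoc, div_le_div_iff₀ hm' (by positivity), one_mul, ← pow_mul]
    exact_mod_cast h3

end Crest.Agent.R300U
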