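import Crest.Agent.R300U.DefsB

/-!
Row 300, upper bound, task TENS: tensor products, conjugates and the constant feature.
-/

set_option autoImplicit false

namespace Crest.Agent.R300U

open Finset

theorem sum_range_mul_divmod {R : Type} [AddCommMonoid R] (m n : ℕ) (F : ℕ → ℕ → R) :
    ∑ i ∈ range (m * n), F (i / n) (i % n) = ∑ k ∈ range m, ∑ s ∈ range n, F k s := by
  induction m with
  | zero => simp
  | succ m ih =>
    rw [Nat.succ_mul, Finset.sum_range_add, ih, Finset.sum_range_succ]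
    congr 1
    refine Finset.sum_congr rfl fun s hs => ?_
    have hs := mem_range.1 hs
    rw [mul_comm m n, Nat.mul_add_div (by omega), Nat.div_eq_of_lt hs, Nat.mul_add_mod,
      Nat.mod_eq_of_lt hs, add_zero]

theorem tens_lt {m n i : ℕ} (hi : i < m * n) : i / n < m ∧ i % n < n := by
  have hn : 0 < n := Nat.pos_of_ne_zero (by rintro rfl; simp at hi)
  exact ⟨(Nat.div_lt_iff_lt_mul hn).2 hi, Nat.mod_lt _ hn⟩

theorem tens_st (a b : FA) (x : List Bool) : ∀ i < a.d * b.d,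
    (tens a b).st x i = a.st x (i / b.d) * b.st x (i % b.d) := by
  induction x using List.reverseRecOn with
  | nil =>
    intro i hi
    obtain ⟨h1, h2⟩ := tens_lt hi
    simp only [FA.st_nil, tens, FA.gh_lt _ h1, FA.gh_lt _ h2]
  | append_singleton x σ ih =>
    intro i hi
    obtain ⟨h1, h2⟩ := tens_lt hi
    rw [FA.st_concat, FA.st_concat, FA.st_concat, Finset.sum_mul_sum,
      ← sum_range_mul_divmod a.d b.d (fun k s => a.A σ (i / b.d) k * a.st x k *
        (b.A σ (i % b.d) s * b.st x s))]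
    refine Finset.sum_congr rfl fun j hj => ?_
    have hj : j < a.d * b.d := mem_range.1 hj
    obtain ⟨h3, h4⟩ := tens_lt hj
    rw [ih j hj]
    simp only [tens, FA.gA_lt _ _ h1 h3, FA.gA_lt _ _ h2 h4]
    ring

theorem tens_n1 (a b : FA) : n1c (tens a b) = n1c a * n1c b ∧ n1h (tens a b) = n1h a * n1h b := by
  constructor
  · unfold n1c
    rw [Finset.sum_mul_sum, ← sum_range_mul_divmod a.d b.d (fun k s => ‖a.c k‖ * ‖b.c s‖)]
    refine Finset.sum_congr rfl fun j hj => ?_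
    obtain ⟨h3, h4⟩ := tens_lt (mem_range.1 hj)
    simp only [tens, FA.gc_lt _ h3, FA.gc_lt _ h4, norm_mul]
  · unfold n1h
    rw [Finset.sum_mul_sum, ← sum_range_mul_divmod a.d b.d (fun k s => ‖a.h k‖ * ‖b.h s‖)]
    refine Finset.sum_congr rfl fun j hj => ?_
    obtain ⟨h3, h4⟩ := tens_lt (mem_range.1 hj)
    simp only [tens, FA.gh_lt _ h3, FA.gh_lt _ h4, norm_mul]

theorem diagOK_mul {τ τ' : ℝ} {z z' : ℂ} (hτ : 0 ≤ τ) (hτ' : 0 ≤ τ') (h : DiagOK τ z)
    (h' : DiagOK τ' z') : DiagOK (τ + τ') (z * z') := by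
  rcases h with rfl | ⟨y, θ, hy, rfl, hθ⟩
  · exact Or.inl (zero_mul _)
  rcases h' with rfl | ⟨y', θ', hy', rfl, hθ'⟩
  · exact Or.inl (mul_zero _)
  refine Or.inr ⟨y + y', θ + θ', by positivity, ?_, ?_⟩
  · rw [← Complex.exp_add]
    congr 1
    push_cast
    ring
  · have h1 : (2 * (θ * θ')) ^ 2 ≤ (τ * y' + τ' * y) ^ 2 := by
      have h2 : θ ^ 2 * θ' ^ 2 ≤ τ * y * (τ' * y') :=
        mul_le_mul hθ hθ' (sq_nonneg _) (by positivity)
      nlinarith [sq_nonneg (τ * y' - τ' * y)]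
    have h3 := (abs_le_of_sq_le_sq' h1 (by positivity)).2
    nlinarith

theorem tens_off {R R' ρ ρ' : ℝ} (h0 : 0 ≤ ρ) (h0' : 0 ≤ ρ') (h1 : 0 ≤ R - ρ) (h1' : 0 ≤ R' - ρ')
    (h2 : R - ρ ≤ (1 - ρ) / 4) (h2' : R' - ρ' ≤ (1 - ρ') / 4) :
    R * R' - ρ * ρ' ≤ (1 - ρ * ρ') / 4 := by
  have k1 := mul_le_mul_of_nonneg_left h2' h0
  have k2 := mul_le_mul_of_nonneg_left h2 h0'
  have k3 := mul_le_mul h2 h2' h1' (h1.trans h2)
  have k4 : 0 ≤ (1 - ρ) * (1 - ρ') := mul_nonneg (by linarith) (by linarith)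
  nlinarith

theorem tens_cls (a b : FA) (S S' τ τ' : ℝ) (hS : 0 < S) (hS' : 0 < S') (hτ : 0 ≤ τ)
    (hτ' : 0 ≤ τ') (ha : Cls S τ a) (hb : Cls S' τ' b) : Cls (S * S') (τ + τ') (tens a b) := by
  intro σ i hi
  have hi : i < a.d * b.d := hi
  obtain ⟨h1, h2⟩ := tens_lt hi
  obtain ⟨a1, a2, a3⟩ := ha σ _ h1
  obtain ⟨b1, b2, b3⟩ := hb σ _ h2
  have hA : ∀ i j, i < a.d * b.d → j < a.d * b.d → (tens a b).A σ i j =
      a.A σ (i / b.d) (j / b.d) * b.A σ (i % b.d) (j % b.d) := fun i j hi hj => by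
    simp only [tens, FA.gA_lt _ _ (tens_lt hi).1 (tens_lt hj).1,
      FA.gA_lt _ _ (tens_lt hi).2 (tens_lt hj).2]
  have hN : ∀ i j, i < a.d * b.d → j < a.d * b.d → S * S' * ‖(tens a b).A σ i j‖ =
      S * ‖a.A σ (i / b.d) (j / b.d)‖ * (S' * ‖b.A σ (i % b.d) (j % b.d)‖) := fun i j hi hj => by
    rw [hA i j hi hj, norm_mul]; ring
  have hp : ∀ (T : ℝ) (c : FA) (k : ℕ) (f : ℕ → GQ), 0 < T →
      0 ≤ ∑ j ∈ (range c.d).erase k, T * ‖f j‖ := fun T c k f hT =>
    Finset.sum_nonneg fun j _ => by positivity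
  have a4 := hp S a (i / b.d) (fun j => a.A σ (i / b.d) j) hS
  have a5 := hp S a (i / b.d) (fun j => a.A σ j (i / b.d)) hS
  have b4 := hp S' b (i % b.d) (fun j => b.A σ (i % b.d) j) hS'
  have b5 := hp S' b (i % b.d) (fun j => b.A σ j (i % b.d)) hS'
  rw [Finset.sum_erase_eq_sub (mem_range.2 h1)] at a2 a3 a4 a5
  rw [Finset.sum_erase_eq_sub (mem_range.2 h2)] at b2 b3 b4 b5
  refine ⟨?_, ?_, ?_⟩
  · have := diagOK_mul hτ hτ' a1 b1
    rw [hA i i hi hi]
    convert this using 1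
    push_cast
    ring
  · rw [Finset.sum_erase_eq_sub (mem_range.2 (show i < (tens a b).d from hi)), hN i i hi hi]
    rw [show ∑ j ∈ range (tens a b).d, S * S' * ‖(tens a b).A σ i j‖ =
      (∑ j ∈ range a.d, S * ‖a.A σ (i / b.d) j‖) * ∑ j ∈ range b.d, S' * ‖b.A σ (i % b.d) j‖ by
      rw [Finset.sum_mul_sum, ← sum_range_mul_divmod a.d b.d
        (fun k s => S * ‖a.A σ (i / b.d) k‖ * (S' * ‖b.A σ (i % b.d) s‖))]
      exact Finset.sum_congr rfl fun j hj => hN i j hi (mem_range.1 hj)]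
    exact tens_off (by positivity) (by positivity) a4 b4 a2 b2
  · rw [Finset.sum_erase_eq_sub (mem_range.2 (show i < (tens a b).d from hi)), hN i i hi hi]
    rw [show ∑ j ∈ range (tens a b).d, S * S' * ‖(tens a b).A σ j i‖ =
      (∑ j ∈ range a.d, S * ‖a.A σ j (i / b.d)‖) * ∑ j ∈ range b.d, S' * ‖b.A σ j (i % b.d)‖ by
      rw [Finset.sum_mul_sum, ← sum_range_mul_divmod a.d b.d
        (fun k s => S * ‖a.A σ k (i / b.d)‖ * (S' * ‖b.A σ s (i % b.d)‖))]
      exact Finset.sum_congr rfl fun j hj => hN j i (mem_range.1 hj) hi]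
    exact tens_off (by positivity) (by positivity) a5 b5 a3 b3

theorem tens_cj_mul (z w : GQ) : cj (z * w) = cj z * cj w := Subtype.ext (by simp)

theorem tens_cj_sum (s : Finset ℕ) (f : ℕ → GQ) : cj (∑ i ∈ s, f i) = ∑ i ∈ s, cj (f i) :=
  Subtype.ext (by simp)

theorem tens_norm_cj (z : GQ) : ‖cj z‖ = ‖z‖ := by
  rw [← norm_coe, ← norm_coe, coe_cj, Complex.norm_conj]

theorem conj_st (a : FA) (x : List Bool) : ∀ i < a.d, (conjFA a).st x i = cj (a.st x i) := by
  induction x using List.reverseRecOn with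
  | nil =>
    intro i hi
    simp only [FA.st_nil, conjFA, FA.gh_lt _ hi]
  | append_singleton x σ ih =>
    intro i hi
    rw [FA.st_concat, FA.st_concat, tens_cj_sum]
    refine Finset.sum_congr rfl fun j hj => ?_
    have hj : j < a.d := mem_range.1 hj
    rw [ih j hj, tens_cj_mul]
    simp only [conjFA, FA.gA_lt _ _ hi hj]

theorem one_st (x : List Bool) (i : ℕ) : oneFA.st x i = 1 := by
  induction x using List.reverseRecOn generalizing i with
  | nil => rfl
  | append_singleton x σ ih =>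
    rw [FA.st_concat]
    simp only [ih]
    simp [oneFA]

theorem tens_proof : TensStmt := by
  refine ⟨tens_st, tens_n1, tens_cls, fun a x => ⟨?_, ?_⟩, fun a => ⟨?_, ?_⟩, ?_, ?_, ?_⟩
  · unfold FA.val
    rw [tens_cj_sum]
    refine Finset.sum_congr rfl fun j hj => ?_
    have hj : j < a.d := mem_range.1 hj
    rw [conj_st a x j hj, tens_cj_mul]
    simp only [conjFA, FA.gc_lt _ hj]
  · unfold FA.val
    simp only [one_st]
    simp [oneFA]
  · refine Finset.sum_congr rfl fun j hj => ?_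
    have hj : j < a.d := mem_range.1 hj
    simp only [conjFA, FA.gc_lt _ hj, tens_norm_cj]
  · refine Finset.sum_congr rfl fun j hj => ?_
    have hj : j < a.d := mem_range.1 hj
    simp only [conjFA, FA.gh_lt _ hj, tens_norm_cj]
  · intro a S τ h σ i hi
    have hi : i < a.d := hi
    obtain ⟨h1, h2, h3⟩ := h σ i hi
    have hA : ∀ i j, i < a.d → j < a.d → (conjFA a).A σ i j = cj (a.A σ i j) := fun i j hi hj => by
      simp only [conjFA, FA.gA_lt _ _ hi hj]
    refine ⟨?_, ?_, ?_⟩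
    · rw [hA i i hi hi, coe_cj, show (S : ℂ) * (starRingEnd ℂ) (a.A σ i i : ℂ) =
        (starRingEnd ℂ) ((S : ℂ) * (a.A σ i i : ℂ)) by simp]
      rcases h1 with h1 | ⟨y, θ, hy, h1, hθ⟩
      · exact Or.inl (by rw [h1, map_zero])
      · refine Or.inr ⟨y, -θ, hy, ?_, by simpa using hθ⟩
        rw [h1, ← Complex.exp_conj]
        simp
    · rw [hA i i hi hi, tens_norm_cj]
      refine le_trans (le_of_eq (Finset.sum_congr rfl fun j hj => ?_)) h2
      rw [hA i j hi (mem_range.1 (mem_of_mem_erase hj)), tens_norm_cj]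
    · rw [hA i i hi hi, tens_norm_cj]
      refine le_trans (le_of_eq (Finset.sum_congr rfl fun j hj => ?_)) h3
      rw [hA j i (mem_range.1 (mem_of_mem_erase hj)) hi, tens_norm_cj]
  · intro S τ hS hS1 hτ σ i hi
    have hi : i = 0 := by simpa [oneFA] using hi
    subst hi
    have hy : 0 ≤ -Real.log S := neg_nonneg.2 (Real.log_nonpos hS.le hS1)
    refine ⟨Or.inr ⟨-Real.log S, 0, hy, ?_, by simpa using mul_nonneg hτ hy⟩, ?_, ?_⟩
    · simp [oneFA, ← Complex.ofReal_exp, Real.exp_log hS]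
    · simp [oneFA]
      linarith
    · simp [oneFA]
      linarith
  · intro a c S τ h
    exact h

end Crest.Agent.R300U
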