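import Crest.Agent.R300U.DefsA
import Crest.Agent.R317.M1

/-!
Row 300, upper bound, task TREE.
-/

set_option autoImplicit false

namespace Crest.Agent.R300U

open Crest.Agent.PT Crest.Agent.QC Crest.Agent.R317

namespace TreeM

variable {C X R : Type} [Enc C] [Enc X] [Enc R]

/-- Whether a frame calls. -/
def call (nch : C → X → ℕ) (c : C) (f : ℕ × X × List R) : Bool :=
  decide (0 < f.1) && decide (f.2.2.length < nch c f.2.1)

/-- The frame called. -/
def arg (ch : C → X → ℕ → X) (c : C) (f : ℕ × X × List R) : ℕ × X × List R :=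
  (f.1 - 1, ch c f.2.1 f.2.2.length, [])

/-- The value returned. -/
def ret (cmb : C → X → List R → R) (lf : C → X → R) (c : C) (f : ℕ × X × List R) : R :=
  if f.1 = 0 then lf c f.2.1 else cmb c f.2.1 f.2.2

/-- The continuation. -/
def cnt (f : ℕ × X × List R) (r : R) : ℕ × X × List R :=
  (f.1, f.2.1, mkL (f.2.2.length + 1) (fun i => f.2.2.getD i r))

omit [Enc R] in
theorem mkL_snoc (n : ℕ) (g : ℕ → R) :
    mkL ((mkL n g).length + 1) (fun i => (mkL n g).getD i (g n)) = mkL (n + 1) g := by
  rw [length_mkL]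
  unfold mkL
  refine List.map_congr_left (fun i hi => ?_)
  by_cases h : i < n
  · exact getD_mkL g _ h
  · have : i = n := by have := List.mem_range.1 hi; omega
    subst this
    simp [List.getD_eq_getElem?_getD]

omit [Enc C] in
theorem small_sz {nch : C → X → ℕ} {ch : C → X → ℕ → X} {cmb : C → X → List R → R}
    {lf : C → X → R} {c : C} {B : ℕ} {d : ℕ} {x : X} (h : Small nch ch cmb lf c B d x) :
    sz x ≤ B ∧ sz (tev nch ch cmb lf c d x) ≤ B := by
  cases d with
  | zero => exact h
  | succ d => exact ⟨h.1, h.2.2.1⟩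

omit [Enc C] in
theorem ev_tree (nch : C → X → ℕ) (ch : C → X → ℕ → X) (cmb : C → X → List R → R)
    (lf : C → X → R) (c : C) (B N : ℕ) : ∀ (d : ℕ) (x : X), Small nch ch cmb lf c B d x →
      2 * d + 2 * B + B * (2 * B + 1) + 2 ≤ N →
      ∃ t, t + 1 ≤ (B + 2) ^ (d + 1) ∧
        Ev (call nch c) (arg ch c) (ret cmb lf c) cnt N (d, x, []) (tev nch ch cmb lf c d x) t := by
  intro d
  induction d with
  | zero =>
    intro x hs hN
    refine ⟨1, by simp, ?_⟩
    have := Ev.ret (call := call nch c) (arg := arg ch c) (ret := ret cmb lf c) (cont := cnt)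
      (N := N) (0, x, []) (by simp [call]) (by have := hs.1; simp; omega)
      (by have := hs.2; simp [ret]; omega)
    simpa [ret, tev] using this
  | succ d ih =>
    intro x hs hN
    obtain ⟨h1, h2, h3, h4⟩ := hs
    set n := nch c x with hn
    set g : ℕ → R := fun i => tev nch ch cmb lf c d (ch c x i) with hg
    have hsz : ∀ k ≤ n, sz ((d + 1, x, mkL k g) : ℕ × X × List R) ≤ N := by
      intro k hk
      have := sz_list_le (mkL k g) B (fun y hy => by
        obtain ⟨i, hi, rfl⟩ := List.mem_map.1 hy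
        exact (small_sz (h4 i (lt_of_lt_of_le (List.mem_range.1 hi) hk))).2)
      rw [length_mkL] at this
      have h5 : k * (2 * B + 1) ≤ B * (2 * B + 1) := Nat.mul_le_mul_right _ (hk.trans h2)
      simp only [sz_pair, sz_nat]
      omega
    have key : ∀ j k, j + k = n → ∃ t, t ≤ j * (B + 2) ^ (d + 1) + 1 ∧
        Ev (call nch c) (arg ch c) (ret cmb lf c) cnt N (d + 1, x, mkL k g)
          (tev nch ch cmb lf c (d + 1) x) t := by
      intro j
      induction j with
      | zero =>
        intro k hk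
        have hk' : k = n := by omega
        subst hk'
        refine ⟨1, by simp, ?_⟩
        have e : ret cmb lf c (d + 1, x, mkL n g) = tev nch ch cmb lf c (d + 1) x := by
          simp [ret, tev, hg, hn]
        have := Ev.ret (call := call nch c) (arg := arg ch c) (ret := ret cmb lf c) (cont := cnt)
          (N := N) (d + 1, x, mkL n g) (by simp [call, hn]) (hsz n le_rfl)
          (by rw [e]; omega)
        rwa [e] at this
      | succ j ihj =>
        intro k hk
        obtain ⟨t, ht, hev⟩ := ih (ch c x k) (h4 k (by omega)) (by omega)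
        obtain ⟨t', ht', hev'⟩ := ihj (k + 1) (by omega)
        refine ⟨t + t' + 1, by rw [Nat.succ_mul]; omega, ?_⟩
        refine Ev.call _ (g k) _ t t' (by simp [call]; omega) (hsz k (by omega)) ?_ ?_
        · simpa [arg] using hev
        · have e : cnt ((d + 1, x, mkL k g) : ℕ × X × List R) (g k) = (d + 1, x, mkL (k + 1) g) := by
            simp only [cnt, mkL_snoc]
          rw [e]; exact hev'
    obtain ⟨t, ht, hev⟩ := key n 0 rfl
    refine ⟨t, ?_, hev⟩
    have h5 : n * (B + 2) ^ (d + 1) ≤ B * (B + 2) ^ (d + 1) := Nat.mul_le_mul_right _ h2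
    have h6 : 1 ≤ (B + 2) ^ (d + 1) := Nat.one_le_pow _ _ (by omega)
    rw [pow_succ (B + 2) (d + 1), Nat.mul_add]
    nlinarith

end TreeM

open TreeM in
theorem tree_proof : TreeStmt := by
  intro C X R _ _ _ nch ch cmb lf hn hc hm hl
  have h1 : PT (fun p : C × (ℕ × X × List R) => call nch p.1 p.2) := by
    have a := hn.comp (f := fun p : C × (ℕ × X × List R) => (p.1, p.2.2.1)) (by fun_prop)
    unfold call
    exact (PT.lt (PT.const 0) (by fun_prop)).and (PT.lt (by fun_prop) a)
  have h2 : PT (fun p : C × (ℕ × X × List R) => arg ch p.1 p.2) := by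
    have a := hc.comp (f := fun p : C × (ℕ × X × List R) => (p.1, p.2.2.1, p.2.2.2.length))
      (by fun_prop)
    unfold arg
    exact PT.pair (by fun_prop) (a.pair (PT.const _))
  have h3 : PT (fun p : C × (ℕ × X × List R) => ret cmb lf p.1 p.2) := by
    have a := hl.comp (f := fun p : C × (ℕ × X × List R) => (p.1, p.2.2.1)) (by fun_prop)
    have b := hm.comp (f := fun p : C × (ℕ × X × List R) => (p.1, p.2.2.1, p.2.2.2)) (by fun_prop)
    unfold ret
    exact PT.ite_eq (by fun_prop) (PT.const 0) a b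
  have h4 : PT (fun p : C × (ℕ × X × List R) × R => cnt p.2.1 p.2.2) := by
    unfold cnt
    refine PT.pair (by fun_prop) (PT.pair (by fun_prop) ?_)
    exact pt_mkL (f := fun (p : C × (ℕ × X × List R) × R) i => p.2.1.2.2.getD i p.2.2)
      (by fun_prop) (by fun_prop)
  obtain ⟨run, hrun, hr⟩ := recS C (ℕ × X × List R) R (call nch) (arg ch) (ret cmb lf)
    (fun _ => cnt) h1 h2 h3 h4
  refine ⟨fun p => run (p.1, (p.2.1, p.2.2.1, []), p.2.2.2),
    hrun.comp (f := fun p : C × ℕ × X × ℕ => (p.1, (p.2.1, p.2.2.1, ([] : List R)), p.2.2.2))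
      (by fun_prop), fun c d x B N hs hN => ?_⟩
  have e1 : (B + d + 2) ^ 4 ≤ N :=
    (Nat.pow_le_pow_right (by omega) (by omega)).trans hN
  have e2 : (B + 2) ^ (d + 1) ≤ N :=
    ((Nat.pow_le_pow_left (by omega) _).trans (Nat.pow_le_pow_right (by omega) (by omega))).trans hN
  have e3 : 2 * d + 2 * B + B * (2 * B + 1) + 2 ≤ (B + d + 2) ^ 4 := by
    have : (B + d + 2) ^ 4 = (B + d + 2) ^ 2 * (B + d + 2) ^ 2 := by ring
    have h : 2 ^ 2 ≤ (B + d + 2) ^ 2 := Nat.pow_le_pow_left (by omega) 2
    nlinarith [Nat.zero_le B, Nat.zero_le d, Nat.zero_le (B * d)]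
  obtain ⟨t, ht, hev⟩ := ev_tree nch ch cmb lf c B N d x hs (e3.trans e1)
  exact hr c _ N _ t hev (by omega)

end Crest.Agent.R300U
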