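import Crest.Agent.R300U.ASY
import Crest.Agent.R300U.BASEA
import Crest.Agent.R300U.BASEB
import Crest.Agent.R300U.CHC
import Crest.Agent.R300U.CHI
import Crest.Agent.R300U.CHPT
import Crest.Agent.R300U.CHS
import Crest.Agent.R300U.CHV
import Crest.Agent.R300U.CMP
import Crest.Agent.R300U.CMPT
import Crest.Agent.R300U.CORE
import Crest.Agent.R300U.DECPT
import Crest.Agent.R300U.EXT1
import Crest.Agent.R300U.EXT2
import Crest.Agent.R300U.KER1
import Crest.Agent.R300U.KER2
import Crest.Agent.R300U.LEAF
import Crest.Agent.R300U.MIX
import Crest.Agent.R300U.NUM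
import Crest.Agent.R300U.OM
import Crest.Agent.R300U.PAR
import Crest.Agent.R300U.PERC
import Crest.Agent.R300U.PJ
import Crest.Agent.R300U.PR
import Crest.Agent.R300U.PRB
import Crest.Agent.R300U.PTAB
import Crest.Agent.R300U.RC
import Crest.Agent.R300U.SCHUR
import Crest.Agent.R300U.SLOTC
import Crest.Agent.R300U.SLOTV
import Crest.Agent.R300U.SMALL
import Crest.Agent.R300U.STEP
import Crest.Agent.R300U.SUM
import Crest.Agent.R300U.TACC
import Crest.Agent.R300U.TENS
import Crest.Agent.R300U.TREE
import Crest.Agent.R300U.TRIV
import Crest.Agent.R300U.FIN56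
import Crest.Agent.R300U.FIN57
import Crest.Agent.R300U.PAIR

/-!
Row 300, upper bound: everything except the channel transfer.
-/

set_option autoImplicit false

namespace Crest.Agent.R300U

theorem core_of_trans (hTr : TransStmt) : CoreStmt :=
  have hCV := childVal_proof slotv_proof tens_proof
  core_of perc_proof pr_proof hTr tree_proof chpt_proof cmbpt_proof lfpt_proof decpt_proof
    (small_proof par_proof chs_proof baseA_proof rc_proof)
    (tacc_proof (step_proof (ptab_proof hCV (cmp_proof om_proof chi_proof) sum_proof om_proof
        chi_proof tens_proof) (ext1_proof pj_proof num_proof om_proof) (ext2_proof om_proof)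
        rc_proof om_proof)
      (leaf_proof mix_proof cheb_proof prb_proof rc_proof) par_proof (chc_proof om_proof)
      (ker2_proof ker1_proof om_proof chi_proof hCV tens_proof) om_proof baseA_proof prb_proof)
    par_proof asy_proof (baseB_proof baseA_proof) triv_proof prb_proof

end Crest.Agent.R300U
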