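import Crest.Agent.R300U.PAR

/-! Row 300, upper bound: task ASY (the total exponent against the budget). -/

set_option autoImplicit false

namespace Crest.Agent.R300U

open Crest.Agent.PT Crest.Agent.QC Crest.Agent.R317 Finset

namespace Asy

open Par

theorem hnext_le {P : LP} (h : P.OK) (b : ℕ) (hb : P.bb = 21 + b) (ℓ k : ℕ) :
    hnext P ℓ k ≤ 4 * k + 4 * ℓ + 2 ^ 31 * (2 ^ b * P.E) := by
  have h1 : P.mc = 2 ^ 25 * (2 ^ b * P.E) := by
    have h2 := h.hmc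
    rw [h.hG, hb] at h2
    refine Nat.eq_of_mul_eq_mul_right (m := 2 ^ P.r' * 4) (by positivity) ?_
    rw [← mul_assoc, h2]
    ring
  have h2 : (2 * P.M + 1).size ≤ 2 * P.M + 1 := Nat.size_le.mpr Nat.lt_two_pow_self
  have h3 := h.hE
  have h4 := h.hM
  have h5 : 1 * P.E ≤ 2 ^ b * P.E := Nat.mul_le_mul_right _ Nat.one_le_two_pow
  unfold hnext
  omega

theorem hh_le {u : ℕ} (hu : 65536 ≤ u) (n : ℕ) (p : ℚ) (l : ℕ) (hl : l ≤ LL n p) :
    hh u n p l ≤ 4 ^ l * (hh u n p 0 +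
      l * (n.size + 2 ^ 29 * (2 ^ LL n p * EE u (ee p) (LL n p) 0))) := by
  induction l with
  | zero => simp
  | succ l ih =>
    have h1 := ih (by omega)
    have h2 : hh u n p (l + 1) ≤ 4 * hh u n p l + 4 * n.size +
        2 ^ 31 * (2 ^ (LL n p - 2 * l) * EE u (ee p) (LL n p) l) :=
      hnext_le (par_ok hu (ee p) (LL n p) l) (LL n p - 2 * l) rfl _ _
    have h3 : 2 ^ (LL n p - 2 * l) * EE u (ee p) (LL n p) l ≤
        4 ^ l * (2 ^ LL n p * EE u (ee p) (LL n p) 0) := by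
      have e1 : EE u (ee p) (LL n p) l = 4 ^ l * (2 ^ l * EE u (ee p) (LL n p) 0) := by
        unfold EE
        rw [show 8 = 4 * 2 by norm_num, mul_pow]
        ring
      have e2 : 2 ^ (LL n p - 2 * l) * 2 ^ l ≤ 2 ^ LL n p := by
        rw [← pow_add]
        exact Nat.pow_le_pow_right (by norm_num) (by omega)
      rw [e1, mul_left_comm, ← mul_assoc (2 ^ (LL n p - 2 * l))]
      gcongr
    have h4 : 1 * n.size ≤ 4 ^ l * n.size := Nat.mul_le_mul_right _ (Nat.one_le_pow _ _ (by norm_num))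
    generalize 2 ^ LL n p * EE u (ee p) (LL n p) 0 = F at *
    have e : 4 ^ (l + 1) * (hh u n p 0 + (l + 1) * (n.size + 2 ^ 29 * F)) =
        4 * (4 ^ l * (hh u n p 0 + l * (n.size + 2 ^ 29 * F))) + 4 * (4 ^ l * n.size) +
          2 ^ 31 * (4 ^ l * F) := by ring
    omega

theorem WW_le {u n : ℕ} {p : ℚ} (hu : 65536 ≤ u) (h : Reg n p) :
    WW u n p ≤ (2 ^ (u + 4) + 2 ^ 53) * (u + 3) *
      (4 ^ LL n p * (n.size + 14) * (LL n p + 1) ^ 2) := by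
  obtain ⟨h1, -⟩ := ee_spec h
  obtain ⟨-, h2⟩ := LL_spec h
  have h3 := hh_le hu n p _ le_rfl
  have h4 : hh u n p 0 = n.size + 2 ^ (u + 2) * (2 ^ LL n p * (u + LL n p + 3)) + 1 := by
    have : rr u (ee p) (LL n p) 0 = u + LL n p := by simp [rr]
    simp only [hh, kk, id, this]
    ring
  have h5 : EE u (ee p) (LL n p) (LL n p) = 4 ^ LL n p * (2 ^ LL n p * EE u (ee p) (LL n p) 0) := by
    unfold EE
    rw [show 8 = 4 * 2 by norm_num, mul_pow]
    ring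
  have h6 : EE u (ee p) (LL n p) 0 ≤ 2 ^ 21 * (u + ee p + LL n p) := by
    have hs : 0 < (u + ee p + LL n p).size := Nat.size_pos.mpr (by omega)
    have : 2 ^ ((u + ee p + LL n p).size - 1) ≤ u + ee p + LL n p := Nat.lt_size.mp (by omega)
    calc EE u (ee p) (LL n p) 0 = 2 ^ 21 * 2 ^ ((u + ee p + LL n p).size - 1) := by
          rw [EE_eq, ← pow_add]; exact congrArg (2 ^ ·) (by omega)
      _ ≤ _ := Nat.mul_le_mul_left _ this
  unfold WW
  rw [h5]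
  generalize ee p = e at *
  generalize LL n p = L at *
  generalize EE u e L 0 = E₀ at *
  generalize hh u n p L = H at *
  generalize hh u n p 0 = H₀ at *
  generalize n.size = ℓ at *
  obtain ⟨Z, hZ⟩ : ∃ Z, Z = (ℓ + 14) * ((u + 3) * (L + 1)) := ⟨_, rfl⟩
  have b0 : u + L + 3 ≤ (u + 3) * (L + 1) := by nlinarith
  have b1 : u + e + L ≤ e * ((u + 3) * (L + 1)) := by
    have : u + e + L ≤ e * (u + L + 3) := by nlinarith
    exact this.trans (Nat.mul_le_mul_left _ b0)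
  have b2 : ℓ + 14 ≤ Z := by
    rw [hZ]; exact Nat.le_mul_of_pos_right _ (Nat.mul_pos (by omega) (by omega))
  have b3 : 2 ^ L * E₀ ≤ 2 ^ 23 * Z := by
    calc 2 ^ L * E₀ ≤ 2 ^ L * (2 ^ 21 * (e * ((u + 3) * (L + 1)))) := by
          gcongr; exact h6.trans (Nat.mul_le_mul_left _ b1)
      _ = 2 ^ 21 * ((2 ^ L * e) * ((u + 3) * (L + 1))) := by ring
      _ ≤ 2 ^ 21 * ((4 * (ℓ + 14)) * ((u + 3) * (L + 1))) := by gcongr
      _ = _ := by rw [hZ]; ring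
  have b4 : 2 ^ L * (u + L + 3) ≤ 4 * Z := by
    have : 2 ^ L ≤ 4 * (ℓ + 14) := (Nat.le_mul_of_pos_right _ (by omega)).trans h2
    calc 2 ^ L * (u + L + 3) ≤ 4 * (ℓ + 14) * ((u + 3) * (L + 1)) := Nat.mul_le_mul this b0
      _ = _ := by rw [hZ]; ring
  have b5 : H₀ ≤ Z + 2 ^ (u + 4) * Z := by
    have : 2 ^ (u + 2) * (2 ^ L * (u + L + 3)) ≤ 2 ^ (u + 4) * Z := by
      calc _ ≤ 2 ^ (u + 2) * (4 * Z) := Nat.mul_le_mul_left _ b4
        _ = _ := by ring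
    omega
  have b6 : H ≤ 4 ^ L * ((L + 1) * (Z + 2 ^ (u + 4) * Z) + (L + 1) * (Z + 2 ^ 29 * (2 ^ 23 * Z))) := by
    refine h3.trans ?_
    gcongr
    · exact b5.trans (Nat.le_mul_of_pos_left _ (by omega))
    · omega
    · omega
  have b7 : 4 ^ L * (2 ^ L * E₀) ≤ 2 ^ 23 * (4 ^ L * ((L + 1) * Z)) := by
    calc _ ≤ 4 ^ L * ((L + 1) * (2 ^ 23 * Z)) :=
          Nat.mul_le_mul_left _ (b3.trans (Nat.le_mul_of_pos_left _ (Nat.succ_pos L)))
      _ = _ := by ring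
  have b8 : Z ≤ 4 ^ L * ((L + 1) * Z) :=
    (Nat.le_mul_of_pos_left _ (by omega)).trans (Nat.le_mul_of_pos_left _ (by positivity))
  have e1 : 4 ^ L * ((L + 1) * (Z + 2 ^ (u + 4) * Z) + (L + 1) * (Z + 2 ^ 29 * (2 ^ 23 * Z))) =
      2 ^ (u + 4) * (4 ^ L * ((L + 1) * Z)) + (2 ^ 52 + 2) * (4 ^ L * ((L + 1) * Z)) := by ring
  have e2 : (2 ^ (u + 4) + 2 ^ 53) * (u + 3) * (4 ^ L * (ℓ + 14) * (L + 1) ^ 2) =
      2 ^ (u + 4) * (4 ^ L * ((L + 1) * Z)) + 2 ^ 53 * (4 ^ L * ((L + 1) * Z)) := by rw [hZ]; ring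
  rw [e2]
  rw [e1] at b6
  omega

end Asy

open Par Asy in
theorem asy_proof : AsyStmt := by
  intro C₁ u hu
  obtain ⟨c, hcW⟩ : ∃ c : ℕ, ∀ n p, Reg n p →
      WW u n p ≤ c * (4 ^ LL n p * (n.size + 14) * (LL n p + 1) ^ 2) :=
    ⟨_, fun n p h => WW_le hu h⟩
  refine ⟨100 * C₁ * c * (192 ^ 2 * 24 * 10 ^ 3 * 2), fun n p hR => ?_⟩
  obtain ⟨h1, -, -, h3⟩ := ee_spec hR
  obtain ⟨-, h2⟩ := LL_spec hR
  have hW := hcW n p hR
  obtain ⟨hn, hp0, hp1, -, -⟩ := hR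
  have hp0' : (0 : ℝ) < p := by exact_mod_cast hp0
  have hp1' : (p : ℝ) < 1 := by exact_mod_cast hp1
  have hl2 := Real.log_two_gt_d9
  have hl2' := Real.log_two_lt_d9
  have hs2 : 2 ≤ n.size := Nat.lt_size.mpr hn
  have hlog : ((n.size : ℝ) - 1) * Real.log 2 ≤ Real.log n := by
    have h4 : 2 ^ (n.size - 1) ≤ n := Nat.lt_size.mp (by omega)
    have h5 : ((2 : ℝ) ^ (n.size - 1)) ≤ n := by exact_mod_cast h4
    have h6 := Real.log_le_log (by positivity) h5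
    rw [Real.log_pow, Nat.cast_sub (by omega)] at h6
    simpa using h6
  have hs2' : (2 : ℝ) ≤ n.size := by exact_mod_cast hs2
  have hΛ : (n.size : ℝ) + 14 ≤ 24 * Real.log n := by nlinarith
  have hlog0 : 0 ≤ Real.log n := by linarith
  have hq0 : 0 ≤ Real.log (1 / (1 - (p : ℝ))) :=
    Real.log_nonneg (by rw [le_div_iff₀ (by linarith)]; linarith)
  have he : (2 : ℝ) ≤ ee p := by exact_mod_cast h1
  have hq1 : 1 + Real.log (1 / (1 - (p : ℝ))) ≤ 2 * ee p := by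
    have h4 : 1 < (1 - p) * 2 ^ (ee p + 1) :=
      h3.trans_le (mul_le_mul_of_nonneg_right (min_le_left _ _) (by positivity))
    have h5 : (1 : ℝ) < (1 - p) * 2 ^ (ee p + 1) := by exact_mod_cast h4
    have h6 : 1 / (1 - (p : ℝ)) ≤ 2 ^ (ee p + 1) := by
      rw [div_le_iff₀ (by linarith)]; linarith
    have h7 := Real.log_le_log (by have : (0 : ℝ) < 1 - p := by linarith
                                   positivity) h6
    rw [Real.log_pow] at h7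
    push_cast at h7
    nlinarith
  set X : ℝ := 1 + Real.log n / (1 + Real.log (1 / (1 - (p : ℝ)))) with hX
  have hX1 : 1 ≤ X := by
    have : 0 ≤ Real.log n / (1 + Real.log (1 / (1 - (p : ℝ)))) := by positivity
    linarith
  have hX2 : Real.log n ≤ X * (2 * ee p) := by
    have h4 : Real.log n / (1 + Real.log (1 / (1 - (p : ℝ)))) ≤ X := by linarith
    rw [div_le_iff₀ (by linarith)] at h4
    exact h4.trans (mul_le_mul_of_nonneg_left hq1 (by linarith))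
  have hL : (2 : ℝ) ^ LL n p ≤ 192 * X := by
    have h4 : (2 : ℝ) ^ LL n p * ee p ≤ 4 * (n.size + 14) := by exact_mod_cast h2
    refine le_of_mul_le_mul_right (a := (ee p : ℝ)) ?_ (by linarith)
    nlinarith
  have hY0 : 0 ≤ Real.log X := Real.log_nonneg hX1
  have hL1 : (LL n p : ℝ) + 1 ≤ 10 * (1 + Real.log X) := by
    have h4 : (2 : ℝ) ^ LL n p ≤ 2 ^ 8 * X := by linarith
    have h5 := Real.log_le_log (by positivity) h4
    rw [Real.log_mul (by positivity) (by linarith), Real.log_pow, Real.log_pow] at h5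
    push_cast at h5
    have h6 : (0 : ℝ) ≤ LL n p := Nat.cast_nonneg _
    nlinarith
  have hc : (⌈1 / p⌉₊ : ℝ) ≤ 2 * (p : ℝ)⁻¹ := by
    have h4 : (⌈1 / p⌉₊ : ℚ) < 1 / p + 1 := Nat.ceil_lt_add_one (by positivity)
    have h5 : (⌈1 / p⌉₊ : ℝ) < 1 / p + 1 := by exact_mod_cast h4
    have h6 : (1 : ℝ) ≤ (p : ℝ)⁻¹ := one_le_inv₀ hp0' |>.mpr hp1'.le
    rw [one_div (p : ℝ)] at h5
    linarith
  have h4L : (4 : ℝ) ^ LL n p ≤ (192 * X) ^ 2 := by
    rw [show (4 : ℝ) = 2 ^ 2 by norm_num, ← pow_mul, mul_comm, pow_mul]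
    gcongr
  have hW' : (WW u n p : ℝ) ≤ c * (4 ^ LL n p * (n.size + 14) * (LL n p + 1) ^ 2) := by
    exact_mod_cast hW
  set Y : ℝ := 1 + Real.log X with hY
  have hY1 : 1 ≤ Y := by linarith
  have hY3 : Y ^ 3 ≤ Y ^ 6 := pow_le_pow_right₀ hY1 (by norm_num)
  unfold tot Bud
  rw [← hX, ← hY]
  push_cast
  have hW'' : (WW u n p : ℝ) ≤ c * ((192 * X) ^ 2 * (24 * Real.log n) * (10 * Y) ^ 2) := by
    refine hW'.trans ?_
    gcongr
  have hW0 : (0 : ℝ) ≤ WW u n p := Nat.cast_nonneg _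
  generalize (WW u n p : ℝ) = w at hW'' hW0 ⊢
  calc 100 * ((LL n p : ℝ) + 1) * C₁ * w * ⌈1 / p⌉₊
      ≤ 100 * (10 * Y) * C₁ * (c * ((192 * X) ^ 2 * (24 * Real.log n) * (10 * Y) ^ 2)) *
        (2 * (p : ℝ)⁻¹) := by
        gcongr
    _ = 100 * C₁ * c * (192 ^ 2 * 24 * 10 ^ 3 * 2) * ((p : ℝ)⁻¹ * Real.log n * X ^ 2 * Y ^ 3) := by
        ring
    _ ≤ _ := by gcongr

end Crest.Agent.R300U
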