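import Crest.Agent.R300U.DefsC
import Crest.Agent.R300U.GPTQ

/-!
Row 300, upper bound: polynomial time for the parameters (natural and rational valued).
-/

set_option autoImplicit false

namespace Crest.Agent.R300U

open Crest.Agent.PT Crest.Agent.QC Crest.Agent.R317 Finset

variable {α : Type} [Enc α]

/-- The list of fields. -/
def LP.toL (P : LP) : List ℕ := [P.r, P.r', P.E, P.bb, P.G, P.M, P.J, P.a, P.η, P.K, P.mc, P.T]

theorem pt_lp_toL {P : α → LP} (h : PT P) : PT (fun x => (P x).toL) := h.of_enc_eq fun _ => rfl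

theorem pt_lp_get {P : α → LP} (h : PT P) (i : ℕ) : PT (fun x => (P x).toL.getD i 0) :=
  pt_getD (pt_lp_toL h) (PT.const i) (PT.const 0)

@[fun_prop] theorem pt_lp_r {P : α → LP} (h : PT P) : PT (fun x => (P x).r) := pt_lp_get h 0
@[fun_prop] theorem pt_lp_r' {P : α → LP} (h : PT P) : PT (fun x => (P x).r') := pt_lp_get h 1
@[fun_prop] theorem pt_lp_E {P : α → LP} (h : PT P) : PT (fun x => (P x).E) := pt_lp_get h 2
@[fun_prop] theorem pt_lp_bb {P : α → LP} (h : PT P) : PT (fun x => (P x).bb) := pt_lp_get h 3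
@[fun_prop] theorem pt_lp_G {P : α → LP} (h : PT P) : PT (fun x => (P x).G) := pt_lp_get h 4
@[fun_prop] theorem pt_lp_M {P : α → LP} (h : PT P) : PT (fun x => (P x).M) := pt_lp_get h 5
@[fun_prop] theorem pt_lp_J {P : α → LP} (h : PT P) : PT (fun x => (P x).J) := pt_lp_get h 6
@[fun_prop] theorem pt_lp_a {P : α → LP} (h : PT P) : PT (fun x => (P x).a) := pt_lp_get h 7
@[fun_prop] theorem pt_lp_η {P : α → LP} (h : PT P) : PT (fun x => (P x).η) := pt_lp_get h 8
@[fun_prop] theorem pt_lp_K {P : α → LP} (h : PT P) : PT (fun x => (P x).K) := pt_lp_get h 9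
@[fun_prop] theorem pt_lp_mc {P : α → LP} (h : PT P) : PT (fun x => (P x).mc) := pt_lp_get h 10
@[fun_prop] theorem pt_lp_T {P : α → LP} (h : PT P) : PT (fun x => (P x).T) := pt_lp_get h 11

@[fun_prop] theorem bt_lp_r {P : α → LP} (h : PT P) : BT (fun x => (P x).r) := .ofPT (pt_lp_r h)
@[fun_prop] theorem bt_lp_r' {P : α → LP} (h : PT P) : BT (fun x => (P x).r') := .ofPT (pt_lp_r' h)
@[fun_prop] theorem bt_lp_E {P : α → LP} (h : PT P) : BT (fun x => (P x).E) := .ofPT (pt_lp_E h)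
@[fun_prop] theorem bt_lp_bb {P : α → LP} (h : PT P) : BT (fun x => (P x).bb) := .ofPT (pt_lp_bb h)
@[fun_prop] theorem bt_lp_G {P : α → LP} (h : PT P) : BT (fun x => (P x).G) := .ofPT (pt_lp_G h)
@[fun_prop] theorem bt_lp_M {P : α → LP} (h : PT P) : BT (fun x => (P x).M) := .ofPT (pt_lp_M h)
@[fun_prop] theorem bt_lp_J {P : α → LP} (h : PT P) : BT (fun x => (P x).J) := .ofPT (pt_lp_J h)
@[fun_prop] theorem bt_lp_a {P : α → LP} (h : PT P) : BT (fun x => (P x).a) := .ofPT (pt_lp_a h)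
@[fun_prop] theorem bt_lp_mc {P : α → LP} (h : PT P) : BT (fun x => (P x).mc) := .ofPT (pt_lp_mc h)

theorem pt_lp_mk {r r' E bb G M J a η K mc T : α → ℕ} (h1 : PT r) (h2 : PT r') (h3 : PT E)
    (h4 : PT bb) (h5 : PT G) (h6 : PT M) (h7 : PT J) (h8 : PT a) (h9 : PT η) (h10 : PT K)
    (h11 : PT mc) (h12 : PT T) :
    PT (fun x => LP.mk (r x) (r' x) (E x) (bb x) (G x) (M x) (J x) (a x) (η x) (K x) (mc x)
      (T x)) :=
  (pt_cons h1 (pt_cons h2 (pt_cons h3 (pt_cons h4 (pt_cons h5 (pt_cons h6 (pt_cons h7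
    (pt_cons h8 (pt_cons h9 (pt_cons h10 (pt_cons h11 (pt_cons h12
      (PT.const ([] : List ℕ)))))))))))))).of_enc_eq fun _ => rfl

@[fun_prop] theorem bt_rr {u e L l : α → ℕ} (hu : BT u) (he : BT e) (hL : BT L) (hl : PT l) :
    BT (fun x => rr (u x) (e x) (L x) (l x)) :=
  ((((BT.const 2).pow hl).mul (hu.add he)).sub he).add hL

@[fun_prop] theorem bt_EE {u e L l : α → ℕ} (hu : BT u) (he : BT e) (hL : BT L) (hl : PT l) :
    BT (fun x => EE (u x) (e x) (L x) (l x)) :=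
  ((BT.const 8).pow hl).mul ((BT.const 2).pow ((((hu.add he).add hL).size).add (PT.const 20)))

@[fun_prop] theorem pt_par {N u e L l : α → ℕ} (hN : PT N) (hu : PT u) (he : PT e) (hL : PT L)
    (hl : PT l) : PT (fun x => par (un (N x)) (u x) (e x) (L x) (l x)) := by
  have hr : PT (fun x => un (N x) (rr (u x) (e x) (L x) (l x))) :=
    pt_un hN (bt_rr (.ofPT hu) (.ofPT he) (.ofPT hL) hl)
  have hr' : PT (fun x => un (N x) (rr (u x) (e x) (L x) (l x + 1))) :=
    pt_un hN (bt_rr (.ofPT hu) (.ofPT he) (.ofPT hL) (hl.add (PT.const 1)))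
  have hE : PT (fun x => un (N x) (EE (u x) (e x) (L x) (l x))) :=
    pt_un hN (bt_EE (.ofPT hu) (.ofPT he) (.ofPT hL) hl)
  have hb : PT (fun x => 21 + (L x - 2 * l x)) :=
    (PT.const 21).add (hL.sub ((PT.const 2).mul hl))
  have h2E := (PT.const 2).mul hE
  have two : ∀ {k : α → ℕ}, PT k → BT (fun x => 2 ^ k x) := fun hk => (BT.const 2).pow hk
  have hG := pt_un hN (((BT.const 16).mul (.ofPT hE)).mul (two (hr'.add (PT.const 2))))
  exact pt_lp_mk hr hr' hE hb hG ((PT.const 409600).mul hE)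
    (pt_un hN (two ((h2E.add (PT.const 7)).sub hr)))
    (pt_un hN ((two h2E).div ((BT.ofPT hG).mul (BT.const 8))))
    (pt_un hN (two (h2E.sub (hr'.add (PT.const 5)))))
    (pt_un hN (two ((hr'.add (PT.const 12)).sub hr)))
    (pt_un hN (((two hb).mul (.ofPT hG)).div ((two hr').mul (BT.const 4))))
    (pt_un hN (two ((PT.const 3).mul hE)))

@[fun_prop] theorem pt_ee {p : α → ℚ} (hp : PT p) : PT (fun x => ee (p x)) := by
  unfold ee
  exact (BT.size (bt_qfloor (pt_qdiv (PT.const 1) (pt_qmin (pt_qsub (PT.const 1) hp)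
    (PT.const (1 / 4)))))).sub (PT.const 1)

@[fun_prop] theorem pt_size {n : α → ℕ} (hn : PT n) : PT (fun x => (n x).size) := (BT.ofPT hn).size

@[fun_prop] theorem pt_LL {n : α → ℕ} {p : α → ℚ} (hn : PT n) (hp : PT p) :
    PT (fun x => LL (n x) (p x)) :=
  pt_size (((PT.const 2).mul ((pt_size hn).add (PT.const 14))).div (pt_ee hp))

@[fun_prop] theorem pt_kk {N u e L : α → ℕ} (hN : PT N) (hu : PT u) (he : PT e) (hL : PT L) :
    PT (fun x => kk (un (N x)) (u x) (e x) (L x)) := by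
  have hr : PT (fun x => un (N x) (rr (u x) (e x) (L x) 0)) :=
    pt_un hN (bt_rr (.ofPT hu) (.ofPT he) (.ofPT hL) (PT.const 0))
  exact pt_un hN (((BT.const 2).pow (hr.add (PT.const 1))).mul (.ofPT (hr.add (PT.const 3))))

@[fun_prop] theorem pt_cP (u : ℕ) {c : α → Ctx} {l : α → ℕ} (hc : PT c) (hl : PT l) :
    PT (fun x => cP u (c x) (l x)) :=
  pt_par hc.snd.snd.fst (PT.const u) (pt_ee hc.snd.fst) (pt_LL hc.fst hc.snd.fst) hl

@[fun_prop] theorem pt_nQ {J : α → ℕ} (hJ : PT J) : PT (fun x => nQ (J x)) :=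
  (PT.const 3).mul (((PT.const 2).mul hJ).add (PT.const 1))

@[fun_prop] theorem pt_nch {P : α → LP} (h : PT P) : PT (fun x => (P x).nch) :=
  (((PT.const 8).mul (pt_lp_M h)).add (PT.const 1)).mul ((pt_nQ (pt_lp_J h)).pow 4)

@[fun_prop] theorem pt_code4 {Q e0 e1 e2 e3 : α → ℕ} (hQ : PT Q) (h0 : PT e0) (h1 : PT e1)
    (h2 : PT e2) (h3 : PT e3) : PT (fun x => code4 (Q x) (e0 x) (e1 x) (e2 x) (e3 x)) :=
  h0.add (hQ.mul (h1.add (hQ.mul (h2.add (hQ.mul h3)))))

@[fun_prop] theorem zt_frq {J e : α → ℕ} (hJ : PT J) (he : PT e) :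
    ZT (fun x => frq (J x) (e x)) := ZT.ofSub (he.div (PT.const 3)) hJ

@[fun_prop] theorem pt_hnext {P : α → LP} {l h : α → ℕ} (hP : PT P) (hl : PT l) (hh : PT h) :
    PT (fun x => hnext (P x) (l x) (h x)) :=
  ((PT.const 4).mul ((((((hh.add hl).add (pt_size (((PT.const 2).mul (pt_lp_M hP)).add
    (PT.const 1)))).add ((PT.const 5).mul (pt_lp_mc hP))).add (pt_lp_r' hP))).add
      (PT.const 8))).add ((PT.const 2).mul (pt_lp_E hP))

@[fun_prop] theorem bt_factorial {n : α → ℕ} (hn : PT n) : BT (fun x => (n x).factorial) :=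
  (BT.prod (f := fun _ i => i + 1) hn (BT.ofPT (PT.id'.snd.add (PT.const 1)))).congr fun x =>
    Finset.prod_range_add_one_eq_factorial _

@[fun_prop] theorem bt_choose {n k : α → ℕ} (hn : PT n) (hk : PT k) :
    BT (fun x => (n x).choose (k x)) :=
  (BT.ite (DT.le (.ofPT hk) (.ofPT hn)) ((bt_factorial hn).div
    ((bt_factorial hk).mul (bt_factorial (hn.sub hk)))) (BT.const 0)).congr fun x => by
      split_ifs with h
      · rw [Nat.choose_eq_factorial_div_factorial h]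
      · rw [Nat.choose_eq_zero_of_lt (by omega)]

theorem pt_two_pow {k : α → ℕ} (hk : PT k) : PT (fun x => (2 : ℚ) ^ k x) := pt_qpow (PT.const 2) hk

@[fun_prop] theorem pt_cf {M k : α → ℕ} (hM : PT M) (hk : PT k) : PT (fun x => cf (M x) (k x)) :=
  pt_qdiv (pt_qnat (bt_choose ((PT.const 2).mul hM) hk)) (pt_qpow (PT.const 4) hM)

@[fun_prop] theorem pt_vr {P : α → LP} (h : PT P) : PT (fun x => (P x).vr) :=
  pt_qsub (PT.const 1) (pt_qdiv (PT.const 1) (pt_two_pow ((pt_lp_r' h).add (PT.const 2))))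

@[fun_prop] theorem pt_beta {P : α → LP} (h : PT P) : PT (fun x => (P x).β) :=
  pt_qdiv (pt_two_pow (pt_lp_bb h)) (pt_two_pow (pt_lp_r' h))

@[fun_prop] theorem pt_Hn {P : α → LP} {t : α → ℕ} (h : PT P) (ht : PT t) :
    PT (fun x => (P x).Hn (t x)) := by
  have hE := pt_lp_E h
  have h1 : ZT (fun x => ((t x : ℕ) : ℤ) - 4 * ((P x).M : ℤ)) :=
    (ZT.natCast ht).sub ((ZT.const 4).mul (ZT.natCast (pt_lp_M h)))
  exact pt_qdiv (pt_two_pow (((((PT.const 45).mul hE).div (PT.const 256)).add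
    ((PT.const 2).mul hE)).sub ((h1.natAbs.pow 2).div ((PT.const 1179648).mul hE))))
    (pt_two_pow ((PT.const 2).mul hE))

@[fun_prop] theorem pt_lw {l M h : α → ℕ} (hl : PT l) (hM : PT M) (hh : PT h) :
    PT (fun x => lw (l x) (M x) (h x)) :=
  pt_qdiv (PT.const 1) (pt_two_pow (((hl.add (pt_size (((PT.const 2).mul hM).add
    (PT.const 1)))).add hh).add (PT.const 2)))

@[fun_prop] theorem pt_cT {β ν : α → ℚ} {s' s : α → ℕ} (hβ : PT β) (hν : PT ν) (hs' : PT s')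
    (hs : PT s) : PT (fun x => cT (β x) (ν x) (s' x) (s x)) := by
  have e : ∀ {f g : α → ℕ}, PT f → PT g → DT (fun x => f x = g x) := fun hf hg =>
    DT.eq (.ofPT hf) (.ofPT hg)
  have h1 := pt_qsub (PT.const 1) hβ
  exact PT.iteD (e hs' (PT.const 0)) (PT.const 0) (PT.iteD (e hs (PT.const 0))
    (PT.iteD (e hs' (PT.const 1)) (pt_qmul h1 hν) (PT.iteD (e hs' (PT.const 2))
      (pt_qdiv (pt_qmul hβ hν) (PT.const 32)) (PT.const 0)))
    (PT.iteD (e hs' hs) h1 (PT.iteD (e hs' (hs.add (PT.const 1))) (pt_qdiv hβ (PT.const 32))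
      (PT.const 0))))

@[fun_prop] theorem pt_cR {ν : α → ℚ} {s : α → ℕ} (hν : PT ν) (hs : PT s) :
    PT (fun x => cR (ν x) (s x)) :=
  PT.iteD (DT.eq (.ofPT hs) (BT.const 0)) (PT.const 1)
    (pt_qdiv (pt_qpow (PT.const 32) (hs.sub (PT.const 1))) hν)

@[fun_prop] theorem pt_rcq {E r : α → ℕ} {z : α → ℚ} (hE : PT E) (hr : PT r) (hz : PT z) :
    PT (fun x => rcq (E x) (r x) (z x)) := by
  have h1 := pt_two_pow (hr.add (PT.const 2))
  exact pt_qmax (pt_qneg h1) (pt_qmin h1 (pt_qdiv (pt_qint (pt_qfloor (pt_qmul hz (pt_two_pow hE))))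
    (pt_two_pow hE)))

@[fun_prop] theorem pt_rho0 {r : α → ℕ} (hr : PT r) : PT (fun x => rho0 (r x)) :=
  pt_qpow (pt_qsub (PT.const 1) (pt_qdiv (PT.const 1) (pt_two_pow (hr.add (PT.const 2)))))
    (PT.const 4)

end Crest.Agent.R300U
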