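import Crest.Agent.R300U.GQ

/-!
Row 300, upper bound: task statements, part A (probability, machine-level modules, pure analysis).
Every `…Stmt` is a task; prove `theorem xxx_proof : XxxStmt` (hypotheses named in the docstring may
be taken as arguments).
-/

set_option autoImplicit false

namespace Crest.Agent.R300U

open Crest.Agent.PT Crest.Agent.QC Crest.Agent.R317 Finset Crest.FinProb Crest.TraceRecon

/-! ### Probability -/

open Classical in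
/-- Probability of an event about `m` independent retention patterns of length `n`. -/
noncomputable def Pr (p : ℝ) (n m : ℕ) (E : (Fin m → Fin n → Bool) → Prop) : ℝ :=
  ∑ ks : Fin m → Fin n → Bool, (∏ k, bernoulliWeight p (ks k)) * (if E ks then 1 else 0)

/-- The list of observed traces. -/
def trs {n m : ℕ} (x : Fin n → Bool) (ks : Fin m → Fin n → Bool) : List (List Bool) :=
  List.ofFn fun k => traceOf x (ks k)

/-- The exponent in the trace budget. -/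
noncomputable def Bud (n : ℕ) (p : ℝ) : ℝ :=
  p⁻¹ * Real.log n * (1 + Real.log n / (1 + Real.log (1 / (1 - p)))) ^ 2 *
    (1 + Real.log (1 + Real.log n / (1 + Real.log (1 / (1 - p))))) ^ 6

/-- The main theorem: a deterministic decoder `dec (n, p, traces, N)` (`n` and the padding `N` in
unary). -/
def CoreStmt : Prop := ∃ C : ℝ, 1 ≤ C ∧
  ∃ dec : ℕ × ℚ × List (List Bool) × ℕ → List Bool, PT dec ∧
    ∀ n : ℕ, 2 ≤ n → ∀ p : ℚ, 0 < p → p < 1 → ∀ m N : ℕ, Real.exp (C * Bud n p) ≤ m → m ≤ N →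
      ∀ x : Fin n → Bool,
        Pr p n m (fun ks => dec (n, p, trs x ks, N) ≠ List.ofFn x) ≤ 1 / (8 * n)

/-- TASK PRB (basic rules for `Pr`). -/
def PrbStmt : Prop := ∀ (p : ℝ) (n m : ℕ), 0 ≤ p → p ≤ 1 →
  (∀ E F : (Fin m → Fin n → Bool) → Prop, (∀ ks, E ks → F ks) → Pr p n m E ≤ Pr p n m F) ∧
  (∀ E : (Fin m → Fin n → Bool) → Prop, 0 ≤ Pr p n m E ∧ Pr p n m E + Pr p n m (fun ks => ¬ E ks) = 1) ∧
  (∀ E F : (Fin m → Fin n → Bool) → Prop,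
    Pr p n m (fun ks => E ks ∨ F ks) ≤ Pr p n m E + Pr p n m F) ∧
  (∀ (k : ℕ) (E : ℕ → (Fin m → Fin n → Bool) → Prop),
    Pr p n m (fun ks => ∃ i < k, E i ks) ≤ ∑ i ∈ range k, Pr p n m (E i))

/-- TASK CHEB (Chebyshev for an empirical mean of a bounded complex statistic). Expand
`‖∑ₖ (Z (ks k) - μ)‖²`; the cross terms vanish (`Finset.prod_univ_sum` / `Fintype.piFinset`), the
diagonal terms are `E‖Z‖² - ‖μ‖² ≤ H²`. -/
def ChebStmt : Prop := ∀ (p : ℝ) (n m : ℕ) (Z : (Fin n → Bool) → ℂ) (H t : ℝ), 0 ≤ p → p ≤ 1 →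
  0 < m → 0 < t → (∀ k, ‖Z k‖ ≤ H) →
  Pr p n m (fun ks => t < ‖(∑ k, Z (ks k)) / m - ∑ k, (bernoulliWeight p k : ℂ) * Z k‖) ≤
    H ^ 2 / (m * t ^ 2)

/-- TASK TRIV (the trivial regimes). A trace of full length is the word itself; when `p n² < 1` or
`(1-p) n < 1` one appears: the failure probability is `(1 - pⁿ)^m ≤ exp(-m pⁿ)`. For `p n² < 1`:
`n log(1/p) ≤ 2 n p^{-1/2} ≤ 2/p`; for `(1-p) n < 1`: `pⁿ ≥ (1-1/n)ⁿ ≥ 1/4`. Note `Bud n p ≥ p⁻¹ log n`,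
`log n ≥ log 2`. -/
def TrivStmt : Prop :=
  (∀ (n : ℕ) (x k : Fin n → Bool), (traceOf x k).length = n → traceOf x k = List.ofFn x) ∧
  ∃ C : ℝ, ∀ n : ℕ, 2 ≤ n → ∀ p : ℝ, 0 < p → p < 1 → (p * n ^ 2 < 1 ∨ (1 - p) * n < 1) →
    ∀ m : ℕ, Real.exp (C * Bud n p) ≤ m → ∀ x : Fin n → Bool,
      Pr p n m (fun ks => ∀ k, (traceOf x (ks k)).length ≠ n) ≤ 1 / (8 * n)

/-- The automaton whose value on the word is the mean value of `a` on the trace. -/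
noncomputable def mix (p : ℚ) (a : FA) : FA :=
  { a with A := fun σ i j => (if i = j then ((1 - p : ℚ) : GQ) else 0) + (p : GQ) * a.A σ i j }

/-- TASK MIX. Induction on `n` (`Fin.snoc`/`Fin.cons`; generalise the initial vector: prove it for
`a.st` started from any `h`, e.g. by induction from the left with `{a with h := …}` and linearity
of `val` in `h` on the range `< d`). -/
def MixStmt : Prop := ∀ (p : ℚ) (a : FA) (n : ℕ) (x : Fin n → Bool),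
  ∑ k : Fin n → Bool, (bernoulliWeight (p : ℝ) k : ℂ) * (a.val (traceOf x k) : ℂ) =
    ((mix p a).val (List.ofFn x) : ℂ)

/-- TASK FIN56: `CoreStmt → PrbStmt →` the statement of S0456 (state it literally as in the template).
Take `m = ⌊exp(C' Bud n p)⌋`, a rational `p₁` with `Bud n p₁ ≤ 2 Bud n p` and `m n |p - p₁|` tiny
(continuity of `Bud n ·` at `p`; `∑_ω |w_p ω - w_{p₁} ω| ≤ 2 N |p - p₁|` for `N` coins, by
induction). For a symbol `a` project the traces by `s ↦ decide (s = a)`: these are the traces of the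
binary word `i ↦ decide (x i = a)` under the same patterns. Deterministic rule: position `i` gets a
symbol `a` whose decoded word has `true` at `i` (any symbol if none). It is right if the decoder is
right for every `a` in the range of `x` (`≤ n` events) and for the all-`false` word (one event,
the same for all other `a`): failure `≤ (n+1)/(8n) + small ≤ 1/3`.
TASK FIN57: `CoreStmt → PairStmt → PrbStmt →` the statement of S0457. `A (w, tape) = dec (un N n, p,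
traces, N)` with `N = |w|`, `r = 0`; parse with `rdNat`, `skip` (R317/Lib), the rational from sign,
numerator, denominator (needs the `PT` lemmas for `ℚ` of task GPT), the traces by `m` rounds of
"read length, take, drop" (`m ≤ N`, `n ≤ m` since `Bud n p ≥ log n`); convert `List Bool` to `Raw`
by `pt_toR`, and `Raw` to `List Bool` by `mkL`. -/
def PairStmt : Prop := ∀ f : Raw → Raw, PT f →
  Crest.Randomized.RandPolyTime (fun q : List Bool × List Bool => (f ⟨q.1⟩).val)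

/-! ### Machine-level modules

TASK GPT (file `R300U/GPT.lean`, imports only `R300U.GQ`; everybody on the machine side waits for
it, land early and in pieces). `@[fun_prop]` lemmas in the style of `PT/Arith`, `QC/BT`:
* `ℚ`: `Nat.cast` (from `BT` and from unary), `Int.cast`, `+ - * ⁻¹ /`, `neg`, `^` (unary exponent),
  `max`, `min`, `Int.floor`, `Int.ceil` (values in `ℤ`), `Nat.floor`/`Nat.ceil` (`BT`), `num`, `den`
  (`BT`), `DT` for `≤ < =`, `∑ i ∈ range (g a), …` (normalise with `BT.gcd`);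
* `GQ`: casts from `ℚ`, `ℕ`, `ℤ`, `+ - * ⁻¹ /`, `neg`, `cj`, `reQ`, `imQ`, `^` (unary), `zpow` with a
  `ZT` exponent, `∑` and `∏` over `range (g a)`, `DT` for `=`;
* `ZT`: constants, `Nat.cast` of unary, `+ - neg *`, and `ZT k → PT k`, `ZT k → PT (k ·).toNat`,
  `natAbs`;
* heights: `Ht` is monotone, closed under `* (k+l)`, `+ - (k+l+1)`, `⁻¹`, `cj`, `neg`, `^ n (n k)`,
  `zpow`, `∑`/`∏` over a finset (`card * (k+1)`), casts of naturals/rationals, `GI`;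
  `Ht k z → sz z ≤ 40 (k+1)`, `Ht (4 * sz z + 4) z` (any constants of this kind); the vector version
  `HtV k (l : List GQ) := ∃ b ≠ 0, ‖b‖ ≤ 2^k ∧ ∀ z ∈ l, ∃ a, z = a/b ∧ ‖a‖ ≤ 2^k` (common
  denominator) with `HtV (c * sz l + c) l`, size bound, and closure under matrix–vector products
  with additive growth; a `natRec` variant for states whose height grows additively.

TASK VAL (file `R300U/VAL.lean`, after GPT): `PT` for `FA.d`, `gA`, `gh`, `gc` (`fun_prop` form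
`PT a → PT σ → PT i → PT j → PT fun x => (a x).gA (σ x) (i x) (j x)`), the constructor
(`PT d → PT (fun p : α × Bool × ℕ × ℕ => A p.1 p.2.1 p.2.2.1 p.2.2.2) → … → PT fun x => FA.mk (d x) (A x) (h x) (c x)`),
`FA.val` (`PT a → PT w → PT fun x => (a x).val (w x)`; tabulate the state vector, common
denominators), `List.take`, `List.append`, `List.replicate` on encoded lists, `val_congr` (only entries
`< d` matter), and the size bound `a.d ≤ 2^h → a.HtA (4^h) → sz a ≤ 2^(4h+12)`.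
-/

/-- Evaluation of a recursion tree of depth `d`. -/
def tev {C X R : Type} (nch : C → X → ℕ) (ch : C → X → ℕ → X) (cmb : C → X → List R → R)
    (lf : C → X → R) (c : C) : ℕ → X → R
  | 0, x => lf c x
  | d + 1, x => cmb c x (mkL (nch c x) (fun i => tev nch ch cmb lf c d (ch c x i)))

/-- All nodes, results and branching numbers in the tree are at most `B`. -/
def Small {C X R : Type} [Enc X] [Enc R] (nch : C → X → ℕ) (ch : C → X → ℕ → X)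
    (cmb : C → X → List R → R) (lf : C → X → R) (c : C) (B : ℕ) : ℕ → X → Prop
  | 0, x => sz x ≤ B ∧ sz (lf c x) ≤ B
  | d + 1, x => sz x ≤ B ∧ nch c x ≤ B ∧ sz (tev nch ch cmb lf c (d + 1) x) ≤ B ∧
      ∀ i < nch c x, Small nch ch cmb lf c B d (ch c x i)

theorem defsA_anchor : True := by
  have := @tev.eq_def
  have := @tev.eq_1
  have := @tev.eq_2
  have := @Small.eq_def
  have := @Small.eq_1
  have := @Small.eq_2
  have := @trs.eq_1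
  trivial

/-- TASK TREE (from `Crest.Agent.R317.recS : RecStmt`, file R317/M1). Frames `(d, x, acc)` with
`acc : List R` the results so far; call iff `0 < d ∧ acc.length < nch c x`, argument
`(d-1, ch c x acc.length, [])`, continuation appends (or conses and reverses at the end). -/
def TreeStmt : Prop := ∀ (C X R : Type) [Enc C] [Enc X] [Enc R] (nch : C → X → ℕ)
  (ch : C → X → ℕ → X) (cmb : C → X → List R → R) (lf : C → X → R),
  PT (fun p : C × X => nch p.1 p.2) → PT (fun p : C × X × ℕ => ch p.1 p.2.1 p.2.2) →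
  PT (fun p : C × X × List R => cmb p.1 p.2.1 p.2.2) → PT (fun p : C × X => lf p.1 p.2) →
  ∃ run : C × ℕ × X × ℕ → R, PT run ∧ ∀ c d x B N, Small nch ch cmb lf c B d x →
    (B + d + 2) ^ (4 * (d + 1)) ≤ N → run (c, d, x, N) = tev nch ch cmb lf c d x

/-- TASK PERC (perceptron). Input `(g, rows, b, e2, ε, T)`. Start at `c = 0`; a step looks for a
row `i` and a unit `u ∈ {1,-1,I,-I}` with `s = Re(conj u · (⟨row i, c⟩ - b i)) > 0`, `s² > 4 e2 i`,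
and replaces `c` by `c - (ε/g) u conj(row i)`; `‖c - cs‖²` drops by `≥ ε²/g`. No violation: stay.
Iterate `T + 1` times. For `PT` use the vector heights of task GPT. -/
def PercStmt : Prop := ∃ perc : ℕ × List (List GQ) × List GQ × List ℚ × ℚ × ℕ → List GQ, PT perc ∧
  ∀ (g : ℕ) (rows : List (List GQ)) (b : List GQ) (e2 : List ℚ) (ε : ℚ) (T : ℕ) (cs : ℕ → ℂ),
    1 ≤ g → 0 < ε → 4 * (g : ℚ) ^ 2 ≤ T * ε ^ 2 → ∑ u ∈ range g, ‖cs u‖ ^ 2 ≤ 4 * g →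
    (∀ i < rows.length, ∑ u ∈ range g, ‖(rows.getD i []).getD u 0‖ ^ 2 ≤ g ∧
      ε ^ 2 ≤ e2.getD i 0 ∧
      ‖∑ u ∈ range g, (((rows.getD i []).getD u 0 : GQ) : ℂ) * cs u - (b.getD i 0 : GQ)‖ ^ 2 ≤
        e2.getD i 0) →
    ∑ u ∈ range g, ‖(((perc (g, rows, b, e2, ε, T)).getD u 0 : GQ) : ℂ) - cs u‖ ^ 2 ≤ 4 * g ∧
    ∀ i < rows.length, ‖∑ u ∈ range g, (((rows.getD i []).getD u 0 : GQ) : ℂ) *
      ((((perc (g, rows, b, e2, ε, T)).getD u 0 : GQ) : ℂ) - cs u)‖ ^ 2 ≤ 16 * e2.getD i 0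

/-- Number of slot codes. A slot code `e < nQ J` has kind `e % 3` (`0`: the feature, `1`: its
conjugate, `2`: the constant one) and frequency `frq J e ∈ [-J, J]`. -/
def nQ (J : ℕ) : ℕ := 3 * (2 * J + 1)

/-- Frequency of a slot code. -/
def frq (J e : ℕ) : ℤ := ((e / 3 : ℕ) : ℤ) - J

/-- Code of four slots. -/
def code4 (Q e0 e1 e2 e3 : ℕ) : ℕ := e0 + Q * (e1 + Q * (e2 + Q * e3))

/-- Ideal value of a slot. -/
noncomputable def sv (J : ℕ) (α : ℤ → ℂ) (e : ℕ) : ℂ :=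
  if e % 3 = 0 then α (frq J e) else if e % 3 = 1 then (starRingEnd ℂ) (α (-frq J e)) else 1

/-- Admissible quadruples: small total frequency. -/
def Legit (J η e0 e1 e2 e3 : ℕ) : Prop :=
  (e0 < nQ J ∧ e1 < nQ J ∧ e2 < nQ J ∧ e3 < nQ J) ∧
  |frq J e0 + frq J e1 + frq J e2 + frq J e3| ≤ η ∧
  (e0 % 3 = 2 → frq J e0 = 0) ∧ (e1 % 3 = 2 → frq J e1 = 0) ∧ (e2 % 3 = 2 → frq J e2 = 0) ∧
  (e3 % 3 = 2 → frq J e3 = 0)

/-- The guarantee of phase retrieval: estimates `ah θ` with squared error bounds `e2 θ`. -/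
def PRGood (J η K : ℕ) (ε : ℝ) (α ah : ℤ → ℂ) (e2 : ℤ → ℝ) : Prop :=
  (∀ θ : ℤ, |θ| ≤ J → ε ^ 2 ≤ e2 θ ∧ ‖ah θ - α θ‖ ^ 2 ≤ e2 θ ∧ e2 θ ≤ 2 * (‖α θ‖ ^ 2 + 3 * ε)) ∧
  ∀ kS ≤ K, ∃ ν : ℝ, 0 < ν ∧ ν ≤ 1 ∧ ε ≤ ν ^ 2 ∧ ∃ k ≤ kS,
    (∀ θ : ℤ, |θ| ≤ J → |θ| < (kS + 1) * η →
      e2 θ ≤ 2 * (16 * (K + 1) ^ 2 * ε / ν ^ 2) ^ 2 * (ν ^ 2 + ‖α θ‖ ^ 2 + 3 * ε)) ∧
    ∀ θ : ℤ, (k * η : ℤ) - J ≤ θ → θ ≤ J →
      (‖α θ‖ ^ 2 + 3 * ε) * (‖α (θ - k * η)‖ ^ 2 + 3 * ε) ≤ 20 * ν ^ 2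

/-- TASK PR (phase retrieval). Input `(J, η, K, ε, tab)`, `P(slots) = tab[code4 …]`, slot
`(κ, θ)` has code `κ + 3 (θ + J)`. `A θ = Re P((0,θ),(1,-θ),(2,0),(2,0))` (`≈ |α θ|²`),
`a θ = max (A θ - ε) 0 ≤ |α θ|²`, `U θ = A θ + 2ε ∈ [|α θ|² + ε, |α θ|² + 3ε]`. For `k ≤ K`,
`s = kη`: `θ_k ∈ [s - J, J]` maximises `a θ * a (θ - s)`, with maximum `m_k ≤ |T_k|²`,
`T_k = α θ_k · conj α(θ_k - s)`; `μ2 k = min_{k' ≤ k} m_{k'} ≤ 1`. Chain `T̂_0 = A θ_0`,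
`T̂_{k+1} = P((0,θ_{k+1}),(1,s_{k+1}-θ_{k+1}),(1,-θ_k),(0,θ_k-s_k)) / conj T̂_k`. With `k = |θ|/η`:
if `16 (K+1)² ε ≤ μ2 k` (good) then `T̂_j = T_j (1+δ_j)`, `|δ_j| ≤ 2(j+1) ε/μ2 k ≤ 1/8` for `j ≤ k`
(induction, `|δ'| ≤ (x+|δ|)/(1-|δ|)`), output for `θ ≥ 0`
`P((1,-θ_k),(0,θ_k-s_k),(0,θ),(2,0)) / conj T̂_k`, for `θ < 0`
`P((0,θ_k),(1,s_k-θ_k),(0,θ),(2,0)) / T̂_k`, with `e2 = 16 (K+1)² ε² (μ2 + U)/μ2²`; otherwise output
`0` with `e2 = U`. For the second part take `ν² = max (μ2 kS) ε` and `k` the minimiser.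
Output lists are indexed by `θ + J`. Heights add along the chain (task GPT), so it is `PT`.
Suggested split: PR-a (definitions + `PT`), PR-b (correctness). -/
def PRStmt : Prop := ∃ pr : ℕ × ℕ × ℕ × ℚ × List GQ → List GQ × List ℚ, PT pr ∧
  ∀ (J η K : ℕ) (ε : ℚ) (tab : List GQ) (α : ℤ → ℂ), 1 ≤ η → K * η = J → 0 < ε → ε ≤ 1 / 16 →
    (∀ θ : ℤ, |θ| ≤ J → ‖α θ‖ ≤ 1) →
    (∀ e0 e1 e2 e3, Legit J η e0 e1 e2 e3 →
      ‖((tab.getD (code4 (nQ J) e0 e1 e2 e3) 0 : GQ) : ℂ) -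
        sv J α e0 * sv J α e1 * sv J α e2 * sv J α e3‖ ≤ ε) →
    PRGood J η K ε α (fun θ => (((pr (J, η, K, ε, tab)).1.getD (θ + J).toNat 0 : GQ) : ℂ))
      (fun θ => (((pr (J, η, K, ε, tab)).2.getD (θ + J).toNat 0 : ℚ) : ℝ))

/-- `ℓ²` contraction on the first `d` coordinates. -/
def Contr (d : ℕ) (M : ℕ → ℕ → ℂ) : Prop :=
  ∀ v : ℕ → ℂ, ∑ i ∈ range d, ‖∑ j ∈ range d, M i j * v j‖ ^ 2 ≤ ∑ i ∈ range d, ‖v i‖ ^ 2

/-- The matrices `(S A σ - (1 - p') I) / p'` are contractions. -/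
def Accs (S p' : ℝ) (a : FA) : Prop :=
  ∀ σ, Contr a.d (fun i j => ((S : ℂ) * (a.A σ i j : ℂ) - if i = j then (1 - p' : ℂ) else 0) / p')

/-- TASK TRANS (channel transfer). Input `(p, S, D, a)`. Put `Ã = S A`, `Δ = I - Ã`.
For `p ≥ 3/4`: matrices `(Ã - (1-p) I)/p`, same vectors, no bias.
For `p < 3/4` (`q = 1-p`): `τ₁ = q/p - 1/6`, `τ₂ = q/p + 1/6`, `P = I + τ₁ Δ`, `Q = I - τ₂ Δ`,
`w₀ = -τ₁/τ₂`, `|w₀| ≤ 1 - p/3`. `R(w) = (1-w)(P - wQ)⁻¹ = (I + τ Δ)⁻¹` with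
`τ + 1/6 = (q/p)(1+w)/(1-w)`, `τ(w₀) = 0`. From `Re⟨y,Δy⟩ ≥ (2/3)‖Δy‖²` (the hypothesis with
`p' = 3/4`): `A(w) = I - Δ R(w)` is a contraction for `|w| < 1`, `M(w) = I - Δ R(w)/p` is one for
`|w| ≤ 1/3`, `q I + p M(w) = A(w)`, `A(w₀) = Ã`, `‖Q P⁻¹‖ ≤ 1`, `‖P⁻¹‖ ≤ 1`
(expand `‖y + τΔy‖² - ‖y + (τ-1)Δy‖²` etc.). Replace `P⁻¹` by the Neumann sum
`P̃ = (1+τ₁)⁻¹ ∑_{k<K} (γ Ã)^k`, `γ = τ₁/(1+τ₁) ≤ 1 - p` (take `K = D²` or so: then `pK` is huge),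
`E = P̃ Q`, `r₀ = P̃`, `r_j = E^j P̃ - E^{j-1} P̃`, `m_j = δ_{j0} I - Δ r_j / p`. Output: the block
Toeplitz automaton on `D · d` states, block `(j, j')` equal to `m_{j-j'}` for `j' ≤ j < D`, initial
vector `h` in block `0`, read-out `w₀^j c` in block `j`. Its value on `T` is `∑_{j<D} w₀^j [w^j] φ_T`,
`φ_T(w) = cᵀ ∏ M̃(w) h` with `M̃(w) = ∑_{j<D'} w^j m_j` for any `D' ≥ D`; Cauchy estimates on
`|w| = 1/3` (bound) and on `|w| = 1 - p/6` (bias). Matrix powers are values of automata, so `PT`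
follows from task VAL. Suggested split: TRANS-a (definition, `PT`, block Toeplitz identity),
TRANS-b (norm estimates). -/
def TransStmt : Prop := ∃ C₁ : ℕ, 1 ≤ C₁ ∧ ∃ chan : ℚ × ℚ × ℕ × FA → FA, PT chan ∧
  ∀ (p S : ℚ) (D n : ℕ) (a : FA) (H : ℝ), 0 < p → p < 1 → 2 ≤ n → 1 ≤ p * n ^ 2 →
    (C₁ * n.size : ℚ) ≤ p * D → 0 < S → S ≤ 1 → Accs S (max p (3 / 4)) a →
    ∑ i ∈ range a.d, ‖a.c i‖ ≤ H → ∑ i ∈ range a.d, ‖a.h i‖ ≤ H →
    (∀ T : List Bool, T.length ≤ n → ‖(chan (p, S, D, a)).val T‖ ≤ 4 ^ (D + 1) * H ^ 2) ∧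
    ∀ x : List Bool, x.length ≤ n →
      ‖(mix p (chan (p, S, D, a))).val x - (S : GQ) ^ x.length * a.val x‖ ≤
        (2 : ℝ) ^ (-(p * D / C₁ : ℝ)) * H ^ 2

/-! ### Pure analysis -/

/-- Cauchy mass of `[-S, S]` seen from `X`. -/
noncomputable def mu (S X : ℝ) : ℝ := (Real.arctan (S - X) + Real.arctan (S + X)) / Real.pi

/-- Overlap of two Cauchy laws at distance `S`. -/
noncomputable def om (S : ℝ) : ℝ := 1 - 2 / Real.pi * Real.arctan (S / 2)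

/-- TASK NUM. `mu S ·` is decreasing on `[0, ∞)`. Cases `[X₀, X₁] ↦ S` that work (margin 0.003):
`[0,1.5]↦0.9, [1.5,2]↦1.2, [2,2.25]↦1.3, [2.25,2.5]↦1.5, [2.5,2.75]↦1.6, [2.75,3]↦1.8, [3,3.5]↦2,
[3.5,4.75]↦2.7, [4.75,6]↦4` (fewer cases possible). -/
def NumStmt : Prop := ∀ X : ℝ, 0 ≤ X → X ≤ 6 → ∃ S : ℝ, 0 ≤ S ∧ S ≤ 4 ∧
  7 / 40 - X ^ 2 / 160 ≤ mu S X ∧ 7 / 40 - X ^ 2 / 160 ≤ om S / 4

/-- TASK PJ (Poisson–Jensen). `log ‖R z‖ ≤` Poisson average of `log ‖R‖` on the unit circle (factor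
`R` into linear factors; for a root `a` with `|a| < 1` use `|e^{iφ} - a| = |1 - ā e^{iφ}|` and
`|z - a| ≤ |1 - ā z|`; Mathlib: `Analysis/Complex/Poisson`, `Harmonic/Poisson`, `JensenFormula`).
The Poisson kernel at `z = (1-y) e^{iφ₀}` is `≥ (1-y) · (1/π) y/(y² + (φ-φ₀)²)`. With `w = -log B ≥ 0`:
`-log‖R‖ ≥ 1_{|φ| ≤ Sy} (-log δ) + 1_{|φ| ≤ Θ} w`, and
`∫ P w ≥ ½ ∫_{s-Θ}^{Θ} min(P φ, P(φ-s)) (w φ + w(φ-s))`, where the minimum of the two Cauchy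
kernels is the kernel at distance `|φ - φ₀ - s/2| + s/2`; the two tails beyond `192 y` weigh less
than `1/250`. `mu S ·` is even and decreasing on `[0,∞)`. Suggested split: PJ-a (the inequality
`log ‖R z‖ ≤ ∫ P log Ψ` for a positive majorant), PJ-b (the real-variable estimate). -/
def PJStmt : Prop := ∀ (g : ℕ) (a : ℕ → ℂ) (y φ₀ X S s Θ δ ν : ℝ) (B : ℝ → ℝ),
  0 < y → y ≤ 1 / 1024 → |φ₀| ≤ X * y → 0 ≤ X → X ≤ 6 → 0 ≤ S → S ≤ 4 → 0 ≤ s → s ≤ S * y →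
  200 * y ≤ Θ → Θ ≤ 1 → Continuous B → (∀ φ, 0 < B φ ∧ B φ ≤ 1) → 0 < δ → δ ≤ 1 → 0 < ν → ν ≤ 1 →
  (∀ φ : ℝ, ‖∑ u ∈ range g, a u * Complex.exp (φ * Complex.I) ^ u‖ ≤ 1) →
  (∀ φ : ℝ, |φ| ≤ Θ → ‖∑ u ∈ range g, a u * Complex.exp (φ * Complex.I) ^ u‖ ≤ B φ) →
  (∀ φ : ℝ, |φ| ≤ S * y → ‖∑ u ∈ range g, a u * Complex.exp (φ * Complex.I) ^ u‖ ≤ δ * B φ) →
  (∀ φ : ℝ, s - Θ ≤ φ → φ ≤ Θ → B φ * B (φ - s) ≤ ν) →
  ‖∑ u ∈ range g, a u * ((1 - y) * Complex.exp (φ₀ * Complex.I)) ^ u‖ ≤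
    Real.exp ((1 - y) * (mu S X * Real.log δ + (om S - 1 / 250) / 2 * Real.log ν))

/-- Window coefficients. -/
def cf (M k : ℕ) : ℚ := ((2 * M).choose k : ℚ) / 4 ^ M

theorem defsA_anchor2 : True := by
  have := @cf.eq_1
  trivial

/-- TASK KER1 (Cauchy estimate for the kernel). The sum is the coefficient of `w^t` in
`∏ₐ e^{iψₐ M} ((1 + w e^{-iψₐ})²/4)^M`; on `|w| = e^s`,
`|(1+v)²/(4v)| = (cosh s + cos(arg v))/2`; AM–GM over the four factors, and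
`|∑ e^{iψₐ}|² = 16 - 2 ∑_{a<b} (1 - cos(ψₐ - ψ_b))`, so `|∑|/4 ≤ 1 - (1/16) ∑_{a<b}(1 - cos)`;
`(cosh s + Y)/2 ≤ exp((cosh s - 1)/2 - (1-Y)/2)`. -/
def Ker1Stmt : Prop := ∀ (M t : ℕ) (ψ : Fin 4 → ℝ) (a₀ : Fin 4) (s : ℝ),
  ‖∑ k ∈ (Fintype.piFinset fun _ : Fin 4 => range (2 * M + 1)).filter (fun k => ∑ a, k a = t),
      ∏ a, ((cf M (k a) : ℂ) * Complex.exp (-(ψ a * ((k a : ℝ) - M) : ℝ) * Complex.I))‖ ≤
    Real.exp (-s * ((t : ℝ) - 4 * M) + 2 * M * (Real.cosh s - 1) -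
      M / 8 * ∑ a, (1 - Real.cos (ψ a - ψ a₀)))

end Crest.Agent.R300U
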