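import Crest.Agent.R300U.DefsA

/-!
Row 300, upper bound: part B (automata constructions, one level of the recursion).
-/

set_option autoImplicit false

namespace Crest.Agent.R300U

open Crest.Agent.PT Crest.Agent.QC Crest.Agent.R317 Finset Crest.FinProb Crest.TraceRecon

/-! ### The accessible class -/

/-- Diagonal entries: the phase is small against the damping. -/
def DiagOK (τ : ℝ) (z : ℂ) : Prop :=
  z = 0 ∨ ∃ y θ : ℝ, 0 ≤ y ∧ z = Complex.exp (-y + θ * Complex.I) ∧ θ ^ 2 ≤ τ * y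

/-- Class of automata after scaling the transition matrices by `S`. -/
def Cls (S τ : ℝ) (a : FA) : Prop :=
  ∀ σ, ∀ i < a.d, DiagOK τ (S * (a.A σ i i : ℂ)) ∧
    ∑ j ∈ (range a.d).erase i, S * ‖a.A σ i j‖ ≤ (1 - S * ‖a.A σ i i‖) / 4 ∧
    ∑ j ∈ (range a.d).erase i, S * ‖a.A σ j i‖ ≤ (1 - S * ‖a.A σ i i‖) / 4

/-- `ℓ¹` norm of the read-out vector. -/
noncomputable def n1c (a : FA) : ℝ := ∑ i ∈ range a.d, ‖a.c i‖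

/-- `ℓ¹` norm of the initial vector. -/
noncomputable def n1h (a : FA) : ℝ := ∑ i ∈ range a.d, ‖a.h i‖

/-- The feature is bounded by one. -/
def Bd (a : FA) : Prop := ∀ w : List Bool, w ≠ [] → ‖a.val w‖ ≤ 1

/-- TASK SCHUR. Schur test: all row and column sums of moduli are `≤ 1`. With `z = ρ e^{iθ}`,
`t = 1-ρ`, `q' = 1-p'`: `|z-q'|² ≤ (ρ-q')² + ρ q' θ² ≤ (p'-t)² + t/8 ≤ (p'-t/4)²`
(`ρ (-log ρ) ≤ t`). -/
def SchurStmt : Prop := ∀ (S τ p' : ℝ) (a : FA), 0 < S → 3 / 4 ≤ p' → p' ≤ 1 → 0 ≤ τ →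
  (1 - p') * τ ≤ 1 / 8 → Cls S τ a → Accs S p' a

/-! ### Constructions -/

/-- The constant feature `1`. -/
noncomputable def oneFA : FA := ⟨1, fun _ _ _ => 1, fun _ => 1, fun _ => 1⟩

/-- The conjugate feature. -/
noncomputable def conjFA (a : FA) : FA :=
  ⟨a.d, fun σ i j => cj (a.gA σ i j), fun i => cj (a.gh i), fun i => cj (a.gc i)⟩

/-- Tensor product. -/
noncomputable def tens (a b : FA) : FA :=
  ⟨a.d * b.d, fun σ i j => a.gA σ (i / b.d) (j / b.d) * b.gA σ (i % b.d) (j % b.d),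
    fun i => a.gh (i / b.d) * b.gh (i % b.d), fun i => a.gc (i / b.d) * b.gc (i % b.d)⟩

/-- Soft cut-off `P(Bin(g, β) < mc)`. -/
def chi (β : ℚ) (mc g : ℕ) : ℚ := ∑ s ∈ range mc, (g.choose s : ℚ) * β ^ s * (1 - β) ^ (g - s)

/-- Counter transitions `s → s'` (`0` is the fresh state, `s ≥ 1` stands for count `s - 1`). -/
def cT (β ν : ℚ) (s' s : ℕ) : ℚ :=
  if s' = 0 then 0
  else if s = 0 then (if s' = 1 then (1 - β) * ν else if s' = 2 then β * ν / 32 else 0)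
  else if s' = s then 1 - β else if s' = s + 1 then β / 32 else 0

/-- Counter read-out. -/
def cR (ν : ℚ) (s : ℕ) : ℚ := if s = 0 then 1 else 32 ^ (s - 1) / ν

/-- The feature followed by `2M+1` counters; state `a.d + k (mc+1) + s` is state `s` of counter `k`,
which multiplies by `z₀ zs^k` at each step. -/
noncomputable def slot (a : FA) (M mc : ℕ) (β ν w : ℚ) (z₀ zs : GQ) : FA where
  d := a.d + (2 * M + 1) * (mc + 1)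
  A := fun σ i j =>
    if i < a.d then a.gA σ i j
    else if j < a.d then
      (if (i - a.d) % (mc + 1) = 0 then (w : GQ) * ∑ l ∈ range a.d, a.gc l * a.gA σ l j else 0)
    else if (i - a.d) / (mc + 1) = (j - a.d) / (mc + 1) then
      z₀ * zs ^ ((i - a.d) / (mc + 1)) *
        ((cT β ν ((i - a.d) % (mc + 1)) ((j - a.d) % (mc + 1)) : ℚ) : GQ)
    else 0
  h := fun i => a.gh i
  c := fun i => if i < a.d then 0 else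
    ((cf M ((i - a.d) / (mc + 1)) * cR ν ((i - a.d) % (mc + 1)) / w : ℚ) : GQ)

/-- TASK SLOTV. Induction on `w` from the right (`FA.st_concat`): states `< a.d` carry `a.st w`; the
fresh state carries `w · a.val`; state `s ≥ 1` of counter `k` carries
`∑_{1 ≤ g < |w|} w ν z^g C(g,s-1) β^{s-1} (1-β)^{g-s+1} 32^{-(s-1)} a.val (take (|w|-g))` (Pascal). -/
def SlotValStmt : Prop := ∀ (a : FA) (M mc : ℕ) (β ν w : ℚ) (z₀ zs : GQ) (x : List Bool),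
  ν ≠ 0 → w ≠ 0 →
  (∀ k < 2 * M + 1,
    (slot a M mc β ν w z₀ zs).c (a.d + k * (mc + 1)) *
        (slot a M mc β ν w z₀ zs).st x (a.d + k * (mc + 1)) =
      (if x = [] then 0 else (cf M k : GQ) * a.val x) ∧
    ∑ s ∈ Ico 1 (mc + 1), (slot a M mc β ν w z₀ zs).c (a.d + k * (mc + 1) + s) *
        (slot a M mc β ν w z₀ zs).st x (a.d + k * (mc + 1) + s) =
      (cf M k : GQ) * ∑ g ∈ Ico 1 x.length,
        (chi β mc g : GQ) * (z₀ * zs ^ k) ^ g * a.val (x.take (x.length - g))) ∧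
  (1 ≤ mc → (slot a M mc β ν w z₀ zs).val x = ∑ k ∈ range (2 * M + 1), (cf M k : GQ) *
    ∑ g ∈ range x.length, (chi β mc g : GQ) * (z₀ * zs ^ k) ^ g * a.val (x.take (x.length - g)))

/-- TASK SLOTC. Old states: the diagonal is damped by `s` more, the old off-mass is multiplied by `s`,
the new links add at most `(2M+1) w ‖c‖₁ ≤ (1-s)/4` to a column (every entry of `S A` has modulus
`≤ 1`, every row sum of `S |A|` is `≤ 1`). Counter states: `ρ ≤ 1 - δ`, `-log ρ ≥ δ`.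
`∑ₖ cf M k = 1`. -/
def SlotClsStmt : Prop := ∀ (a : FA) (M mc : ℕ) (β ν w : ℚ) (z₀ zs : GQ) (S s τ δ : ℝ),
  0 < S → S ≤ 1 → 0 < s → s < 1 → 0 ≤ τ → 0 < δ → δ ≤ 1 → 0 ≤ β → β ≤ 1 → 0 < ν → 0 < w →
  (2 * M + 1) * w * n1c a ≤ (1 - s) / 4 →
  (∀ k < 2 * M + 1, s * ‖z₀ * zs ^ k‖ * (1 - β) ≤ 1 - δ ∧ s * ‖z₀ * zs ^ k‖ * (β / 32 + ν) ≤ δ / 4 ∧
    ∃ θ : ℝ, ((z₀ * zs ^ k : GQ) : ℂ) = ‖z₀ * zs ^ k‖ * Complex.exp (θ * Complex.I) ∧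
      θ ^ 2 ≤ τ * δ) →
  Cls S τ a → Cls (S * s) τ (slot a M mc β ν w z₀ zs) ∧
    n1h (slot a M mc β ν w z₀ zs) = n1h a ∧
    n1c (slot a M mc β ν w z₀ zs) ≤ (1 + 32 ^ mc / ν) / w

/-- TASK TENS. `∑_{i < d₁ d₂} F (i / d₂) (i % d₂) = ∑_{i₁ < d₁} ∑_{i₂ < d₂} F i₁ i₂`; Cauchy–Schwarz
for the phases; `1 - ρ₁ρ₂ = ρ₁(1-ρ₂) + ρ₂(1-ρ₁) + (1-ρ₁)(1-ρ₂)` for the off-mass. -/
def TensStmt : Prop :=
  (∀ (a b : FA) (x : List Bool), ∀ i < a.d * b.d,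
    (tens a b).st x i = a.st x (i / b.d) * b.st x (i % b.d)) ∧
  (∀ a b : FA, n1c (tens a b) = n1c a * n1c b ∧ n1h (tens a b) = n1h a * n1h b) ∧
  (∀ (a b : FA) (S S' τ τ' : ℝ), 0 < S → 0 < S' → 0 ≤ τ → 0 ≤ τ' → Cls S τ a → Cls S' τ' b →
    Cls (S * S') (τ + τ') (tens a b)) ∧
  (∀ (a : FA) (x : List Bool), (conjFA a).val x = cj (a.val x) ∧ oneFA.val x = 1) ∧
  (∀ a : FA, n1c (conjFA a) = n1c a ∧ n1h (conjFA a) = n1h a) ∧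
  (∀ (a : FA) (S τ : ℝ), Cls S τ a → Cls S τ (conjFA a)) ∧
  (∀ S τ : ℝ, 0 < S → S ≤ 1 → 0 ≤ τ → Cls S τ oneFA) ∧
  (∀ (a : FA) (c : ℕ → GQ) (S τ : ℝ), Cls S τ a → Cls S τ { a with c := c })

/-! ### Level parameters -/

/-- Parameters of one level (all unary). -/
structure LP where
  /-- damping exponent of this level -/
  r : ℕ
  /-- damping exponent of the next level -/
  r' : ℕ
  /-- accuracy exponent -/
  E : ℕ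
  /-- counter rate exponent -/
  bb : ℕ
  /-- window length -/
  G : ℕ
  /-- window order -/
  M : ℕ
  /-- number of grid frequencies on each side -/
  J : ℕ
  /-- window frequency -/
  a : ℕ
  /-- chain step -/
  η : ℕ
  /-- chain length -/
  K : ℕ
  /-- counter size -/
  mc : ℕ
  /-- perceptron steps -/
  T : ℕ

instance encLP : Enc LP :=
  ⟨fun P => enc [P.r, P.r', P.E, P.bb, P.G, P.M, P.J, P.a, P.η, P.K, P.mc, P.T]⟩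

/-- Valid parameters. Never evaluate `2 ^ 65536`; the gap enters only through `r + 65536 ≤ r'`. -/
structure LP.OK (P : LP) : Prop where
  hr : 65536 ≤ P.r
  hr' : P.r + 65536 ≤ P.r'
  hE : 65536 * (P.r' + 1) ≤ P.E
  hdvd : 65536 ∣ P.E
  hb : 4 ≤ P.bb
  hb' : P.bb + 1 ≤ P.r'
  hG : P.G = 16 * P.E * 2 ^ (P.r' + 2)
  hGE : (P.G : ℝ) ≤ 2 ^ ((P.E : ℝ) / 16384)
  hM : P.M = 409600 * P.E
  hJ : P.J * 2 ^ P.r = 2 ^ (2 * P.E + 7)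
  ha : P.a * P.G * 8 = 2 ^ (2 * P.E)
  hη : P.η * 2 ^ (P.r' + 5) = 2 ^ (2 * P.E)
  hK : P.K * P.η = P.J
  hmc : P.mc * 2 ^ P.r' * 4 = 2 ^ P.bb * P.G
  hT : P.T = 2 ^ (3 * P.E)

/-- A rational point on the unit circle. -/
noncomputable def omg (N : ℕ) : GQ :=
  (1 + GI * ((1 / 2 ^ N : ℚ) : GQ)) / (1 - GI * ((1 / 2 ^ N : ℚ) : GQ))

/-- Its argument. -/
noncomputable def th (N : ℕ) : ℝ := 2 * Real.arctan (1 / 2 ^ N)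

/-- grid unit -/
noncomputable def LP.ω (P : LP) : GQ := omg (2 * P.E)
/-- grid angle -/
noncomputable def LP.θ (P : LP) : ℝ := th (2 * P.E)
/-- window damping `ϱ` -/
def LP.vr (P : LP) : ℚ := 1 - 1 / 2 ^ (P.r' + 2)
/-- counter rate -/
def LP.β (P : LP) : ℚ := 2 ^ P.bb / 2 ^ P.r'
/-- normalisation of the child with index `t` -/
def LP.Hn (P : LP) (t : ℕ) : ℚ :=
  2 ^ (45 * P.E / 256 + 2 * P.E - ((t : ℤ) - 4 * P.M).natAbs ^ 2 / (1179648 * P.E)) / 2 ^ (2 * P.E)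
/-- number of children -/
def LP.nch (P : LP) : ℕ := (8 * P.M + 1) * nQ P.J ^ 4

/-- The window `ϱ^u cos^{2M}(a θ u / 2)` as a Gaussian rational. -/
noncomputable def LP.Wq (P : LP) (u : ℤ) : GQ :=
  (P.vr : GQ) ^ u * ((1 + P.ω ^ (P.a * u)) * (1 + P.ω ^ (-(P.a * u))) / 4) ^ P.M

/-- The window as a real number. -/
noncomputable def LP.Wr (P : LP) (u : ℤ) : ℝ :=
  (P.vr : ℝ) ^ u * ((1 + Real.cos (P.a * P.θ * u)) / 2) ^ P.M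

/-- Link weight. -/
def lw (ℓ M h : ℕ) : ℚ := 1 / 2 ^ (ℓ + (2 * M + 1).size + h + 2)

/-- The feature in a slot of kind `κ`. -/
noncomputable def slotAut (a : FA) (κ : ℕ) : FA :=
  if κ = 0 then a else if κ = 1 then conjFA a else oneFA

/-- The slot automaton for the slot code `e`; counter `k` has multiplier `ϱ⁻¹ ω^{θ - a (k - M)}`. -/
noncomputable def slotE (P : LP) (ℓ h : ℕ) (a : FA) (e : ℕ) : FA :=
  slot (slotAut a (e % 3)) P.M P.mc P.β (P.β / 32) (lw ℓ P.M h)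
    ((P.vr : GQ)⁻¹ * P.ω ^ (frq P.J e + P.a * P.M)) (P.ω ^ (-(P.a : ℤ)))

/-- The child feature: tensor product of four slots, read out on the states whose counter indices
add up to `t` and with at least one fresh state. -/
noncomputable def child (P : LP) (ℓ h : ℕ) (a : FA) (e0 e1 e2 e3 t : ℕ) : FA :=
  let s0 := slotE P ℓ h a e0
  let s1 := slotE P ℓ h a e1
  let s2 := slotE P ℓ h a e2
  let s3 := slotE P ℓ h a e3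
  let T := tens (tens s0 s1) (tens s2 s3)
  { T with
    c := fun i =>
      let i0 := i / (s2.d * s3.d) / s1.d - (slotAut a (e0 % 3)).d
      let i1 := i / (s2.d * s3.d) % s1.d - (slotAut a (e1 % 3)).d
      let i2 := i % (s2.d * s3.d) / s3.d - (slotAut a (e2 % 3)).d
      let i3 := i % (s2.d * s3.d) % s3.d - (slotAut a (e3 % 3)).d
      if i0 / (P.mc + 1) + i1 / (P.mc + 1) + i2 / (P.mc + 1) + i3 / (P.mc + 1) = t ∧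
          (i0 % (P.mc + 1) = 0 ∨ i1 % (P.mc + 1) = 0 ∨ i2 % (P.mc + 1) = 0 ∨ i3 % (P.mc + 1) = 0)
      then T.gc i / (P.Hn t : GQ) else 0 }

/-- The point at which the child is needed. -/
noncomputable def target (P : LP) (e0 e1 e2 e3 t : ℕ) : GQ :=
  (P.vr : GQ) ^ 4 *
    P.ω ^ (P.a * ((t : ℤ) - 4 * P.M) - (frq P.J e0 + frq P.J e1 + frq P.J e2 + frq P.J e3))

/-- Norm exponent of the children. -/
def hnext (P : LP) (ℓ h : ℕ) : ℕ :=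
  4 * (h + ℓ + (2 * P.M + 1).size + 5 * P.mc + P.r' + 8) + 2 * P.E

/-- Mode quadruples with sum `t`. -/
def Ks (M t : ℕ) : Finset (Fin 4 → ℕ) :=
  (Fintype.piFinset fun _ : Fin 4 => range (2 * M + 1)).filter (fun k => ∑ b, k b = t)

/-- Gap quadruples below `i` with minimum zero. -/
def Gs (i : ℕ) : Finset (Fin 4 → ℕ) :=
  (Fintype.piFinset fun _ : Fin 4 => range i).filter (fun g => ∃ b, g b = 0)

theorem defsB_anchor : True := by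
  have := @Gs.eq_1
  have := @Ks.eq_1
  trivial

/-- TASK CHV (from `SlotValStmt`, `TensStmt`). First part: group the states of each slot by
(counter, fresh or not); "some slot fresh" is "some gap zero" (`chi β mc 0 = 1`); e.g. write the
read-out as (all states) minus (no slot fresh). Second part: sum over `t`, and
`∑ₖ cf M k v^{k-M} = ((1+v)(1+v⁻¹)/4)^M` with `v = ω^{a (u - g)}`. -/
def ChildValStmt : Prop := ∀ (P : LP) (ℓ h : ℕ) (a : FA) (e : Fin 4 → ℕ) (x : List Bool),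
  1 ≤ P.mc →
  (∀ t, (child P ℓ h a (e 0) (e 1) (e 2) (e 3) t).val x =
    (∑ k ∈ Ks P.M t, ∑ g ∈ Gs x.length, ∏ b, ((cf P.M (k b) : GQ) * (chi P.β P.mc (g b) : GQ) *
      ((P.vr : GQ)⁻¹ * P.ω ^ (frq P.J (e b) - P.a * ((k b : ℤ) - P.M))) ^ g b *
      (slotAut a (e b % 3)).val (x.take (x.length - g b)))) / (P.Hn t : GQ)) ∧
  ∀ u : ℕ, ∑ t ∈ range (8 * P.M + 1), (P.Hn t : GQ) *
      (child P ℓ h a (e 0) (e 1) (e 2) (e 3) t).val x * target P (e 0) (e 1) (e 2) (e 3) t ^ u =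
    ∑ g ∈ Gs x.length, ∏ b, ((chi P.β P.mc (g b) : GQ) * P.Wq ((u : ℤ) - g b) *
      (slotAut a (e b % 3)).val (x.take (x.length - g b)) *
      P.ω ^ (-(frq P.J (e b) * ((u : ℤ) - g b))))

/-- Evaluation points of level `r` with phase at most `X` times the damping. -/
def Tgt (r : ℕ) (X : ℝ) (ζ : ℂ) : Prop :=
  ∃ φ : ℝ, ζ = (1 - 1 / 2 ^ (r + 2)) ^ 4 * Complex.exp (φ * Complex.I) ∧ |φ| ≤ X / 2 ^ r

/-- TASK OM (the grid, the window, the targets). `λ = 2^{-(r'+2)}`, `λ G = 16 E`, `a θ G ∈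
[(1-tiny)/4, 1/4]`; `(1 + cos x)/2 ≤ exp(-(1 - cos x)/2)`, `1 - cos x ≥ (x²/2)(1 - 1/192)` for
`|x| ≤ 1/4`; so `Wr u ≤ exp(λ'|u| - M' (aθ)² u²/4)` with maximum `exp(0.01006 E) ≤ 2^{0.01452 E}`. -/
def OmStmt : Prop :=
  (∀ N : ℕ, (omg N : ℂ) = Complex.exp (th N * Complex.I) ∧
    2 / 2 ^ N * (1 - 1 / 4 ^ N) ≤ th N ∧ th N ≤ 2 / 2 ^ N) ∧
  (∀ (P : LP) (u : ℤ), (P.Wq u : ℂ) = P.Wr u ∧ 0 ≤ P.Wr u ∧ P.Wr u ≤ (P.vr : ℝ) ^ u ∧ P.Wr 0 = 1) ∧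
  (∀ P : LP, P.OK → ∑ i ∈ range (2 * P.G + 1), P.Wr ((i : ℤ) - P.G) ≤ 2 ^ (P.E / 64) ∧
    ∀ u : ℤ, (P.G : ℤ) ≤ 16 * |u| → |u| ≤ P.G → P.Wr u ≤ 1 / 2 ^ (16 * P.E)) ∧
  (∀ P : LP, P.OK → ∀ e0 e1 e2 e3 t, Legit P.J P.η e0 e1 e2 e3 → t < 8 * P.M + 1 →
    Tgt P.r' (|(t : ℝ) - 4 * P.M| / (256 * P.E) + 1 / 16) (target P e0 e1 e2 e3 t) ∧
    |(t : ℝ) - 4 * P.M| / (256 * P.E) + 1 / 16 ≤ 8192)

/-- TASK CHI. `chi ≤ E 2^{mc - Bin}`, `1 - chi ≤ E 2^{Bin - mc}`. With `b = β G/8 ≥ 128 E`,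
`mc = 2b`, `-log ϱ ≤ β/60`: the tail is `≤ exp(1.39 b - 8b(1/2 - 1/60)) · 4/β`. -/
def ChiStmt : Prop :=
  (∀ (β : ℚ) (mc g : ℕ), 0 ≤ β → β ≤ 1 → 0 ≤ chi β mc g ∧ chi β mc g ≤ 1 ∧
    chi β mc g ≤ 2 ^ mc * (1 - β / 2) ^ g ∧ 1 - chi β mc g ≤ (1 + β) ^ g / 2 ^ mc ∧
    (1 ≤ mc → chi β mc 0 = 1)) ∧
  ∀ P : LP, P.OK → 1 ≤ P.mc ∧ 0 < P.β ∧ P.β ≤ 1 / 2 ∧
    (∀ i, ∑ g ∈ range i, chi P.β P.mc g / P.vr ^ g ≤ 2 ^ (24 * P.E)) ∧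
    (∀ i, ∑ g ∈ (range i).filter (fun g => P.G < g), chi P.β P.mc g / P.vr ^ g ≤
      1 / 2 ^ (200 * P.E)) ∧
    ∀ g, 8 * g ≤ P.G → 1 - chi P.β P.mc g ≤ 1 / 2 ^ (16 * P.E)

/-- TASK KER2 (from `Ker1Stmt`, `OmStmt`, `ChiStmt`). Gaps `≤ G`: `Ker1` with `ψ_b = a θ g_b`, `a₀` a
slot with gap zero, `s = sign(τ) min(|τ|, 1700 E)/(2M)`, `τ = t - 4M`, `cosh s - 1 ≤ (s²/2)(1+s²)`;
`λ' ∑ g - (M'(aθ)²/16) ∑ g² ≤ 12 λ'²/(M'(aθ)²) ≤ 0.1207 E` (three nonzero gaps, `∑ g² ≥ (∑ g)²/3`);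
`(1 - s²)/(4 · 409600) ≥ log 2 / 1179648`; at most `(G+1)^4` terms; this gives `≤ Hn t / 2`. Some gap
`> G`: trivial bound `∏ ϱ^{-g}` and `ChiStmt`, total `≤ 2^{-2E-1} ≤ Hn t / 2`.
Second part: from the first and `ChildValStmt`, `TensStmt` (`|ω| = 1`). -/
def Ker2Stmt : Prop := ∀ P : LP, P.OK →
  (∀ t i : ℕ, ∑ g ∈ Gs i, (∏ b, (chi P.β P.mc (g b) : ℝ)) *
    ‖∑ k ∈ Ks P.M t, ∏ b, ((cf P.M (k b) : ℂ) * (((P.vr : ℝ) : ℂ)⁻¹ *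
      Complex.exp (-(P.a * P.θ * ((k b : ℝ) - P.M) : ℝ) * Complex.I)) ^ g b)‖ ≤ P.Hn t) ∧
  ∀ (ℓ h : ℕ) (a : FA) (e0 e1 e2 e3 t : ℕ), Bd a → Bd (child P ℓ h a e0 e1 e2 e3 t)

/-- TASK CHC (from `SlotClsStmt`, `TensStmt`, `OmStmt`, `ChiStmt`): `δ = β/2`, `s = 1 - 1/n`, phases
`≤ (J + aM) θ ≤ 257 · 2^{-r}`, `|z| = 1/ϱ ≤ 1 + β/32`; `Hn t ≥ 2^{-2E}`. -/
def ChildClsStmt : Prop := ∀ (P : LP) (n h : ℕ) (a : FA) (S τ : ℝ) (e0 e1 e2 e3 t : ℕ), P.OK →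
  2 ≤ n → 0 < S → S ≤ 1 → (2 : ℝ) ^ (18 + P.r') ≤ τ * 2 ^ (2 * P.r + P.bb) →
  e0 < nQ P.J → e1 < nQ P.J → e2 < nQ P.J → e3 < nQ P.J →
  n1c a ≤ 2 ^ h → n1h a ≤ 2 ^ h → Cls S τ a →
  Cls ((S * (1 - 1 / n)) ^ 4) (4 * τ) (child P n.size h a e0 e1 e2 e3 t) ∧
    n1c (child P n.size h a e0 e1 e2 e3 t) ≤ 2 ^ hnext P n.size h ∧
    n1h (child P n.size h a e0 e1 e2 e3 t) ≤ 2 ^ hnext P n.size h

/-- TASK CHS (sizes; needs the height lemmas of GPT). `ω` has height `2E+1`, exponents are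
`≤ 2^{2E+9}`. -/
def ChildSzStmt : Prop := ∀ (P : LP) (ℓ h : ℕ) (a : FA) (e0 e1 e2 e3 t : ℕ), P.OK →
  e0 < nQ P.J → e1 < nQ P.J → e2 < nQ P.J → e3 < nQ P.J → t < 8 * P.M + 1 →
  a.d ≤ 2 ^ h → a.HtA (4 ^ h) →
  (child P ℓ h a e0 e1 e2 e3 t).d ≤ 2 ^ hnext P ℓ h ∧
    (child P ℓ h a e0 e1 e2 e3 t).HtA (4 ^ hnext P ℓ h) ∧
    Ht (4 ^ hnext P ℓ h) (target P e0 e1 e2 e3 t)

/-! ### Comparison and extrapolation -/

/-- Windowed transform of `φ` (positions `1, …, n`) around position `j + 1`. -/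
noncomputable def Al (P : LP) (n j : ℕ) (φ : ℕ → ℂ) (z : ℂ) : ℂ :=
  ∑ i ∈ range (2 * P.G + 1), if P.G ≤ j + i ∧ j + 1 + i ≤ n + P.G then
    (P.Wr ((i : ℤ) - P.G) : ℂ) * φ (j + 1 + i - P.G) * z ^ (-((i : ℤ) - P.G)) else 0

/-- What the children compute. -/
noncomputable def SumV (P : LP) (n j : ℕ) (φ : Fin 4 → ℕ → ℂ) (z : Fin 4 → ℂ) : ℂ :=
  ∑ v ∈ range (n - j), ∑ g ∈ Gs (j + 1 + v), ∏ b, ((chi P.β P.mc (g b) : ℂ) *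
    (P.Wr ((v : ℤ) - g b) : ℂ) * φ b (j + 1 + v - g b) * z b ^ (-((v : ℤ) - g b)))

/-- TASK CMP (from `OmStmt`, `ChiStmt`). Reindex by `u_b = v - g_b ∈ [-j, n-j-1]`, `v = max u`.
`SumV φ` is the sum over `u` with `max u ≥ 0` of `∏ chi(max u - u_b) · ∏ Wr φ z`, the product of the
`Al` is the sum over the box `|u_b| ≤ G`; the terms with `max u < 0` are the same for `φ` and `ψ`.
So it suffices to bound `∑_{max u ≥ 0} |∏ chi - 1_box| ∏ Wr(u_b) ≤ 2^{-E-2}`: (i) in the box, all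
gaps `≤ G/8`: `4 · 2^{-16E} (2^{E/64})⁴`; some gap `> G/8`: some `16|u_b| ≥ G`; (ii) `v > G`:
`Wr u ≤ ϱ^u`, `∑_{v>G} ϱ^{4v} · 4 (2^{24E})³`, `ϱ^{4G} ≤ e^{-64E}`; (iii) `v ≤ G`, some `u_b < -G`:
that gap is `> G`, use the tail bound. Suggested split: CMP-a (reindexing), CMP-b (the real bound). -/
def CmpStmt : Prop := ∀ (P : LP) (n j : ℕ) (φ ψ : Fin 4 → ℕ → ℂ) (z : Fin 4 → ℂ), P.OK → j < n →
  (∀ b, ‖z b‖ = 1) → (∀ b i, 1 ≤ i → ‖φ b i‖ ≤ 1) → (∀ b i, 1 ≤ i → ‖ψ b i‖ ≤ 1) →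
  (∀ b i, i ≤ j → φ b i = ψ b i) →
  ‖SumV P n j φ z - SumV P n j ψ z - (∏ b, Al P n j (φ b) (z b) - ∏ b, Al P n j (ψ b) (z b))‖ ≤
    1 / 2 ^ (P.E + 1)

/-- Accuracy demanded at phase `X`. -/
def AccE (E X err : ℝ) : Prop := err ≤ 2 ^ (E / 64) ∧ err ≤ 2 ^ (-(E * (3 / 20 - X ^ 2 / 160)))

/-- TASK SUM. `τ = t - 4M`; if the natural subtraction in `Hn` does not truncate,
`Hn ≤ 2^{45E/256 + 1 - τ²/(1179648 E)}`, `X² ≤ (17/16) τ²/(256E)² + 17/256`,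
`17/(16 · 20 · 65536) ≤ 1/1179648`; otherwise `Hn = 2^{-2E}` and the first bound is used. -/
def SumStmt : Prop := ∀ (P : LP) (err : ℕ → ℝ), P.OK →
  (∀ t < 8 * P.M + 1, AccE (8 * P.E) (|(t : ℝ) - 4 * P.M| / (256 * P.E) + 1 / 16) (err t)) →
  ∑ t ∈ range (8 * P.M + 1), P.Hn t * err t ≤ 1 / 2 ^ (P.E + 1)

/-- The normalised error polynomial. -/
noncomputable def Rz (P : LP) (d : ℕ → ℂ) (z : ℂ) : ℂ :=
  ∑ u ∈ range (P.G + 1), (P.Wr u : ℂ) * d u / 2 ^ (P.E / 64) * z ^ u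

/-- TASK EXT1 (from `PJStmt`, `NumStmt`, `OmStmt`). `ε = 2^{-E}`. Real-variable
`α(φ) = ∑ co i e^{iφ(i-G)}` (grid: `φ = -θ·P.θ`), `G`-Lipschitz like `Rz(e^{iφ})`
(`∑ Wr |d| / 2^{E/64} ≤ 2(G+1)/2^{E/64} ≤ 1`), `P.θ · G ≤ ε²·2G`. `S` from `NumStmt` at `X₁`,
`kS = ⌊S y₁/(η θ)⌋`, `ν, k` from `PRGood`, `B φ = √(ν² + |α φ|² + 3ε)/2`, `δ = min 1 (16(K+1)²ε/ν²)`
(`δ · 2B ≥ ε`), `Θ = J θ ∈ [255, 256] 2^{-r}`, `s = kηθ`; apply `PJ` to `Rz/16` with `min 1 (2ν)`.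
With `a = -log ν ∈ [0, Λ/2]`, `Λ = E log 2`: `μ(Λ - 2a) + ω' a/2 ≥ Λ min(μ, ω'/4)`. `K + 1 ≤ G`. -/
def Ext1Stmt : Prop := ∀ (P : LP) (co d : ℕ → ℂ) (ah : ℤ → ℂ) (e2 : ℤ → ℝ) (y₁ φ X₁ : ℝ), P.OK →
  ∑ i ∈ range (2 * P.G + 1), ‖co i‖ ≤ 1 → ∑ u ∈ range (P.G + 1), ‖d u‖ ^ 2 ≤ 4 * (P.G + 1) →
  PRGood P.J P.η P.K (1 / 2 ^ P.E)
    (fun θ => ∑ i ∈ range (2 * P.G + 1), co i * (P.ω : ℂ) ^ (-(θ * ((i : ℤ) - P.G)))) ah e2 →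
  (∀ θ : ℤ, |θ| ≤ P.J → ‖Rz P d ((P.ω : ℂ) ^ (-θ))‖ ^ 2 ≤ 16 * e2 θ) →
  (1 - 1 / 1024) / 2 ^ P.r ≤ y₁ → y₁ ≤ 1 / 2 ^ P.r → |φ| ≤ X₁ * y₁ → 0 ≤ X₁ → X₁ ≤ 6 →
  ‖Rz P d ((1 - y₁) * Complex.exp (φ * Complex.I))‖ ≤
    2 ^ (-(P.E * (7 / 40 - X₁ ^ 2 / 160 - 1 / 400) : ℝ))

/-- TASK EXT2 (removing the window; from `OmStmt`). `C = (1 + cos(aθu))/2`, `S = 1 - C`,
`1 = C^M ∑_j C(M+j-1, j) S^j` (`hasSum_choose_mul_geometric_of_norm_lt_one`). Take `J₀ = E/65536`.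
With `z = ζ/ϱ`, `L(f) = ∑ Wr d z^u f(u)/2^{E/64}`: `|L(S^j e^{iaθku})| ≤ ε₁` for `|k| + j ≤ J₀`
(induction, `S = 1/2 - e^{iaθu}/4 - e^{-iaθu}/4`), the points `z e^{iaθk}` have `y₁ = 1 - |z|` in range and
`X₁ = (X + 2^{-10})(1 + 2^{-9})`. `∑_{j<J₀} C(M+j-1,j) ≤ x^{-J₀}(1-x)^{-M}`, `x = J₀/M`: `≤ 2^{E/1000}`.
Remainder `1 - C^M ∑_{j<J₀} ≤ ϑ^{J₀} e^{2MS/ϑ}`, `ϑ = 2^{-(r'-r)}`, for `u ≤ 2E 2^r`
(`S ≤ 2^{-2(r'-r)-16}`); for larger `u`, `|ζ|^u ≤ e^{-2E}`. -/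
def Ext2Stmt : Prop := ∀ (P : LP) (d : ℕ → ℂ) (X : ℝ) (ζ : ℂ), P.OK →
  ∑ u ∈ range (P.G + 1), ‖d u‖ ^ 2 ≤ 4 * (P.G + 1) → 0 ≤ X → X ^ 2 ≤ 27 → Tgt P.r X ζ →
  (∀ y₁ φ X₁ : ℝ, (1 - 1 / 1024) / 2 ^ P.r ≤ y₁ → y₁ ≤ 1 / 2 ^ P.r → |φ| ≤ X₁ * y₁ → 0 ≤ X₁ →
    X₁ ≤ 6 → ‖Rz P d ((1 - y₁) * Complex.exp (φ * Complex.I))‖ ≤
      2 ^ (-(P.E * (7 / 40 - X₁ ^ 2 / 160 - 1 / 400) : ℝ))) →
  ‖∑ u ∈ range (P.G + 1), d u * ζ ^ u‖ ≤ 2 ^ (-(P.E * (3 / 20 - X ^ 2 / 160) : ℝ) - 1)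

end Crest.Agent.R300U
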