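import Crest.Agent.R300U.DefsB

/-!
Row 300, upper bound: part C (the algorithm: level step, leaves, base, parameters, decoder).
-/

set_option autoImplicit false

namespace Crest.Agent.R300U

open Crest.Agent.PT Crest.Agent.QC Crest.Agent.R317 Finset Crest.FinProb Crest.TraceRecon

/-- The guarantee in `PercStmt`. -/
def IsPerc (perc : ℕ × List (List GQ) × List GQ × List ℚ × ℚ × ℕ → List GQ) : Prop :=
  ∀ (g : ℕ) (rows : List (List GQ)) (b : List GQ) (e2 : List ℚ) (ε : ℚ) (T : ℕ) (cs : ℕ → ℂ),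
    1 ≤ g → 0 < ε → 4 * (g : ℚ) ^ 2 ≤ T * ε ^ 2 → ∑ u ∈ range g, ‖cs u‖ ^ 2 ≤ 4 * g →
    (∀ i < rows.length, ∑ u ∈ range g, ‖(rows.getD i []).getD u 0‖ ^ 2 ≤ g ∧
      ε ^ 2 ≤ e2.getD i 0 ∧
      ‖∑ u ∈ range g, (((rows.getD i []).getD u 0 : GQ) : ℂ) * cs u - (b.getD i 0 : GQ)‖ ^ 2 ≤
        e2.getD i 0) →
    ∑ u ∈ range g, ‖(((perc (g, rows, b, e2, ε, T)).getD u 0 : GQ) : ℂ) - cs u‖ ^ 2 ≤ 4 * g ∧
    ∀ i < rows.length, ‖∑ u ∈ range g, (((rows.getD i []).getD u 0 : GQ) : ℂ) *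
      ((((perc (g, rows, b, e2, ε, T)).getD u 0 : GQ) : ℂ) - cs u)‖ ^ 2 ≤ 16 * e2.getD i 0

theorem percStmt_iff : PercStmt ↔ ∃ perc, PT perc ∧ IsPerc perc := Iff.rfl

/-- The guarantee in `PRStmt`. -/
def IsPr (pr : ℕ × ℕ × ℕ × ℚ × List GQ → List GQ × List ℚ) : Prop :=
  ∀ (J η K : ℕ) (ε : ℚ) (tab : List GQ) (α : ℤ → ℂ), 1 ≤ η → K * η = J → 0 < ε → ε ≤ 1 / 16 →
    (∀ θ : ℤ, |θ| ≤ J → ‖α θ‖ ≤ 1) →
    (∀ e0 e1 e2 e3, Legit J η e0 e1 e2 e3 →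
      ‖((tab.getD (code4 (nQ J) e0 e1 e2 e3) 0 : GQ) : ℂ) -
        sv J α e0 * sv J α e1 * sv J α e2 * sv J α e3‖ ≤ ε) →
    PRGood J η K ε α (fun θ => (((pr (J, η, K, ε, tab)).1.getD (θ + J).toNat 0 : GQ) : ℂ))
      (fun θ => (((pr (J, η, K, ε, tab)).2.getD (θ + J).toNat 0 : ℚ) : ℝ))

theorem prStmt_iff : PRStmt ↔ ∃ pr, PT pr ∧ IsPr pr := Iff.rfl

/-- The guarantee in `TransStmt`. -/
def IsChan (C₁ : ℕ) (chan : ℚ × ℚ × ℕ × FA → FA) : Prop :=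
  ∀ (p S : ℚ) (D n : ℕ) (a : FA) (H : ℝ), 0 < p → p < 1 → 2 ≤ n → 1 ≤ p * n ^ 2 →
    (C₁ * n.size : ℚ) ≤ p * D → 0 < S → S ≤ 1 → Accs S (max p (3 / 4)) a →
    ∑ i ∈ range a.d, ‖a.c i‖ ≤ H → ∑ i ∈ range a.d, ‖a.h i‖ ≤ H →
    (∀ T : List Bool, T.length ≤ n → ‖(chan (p, S, D, a)).val T‖ ≤ 4 ^ (D + 1) * H ^ 2) ∧
    ∀ x : List Bool, x.length ≤ n →
      ‖(mix p (chan (p, S, D, a))).val x - (S : GQ) ^ x.length * a.val x‖ ≤
        (2 : ℝ) ^ (-(p * D / C₁ : ℝ)) * H ^ 2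

theorem transStmt_iff : TransStmt ↔ ∃ C₁ : ℕ, 1 ≤ C₁ ∧ ∃ chan, PT chan ∧ IsChan C₁ chan := Iff.rfl

/-! ### One level -/

/-- The windowed transform of a feature on the known reference word `y`. -/
noncomputable def alG (P : LP) (j : ℕ) (y : List Bool) (b : FA) (θ : ℤ) : GQ :=
  ∑ i ∈ range (2 * P.G + 1), if P.G ≤ j + i ∧ j + 1 + i ≤ y.length + P.G then
    P.Wq ((i : ℤ) - P.G) * b.val (y.take (j + 1 + i - P.G)) * P.ω ^ (-(θ * ((i : ℤ) - P.G))) else 0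

/-- Normalisation of a slot. -/
noncomputable def nrm (P : LP) (j : ℕ) (y : List Bool) (e : ℕ) : GQ :=
  if e % 3 = 2 then alG P j y oneFA 0 else 2 ^ (P.E / 64)

/-- Estimate of a normalised product of four transforms from the children's values. -/
noncomputable def prodE (P : LP) (j : ℕ) (y : List Bool) (a : FA) (tab : List GQ)
    (e0 e1 e2 e3 : ℕ) : GQ :=
  (∑ t ∈ range (8 * P.M + 1),
      (P.Hn t : GQ) * tab.getD (t + (8 * P.M + 1) * code4 (nQ P.J) e0 e1 e2 e3) 0 +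
    alG P j y (slotAut a (e0 % 3)) (frq P.J e0) * alG P j y (slotAut a (e1 % 3)) (frq P.J e1) *
      alG P j y (slotAut a (e2 % 3)) (frq P.J e2) * alG P j y (slotAut a (e3 % 3)) (frq P.J e3)) /
  (nrm P j y e0 * nrm P j y e1 * nrm P j y e2 * nrm P j y e3)

/-- The table of products. -/
noncomputable def ptab (P : LP) (j : ℕ) (y : List Bool) (a : FA) (tab : List GQ) : List GQ :=
  mkL (nQ P.J ^ 4) (fun cd => prodE P j y a tab (cd % nQ P.J) (cd / nQ P.J % nQ P.J)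
    (cd / nQ P.J / nQ P.J % nQ P.J) (cd / nQ P.J / nQ P.J / nQ P.J))

/-- Round to the grid `2^{-E}` and clamp. -/
def rcq (E r : ℕ) (x : ℚ) : ℚ :=
  max (-2 ^ (r + 2)) (min (2 ^ (r + 2)) ((⌊x * 2 ^ E⌋ : ℚ) / 2 ^ E))

/-- Round and clamp both coordinates. -/
noncomputable def rc (E r : ℕ) (z : GQ) : GQ :=
  (rcq E r (reQ z) : GQ) + GI * (rcq E r (imQ z) : GQ)

/-- One level of the recursion: from the children's values to the value at `ζ`. -/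
noncomputable def comb (pr : ℕ × ℕ × ℕ × ℚ × List GQ → List GQ × List ℚ)
    (perc : ℕ × List (List GQ) × List GQ × List ℚ × ℚ × ℕ → List GQ)
    (P : LP) (j : ℕ) (y : List Bool) (a : FA) (ζ : GQ) (tab : List GQ) : GQ :=
  let o := pr (P.J, P.η, P.K, 1 / 2 ^ P.E, ptab P j y a tab)
  let rows := mkL (2 * P.J + 1) (fun i => mkL (P.G + 1) (fun u =>
    P.Wq u * P.ω ^ (-(((i : ℤ) - P.J) * u)) / 2 ^ (P.E / 64)))
  let bs := mkL (2 * P.J + 1) (fun i => o.1.getD i 0 - alG P j y a ((i : ℤ) - P.J) / 2 ^ (P.E / 64))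
  let c := perc (P.G + 1, rows, bs, o.2, 1 / 2 ^ P.E, P.T)
  rc P.E P.r (∑ u ∈ range (P.G + 1), c.getD u 0 * ζ ^ u)

/-- The quantity to be estimated: damped difference of the feature on the word `x` and on the
reference `y`, from position `j + 1` on. -/
noncomputable def DD (a : FA) (x y : List Bool) (j : ℕ) (ζ : ℂ) : ℂ :=
  ∑ u ∈ range (x.length - j),
    ((a.val (x.take (j + 1 + u)) : ℂ) - (a.val (y.take (j + 1 + u)) : ℂ)) * ζ ^ u

/-- The error is small for every admissible description of the evaluation point. -/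
def Good (E : ℝ) (r : ℕ) (ζ : ℂ) (err : ℝ) : Prop := ∀ X, 0 ≤ X → Tgt r X ζ → AccE E X err

/-- TASK RC. Clamping is a projection on each coordinate. `|ζ| = (1 - y/4)⁴ ≤ 1 - y/2`,
`y = 2^{-r}`. -/
def RcStmt : Prop :=
  (∀ (E r : ℕ) (z : GQ) (D : ℂ), ‖D‖ ≤ 2 ^ (r + 2) →
    ‖(rc E r z : ℂ) - D‖ ≤ ‖(z : ℂ) - D‖ + 2 / 2 ^ E ∧ ‖(rc E r z : ℂ) - D‖ ≤ 2 ^ (r + 4)) ∧
  (∀ (E r : ℕ) (z : GQ), Ht (E + r + 3) (rc E r z)) ∧
  (∀ (r : ℕ) (X : ℝ) (ζ : ℂ), Tgt r X ζ → ‖ζ‖ ≤ 1 - 1 / 2 ^ (r + 1) ∧ 1 - 1 / 2 ^ r ≤ ‖ζ‖) ∧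
  ∀ (a : FA) (x y : List Bool) (j r : ℕ) (X : ℝ) (ζ : ℂ), Bd a → x.length = y.length →
    Tgt r X ζ → ‖DD a x y j ζ‖ ≤ 2 ^ (r + 2)

/-- TASK PTAB (from `ChildValStmt`, `CmpStmt`, `SumStmt`, `OmStmt`, `ChiStmt`, `TensStmt`).
`∑ₜ Hn t · DD (child t) (target t) = SumV φ - SumV ψ` with `φ b i = (slotAut a (e b % 3)).val (x.take i)`,
`ψ` the same on `y`, `z b = ω^{frq (e b)}`; `alG` is `Al ψ`; for kind `1`, `Al (conj φ) z = conj (Al φ z⁻¹)`;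
for kind `2` (frequency `0`), `Al φ = nrm` is real and `≥ Wr 0 = 1`. -/
def PtabStmt : Prop := ∀ (P : LP) (ℓ h j : ℕ) (x y : List Bool) (a : FA) (tab : List GQ), P.OK →
  x.length = y.length → j < x.length → y.take j = x.take j → Bd a →
  (∀ e0 e1 e2 e3 t, Legit P.J P.η e0 e1 e2 e3 → t < 8 * P.M + 1 →
    Good (8 * P.E) P.r' (target P e0 e1 e2 e3 t)
      ‖((tab.getD (t + (8 * P.M + 1) * code4 (nQ P.J) e0 e1 e2 e3) 0 : GQ) : ℂ) -
        DD (child P ℓ h a e0 e1 e2 e3 t) x y j (target P e0 e1 e2 e3 t)‖) →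
  let α : ℤ → ℂ := fun θ =>
    Al P x.length j (fun i => (a.val (x.take i) : ℂ)) ((P.ω : ℂ) ^ θ) / 2 ^ (P.E / 64)
  ∀ e0 e1 e2 e3, Legit P.J P.η e0 e1 e2 e3 →
    ‖(((ptab P j y a tab).getD (code4 (nQ P.J) e0 e1 e2 e3) 0 : GQ) : ℂ) -
      sv P.J α e0 * sv P.J α e1 * sv P.J α e2 * sv P.J α e3‖ ≤ 1 / 2 ^ P.E

/-- TASK STEP (from `PtabStmt`, `Ext1Stmt`, `Ext2Stmt`, `RcStmt`, `OmStmt`). True coefficients
`cs u = f_x(j+1+u) - f_y(j+1+u)` for `j + u < n`, else `0`; `⟨row θ, cs⟩ = α θ - alG a θ / 2^{E/64}`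
because the two features agree up to position `j`. `d = c - cs`. The tail `u > G` of `DD` is
`≤ 2 |ζ|^G 2^{r+1}`. For `X² > 27` use the clamp bound `2^{r+4} ≤ 2^{E/64}`. -/
def StepStmt : Prop := ∀ pr perc, IsPr pr → IsPerc perc →
  ∀ (P : LP) (ℓ h j : ℕ) (x y : List Bool) (a : FA) (ζ : GQ) (tab : List GQ), P.OK →
  x.length = y.length → j < x.length → y.take j = x.take j → Bd a →
  (∀ e0 e1 e2 e3 t, Legit P.J P.η e0 e1 e2 e3 → t < 8 * P.M + 1 →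
    Good (8 * P.E) P.r' (target P e0 e1 e2 e3 t)
      ‖((tab.getD (t + (8 * P.M + 1) * code4 (nQ P.J) e0 e1 e2 e3) 0 : GQ) : ℂ) -
        DD (child P ℓ h a e0 e1 e2 e3 t) x y j (target P e0 e1 e2 e3 t)‖) →
  Good P.E P.r ζ ‖(comb pr perc P j y a ζ tab : ℂ) - DD a x y j ζ‖

/-! ### Leaves -/

/-- The accumulator `∑_g ζ^{-g} f(|x| - g)`. -/
noncomputable def accA (ℓ h : ℕ) (a : FA) (ζ : GQ) : FA :=
  slot a 0 1 0 (1 / 2 ^ (ℓ + 4)) (lw ℓ 0 h) ζ⁻¹ 1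

/-- Direct estimate from the traces `T`. -/
noncomputable def leaf (chan : ℚ × ℚ × ℕ × FA → FA) (n : ℕ) (p : ℚ) (D j : ℕ) (y : List Bool)
    (T : List (List Bool)) (E r eS h : ℕ) (a : FA) (ζ : GQ) : GQ :=
  let S : ℚ := (1 - 1 / n) ^ (eS + 1)
  let b := accA n.size h a ζ
  rc E r (ζ ^ (n - j - 1) * ((∑ k ∈ range T.length, (chan (p, S, D, b)).val (T.getD k [])) /
    (T.length : GQ) / (S : GQ) ^ n - b.val y))

/-- TASK LEAF (from `SlotValStmt`, `SlotClsStmt`, `SchurStmt`, `MixStmt`, `ChebStmt`, `PrbStmt`,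
`RcStmt`). `DD = ζ^{n-j-1} (acc x - acc y)`. Class of the accumulator: `s = 1 - 1/n`, `δ = 1/(2n)`;
`H = 2^{2ℓ+h+13}`; `S^{-n} ≤ 4^{eS+1}`; bias `≤ 2^{-E-2}`, deviation `t = 2^{-(E+2eS+3)}`. -/
def LeafStmt : Prop := ∀ C₁ chan, 1 ≤ C₁ → IsChan C₁ chan →
  ∀ (n m : ℕ) (p : ℚ) (x : Fin n → Bool) (y : List Bool) (j eS h E r D : ℕ) (a : FA) (ζ : GQ)
    (τ : ℝ), 2 ≤ n → 0 < p → p < 1 → 1 ≤ p * n ^ 2 → 0 < m → y.length = n → j < n →
    y.take j = (List.ofFn x).take j → Bd a → Cls ((1 - 1 / n) ^ eS) τ a → 1 / 2 ≤ τ →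
    (1 - max (p : ℝ) (3 / 4)) * τ ≤ 1 / 8 → n1c a ≤ 2 ^ h → n1h a ≤ 2 ^ h → Tgt r 8192 ζ →
    n.size + 14 ≤ r → (C₁ * (E + 2 * eS + 4 * n.size + 2 * h + 30) : ℚ) ≤ p * D →
    Pr p n m (fun ks => ¬ ‖(leaf chan n p D j y (trs x ks) E r eS h a ζ : ℂ) -
      DD a (List.ofFn x) y j ζ‖ ≤ 3 / 2 ^ E) ≤
      2 ^ (4 * D + 8 * n.size + 4 * h + 2 * E + 4 * eS + 64) / m

/-! ### Base -/

/-- Indicator that the word, padded in front by `|w| - 1` zeros, ends with `w`. -/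
noncomputable def baseA (n : ℕ) (w : List Bool) : FA where
  d := w.length + 1
  A := fun σ i j => if i = 0 ∧ j = 0 then 1 else if i = j + 1 ∧ w.getD j false = σ then
    (if j = 0 then ((1 / (4 * n) : ℚ) : GQ) else ((1 / 4 : ℚ) : GQ)) else 0
  h := fun s => if s = 0 then 1 else if s < w.length ∧ All s (fun i => w.getD i false = false) then
    ((1 / (4 * n) / 4 ^ (s - 1) : ℚ) : GQ) else 0
  c := fun s => if s = w.length then ((4 * n * 4 ^ (w.length - 1) : ℚ) : GQ) else 0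

/-- The last `k - 1` symbols of the padded prefix followed by `b`. -/
def kwb (k : ℕ) (pre : List Bool) (b : Bool) : List Bool :=
  (List.replicate (k - 1) false ++ pre).drop pre.length ++ [b]

/-- `w` has a period in `[1, (|w|-1)/2]`. -/
def Per (w : List Bool) : Prop :=
  Ex ((w.length - 1) / 2) (fun π => All (w.length - (π + 1))
    (fun i => w.getD i false = w.getD (i + (π + 1)) false))

instance (w : List Bool) : Decidable (Per w) := by unfold Per; infer_instance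

/-- The test word: an aperiodic extension of the known suffix. -/
def kw (k : ℕ) (pre : List Bool) : List Bool := kwb k pre (decide (Per (kwb k pre false)))

/-- The evaluation point of level zero. -/
def rho0 (r : ℕ) : ℚ := (1 - 1 / 2 ^ (r + 2)) ^ 4

/-- The next bit from an estimate `z` of `DD`. -/
noncomputable def bitOf (n k r : ℕ) (pre : List Bool) (z : GQ) : Bool :=
  let y := pre ++ List.replicate (n - pre.length) false
  let Z := z + ∑ v ∈ range (n - pre.length),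
    (baseA n (kw k pre)).val (y.take (pre.length + 1 + v)) * (rho0 r : GQ) ^ v
  if 1 - 1 / 2 ^ (r + 3) ≤ reQ Z then decide (Per (kwb k pre false))
  else !decide (Per (kwb k pre false))

/-- TASK BASE-a (the automaton): value by induction from the right (state `s` holds
`1/(4n) 4^{-(s-1)}` iff the padded word ends with `w.take s`); class, norms, heights.
TASK BASE-b (the decision). `kw` has no period `≤ (k-1)/2` (if both extensions of `v` had periods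
`π₀, π₁`, then `v[k-1-π₀] = v[k-1-π₀-π₁] = v[k-1-π₁]`), so occurrences are `≥ k/2` apart.
`Z ≈ ∑_v f_x(j+1+v) ρ^v` is `≥ 1` if the next bit is the last bit of `kw`, and otherwise
`≤ ρ/(1 - ρ^{k/2}) ≤ (1 - y/2)/(1 - y/8) ≤ 1 - y/4`, `y = 2^{-r}`. -/
def BaseAStmt : Prop := ∀ (n : ℕ) (w : List Bool), 2 ≤ n → w ≠ [] →
  (∀ x : List Bool, x ≠ [] → (baseA n w).val x =
    if (List.replicate (w.length - 1) false ++ x).drop (x.length - 1) = w then 1 else 0) ∧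
  (∀ τ : ℝ, 0 ≤ τ → Cls (1 - 1 / n) τ (baseA n w)) ∧
  n1c (baseA n w) ≤ 2 ^ (n.size + 2 * w.length + 1) ∧
  n1h (baseA n w) ≤ 2 ^ (n.size + 2 * w.length + 1) ∧
  (baseA n w).d ≤ 2 ^ (n.size + 2 * w.length + 1) ∧
  (baseA n w).HtA (4 ^ (n.size + 2 * w.length + 1))

/-- See `BaseAStmt`. -/
def BaseBStmt : Prop := ∀ (n k r j : ℕ) (x : List Bool) (z : GQ), 2 ≤ n → x.length = n → j < n →
  2 ^ (r + 1) * (r + 3) ≤ k →
  ‖(z : ℂ) - DD (baseA n (kw k (x.take j))) x (x.take j ++ List.replicate (n - j) false) j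
    ((rho0 r : GQ) : ℂ)‖ ≤ 1 / 2 ^ (r + 4) →
  bitOf n k r (x.take j) z = x.getD j false

/-! ### Parameters -/

/-- damping exponents -/
def rr (u e L l : ℕ) : ℕ := 2 ^ l * (u + e) - e + L

/-- accuracy exponents -/
def EE (u e L l : ℕ) : ℕ := 8 ^ l * 2 ^ ((u + e + L).size + 20)

/-- The parameters of level `l`, each passed through the clamp `cl`. -/
def par (cl : ℕ → ℕ) (u e L l : ℕ) : LP :=
  let r := cl (rr u e L l)
  let r' := cl (rr u e L (l + 1))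
  let E := cl (EE u e L l)
  let bb := 21 + (L - 2 * l)
  let G := cl (16 * E * 2 ^ (r' + 2))
  { r := r, r' := r', E := E, bb := bb, G := G, M := 409600 * E, J := cl (2 ^ (2 * E + 7 - r)),
    a := cl (2 ^ (2 * E) / (G * 8)), η := cl (2 ^ (2 * E - (r' + 5))), K := cl (2 ^ (r' + 12 - r)),
    mc := cl (2 ^ bb * G / (2 ^ r' * 4)), T := cl (2 ^ (3 * E)) }

/-- `⌊log₂ (1 / min (1-p) (1/4))⌋` -/
def ee (p : ℚ) : ℕ := (⌊1 / min (1 - p) (1 / 4)⌋₊).size - 1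

/-- number of levels -/
def LL (n : ℕ) (p : ℚ) : ℕ := (2 * (n.size + 14) / ee p).size

/-- length of the test word -/
def kk (cl : ℕ → ℕ) (u e L : ℕ) : ℕ := cl (2 ^ (cl (rr u e L 0) + 1) * (cl (rr u e L 0) + 3))

/-- scale exponents -/
def es : ℕ → ℕ
  | 0 => 1
  | l + 1 => 4 * (es l + 1)

/-- norm exponents -/
def hh (u n : ℕ) (p : ℚ) : ℕ → ℕ
  | 0 => n.size + 2 * kk id u (ee p) (LL n p) + 1
  | l + 1 => hnext (par id u (ee p) (LL n p) l) n.size (hh u n p l)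

theorem defsC_anchor : True := by
  have := @es.eq_def
  have := @es.eq_1
  have := @es.eq_2
  have := @hh.eq_def
  have := @hh.eq_1
  have := @hh.eq_2
  have := @kw.eq_1
  have := @kwb.eq_1
  trivial

/-- size of everything -/
def WW (u n : ℕ) (p : ℚ) : ℕ := hh u n p (LL n p) + EE u (ee p) (LL n p) (LL n p) + n.size + 30

/-- the total exponent -/
def tot (C₁ u n : ℕ) (p : ℚ) : ℕ := 100 * (LL n p + 1) * C₁ * WW u n p * ⌈1 / p⌉₊

/-- The main regime. -/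
def Reg (n : ℕ) (p : ℚ) : Prop := 2 ≤ n ∧ 0 < p ∧ p < 1 ∧ 1 ≤ p * n ^ 2 ∧ 1 ≤ (1 - p) * n

/-- TASK PAR. `2 ≤ e ≤ size n`, `2^e ≤ 1/q' < 2^{e+1}`, `2^L e > 2(size n + 14)`,
`rr (l+1) + L = 2 rr l + e`, `rr (l+1) ≤ 2^{l+1} (u+e+L)`, `2^{20} R ≤ EE 0 ≤ 2^{21} R`, `R = u+e+L`. -/
def ParStmt : Prop := ∀ (u n : ℕ) (p : ℚ), 65536 ≤ u → Reg n p →
  let e := ee p
  let L := LL n p
  2 ≤ e ∧ (1 - max (p : ℝ) (3 / 4)) * 2 ^ e ≤ 1 ∧ n.size + 14 ≤ rr u e L L ∧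
  (∀ l, (par id u e L l).OK ∧ (par id u e L l).nch ≤ 2 ^ (9 * EE u e L l) ∧
    EE u e L (l + 1) = 8 * EE u e L l ∧ es l ≤ hh u n p l ∧ hh u n p l ≤ hh u n p (l + 1)) ∧
  (∀ l < L, (2 : ℝ) ^ (18 + rr u e L (l + 1)) ≤
    4 ^ l * 2 ^ e / (8 * 4 ^ L) * 2 ^ (2 * rr u e L l + (21 + (L - 2 * l)))) ∧
  ∀ C₁ N, 1 ≤ C₁ → 2 ^ tot C₁ u n p ≤ N → (∀ l ≤ L, par (un N) u e L l = par id u e L l) ∧
    kk (un N) u e L = kk id u e L ∧ un N ⌈1 / p⌉₊ = ⌈1 / p⌉₊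

/-- TASK ASY (from `ParStmt`). `mc_l = 2^{25 + (L - 2l)} 8^l E₀`, so
`hh (l+1) ≤ 4 hh l + 4ℓ + 2^{31 + (L-2l)} 8^l E₀` and `hh L ≤ 4^L (hh 0 + 2ℓ + 2^{33} 2^L E₀)`;
`2^L e ≤ 4(ℓ+14) ≤ 64 (ℓ-1) ≤ 93 log n`, `1 + log(1/(1-p)) ≤ 2e`, so `2^L ≤ 185 X`,
`L + 1 ≤ C (1 + log X)`; `hh 0 = ℓ + 2^{u+L+2}(u+L+3) + 1`; `⌈1/p⌉ ≤ 2/p`. -/
def AsyStmt : Prop := ∀ C₁ u : ℕ, 65536 ≤ u → ∃ C : ℝ, ∀ (n : ℕ) (p : ℚ), Reg n p →
  (tot C₁ u n p : ℝ) ≤ C * Bud n p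

/-! ### The decoder -/

/-- Context `(n, p, N, traces, y, j)`. -/
abbrev Ctx : Type := ℕ × ℚ × ℕ × List (List Bool) × List Bool × ℕ

/-- Node `(level, automaton, scale exponent, norm exponent, evaluation point)`. -/
abbrev Node : Type := ℕ × FA × ℕ × ℕ × GQ

/-- clamped parameters -/
def cP (u : ℕ) (c : Ctx) (l : ℕ) : LP := par (un c.2.2.1) u (ee c.2.1) (LL c.1 c.2.1) l

/-- number of children -/
def nchF (u : ℕ) (c : Ctx) (x : Node) : ℕ := (cP u c x.1).nch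

/-- the children -/
noncomputable def chF (u : ℕ) (c : Ctx) (x : Node) (i : ℕ) : Node :=
  let P := cP u c x.1
  let Q := nQ P.J
  let t := i % (8 * P.M + 1)
  let cd := i / (8 * P.M + 1)
  (x.1 + 1, child P c.1.size x.2.2.2.1 x.2.1 (cd % Q) (cd / Q % Q) (cd / Q / Q % Q) (cd / Q / Q / Q) t,
    4 * (x.2.2.1 + 1), hnext P c.1.size x.2.2.2.1,
    target P (cd % Q) (cd / Q % Q) (cd / Q / Q % Q) (cd / Q / Q / Q) t)

/-- combination -/
noncomputable def cmbF (pr : ℕ × ℕ × ℕ × ℚ × List GQ → List GQ × List ℚ)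
    (perc : ℕ × List (List GQ) × List GQ × List ℚ × ℚ × ℕ → List GQ) (u : ℕ) (c : Ctx) (x : Node)
    (tab : List GQ) : GQ :=
  comb pr perc (cP u c x.1) c.2.2.2.2.2 c.2.2.2.2.1 x.2.1 x.2.2.2.2 tab

/-- leaves -/
noncomputable def lfF (C₁ : ℕ) (chan : ℚ × ℚ × ℕ × FA → FA) (u : ℕ) (c : Ctx) (x : Node) : GQ :=
  let P := cP u c x.1
  leaf chan c.1 c.2.1
    (C₁ * (P.E + 2 * x.2.2.1 + 4 * c.1.size + 2 * x.2.2.2.1 + 30) * un c.2.2.1 ⌈1 / c.2.1⌉₊)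
    c.2.2.2.2.2 c.2.2.2.2.1 c.2.2.2.1 P.E P.r x.2.2.1 x.2.2.2.1 x.2.1 x.2.2.2.2

/-- the root for the known prefix `pre` -/
noncomputable def root (n k r : ℕ) (pre : List Bool) : Node :=
  (0, baseA n (kw k pre), 1, n.size + 2 * k + 1, (rho0 r : GQ))

/-- the context for the known prefix `pre` -/
def ctx (n : ℕ) (p : ℚ) (N : ℕ) (T : List (List Bool)) (pre : List Bool) : Ctx :=
  (n, p, N, T, pre ++ List.replicate (n - pre.length) false, pre.length)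

/-- one more bit -/
noncomputable def nextBit (run : Ctx × ℕ × Node × ℕ → GQ) (u n : ℕ) (p : ℚ) (N : ℕ)
    (T : List (List Bool)) (pre : List Bool) : Bool :=
  let k := kk (un N) u (ee p) (LL n p)
  let r := (par (un N) u (ee p) (LL n p) 0).r
  bitOf n k r pre (run (ctx n p N T pre, LL n p, root n k r pre, N))

/-- bit-by-bit decoding -/
noncomputable def decMain (run : Ctx × ℕ × Node × ℕ → GQ) (u n : ℕ) (p : ℚ) (N : ℕ)
    (T : List (List Bool)) : List Bool :=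
  Nat.rec [] (fun _ pre => pre ++ [nextBit run u n p N T pre]) n

/-- a trace of full length, if there is one -/
def full (n : ℕ) (T : List (List Bool)) : List Bool :=
  Nat.rec [] (fun i acc => if (T.getD i []).length = n then T.getD i [] else acc) T.length

/-- the decoder -/
noncomputable def dec (run : Ctx × ℕ × Node × ℕ → GQ) (u : ℕ)
    (q : ℕ × ℚ × List (List Bool) × ℕ) : List Bool :=
  if (full q.1 q.2.2.1).length = q.1 then full q.1 q.2.2.1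
  else decMain run u q.1 q.2.1 q.2.2.2 q.2.2.1

/-- TASK CHPT (after GPT, VAL): `PT` lemmas in `fun_prop` form for the fields of `LP`, its constructor,
`par (un N)`, `ee`, `LL`, `cP`, `omg`, `cf`, `Hn`, `Wq`, `slot`, `tens`, `conjFA`, `slotAut`, `slotE`,
`child`, `target`, `hnext` (land these early as `R300U/CHPT.lean`; CMPT, LFPT, DECPT use them). -/
def ChPTStmt : Prop := ∀ u : ℕ, PT (fun q : Ctx × Node => nchF u q.1 q.2) ∧
  PT (fun q : Ctx × Node × ℕ => chF u q.1 q.2.1 q.2.2)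

/-- TASK CMPT (after CHPT). -/
def CmbPTStmt : Prop := ∀ pr perc (u : ℕ), PT pr → PT perc →
  PT (fun q : Ctx × Node × List GQ => cmbF pr perc u q.1 q.2.1 q.2.2)

/-- TASK LFPT (after CHPT). -/
def LfPTStmt : Prop := ∀ (C₁ : ℕ) chan (u : ℕ), PT chan →
  PT (fun q : Ctx × Node => lfF C₁ chan u q.1 q.2)

/-- TASK DECPT (after CHPT). -/
def DecPTStmt : Prop := ∀ run (u : ℕ), PT run → PT (dec run u)

/-- TASK SMALL (from `ParStmt`, `ChildSzStmt`, `BaseAStmt`, `RcStmt`, the size bounds of GPT/VAL).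
Induction on the depth with the invariant: level `l`, `a.d ≤ 2^h`, `a.HtA (4^h)`, `Ht (4^h) ζ`,
`eS = es l`, `h = hh l`. -/
def SmallStmt : Prop := ∀ pr perc (C₁ : ℕ) chan (u n : ℕ) (p : ℚ) (N : ℕ) (T : List (List Bool))
  (pre : List Bool), 65536 ≤ u → 1 ≤ C₁ → Reg n p → 2 ^ tot C₁ u n p ≤ N →
  ∃ B, Small (nchF u) (chF u) (cmbF pr perc u) (lfF C₁ chan u) (ctx n p N T pre) B (LL n p)
      (root n (kk id u (ee p) (LL n p)) (rr u (ee p) (LL n p) 0) pre) ∧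
    (B + LL n p + 2) ^ (4 * (LL n p + 1)) ≤ N

/-- TASK TACC (from `StepStmt`, `LeafStmt`, `ParStmt`, `ChildClsStmt`, `Ker2Stmt`, `OmStmt`,
`BaseAStmt`, `PrbStmt`). Induction on the depth `d` (`l + d = L`) for nodes with the invariant
`Bd a`, `Cls ((1-1/n)^{es l}) (4^l 2^e/(8·4^L)) a`, `n1c, n1h ≤ 2^{hh l}`, `Tgt (rr l) 8192 ζ`: the
probability that `Good (EE l) (rr l) ζ ‖tev - DD‖` fails is `≤ (2^{9 EE L})^d δ` (union bound over
the legitimate children), `δ` the bound of `LeafStmt`. At the root `X = 0`, `2^{-3E/20} ≤ 2^{-(r+4)}`;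
the exponents add up to at most `tot - 2 size n - 3`. -/
def TAccStmt : Prop := ∀ pr perc (C₁ : ℕ) chan, IsPr pr → IsPerc perc → 1 ≤ C₁ → IsChan C₁ chan →
  ∀ (u n m N j : ℕ) (p : ℚ) (x : Fin n → Bool), 65536 ≤ u → Reg n p → j < n →
    2 ^ tot C₁ u n p ≤ m → m ≤ N →
    let pre := (List.ofFn x).take j
    let k := kk id u (ee p) (LL n p)
    let r := rr u (ee p) (LL n p) 0
    Pr p n m (fun ks => ¬ ‖((tev (nchF u) (chF u) (cmbF pr perc u) (lfF C₁ chan u)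
        (ctx n p N (trs x ks) pre) (LL n p) (root n k r pre) : GQ) : ℂ) -
      DD (baseA n (kw k pre)) (List.ofFn x) (pre ++ List.replicate (n - j) false) j
        ((rho0 r : GQ) : ℂ)‖ ≤ 1 / 2 ^ (r + 4)) ≤ 1 / (8 * n ^ 2)

end Crest.Agent.R300U
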