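import Crest.Agent.R300U.TRIV

/-! Row 300, upper bound, task FIN56. -/

set_option autoImplicit false

namespace Crest.Agent.R300U

open Finset Crest.FinProb Crest.TraceRecon Filter Topology

theorem f56_cont (n : ℕ) {p : ℝ} (h0 : 0 < p) (h1 : p < 1) : ContinuousAt (Bud n) p := by
  have h2 : 0 ≤ Real.log (1 / (1 - p)) :=
    Real.log_nonneg (by rw [le_div_iff₀ (by linarith)]; linarith)
  have hl : 0 ≤ Real.log n := Real.log_natCast_nonneg n
  have h3 : (1 - p) ≠ 0 := by linarith
  have h4 : 1 / (1 - p) ≠ 0 := one_div_ne_zero h3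
  have h5 : 1 + Real.log (1 / (1 - p)) ≠ 0 := by linarith
  have h6 : 1 + Real.log n / (1 + Real.log (1 / (1 - p))) ≠ 0 := by positivity
  have h7 := h0.ne'
  unfold Bud
  fun_prop (disch := assumption)

theorem f56_rat (n m : ℕ) (hn : 2 ≤ n) {p : ℝ} (h0 : 0 < p) (h1 : p < 1) :
    ∃ q : ℚ, 0 < q ∧ q < 1 ∧ Bud n q ≤ 2 * Bud n p ∧
      ∑ ks : Fin m → Fin n → Bool,
        |∏ k, bernoulliWeight (q : ℝ) (ks k) - ∏ k, bernoulliWeight p (ks k)| ≤ 1 / 10 := by
  have hn' : (1 : ℝ) < n := by exact_mod_cast hn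
  have hB : 0 < Bud n p := lt_of_lt_of_le (mul_pos (inv_pos.2 h0) (Real.log_pos hn')) (tv_bud n h0 h1)
  have e1 : ∀ᶠ q in 𝓝 p, Bud n q ≤ 2 * Bud n p :=
    (f56_cont n h0 h1).eventually (eventually_le_nhds (by linarith))
  have hc : Continuous fun q : ℝ => ∑ ks : Fin m → Fin n → Bool,
      |∏ k, bernoulliWeight q (ks k) - ∏ k, bernoulliWeight p (ks k)| := by
    refine continuous_finsetSum _ fun ks _ => Continuous.abs (Continuous.sub ?_ continuous_const)
    refine continuous_finsetProd _ fun k _ => continuous_finsetProd _ fun i _ => ?_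
    split_ifs <;> fun_prop
  have e2 : ∀ᶠ q in 𝓝 p, ∑ ks : Fin m → Fin n → Bool,
      |∏ k, bernoulliWeight q (ks k) - ∏ k, bernoulliWeight p (ks k)| ≤ 1 / 10 :=
    hc.continuousAt.eventually (eventually_le_nhds (by simp))
  obtain ⟨q, hq⟩ := (Rat.denseRange_cast (𝕜 := ℝ)).mem_nhds
    ((eventually_gt_nhds h0).and ((eventually_lt_nhds h1).and (e1.and e2)))
  exact ⟨q, by exact_mod_cast hq.1, by exact_mod_cast hq.2.1, hq.2.2.1, hq.2.2.2⟩

theorem fin56_proof (hC : CoreStmt) (hP : PrbStmt) :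
    ∃ C : ℝ, ∀ s : ℕ, 2 ≤ s → ∀ n : ℕ, 2 ≤ n → ∀ p : ℝ, 0 < p → p < 1 →
      ∃ m : ℕ, (m : ℝ) ≤ Real.exp (C * p⁻¹ * Real.log n *
          (1 + Real.log n / (1 + Real.log (1 / (1 - p)))) ^ 2 *
          (1 + Real.log (1 + Real.log n / (1 + Real.log (1 / (1 - p))))) ^ 6) ∧
        ∃ K : (Fin m → List (Fin s)) → (Fin n → Fin s) → ℝ, IsSymRule K ∧
          ∀ x : Fin n → Fin s, 2 / 3 ≤ symSuccessProb p K x := by
  classical
  obtain ⟨C, hC1, dec, -, hdec⟩ := hC
  refine ⟨2 * C + 1, fun s hs n hn p h0 h1 => ?_⟩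
  set m := ⌊Real.exp ((2 * C + 1) * Bud n p)⌋₊ with hm
  obtain ⟨q, q0, q1, q2, q3⟩ := f56_rat n m hn h0 h1
  have hn' : (2 : ℝ) ≤ n := by exact_mod_cast hn
  have hB : Real.log n ≤ Bud n p := le_trans (le_mul_of_one_le_left (Real.log_natCast_nonneg n)
    ((one_le_inv₀ h0).2 h1.le)) (tv_bud n h0 h1)
  have hB0 : 0 ≤ Bud n p := (Real.log_natCast_nonneg n).trans hB
  have hmq : Real.exp (C * Bud n q) ≤ m := by
    have a1 : Real.exp (C * Bud n q) ≤ Real.exp (2 * C * Bud n p) :=
      Real.exp_le_exp.2 (by nlinarith)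
    have a2 : 2 ≤ Real.exp (Bud n p) := by
      have := Real.exp_le_exp.2 hB
      rw [Real.exp_log (by linarith)] at this
      linarith
    have a3 : 1 ≤ Real.exp (2 * C * Bud n p) := Real.one_le_exp (by positivity)
    have a4 := Nat.lt_floor_add_one (Real.exp ((2 * C + 1) * Bud n p))
    rw [← hm, add_mul, one_mul, Real.exp_add] at a4
    nlinarith
  let D : Fin s → (Fin m → List (Fin s)) → List Bool := fun a τ =>
    dec (n, q, List.ofFn fun k => (τ k).map fun b => decide (b = a), m)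
  let g : (Fin m → List (Fin s)) → Fin n → Fin s := fun τ i =>
    if h : ∃ a, (D a τ).getD i false = true then h.choose else ⟨0, by omega⟩
  refine ⟨m, ?_, fun τ y => if y = g τ then 1 else 0, fun τ => ⟨fun y => ?_, by simp⟩, fun x => ?_⟩
  · refine (Nat.floor_le (Real.exp_pos _).le).trans (le_of_eq ?_)
    unfold Bud
    congr 1
    ring
  · beta_reduce
    split_ifs <;> norm_num
  let w : ℕ → Fin n → Bool := fun i j => decide (∃ h : i < n, x j = x ⟨i, h⟩)
  let E : ℕ → (Fin m → Fin n → Bool) → Prop := fun i ks =>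
    dec (n, q, trs (w i) ks, m) ≠ List.ofFn (w i)
  have q0' : (0 : ℝ) ≤ q := by exact_mod_cast q0.le
  have q1' : (q : ℝ) ≤ 1 := by exact_mod_cast q1.le
  obtain ⟨-, P2, -, P4⟩ := hP q n m q0' q1'
  have b1 : Pr q n m (fun ks => ∃ i < n + 1, E i ks) ≤ 3 / 16 := by
    refine (P4 (n + 1) E).trans ((Finset.sum_le_sum fun i _ =>
      hdec n hn q q0 q1 m m hmq le_rfl (w i)).trans ?_)
    rw [Finset.sum_const, card_range, nsmul_eq_mul, mul_one_div, div_le_iff₀ (by linarith)]
    push_cast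
    linarith
  have b2 := (P2 fun ks => ∃ i < n + 1, E i ks).2
  have hgood : ∀ ks : Fin m → Fin n → Bool, (¬ ∃ i < n + 1, E i ks) →
      x = g fun k => symTraceOf x (ks k) := by
    intro ks hks
    have key : ∀ a, D a (fun k => symTraceOf x (ks k)) = List.ofFn fun j => decide (x j = a) := by
      intro a
      obtain ⟨i, hi, hw⟩ : ∃ i < n + 1, w i = fun j => decide (x j = a) := by
        by_cases ha : ∃ i, x i = a
        · obtain ⟨i, rfl⟩ := ha
          exact ⟨i, by omega, funext fun j => by simp [w]⟩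
        · push Not at ha
          exact ⟨n, by omega, funext fun j => by simp [w, ha j]⟩
      have h2 : ¬ E i ks := fun h => hks ⟨i, hi, h⟩
      simp only [E, hw, not_not] at h2
      rw [← h2]
      simp only [D, trs, symTraceOf, traceOf, List.map_map]
      rfl
    funext i
    have hex : ∃ a, (D a fun k => symTraceOf x (ks k)).getD i false = true :=
      ⟨x i, by rw [key]; simp⟩
    have := hex.choose_spec
    rw [key] at this
    simp only [g, dif_pos hex]
    simpa using this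
  have b3 : Pr q n m (fun ks => ¬ ∃ i < n + 1, E i ks) - 1 / 10 ≤
      symSuccessProb p (fun τ y => if y = g τ then 1 else 0) x := by
    rw [sub_le_iff_le_add]
    refine le_trans ?_ (add_le_add_right q3 _)
    rw [symSuccessProb, ← Finset.sum_add_distrib, Pr]
    refine Finset.sum_le_sum fun ks _ => ?_
    have c1 : 0 ≤ ∏ k, bernoulliWeight p (ks k) :=
      Finset.prod_nonneg fun k _ => tv_nonneg h0.le h1.le _
    have c2 := le_abs_self (∏ k, bernoulliWeight (q : ℝ) (ks k) - ∏ k, bernoulliWeight p (ks k))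
    have c3 := abs_nonneg (∏ k, bernoulliWeight (q : ℝ) (ks k) - ∏ k, bernoulliWeight p (ks k))
    by_cases h : ¬ ∃ i < n + 1, E i ks
    · rw [if_pos h, if_pos (hgood ks h)]
      linarith
    · rw [if_neg h, mul_zero]
      split_ifs <;> linarith
  linarith

end Crest.Agent.R300U
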