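import Crest.Agent.R300U.GPTQ

/-!
Row 300, upper bound, task GPT (part H): heights of Gaussian rationals, sizes, common denominators.
-/

set_option autoImplicit false

namespace Crest.Agent.R300U

open Crest.Agent.PT Crest.Agent.QC Crest.Agent.R317 Finset

variable {α β γ : Type} [Enc α] [Enc β] [Enc γ]

/-! ### Real and imaginary parts -/

theorem q_ext {a b : ℚ} (h : (a : ℝ) = b) : a = b := by exact_mod_cast h

theorem gq_ext {z w : GQ} (h1 : reQ z = reQ w) (h2 : imQ z = imQ w) : z = w :=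
  Subtype.ext (by rw [coe_eq z, coe_eq w, h1, h2])

theorem gq_eq (z : GQ) : z = (reQ z : GQ) + (imQ z : GQ) * GI :=
  Subtype.ext (by rw [coe_eq z]; simp)

@[simp] theorem reQ_ratCast (q : ℚ) : reQ (q : GQ) = q := q_ext (by simp)
@[simp] theorem imQ_ratCast (q : ℚ) : imQ (q : GQ) = 0 := q_ext (by simp)
@[simp] theorem reQ_zero : reQ 0 = 0 := q_ext (by simp)
@[simp] theorem imQ_zero : imQ 0 = 0 := q_ext (by simp)
@[simp] theorem reQ_one : reQ 1 = 1 := q_ext (by simp)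
@[simp] theorem imQ_one : imQ 1 = 0 := q_ext (by simp)
@[simp] theorem reQ_GI : reQ GI = 0 := q_ext (by simp)
@[simp] theorem imQ_GI : imQ GI = 1 := q_ext (by simp)
@[simp] theorem reQ_add (z w : GQ) : reQ (z + w) = reQ z + reQ w := q_ext (by simp)
@[simp] theorem imQ_add (z w : GQ) : imQ (z + w) = imQ z + imQ w := q_ext (by simp)
@[simp] theorem reQ_neg (z : GQ) : reQ (-z) = -reQ z := q_ext (by simp)
@[simp] theorem imQ_neg (z : GQ) : imQ (-z) = -imQ z := q_ext (by simp)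
@[simp] theorem reQ_sub (z w : GQ) : reQ (z - w) = reQ z - reQ w := q_ext (by simp)
@[simp] theorem imQ_sub (z w : GQ) : imQ (z - w) = imQ z - imQ w := q_ext (by simp)
@[simp] theorem reQ_mul (z w : GQ) : reQ (z * w) = reQ z * reQ w - imQ z * imQ w := q_ext (by simp)
@[simp] theorem imQ_mul (z w : GQ) : imQ (z * w) = reQ z * imQ w + imQ z * reQ w := q_ext (by simp)
@[simp] theorem reQ_cj (z : GQ) : reQ (cj z) = reQ z := q_ext (by simp)
@[simp] theorem imQ_cj (z : GQ) : imQ (cj z) = -imQ z := q_ext (by simp)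

theorem reQ_inv (z : GQ) : reQ z⁻¹ = reQ z / (reQ z * reQ z + imQ z * imQ z) :=
  q_ext (by simp [Complex.inv_re, Complex.normSq_apply])

theorem imQ_inv (z : GQ) : imQ z⁻¹ = -imQ z / (reQ z * reQ z + imQ z * imQ z) :=
  q_ext (by simp [Complex.inv_im, Complex.normSq_apply])

theorem reQ_sum {ι : Type*} (s : Finset ι) (f : ι → GQ) :
    reQ (∑ i ∈ s, f i) = ∑ i ∈ s, reQ (f i) := q_ext (by simp)

theorem imQ_sum {ι : Type*} (s : Finset ι) (f : ι → GQ) :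
    imQ (∑ i ∈ s, f i) = ∑ i ∈ s, imQ (f i) := q_ext (by simp)

/-- The squared modulus as a rational number. -/
noncomputable def nsQ (z : GQ) : ℚ := reQ z * reQ z + imQ z * imQ z

@[simp] theorem cast_nsQ (z : GQ) : ((nsQ z : ℚ) : ℝ) = ‖z‖ ^ 2 := by
  rw [← norm_coe, Complex.sq_norm, Complex.normSq_apply]
  simp [nsQ]

theorem cj_add (z w : GQ) : cj (z + w) = cj z + cj w := Subtype.ext (by simp)
theorem cj_mul (z w : GQ) : cj (z * w) = cj z * cj w := Subtype.ext (by simp)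
@[simp] theorem cj_zero : cj 0 = 0 := Subtype.ext (by simp)
@[simp] theorem cj_one : cj 1 = 1 := Subtype.ext (by simp)
@[simp] theorem cj_cj (z : GQ) : cj (cj z) = z := Subtype.ext (by simp)
@[simp] theorem norm_cj (z : GQ) : ‖cj z‖ = ‖z‖ := by rw [← norm_coe, ← norm_coe]; simp

theorem sz_gq (z : GQ) : sz z = 2 * sz (reQ z) + sz (imQ z) + 1 := by
  have : sz z = sz (reQ z, imQ z) := congrArg List.length (enc_gq z)
  simp [this]

/-! ### Common denominators -/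

/-- All elements of `S` have a common denominator and numerators of at most `k` bits. -/
def HtS (k : ℕ) (S : Set GQ) : Prop :=
  ∃ b : GaussianInt, b ≠ 0 ∧ ‖(b : ℂ)‖ ≤ 2 ^ k ∧
    ∀ z ∈ S, ∃ a : GaussianInt, (z : ℂ) = (a : ℂ) / (b : ℂ) ∧ ‖(a : ℂ)‖ ≤ 2 ^ k

/-- Height of a list with a common denominator. -/
def HtV (k : ℕ) (l : List GQ) : Prop :=
  ∃ b : GaussianInt, b ≠ 0 ∧ ‖(b : ℂ)‖ ≤ 2 ^ k ∧
    ∀ z ∈ l, ∃ a : GaussianInt, (z : ℂ) = (a : ℂ) / (b : ℂ) ∧ ‖(a : ℂ)‖ ≤ 2 ^ k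

theorem htV_iff {k : ℕ} {l : List GQ} : HtV k l ↔ HtS k {z | z ∈ l} := Iff.rfl

theorem ht_iff {k : ℕ} {z : GQ} : Ht k z ↔ HtS k {z} := by
  constructor
  · rintro ⟨a, b, hb, h, ha, hb'⟩
    exact ⟨b, hb, hb', fun w hw => ⟨a, by rw [Set.mem_singleton_iff.1 hw, h], ha⟩⟩
  · rintro ⟨b, hb, hb', h⟩
    obtain ⟨a, h1, h2⟩ := h z rfl
    exact ⟨a, b, hb, h1, h2, hb'⟩

theorem gi_ne {b : GaussianInt} (hb : b ≠ 0) : (b : ℂ) ≠ 0 := by
  rwa [Ne, GaussianInt.toComplex_eq_zero]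

theorem two_pow_mono {k l : ℕ} (h : k ≤ l) : (2 : ℝ) ^ k ≤ 2 ^ l :=
  pow_le_pow_right₀ (by norm_num) h

theorem gi_mul_le {a b : GaussianInt} {k l : ℕ} (ha : ‖(a : ℂ)‖ ≤ 2 ^ k) (hb : ‖(b : ℂ)‖ ≤ 2 ^ l) :
    ‖((a * b : GaussianInt) : ℂ)‖ ≤ 2 ^ (k + l) := by
  rw [map_mul, norm_mul, pow_add]
  exact mul_le_mul ha hb (norm_nonneg _) (by positivity)

theorem HtS.mono {k l : ℕ} {S T : Set GQ} (h : HtS k S) (hk : k ≤ l) (hT : T ⊆ S) : HtS l T := by
  obtain ⟨b, hb, hb', H⟩ := h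
  refine ⟨b, hb, hb'.trans (two_pow_mono hk), fun z hz => ?_⟩
  obtain ⟨a, h1, h2⟩ := H z (hT hz)
  exact ⟨a, h1, h2.trans (two_pow_mono hk)⟩

theorem HtS.ht {k : ℕ} {S : Set GQ} (h : HtS k S) {z : GQ} (hz : z ∈ S) : Ht k z :=
  ht_iff.2 (h.mono le_rfl (Set.singleton_subset_iff.2 hz))

theorem htS_empty (k : ℕ) : HtS k ∅ :=
  ⟨1, one_ne_zero, by simpa using one_le_pow₀ (by norm_num : (1 : ℝ) ≤ 2), fun _ h => h.elim⟩

theorem HtS.insert_zero {k : ℕ} {S : Set GQ} (h : HtS k S) : HtS k (insert 0 S) := by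
  obtain ⟨b, hb, hb', H⟩ := h
  refine ⟨b, hb, hb', fun z hz => ?_⟩
  rcases hz with rfl | hz
  · exact ⟨0, by simp, by simp⟩
  · exact H z hz

theorem HtS.insert_one {k : ℕ} {S : Set GQ} (h : HtS k S) : HtS k (insert 1 S) := by
  obtain ⟨b, hb, hb', H⟩ := h
  refine ⟨b, hb, hb', fun z hz => ?_⟩
  rcases hz with rfl | hz
  · exact ⟨b, by simp [div_self (gi_ne hb)], hb'⟩
  · exact H z hz

theorem HtS.union {k l : ℕ} {S T : Set GQ} (hS : HtS k S) (hT : HtS l T) :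
    HtS (k + l) (S ∪ T) := by
  obtain ⟨b, hb, hb', H⟩ := hS
  obtain ⟨c, hc, hc', G⟩ := hT
  have := gi_ne hb
  have := gi_ne hc
  refine ⟨b * c, mul_ne_zero hb hc, gi_mul_le hb' hc', fun z hz => ?_⟩
  rcases hz with hz | hz
  · obtain ⟨a, h1, h2⟩ := H z hz
    exact ⟨a * c, by rw [h1, map_mul, map_mul]; field_simp, gi_mul_le h2 hc'⟩
  · obtain ⟨a, h1, h2⟩ := G z hz
    exact ⟨b * a, by rw [h1, map_mul, map_mul]; field_simp, gi_mul_le hb' h2⟩

/-- Products of an element of `S` and an element of `T`. -/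
theorem HtS.mul {k l : ℕ} {S T U : Set GQ} (hS : HtS k S) (hT : HtS l T)
    (hU : ∀ z ∈ U, ∃ x ∈ S, ∃ y ∈ T, z = x * y) : HtS (k + l) U := by
  obtain ⟨b, hb, hb', H⟩ := hS
  obtain ⟨c, hc, hc', G⟩ := hT
  refine ⟨b * c, mul_ne_zero hb hc, gi_mul_le hb' hc', fun z hz => ?_⟩
  obtain ⟨x, hx, y, hy, rfl⟩ := hU z hz
  obtain ⟨a, h1, h2⟩ := H x hx
  obtain ⟨a', h1', h2'⟩ := G y hy
  refine ⟨a * a', ?_, gi_mul_le h2 h2'⟩
  push_cast
  rw [h1, h1', map_mul, map_mul, div_mul_div_comm]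

/-- Sums of at most `2 ^ e` elements of `S`. -/
theorem HtS.sum {k e : ℕ} {S U : Set GQ} (hS : HtS k S) {ι : Type*}
    (hU : ∀ z ∈ U, ∃ (s : Finset ι) (x : ι → GQ), s.card ≤ 2 ^ e ∧ (∀ i ∈ s, x i ∈ S) ∧
      z = ∑ i ∈ s, x i) : HtS (k + e) U := by
  classical
  obtain ⟨b, hb, hb', H⟩ := hS
  refine ⟨b, hb, hb'.trans (two_pow_mono (by omega)), fun z hz => ?_⟩
  obtain ⟨s, x, hs, hx, rfl⟩ := hU z hz
  choose! a ha using H
  refine ⟨∑ i ∈ s, a (x i), ?_, ?_⟩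
  · push_cast
    rw [map_sum, sum_div]
    exact sum_congr rfl (fun i hi => (ha _ (hx i hi)).1)
  · rw [map_sum]
    calc ‖∑ i ∈ s, (a (x i) : ℂ)‖ ≤ ∑ i ∈ s, ‖(a (x i) : ℂ)‖ := norm_sum_le _ _
      _ ≤ ∑ _i ∈ s, (2 : ℝ) ^ k := sum_le_sum (fun i hi => (ha _ (hx i hi)).2)
      _ = s.card * 2 ^ k := by simp
      _ ≤ 2 ^ e * 2 ^ k := by gcongr; exact_mod_cast hs
      _ = 2 ^ (k + e) := by ring

/-- Sums of two elements of `S`. -/
theorem HtS.add_self {k : ℕ} {S U : Set GQ} (hS : HtS k S)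
    (hU : ∀ z ∈ U, ∃ x ∈ S, ∃ y ∈ S, z = x + y) : HtS (k + 1) U := by
  refine hS.sum (ι := Bool) (fun z hz => ?_)
  obtain ⟨x, hx, y, hy, rfl⟩ := hU z hz
  exact ⟨univ, fun t => bif t then x else y, by simp, fun t _ => by cases t <;> simpa, by simp⟩

/-- Sums of an element of `S` and an element of `T`. -/
theorem HtS.add {k l : ℕ} {S T U : Set GQ} (hS : HtS k S) (hT : HtS l T)
    (hU : ∀ z ∈ U, ∃ x ∈ S, ∃ y ∈ T, z = x + y) : HtS (k + l + 1) U :=
  (hS.union hT).add_self (fun z hz => by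
    obtain ⟨x, hx, y, hy, rfl⟩ := hU z hz
    exact ⟨x, Or.inl hx, y, Or.inr hy, rfl⟩)

theorem HtS.neg {k : ℕ} {S U : Set GQ} (hS : HtS k S) (hU : ∀ z ∈ U, ∃ x ∈ S, z = -x) :
    HtS k U := by
  obtain ⟨b, hb, hb', H⟩ := hS
  refine ⟨b, hb, hb', fun z hz => ?_⟩
  obtain ⟨x, hx, rfl⟩ := hU z hz
  obtain ⟨a, h1, h2⟩ := H x hx
  exact ⟨-a, by push_cast; rw [h1, map_neg, neg_div], by simpa using h2⟩

theorem HtS.sub {k l : ℕ} {S T U : Set GQ} (hS : HtS k S) (hT : HtS l T)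
    (hU : ∀ z ∈ U, ∃ x ∈ S, ∃ y ∈ T, z = x - y) : HtS (k + l + 1) U :=
  hS.add (hT.neg (U := {z | ∃ x ∈ T, z = -x}) (fun _ h => h)) (fun z hz => by
    obtain ⟨x, hx, y, hy, rfl⟩ := hU z hz
    exact ⟨x, hx, -y, ⟨y, hy, rfl⟩, sub_eq_add_neg x y⟩)

theorem HtS.cj {k : ℕ} {S U : Set GQ} (hS : HtS k S) (hU : ∀ z ∈ U, ∃ x ∈ S, z = cj x) :
    HtS k U := by
  obtain ⟨b, hb, hb', H⟩ := hS
  have e : ∀ a : GaussianInt, ((star a : GaussianInt) : ℂ) = (starRingEnd ℂ) a :=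
    fun a => GaussianInt.toComplex_star a
  refine ⟨star b, star_ne_zero.2 hb, by rw [e]; simpa using hb', fun z hz => ?_⟩
  obtain ⟨x, hx, rfl⟩ := hU z hz
  obtain ⟨a, h1, h2⟩ := H x hx
  exact ⟨star a, by rw [coe_cj, h1, e, e, map_div₀], by rw [e]; simpa using h2⟩

/-- Matrix–vector products: sums of at most `2 ^ e` products of an element of `S` (or `0`) and an
element of `T` (or `0`). -/
theorem HtS.mulVec {k l e : ℕ} {S T U : Set GQ} (hS : HtS k S) (hT : HtS l T) {ι : Type*}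
    (hU : ∀ z ∈ U, ∃ (s : Finset ι) (x y : ι → GQ), s.card ≤ 2 ^ e ∧
      (∀ i ∈ s, x i ∈ insert 0 S ∧ y i ∈ insert 0 T) ∧ z = ∑ i ∈ s, x i * y i) :
    HtS (k + l + e) U :=
  (hS.insert_zero.mul hT.insert_zero
    (U := {z | ∃ x ∈ insert 0 S, ∃ y ∈ insert 0 T, z = x * y}) (fun _ h => h)).sum (ι := ι)
    (fun z hz => by
      obtain ⟨s, x, y, h1, h2, rfl⟩ := hU z hz
      exact ⟨s, fun i => x i * y i, h1, fun i hi => ⟨_, (h2 i hi).1, _, (h2 i hi).2, rfl⟩, rfl⟩)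

/-- A common denominator for finitely many numbers. -/
theorem htS_of_ht {ι : Type*} (s : Finset ι) {x : ι → GQ} {k : ι → ℕ} (h : ∀ i ∈ s, Ht (k i) (x i)) :
    HtS (∑ i ∈ s, k i) {z | ∃ i ∈ s, z = x i} := by
  classical
  induction s using Finset.induction_on with
  | empty => simpa using htS_empty 0
  | insert i s hi ih =>
    rw [sum_insert hi]
    refine ((ht_iff.1 (h i (mem_insert_self _ _))).union
      (ih (fun j hj => h j (mem_insert_of_mem hj)))).mono le_rfl ?_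
    rintro z ⟨j, hj, rfl⟩
    rcases mem_insert.1 hj with rfl | hj
    · exact Or.inl rfl
    · exact Or.inr ⟨j, hj, rfl⟩

/-! ### Heights of single numbers -/

theorem Ht.mono {k l : ℕ} {z : GQ} (h : Ht k z) (hk : k ≤ l) : Ht l z :=
  ht_iff.2 ((ht_iff.1 h).mono hk le_rfl)

theorem Ht.mul {k l : ℕ} {z w : GQ} (hz : Ht k z) (hw : Ht l w) : Ht (k + l) (z * w) :=
  ht_iff.2 ((ht_iff.1 hz).mul (ht_iff.1 hw) (fun _ h => ⟨z, rfl, w, rfl, h⟩))

theorem Ht.add {k l : ℕ} {z w : GQ} (hz : Ht k z) (hw : Ht l w) : Ht (k + l + 1) (z + w) :=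
  ht_iff.2 ((ht_iff.1 hz).add (ht_iff.1 hw) (fun _ h => ⟨z, rfl, w, rfl, h⟩))

theorem Ht.sub {k l : ℕ} {z w : GQ} (hz : Ht k z) (hw : Ht l w) : Ht (k + l + 1) (z - w) :=
  ht_iff.2 ((ht_iff.1 hz).sub (ht_iff.1 hw) (fun _ h => ⟨z, rfl, w, rfl, h⟩))

theorem Ht.neg {k : ℕ} {z : GQ} (hz : Ht k z) : Ht k (-z) :=
  ht_iff.2 ((ht_iff.1 hz).neg (fun _ h => ⟨z, rfl, h⟩))

theorem Ht.cj {k : ℕ} {z : GQ} (hz : Ht k z) : Ht k (cj z) :=
  ht_iff.2 ((ht_iff.1 hz).cj (fun _ h => ⟨z, rfl, h⟩))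

theorem ht_zero (k : ℕ) : Ht k 0 := (htS_empty k).insert_zero.ht (Set.mem_insert _ _)

theorem ht_one (k : ℕ) : Ht k 1 := (htS_empty k).insert_one.ht (Set.mem_insert _ _)

theorem ht_GI (k : ℕ) : Ht k GI :=
  Ht.mono (k := 0) ⟨⟨0, 1⟩, 1, one_ne_zero, by simp [GaussianInt.toComplex_def'],
    by simp [GaussianInt.toComplex_def'], by simp⟩ (Nat.zero_le _)

theorem Ht.inv {k : ℕ} {z : GQ} (hz : Ht k z) : Ht k z⁻¹ := by
  obtain ⟨a, b, hb, h, ha, hb'⟩ := hz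
  by_cases h0 : a = 0
  · have : z = 0 := Subtype.ext (by simp [h, h0])
    rw [this, inv_zero]; exact ht_zero k
  · exact ⟨b, a, h0, by push_cast; rw [h, inv_div], hb', ha⟩

theorem Ht.div {k l : ℕ} {z w : GQ} (hz : Ht k z) (hw : Ht l w) : Ht (k + l) (z / w) := by
  rw [div_eq_mul_inv]; exact hz.mul hw.inv

theorem Ht.pow {k : ℕ} {z : GQ} (hz : Ht k z) (n : ℕ) : Ht (n * k) (z ^ n) := by
  induction n with
  | zero => simpa using ht_one 0
  | succ n ih => rw [pow_succ, Nat.succ_mul]; exact ih.mul hz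

theorem Ht.zpow {k : ℕ} {z : GQ} (hz : Ht k z) (n : ℤ) : Ht (n.natAbs * k) (z ^ n) := by
  rcases Int.natAbs_eq n with h | h
  · conv => enter [2]; rw [h, zpow_natCast]
    exact hz.pow _
  · conv => enter [2]; rw [h, zpow_neg, zpow_natCast]
    exact (hz.pow _).inv

theorem Ht.ite {k : ℕ} {z w : GQ} {p : Prop} [Decidable p] (hz : Ht k z) (hw : Ht k w) :
    Ht k (if p then z else w) := by
  split_ifs <;> assumption

theorem ht_prod' {ι : Type*} (s : Finset ι) {x : ι → GQ} {k : ι → ℕ} (h : ∀ i ∈ s, Ht (k i) (x i)) :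
    Ht (∑ i ∈ s, k i) (∏ i ∈ s, x i) := by
  classical
  induction s using Finset.induction_on with
  | empty => simpa using ht_one 0
  | insert i s hi ih =>
    rw [sum_insert hi, prod_insert hi]
    exact (h i (mem_insert_self _ _)).mul (ih (fun j hj => h j (mem_insert_of_mem hj)))

theorem ht_prod {ι : Type*} (s : Finset ι) {x : ι → GQ} {k : ℕ} (h : ∀ i ∈ s, Ht k (x i)) :
    Ht (s.card * k) (∏ i ∈ s, x i) := by
  simpa using ht_prod' s (k := fun _ => k) h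

theorem ht_sum' {ι : Type*} (s : Finset ι) {x : ι → GQ} {k : ι → ℕ} (h : ∀ i ∈ s, Ht (k i) (x i)) :
    Ht (∑ i ∈ s, k i + s.card) (∑ i ∈ s, x i) :=
  ht_iff.2 ((htS_of_ht s h).sum (ι := ι) (fun _ hz =>
    ⟨s, x, Nat.lt_two_pow_self.le, fun i hi => ⟨i, hi, rfl⟩, hz⟩))

theorem ht_sum {ι : Type*} (s : Finset ι) {x : ι → GQ} {k : ℕ} (h : ∀ i ∈ s, Ht k (x i)) :
    Ht (s.card * (k + 1)) (∑ i ∈ s, x i) := by
  simpa [mul_add] using ht_sum' s (k := fun _ => k) h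

theorem ht_ratCast {k : ℕ} {q : ℚ} (h1 : q.num.natAbs ≤ 2 ^ k) (h2 : q.den ≤ 2 ^ k) :
    Ht k (q : GQ) := by
  refine ⟨(q.num : GaussianInt), (q.den : GaussianInt), by exact_mod_cast q.den_nz, ?_, ?_, ?_⟩
  · rw [coe_ratCast, map_intCast, map_natCast, Rat.cast_def]
  · rw [map_intCast, Complex.norm_intCast, ← Int.cast_abs, ← Int.natCast_natAbs]
    exact_mod_cast h1
  · rw [map_natCast, Complex.norm_natCast]
    exact_mod_cast h2

theorem ht_intCast {k : ℕ} {n : ℤ} (h : n.natAbs ≤ 2 ^ k) : Ht k (n : GQ) := by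
  have := ht_ratCast (k := k) (q := n) (by simpa using h) (by simpa using Nat.one_le_two_pow)
  simpa using this

theorem ht_natCast {k n : ℕ} (h : n ≤ 2 ^ k) : Ht k (n : GQ) := by
  have := ht_intCast (k := k) (n := n) (by simpa using h)
  simpa using this

theorem ht_natCast_self (n : ℕ) : Ht n (n : GQ) := ht_natCast Nat.lt_two_pow_self.le

theorem ht_natCast_size (n : ℕ) : Ht n.size (n : GQ) := ht_natCast (Nat.lt_size_self n).le

theorem ht_ofNat {k : ℕ} (n : ℕ) [n.AtLeastTwo] (h : n ≤ 2 ^ k) : Ht k (OfNat.ofNat n : GQ) :=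
  ht_natCast h

theorem ht_ratCast_sz (q : ℚ) : Ht (sz q) (q : GQ) := by
  have h1 := size_natAbs_le q.num
  have h2 := sz_q q
  refine ht_ratCast ((Nat.lt_size_self _).le.trans (Nat.pow_le_pow_right (by omega) (by omega)))
    ((Nat.lt_size_self _).le.trans (Nat.pow_le_pow_right (by omega) (by omega)))

theorem ht_sz (z : GQ) : Ht (sz z) z := by
  have h := (ht_ratCast_sz (reQ z)).add ((ht_ratCast_sz (imQ z)).mul (ht_GI 0))
  rw [← gq_eq z] at h
  exact h.mono (by rw [sz_gq]; omega)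

theorem ht_sz' (z : GQ) : Ht (4 * sz z + 4) z := (ht_sz z).mono (by omega)

theorem sz_int_le' (z : ℤ) : sz z ≤ 2 * z.natAbs.size + 1 := by
  rw [sz_int]
  rcases le_total 0 z with h | h
  · have h1 : z.natAbs = z.toNat := by omega
    have h2 : (-z).toNat = 0 := by omega
    rw [h1, h2]; simp
  · have h1 : z.natAbs = (-z).toNat := by omega
    have h2 : z.toNat = 0 := by omega
    rw [h1, h2]; simp; omega

theorem sz_q_le {q : ℚ} {n : ℤ} {d k : ℕ} (hd : d ≠ 0) (h : q = n / d) (hn : n.natAbs ≤ 2 ^ k)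
    (hd' : d ≤ 2 ^ k) : sz q ≤ 5 * k + 8 := by
  have e : q = mkRat n d := by rw [h, Rat.mkRat_eq_div]
  have h1 : q.num.natAbs ≤ 2 ^ k := by
    rw [e, Rat.num_mkRat, if_neg hd]
    exact (Int.natAbs_ediv_le_natAbs _ _).trans hn
  have h2 : q.den ≤ 2 ^ k := by
    rw [e, Rat.den_mkRat, if_neg hd]
    exact (Nat.div_le_self _ _).trans hd'
  have h3 : ∀ m : ℕ, m ≤ 2 ^ k → m.size ≤ k + 1 := fun m hm => by
    rw [Nat.size_le, pow_succ]; have := Nat.one_le_two_pow (n := k); omega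
  have h4 := h3 _ h1
  have h5 := h3 _ h2
  have h6 := sz_int_le' q.num
  rw [sz_q]; omega

theorem Ht.parts {k : ℕ} {z : GQ} (h : Ht k z) : ∃ (x y : ℤ) (d : ℕ), d ≠ 0 ∧ reQ z = x / d ∧
    imQ z = y / d ∧ x.natAbs ≤ 2 ^ (2 * k) ∧ y.natAbs ≤ 2 ^ (2 * k) ∧ d ≤ 2 ^ (2 * k) := by
  obtain ⟨a, b, hb, h, ha, hb'⟩ := h
  have e : ∀ a : GaussianInt, ((star a : GaussianInt) : ℂ) = (starRingEnd ℂ) a :=
    fun a => GaussianInt.toComplex_star a
  have hc : ‖((a * star b : GaussianInt) : ℂ)‖ ≤ 2 ^ (2 * k) := by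
    rw [two_mul]; exact gi_mul_le ha (by rw [e]; simpa using hb')
  have hN : ((b.norm.natAbs : ℕ) : ℝ) = ‖(b : ℂ)‖ ^ 2 := by
    rw [Complex.sq_norm, ← GaussianInt.intCast_real_norm, ← Int.cast_natCast,
      Int.natAbs_of_nonneg (GaussianInt.norm_nonneg b)]
  have hN0 : b.norm.natAbs ≠ 0 := by
    rw [Int.natAbs_ne_zero]; exact (GaussianInt.norm_pos.2 hb).ne'
  have hz : (z : ℂ) = ((a * star b : GaussianInt) : ℂ) / ((b.norm.natAbs : ℕ) : ℝ) := by
    rw [hN, h, map_mul, e, div_eq_mul_inv, Complex.inv_def, Complex.sq_norm]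
    push_cast
    ring
  refine ⟨(a * star b).re, (a * star b).im, b.norm.natAbs, hN0, q_ext ?_, q_ext ?_, ?_, ?_, ?_⟩
  · rw [cast_reQ, hz, Complex.div_ofReal_re, ← GaussianInt.intCast_re]; push_cast; rfl
  · rw [cast_imQ, hz, Complex.div_ofReal_im, ← GaussianInt.intCast_im]; push_cast; rfl
  · have := (Complex.abs_re_le_norm _).trans hc
    rw [← GaussianInt.intCast_re, ← Int.cast_abs, ← Int.natCast_natAbs] at this
    exact_mod_cast this
  · have := (Complex.abs_im_le_norm _).trans hc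
    rw [← GaussianInt.intCast_im, ← Int.cast_abs, ← Int.natCast_natAbs] at this
    exact_mod_cast this
  · have : ((b.norm.natAbs : ℕ) : ℝ) ≤ 2 ^ (2 * k) := by
      rw [hN, mul_comm, pow_mul]; gcongr
    exact_mod_cast this

theorem Ht.sz_le {k : ℕ} {z : GQ} (h : Ht k z) : sz z ≤ 40 * (k + 1) := by
  obtain ⟨x, y, d, hd, h1, h2, h3, h4, h5⟩ := h.parts
  have := sz_q_le hd h1 h3 h5
  have := sz_q_le hd h2 h4 h5
  rw [sz_gq]; omega

theorem Ht.sz_rat_le {k : ℕ} {q : ℚ} (h : Ht k (q : GQ)) : sz q ≤ 20 * (k + 1) := by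
  have := h.sz_le
  rw [sz_gq, reQ_ratCast] at this
  omega

theorem ht_of_parts {k : ℕ} {q : ℚ} {x : ℤ} {d : ℕ} (h : q = x / d)
    (hx : x.natAbs ≤ 2 ^ k) (hd' : d ≤ 2 ^ k) : Ht k (q : GQ) := by
  by_cases hd : d = 0
  · simp [h, hd, ht_zero]
  refine ⟨(x : GaussianInt), (d : GaussianInt), by exact_mod_cast hd, ?_, ?_, ?_⟩
  · rw [coe_ratCast, map_intCast, map_natCast, h]; push_cast; rfl
  · rw [map_intCast, Complex.norm_intCast, ← Int.cast_abs, ← Int.natCast_natAbs]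
    exact_mod_cast hx
  · rw [map_natCast, Complex.norm_natCast]
    exact_mod_cast hd'

theorem Ht.reQ {k : ℕ} {z : GQ} (h : Ht k z) : Ht (2 * k) (reQ z : GQ) := by
  obtain ⟨x, y, d, -, h1, -, h3, -, h5⟩ := h.parts
  exact ht_of_parts h1 h3 h5

theorem Ht.imQ {k : ℕ} {z : GQ} (h : Ht k z) : Ht (2 * k) (imQ z : GQ) := by
  obtain ⟨x, y, d, -, -, h2, -, h4, h5⟩ := h.parts
  exact ht_of_parts h2 h4 h5

theorem Ht.norm_le {k : ℕ} {z : GQ} (h : Ht k z) : ‖z‖ ≤ 2 ^ k := by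
  obtain ⟨a, b, hb, h, ha, -⟩ := h
  have h1 : (1 : ℝ) ≤ ‖(b : ℂ)‖ ^ 2 := by
    rw [Complex.sq_norm, ← GaussianInt.intCast_real_norm]
    exact_mod_cast GaussianInt.norm_pos.2 hb
  have h2 : (1 : ℝ) ≤ ‖(b : ℂ)‖ := by
    by_contra h3
    nlinarith [norm_nonneg (b : ℂ)]
  rw [← norm_coe, h, norm_div]
  exact (div_le_self (norm_nonneg _) h2).trans ha

/-! ### Lists -/

theorem HtV.mono {k l : ℕ} {v : List GQ} (h : HtV k v) (hk : k ≤ l) : HtV l v :=
  HtS.mono h hk le_rfl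

theorem HtV.sub {k : ℕ} {v w : List GQ} (h : HtV k v) (hw : ∀ z ∈ w, z ∈ v) : HtV k w :=
  HtS.mono (S := {z | z ∈ v}) h le_rfl hw

theorem HtV.ht {k : ℕ} {v : List GQ} (h : HtV k v) {z : GQ} (hz : z ∈ v) : Ht k z :=
  HtS.ht (S := {z | z ∈ v}) h hz

theorem getD_mem_insert (v : List GQ) (i : ℕ) : v.getD i 0 ∈ insert 0 {z | z ∈ v} := by
  by_cases hi : i < v.length
  · right; rw [List.getD_eq_getElem _ _ hi]; exact List.getElem_mem hi
  · left; exact List.getD_eq_default _ _ (by omega)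

theorem HtV.getD {k : ℕ} {v : List GQ} (h : HtV k v) (i : ℕ) : Ht k (v.getD i 0) :=
  (HtS.insert_zero (S := {z | z ∈ v}) h).ht (getD_mem_insert v i)

theorem htV_nil (k : ℕ) : HtV k [] := (htS_empty k).mono le_rfl (fun _ h => List.not_mem_nil h)

theorem HtV.cons {k l : ℕ} {z : GQ} {v : List GQ} (hz : Ht k z) (h : HtV l v) :
    HtV (k + l) (z :: v) :=
  ((ht_iff.1 hz).union (T := {z | z ∈ v}) h).mono le_rfl (fun _ hw => List.mem_cons.1 hw)

theorem htV_sz (v : List GQ) : HtV (sz v) v := by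
  induction v with
  | nil => exact htV_nil _
  | cons z v ih => exact (HtV.cons (ht_sz z) ih).mono (by rw [sz_cons]; omega)

theorem HtV.sz_le {k : ℕ} {v : List GQ} (h : HtV k v) : sz v ≤ v.length * (80 * (k + 1) + 1) :=
  (sz_list_le v (40 * (k + 1)) (fun _ hz => (h.ht hz).sz_le)).trans (le_of_eq (by ring))

theorem mem_mkL {δ : Type} {n : ℕ} {f : ℕ → δ} {z : δ} : z ∈ mkL n f ↔ ∃ i < n, z = f i := by
  simp [mkL, eq_comm]

theorem htV_mkL {k n : ℕ} {f : ℕ → GQ} {S : Set GQ} (hS : HtS k S) (h : ∀ i < n, f i ∈ S) :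
    HtV k (mkL n f) :=
  hS.mono le_rfl (fun z hz => by
    obtain ⟨i, hi, rfl⟩ := mem_mkL.1 hz
    exact h i hi)

/-- The entries of a table. -/
def ents (M : List (List GQ)) : Set GQ := {z | ∃ r ∈ M, z ∈ r}

theorem htS_ents (M : List (List GQ)) : HtS (sz M) (ents M) := by
  induction M with
  | nil => exact (htS_empty _).mono le_rfl (fun _ h => by simp [ents] at h)
  | cons r M ih =>
    refine (HtS.union (S := {z | z ∈ r}) (htV_sz r) ih).mono (by rw [sz_cons]; omega) ?_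
    rintro z ⟨r', hr', hz⟩
    rcases List.mem_cons.1 hr' with rfl | h
    · exact Or.inl hz
    · exact Or.inr ⟨r', h, hz⟩

theorem getD_getD_mem (M : List (List GQ)) (i j : ℕ) :
    (M.getD i []).getD j 0 ∈ insert 0 (ents M) := by
  by_cases hi : i < M.length
  · rcases getD_mem_insert (M.getD i []) j with h | h
    · exact Or.inl h
    · refine Or.inr ⟨M.getD i [], ?_, h⟩
      rw [List.getD_eq_getElem _ _ hi]; exact List.getElem_mem hi
  · left; rw [List.getD_eq_default M [] (by omega)]; rfl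

/-- Matrix–vector products increase the height additively. -/
theorem HtV.mulVec {k : ℕ} {v : List GQ} (h : HtV k v) (M : List (List GQ)) (d n : ℕ) :
    HtV (k + (sz M + n)) (mkL d fun i => ∑ j ∈ range n, (M.getD i []).getD j 0 * v.getD j 0) := by
  refine ((htS_ents M).mulVec (T := {z | z ∈ v}) h (e := n) (ι := ℕ) (fun z hz => ?_)).mono
    (by omega) le_rfl
  obtain ⟨i, -, rfl⟩ := mem_mkL.1 hz
  exact ⟨range n, _, _, by simpa using Nat.lt_two_pow_self.le,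
    fun j _ => ⟨getD_getD_mem M i j, getD_mem_insert v j⟩, rfl⟩

/-- Adding a multiple of another vector increases the height additively. -/
theorem HtV.axpy {k l m : ℕ} {v w : List GQ} {c : GQ} (h : HtV k v) (hc : Ht l c) (hw : HtV m w)
    (d : ℕ) : HtV (k + (l + m + 1)) (mkL d fun i => v.getD i 0 + c * w.getD i 0) := by
  have h1 := (ht_iff.1 hc).mul (HtS.insert_zero (S := {z | z ∈ w}) hw)
    (U := {z | ∃ i, z = c * w.getD i 0}) (by
      rintro z ⟨i, rfl⟩; exact ⟨c, rfl, _, getD_mem_insert w i, rfl⟩)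
  refine ((HtS.insert_zero (S := {z | z ∈ v}) h).add h1 (fun z hz => ?_)).mono (by omega) le_rfl
  obtain ⟨i, -, rfl⟩ := mem_mkL.1 hz
  exact ⟨_, getD_mem_insert v i, _, ⟨i, rfl⟩, rfl⟩

theorem HtV.map_cj {k : ℕ} {v : List GQ} (h : HtV k v) (d : ℕ) :
    HtV k (mkL d fun i => cj (v.getD i 0)) :=
  (HtS.insert_zero (S := {z | z ∈ v}) h).cj (fun z hz => by
    obtain ⟨i, -, rfl⟩ := mem_mkL.1 hz
    exact ⟨_, getD_mem_insert v i, rfl⟩)

/-! ### Recursions with additive growth of a measure -/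

/-- Primitive recursion where a measure `H k b` ("`b` has height at most `k`") grows additively and
bounds the size polynomially. -/
theorem natRec_meas {g : α → ℕ} {z : α → β} {s : α → ℕ → β → β} (H : ℕ → β → Prop) (c e : ℕ)
    (h0 : ∀ b, H (sz b) b) (hsz : ∀ k b, H k b → sz b ≤ c * (k + 1) ^ e)
    (hg : PT g) (hz : PT z) (hs : PT (fun p : α × ℕ × β => s p.1 p.2.1 p.2.2))
    {C : α × ℕ → ℕ} (hC : PB C)
    (hb : ∀ a i b k, i < g a → H k b → ∃ k' ≤ k + C (a, i), H k' (s a i b)) :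
    PT (fun a => (Nat.rec (z a) (s a) (g a) : β)) := by
  obtain ⟨m, hm⟩ := hC.exists_mono
  refine PT.natRec hg hz hs
    (B := fun a => c * (sz (z a) + g a * (2 * sz a + g a + 1 + 2) ^ m + 1) ^ e)
    ((PB.const c).mul (((hz.pb.add (hg.pbNat.mul ((((((PB.const 2).mul PB.size).add hg.pbNat).add
      (PB.const 1)).add (PB.const 2)).pow m))).add (PB.const 1)).pow e)) (fun a i hi => ?_)
  have : ∀ j, j ≤ g a → ∃ k ≤ sz (z a) + j * (2 * sz a + g a + 1 + 2) ^ m,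
      H k (Nat.rec (z a) (s a) j : β) := by
    intro j
    induction j with
    | zero => intro _; exact ⟨_, by simp, h0 _⟩
    | succ j ih =>
      intro hj
      obtain ⟨k, hk, h1⟩ := ih (by omega)
      obtain ⟨k', hk', h2⟩ := hb a j _ k (by omega) h1
      have h3 := hm (a, j) (2 * sz a + g a + 1) (by simp only [sz_pair, sz_nat]; omega)
      refine ⟨k', ?_, h2⟩
      rw [Nat.succ_mul]
      omega
  obtain ⟨k, hk, h1⟩ := this i hi
  refine (hsz k _ h1).trans (Nat.mul_le_mul_left _ (Nat.pow_le_pow_left ?_ _))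
  have := Nat.mul_le_mul_right ((2 * sz a + g a + 1 + 2) ^ m) hi
  omega

/-- Recursion on one Gaussian rational whose height grows additively. -/
theorem natRec_ht {g : α → ℕ} {z : α → GQ} {s : α → ℕ → GQ → GQ} (hg : PT g) (hz : PT z)
    (hs : PT (fun p : α × ℕ × GQ => s p.1 p.2.1 p.2.2)) {C : α × ℕ → ℕ} (hC : PB C)
    (hb : ∀ a i b k, i < g a → Ht k b → Ht (k + C (a, i)) (s a i b)) :
    PT (fun a => (Nat.rec (z a) (s a) (g a) : GQ)) :=
  natRec_meas Ht 40 1 ht_sz (fun k b h => by simpa using h.sz_le) hg hz hs hC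
    (fun a i b k hi h => ⟨_, le_rfl, hb a i b k hi h⟩)

/-- Recursion on one rational number whose height grows additively. -/
theorem natRec_htQ {g : α → ℕ} {z : α → ℚ} {s : α → ℕ → ℚ → ℚ} (hg : PT g) (hz : PT z)
    (hs : PT (fun p : α × ℕ × ℚ => s p.1 p.2.1 p.2.2)) {C : α × ℕ → ℕ} (hC : PB C)
    (hb : ∀ a i (b : ℚ) k, i < g a → Ht k (b : GQ) → Ht (k + C (a, i)) (s a i b : GQ)) :
    PT (fun a => (Nat.rec (z a) (s a) (g a) : ℚ)) :=
  natRec_meas (fun k (q : ℚ) => Ht k (q : GQ)) 20 1 ht_ratCast_sz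
    (fun k b h => by simpa using h.sz_rat_le) hg hz hs hC
    (fun a i b k hi h => ⟨_, le_rfl, hb a i b k hi h⟩)

/-- Recursion on a vector whose height (common denominator) and length grow additively. -/
theorem natRec_htV {g : α → ℕ} {z : α → List GQ} {s : α → ℕ → List GQ → List GQ} (hg : PT g)
    (hz : PT z) (hs : PT (fun p : α × ℕ × List GQ => s p.1 p.2.1 p.2.2)) {C : α × ℕ → ℕ}
    (hC : PB C) (hb : ∀ a i b k, i < g a → HtV k b → HtV (k + C (a, i)) (s a i b))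
    (hl : ∀ a i b, i < g a → (s a i b).length ≤ b.length + C (a, i)) :
    PT (fun a => (Nat.rec (z a) (s a) (g a) : List GQ)) :=
  natRec_meas (fun k (v : List GQ) => HtV k v ∧ v.length ≤ k) 81 2
    (fun b => ⟨htV_sz b, length_le_sz b⟩)
    (fun k b h => h.1.sz_le.trans (by have := h.2; nlinarith)) hg hz hs hC
    (fun a i b k hi h => ⟨_, le_rfl, hb a i b k hi h.1, by have := hl a i b hi; have := h.2; omega⟩)

end Crest.Agent.R300U
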