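import Crest.Agent.R317.Lib
import Crest.Agent.R317.Mach
import Crest.Prelude.Def_TraceDecoder
import Crest.Prelude.Def_TraceSym
import Crest.Prelude.Def_Randomized

/-!
Row 300, upper bound. Basic data types: Gaussian rationals `GQ` (a subfield of `ℂ`), their codes and
heights, weighted automata `FA`.
-/

set_option autoImplicit false

namespace Crest.Agent.R300U

open Crest.Agent.PT Crest.Agent.QC Crest.Agent.R317 Finset

/-- The field of Gaussian rationals inside `ℂ`. -/
def GF : Subfield ℂ where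
  carrier := {z | ∃ a b : ℚ, z = a + b * Complex.I}
  zero_mem' := ⟨0, 0, by simp⟩
  one_mem' := ⟨1, 0, by simp⟩
  add_mem' := by
    rintro _ _ ⟨a, b, rfl⟩ ⟨c, d, rfl⟩
    exact ⟨a + c, b + d, by push_cast; ring⟩
  neg_mem' := by
    rintro _ ⟨a, b, rfl⟩
    exact ⟨-a, -b, by push_cast; ring⟩
  mul_mem' := by
    rintro _ _ ⟨a, b, rfl⟩ ⟨c, d, rfl⟩
    refine ⟨a * c - b * d, a * d + b * c, ?_⟩
    push_cast
    linear_combination (b * d : ℂ) * Complex.I_mul_I
  inv_mem' := by
    rintro _ ⟨a, b, rfl⟩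
    refine ⟨a / (a ^ 2 + b ^ 2), -b / (a ^ 2 + b ^ 2), ?_⟩
    have e1 : ((a / (a ^ 2 + b ^ 2) : ℚ) : ℂ) = (((a : ℝ) / (a ^ 2 + b ^ 2) : ℝ) : ℂ) := by push_cast; rfl
    have e2 : ((-b / (a ^ 2 + b ^ 2) : ℚ) : ℂ) = ((-(b : ℝ) / (a ^ 2 + b ^ 2) : ℝ) : ℂ) := by
      push_cast; rfl
    rw [e1, e2]
    apply Complex.ext
    · simp [Complex.inv_re, Complex.normSq_apply, sq, -Complex.ofReal_div]
    · simp [Complex.inv_im, Complex.normSq_apply, sq, -Complex.ofReal_div]

/-- Gaussian rationals. A normed field; the coercion to `ℂ` is a ring map (`push_cast`). -/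
abbrev GQ : Type := GF

/-- Real part as a rational number. -/
noncomputable def reQ (z : GQ) : ℚ := z.2.choose

/-- Imaginary part as a rational number. -/
noncomputable def imQ (z : GQ) : ℚ := z.2.choose_spec.choose

theorem coe_eq (z : GQ) : (z : ℂ) = reQ z + imQ z * Complex.I := z.2.choose_spec.choose_spec

@[simp] theorem cast_reQ (z : GQ) : ((reQ z : ℚ) : ℝ) = (z : ℂ).re := by
  rw [coe_eq z]; simp

@[simp] theorem cast_imQ (z : GQ) : ((imQ z : ℚ) : ℝ) = (z : ℂ).im := by
  rw [coe_eq z]; simp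

/-- The imaginary unit. -/
def GI : GQ := ⟨Complex.I, 0, 1, by simp⟩

@[simp] theorem coe_GI : (GI : ℂ) = Complex.I := rfl

/-- Complex conjugation. -/
def cj (z : GQ) : GQ := ⟨(starRingEnd ℂ) z, by
  obtain ⟨a, b, h⟩ := z.2
  exact ⟨a, -b, by rw [h]; simp⟩⟩

@[simp] theorem coe_cj (z : GQ) : (cj z : ℂ) = (starRingEnd ℂ) z := rfl

theorem norm_coe (z : GQ) : ‖(z : ℂ)‖ = ‖z‖ := rfl

@[simp, norm_cast] theorem coe_ratCast (q : ℚ) : ((q : GQ) : ℂ) = (q : ℂ) := rfl

/-- Code of a rational number (irreducible, so that `fun_prop` fails fast on type mismatches). -/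
@[irreducible] def encQf (q : ℚ) : List Bool := enc (q.num, (⟨q.den⟩ : Bin))

instance encQ : Enc ℚ := ⟨encQf⟩

theorem enc_q (q : ℚ) : enc q = enc (q.num, (⟨q.den⟩ : Bin)) := by
  show encQf q = _
  unfold encQf; rfl

/-- Code of a Gaussian rational. -/
@[irreducible] noncomputable def encGQf (z : GQ) : List Bool := enc (reQ z, imQ z)

noncomputable instance encGQ : Enc GQ := ⟨encGQf⟩

theorem enc_gq (z : GQ) : enc z = enc (reQ z, imQ z) := by
  show encGQf z = _
  unfold encGQf; rfl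

/-- Height bound in bits: `z = a / b` with Gaussian integers of modulus `≤ 2^k`. -/
def Ht (k : ℕ) (z : GQ) : Prop :=
  ∃ a b : GaussianInt, b ≠ 0 ∧ (z : ℂ) = (a : ℂ) / (b : ℂ) ∧ ‖(a : ℂ)‖ ≤ 2 ^ k ∧ ‖(b : ℂ)‖ ≤ 2 ^ k

/-- Integer-valued maps whose absolute value is computable in unary. -/
@[fun_prop] def ZT {α : Type} [Enc α] (k : α → ℤ) : Prop :=
  PT (fun a => (k a).toNat) ∧ PT (fun a => (-k a).toNat)

/-- A weighted automaton over bits: `d` states `0, …, d-1`, transition matrices `A σ` (entry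
`A σ i j` is the weight of `j → i`), initial vector `h`, read-out vector `c`. Only the entries with
indices `< d` matter. -/
structure FA where
  /-- number of states -/
  d : ℕ
  /-- transition weights -/
  A : Bool → ℕ → ℕ → GQ
  /-- initial vector -/
  h : ℕ → GQ
  /-- read-out vector -/
  c : ℕ → GQ

/-- State vector after reading a word. -/
noncomputable def FA.st (a : FA) (w : List Bool) : ℕ → GQ :=
  w.foldl (fun v σ i => ∑ j ∈ range a.d, a.A σ i j * v j) a.h

/-- Value of a word. -/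
noncomputable def FA.val (a : FA) (w : List Bool) : GQ := ∑ i ∈ range a.d, a.c i * a.st w i

/-- Guarded accessor (this is the polynomial-time one). -/
noncomputable def FA.gA (a : FA) (σ : Bool) (i j : ℕ) : GQ :=
  if i < a.d ∧ j < a.d then a.A σ i j else 0

/-- Guarded accessor. -/
noncomputable def FA.gh (a : FA) (i : ℕ) : GQ := if i < a.d then a.h i else 0

/-- Guarded accessor. -/
noncomputable def FA.gc (a : FA) (i : ℕ) : GQ := if i < a.d then a.c i else 0

theorem FA.gA_lt (a : FA) (σ : Bool) {i j : ℕ} (hi : i < a.d) (hj : j < a.d) :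
    a.gA σ i j = a.A σ i j := if_pos ⟨hi, hj⟩

theorem FA.gh_lt (a : FA) {i : ℕ} (hi : i < a.d) : a.gh i = a.h i := if_pos hi

theorem FA.gc_lt (a : FA) {i : ℕ} (hi : i < a.d) : a.gc i = a.c i := if_pos hi

@[simp] theorem FA.st_nil (a : FA) : a.st [] = a.h := rfl

theorem FA.st_concat (a : FA) (w : List Bool) (σ : Bool) (i : ℕ) :
    a.st (w ++ [σ]) i = ∑ j ∈ range a.d, a.A σ i j * a.st w j := by
  simp [FA.st, List.foldl_append]

/-- The table of an automaton. -/
noncomputable def FA.tab (a : FA) : ℕ × List (List GQ) × List (List GQ) × List GQ × List GQ :=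
  (a.d, mkL a.d (fun i => mkL a.d (a.A false i)), mkL a.d (fun i => mkL a.d (a.A true i)),
    mkL a.d a.h, mkL a.d a.c)

/-- Code of an automaton. -/
@[irreducible] noncomputable def encFAf (a : FA) : List Bool := enc a.tab

noncomputable instance encFA : Enc FA := ⟨encFAf⟩

theorem enc_fa (a : FA) : enc a = enc a.tab := by
  show encFAf a = _
  unfold encFAf; rfl

theorem gq_anchor : True := by
  have := @FA.val.eq_1
  have := @FA.gh.eq_1
  have := @FA.gc.eq_1
  have := @FA.gA.eq_1
  have := @Crest.TraceRecon.traceOf.eq_1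
  have := @Crest.FinProb.bernoulliWeight.eq_1.{0}
  have := @Crest.Agent.PT.Raw.tail.eq_1
  trivial

/-- All entries of an automaton have height at most `k` bits. -/
def FA.HtA (k : ℕ) (a : FA) : Prop :=
  ∀ i < a.d, Ht k (a.h i) ∧ Ht k (a.c i) ∧ ∀ σ, ∀ j < a.d, Ht k (a.A σ i j)

end Crest.Agent.R300U
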