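import Crest.Agent.R300U.DefsA

/-! Row 300, upper bound, task NUM. -/

set_option autoImplicit false

namespace Crest.Agent.R300U

open Real

theorem num_pade {u : ℝ} (hu : 0 ≤ u) : 3 * u / (3 + u ^ 2) ≤ arctan u := by
  have hd : ∀ x : ℝ, HasDerivAt (fun x => arctan x - 3 * x / (3 + x ^ 2))
      (4 * x ^ 4 / ((1 + x ^ 2) * (3 + x ^ 2) ^ 2)) x := by
    intro x
    have h3 : (3 + x ^ 2) ≠ 0 := by positivity
    have h1 : (1 + x ^ 2) ≠ 0 := by positivity
    have := (hasDerivAt_arctan x).sub (((hasDerivAt_id' x).const_mul 3).div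
      (((hasDerivAt_id' x).pow 2).const_add 3) h3)
    refine this.congr_deriv ?_
    simp only [Pi.pow_apply]
    field_simp
    ring
  have hm : Monotone (fun x => arctan x - 3 * x / (3 + x ^ 2)) :=
    monotone_of_deriv_nonneg (fun x => (hd x).differentiableAt) fun x => by
      rw [(hd x).deriv]; positivity
  have := hm hu
  simpa using this

theorem num_pi {t b : ℝ} (h1 : 3.14 * t ≤ b) (h2 : 3.1416 * t ≤ b) : π * t ≤ b := by
  have := pi_gt_d2
  have := pi_lt_d4
  rcases le_total 0 t with h | h <;> nlinarith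

theorem num_case {X X₀ X₁ S c w : ℝ} (h0 : 0 ≤ X₀) (h1 : X₀ ≤ X) (h2 : X ≤ X₁) (hS : 0 ≤ S)
    (hS' : S ^ 2 < 1 + X₀ ^ 2) (hw : 0 ≤ w) (hc : arctan (S / 2) = c * π - arctan w)
    (a1 : 3.14 * (7 / 40 - X₀ ^ 2 / 160) ≤
      3 * (2 * S / (1 + X₁ ^ 2 - S ^ 2)) / (3 + (2 * S / (1 + X₁ ^ 2 - S ^ 2)) ^ 2))
    (a2 : 3.1416 * (7 / 40 - X₀ ^ 2 / 160) ≤
      3 * (2 * S / (1 + X₁ ^ 2 - S ^ 2)) / (3 + (2 * S / (1 + X₁ ^ 2 - S ^ 2)) ^ 2))
    (b1 : 3.14 * (c - 1 / 2 + 2 * (7 / 40 - X₀ ^ 2 / 160)) ≤ 3 * w / (3 + w ^ 2))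
    (b2 : 3.1416 * (c - 1 / 2 + 2 * (7 / 40 - X₀ ^ 2 / 160)) ≤ 3 * w / (3 + w ^ 2)) :
    7 / 40 - X ^ 2 / 160 ≤ mu S X ∧ 7 / 40 - X ^ 2 / 160 ≤ om S / 4 := by
  have hπ := pi_pos
  have x1 : X₀ ^ 2 ≤ X ^ 2 := by gcongr
  have x2 : X ^ 2 ≤ X₁ ^ 2 := by gcongr; linarith
  constructor
  · rw [mu, arctan_add (by nlinarith), le_div_iff₀ hπ]
    have p1 : 0 < 1 + X₁ ^ 2 - S ^ 2 := by linarith
    have p2 := (num_pi a1 a2).trans (num_pade (by positivity))
    have p3 : 2 * S / (1 + X₁ ^ 2 - S ^ 2) ≤ (S - X + (S + X)) / (1 - (S - X) * (S + X)) := by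
      rw [show S - X + (S + X) = 2 * S by ring]
      exact div_le_div_of_nonneg_left (by linarith) (by nlinarith) (by nlinarith)
    have p4 := arctan_mono p3
    nlinarith
  · have p2 := (num_pi b1 b2).trans (num_pade hw)
    have e : om S / 4 = (π / 4 - arctan (S / 2) / 2) / π := by
      rw [om]; field_simp; ring
    rw [e, le_div_iff₀ hπ, hc]
    nlinarith

theorem num_q {S : ℝ} (hS : 0 ≤ S) : arctan (S / 2) = 1 / 4 * π - arctan ((2 - S) / (2 + S)) := by
  have h : 0 < 2 + S := by linarith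
  have h1 : S / 2 * ((2 - S) / (2 + S)) < 1 := by
    rw [div_mul_div_comm, div_lt_one (by positivity)]
    nlinarith
  have h2 := arctan_add h1
  have h3 : (S / 2 + (2 - S) / (2 + S)) / (1 - S / 2 * ((2 - S) / (2 + S))) = 1 := by
    rw [div_eq_one_iff_eq (by linarith)]
    field_simp
    ring
  rw [h3, arctan_one] at h2
  linarith

theorem num_h {S : ℝ} (hS : 0 < S) : arctan (S / 2) = 1 / 2 * π - arctan (2 / S) := by
  have := arctan_inv_of_pos (x := S / 2) (by linarith)
  rw [inv_div] at this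
  linarith

theorem num_proof : NumStmt := by
  intro X h0 h6
  rcases le_total X 1.6 with h1 | h1
  · exact ⟨0.95, by norm_num, by norm_num, num_case le_rfl h0 h1 (by norm_num) (by norm_num)
      (by norm_num) (num_q (by norm_num)) (by norm_num) (by norm_num) (by norm_num) (by norm_num)⟩
  rcases le_total X 2.2 with h2 | h2
  · exact ⟨1.25, by norm_num, by norm_num, num_case (by norm_num) h1 h2 (by norm_num) (by norm_num)
      (by norm_num) (num_q (by norm_num)) (by norm_num) (by norm_num) (by norm_num) (by norm_num)⟩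
  rcases le_total X 2.6 with h3 | h3
  · exact ⟨1.5, by norm_num, by norm_num, num_case (by norm_num) h2 h3 (by norm_num) (by norm_num)
      (by norm_num) (num_q (by norm_num)) (by norm_num) (by norm_num) (by norm_num) (by norm_num)⟩
  rcases le_total X 3 with h4 | h4
  · exact ⟨1.75, by norm_num, by norm_num, num_case (by norm_num) h3 h4 (by norm_num) (by norm_num)
      (by norm_num) (num_q (by norm_num)) (by norm_num) (by norm_num) (by norm_num) (by norm_num)⟩
  rcases le_total X 3.6 with h5 | h5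
  · exact ⟨2, by norm_num, by norm_num, num_case (by norm_num) h4 h5 (by norm_num) (by norm_num)
      (by norm_num) (num_q (by norm_num)) (by norm_num) (by norm_num) (by norm_num) (by norm_num)⟩
  rcases le_total X 4.8 with h7 | h7
  · exact ⟨2.8, by norm_num, by norm_num, num_case (by norm_num) h5 h7 (by norm_num) (by norm_num)
      (by norm_num) (num_h (by norm_num)) (by norm_num) (by norm_num) (by norm_num) (by norm_num)⟩
  · exact ⟨4, by norm_num, by norm_num, num_case (by norm_num) h7 h6 (by norm_num) (by norm_num)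
      (by norm_num) (num_h (by norm_num)) (by norm_num) (by norm_num) (by norm_num) (by norm_num)⟩

end Crest.Agent.R300U
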