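import Crest.Agent.R300U.DefsA

/-!
Row 300, upper bound: phase retrieval (task PR), definitions and correctness.
-/

set_option autoImplicit false

namespace Crest.Agent.R300U

open Crest.Agent.R317 Finset

namespace PR

/-- Index of a maximum of `f` on `range n`. -/
def amax (n : ℕ) (f : ℕ → ℚ) : ℕ := Nat.rec 0 (fun i b => if f b ≤ f i then i else b) n

theorem amax_succ (n : ℕ) (f : ℕ → ℚ) :
    amax (n + 1) f = if f (amax n f) ≤ f n then n else amax n f := rfl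

theorem amax_le (n : ℕ) (f : ℕ → ℚ) : amax (n + 1) f ≤ n := by
  induction n with
  | zero => rw [amax_succ]; split_ifs <;> simp [amax]
  | succ n ih => rw [amax_succ]; split_ifs <;> omega

theorem amax_le' (n : ℕ) (f : ℕ → ℚ) : amax n f ≤ n := by
  cases n with
  | zero => simp [amax]
  | succ n => exact (amax_le n f).trans (Nat.le_succ n)

theorem amax_spec (n : ℕ) (f : ℕ → ℚ) : ∀ j < n, f j ≤ f (amax n f) := by
  induction n with
  | zero => intro j hj; omega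
  | succ n ih =>
    intro j hj
    rw [amax_succ]
    rcases Nat.lt_succ_iff_lt_or_eq.1 hj with h | h
    · split_ifs with h1
      · exact (ih j h).trans h1
      · exact ih j h
    · subst h
      split_ifs with h1
      · exact le_rfl
      · exact (not_le.1 h1).le

/-- Table look-up. -/
noncomputable def PP (J : ℕ) (tab : List GQ) (e0 e1 e2 e3 : ℕ) : GQ :=
  tab.getD (code4 (nQ J) e0 e1 e2 e3) 0

/-- Slot of the feature with index `i`. -/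
def s0 (i : ℕ) : ℕ := 3 * i

/-- Slot of the conjugate feature with index `i`. -/
def s1 (J i : ℕ) : ℕ := 1 + 3 * (2 * J - i)

/-- Slot of the constant one. -/
def s2 (J : ℕ) : ℕ := 2 + 3 * J

/-- Estimate of the squared modulus. -/
noncomputable def AA (J : ℕ) (tab : List GQ) (i : ℕ) : ℚ :=
  reQ (PP J tab (s0 i) (s1 J i) (s2 J) (s2 J))

/-- Lower estimate. -/
noncomputable def aa (J : ℕ) (ε : ℚ) (tab : List GQ) (i : ℕ) : ℚ := max (AA J tab i - ε) 0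

/-- Upper estimate. -/
noncomputable def UU (J : ℕ) (ε : ℚ) (tab : List GQ) (i : ℕ) : ℚ := AA J tab i + 2 * ε

/-- Best pair at shift `k η`. -/
noncomputable def jk (J η : ℕ) (ε : ℚ) (tab : List GQ) (k : ℕ) : ℕ :=
  amax (2 * J - k * η + 1) (fun j => aa J ε tab (j + k * η) * aa J ε tab j)

/-- Value of the best pair. -/
noncomputable def mm (J η : ℕ) (ε : ℚ) (tab : List GQ) (k : ℕ) : ℚ :=
  aa J ε tab (jk J η ε tab k + k * η) * aa J ε tab (jk J η ε tab k)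

/-- Worst shift up to `k`. -/
noncomputable def km (J η : ℕ) (ε : ℚ) (tab : List GQ) (k : ℕ) : ℕ :=
  amax (k + 1) (fun k' => -mm J η ε tab k')

/-- Value of the worst shift. -/
noncomputable def mu2 (J η : ℕ) (ε : ℚ) (tab : List GQ) (k : ℕ) : ℚ :=
  mm J η ε tab (km J η ε tab k)

/-- Links of the chain. -/
noncomputable def PC (J η : ℕ) (ε : ℚ) (tab : List GQ) (k : ℕ) : GQ :=
  if k = 0 then PP J tab (s0 (jk J η ε tab 0)) (s1 J (jk J η ε tab 0)) (s2 J) (s2 J)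
  else PP J tab (s0 (jk J η ε tab k + k * η)) (s1 J (jk J η ε tab k))
    (s1 J (jk J η ε tab (k - 1) + (k - 1) * η)) (s0 (jk J η ε tab (k - 1)))

/-- The chain. -/
noncomputable def TT (J η : ℕ) (ε : ℚ) (tab : List GQ) (k : ℕ) : GQ :=
  ∏ j ∈ range (k + 1), if (k - j) % 2 = 0 then PC J η ε tab j else (cj (PC J η ε tab j))⁻¹

/-- The shift used for the index `i`. -/
def kk (J η i : ℕ) : ℕ := (if J ≤ i then i - J else J - i) / η

/-- The estimate. -/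
noncomputable def ah (J η K : ℕ) (ε : ℚ) (tab : List GQ) (i : ℕ) : GQ :=
  if 16 * ((K : ℚ) + 1) ^ 2 * ε ≤ mu2 J η ε tab (kk J η i) then
    (if J ≤ i then
      PP J tab (s1 J (jk J η ε tab (kk J η i) + kk J η i * η)) (s0 (jk J η ε tab (kk J η i)))
        (s0 i) (s2 J) / cj (TT J η ε tab (kk J η i))
    else
      PP J tab (s0 (jk J η ε tab (kk J η i) + kk J η i * η)) (s1 J (jk J η ε tab (kk J η i)))
        (s0 i) (s2 J) / TT J η ε tab (kk J η i))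
  else 0

/-- The squared error bound. -/
noncomputable def ee (J η K : ℕ) (ε : ℚ) (tab : List GQ) (i : ℕ) : ℚ :=
  if 16 * ((K : ℚ) + 1) ^ 2 * ε ≤ mu2 J η ε tab (kk J η i) then
    16 * ((K : ℚ) + 1) ^ 2 * ε ^ 2 * (mu2 J η ε tab (kk J η i) + UU J ε tab i) /
      mu2 J η ε tab (kk J η i) ^ 2
  else UU J ε tab i

/-- The phase-retrieval procedure. -/
noncomputable def pr (x : ℕ × ℕ × ℕ × ℚ × List GQ) : List GQ × List ℚ :=
  (mkL (2 * x.1 + 1) (ah x.1 x.2.1 x.2.2.1 x.2.2.2.1 x.2.2.2.2),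
    mkL (2 * x.1 + 1) (ee x.1 x.2.1 x.2.2.1 x.2.2.2.1 x.2.2.2.2))

theorem TT_zero (J η : ℕ) (ε : ℚ) (tab : List GQ) : TT J η ε tab 0 = PC J η ε tab 0 := by
  simp [TT]

theorem TT_succ (J η : ℕ) (ε : ℚ) (tab : List GQ) (k : ℕ) :
    (TT J η ε tab (k + 1) : ℂ) =
      (PC J η ε tab (k + 1) : ℂ) / (starRingEnd ℂ) (TT J η ε tab k : ℂ) := by
  unfold TT
  rw [prod_range_succ _ (k + 1)]
  simp only [Nat.sub_self, Nat.zero_mod, if_true]
  push_cast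
  rw [map_prod, div_eq_mul_inv, ← prod_inv_distrib, mul_comm]
  congr 1
  refine prod_congr rfl fun j hj => ?_
  have hj' : j ≤ k := Nat.lt_succ_iff.1 (mem_range.1 hj)
  by_cases h : (k - j) % 2 = 0
  · have h' : ¬ (k + 1 - j) % 2 = 0 := by omega
    simp [h, h']
  · have h' : (k + 1 - j) % 2 = 0 := by omega
    simp [h, h']

/-! ### Slots -/

theorem frq_s0 (J i : ℕ) : frq J (s0 i) = (i : ℤ) - J := by
  unfold frq s0; congr 2; omega

theorem frq_s1 {J i : ℕ} (h : i ≤ 2 * J) : frq J (s1 J i) = (J : ℤ) - i := by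
  unfold frq s1; omega

theorem frq_s2 (J : ℕ) : frq J (s2 J) = 0 := by
  unfold frq s2; omega

theorem sv_s0 (J : ℕ) (α : ℤ → ℂ) (i : ℕ) : sv J α (s0 i) = α (i - J) := by
  unfold sv
  rw [if_pos (by unfold s0; omega), frq_s0]

theorem sv_s1 {J : ℕ} (α : ℤ → ℂ) {i : ℕ} (h : i ≤ 2 * J) :
    sv J α (s1 J i) = (starRingEnd ℂ) (α (i - J)) := by
  unfold sv
  rw [if_neg (by unfold s1; omega), if_pos (by unfold s1; omega), frq_s1 h, neg_sub]

theorem sv_s2 (J : ℕ) (α : ℤ → ℂ) : sv J α (s2 J) = 1 := by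
  unfold sv
  rw [if_neg (by unfold s2; omega), if_neg (by unfold s2; omega)]

/-- Admissible slot. -/
def Slot (J e : ℕ) : Prop := e < nQ J ∧ (e % 3 = 2 → frq J e = 0)

theorem slot_s0 {J i : ℕ} (h : i ≤ 2 * J) : Slot J (s0 i) :=
  ⟨by unfold s0 nQ; omega, fun h => by unfold s0 at h; omega⟩

theorem slot_s1 (J i : ℕ) : Slot J (s1 J i) :=
  ⟨by unfold s1 nQ; omega, fun h => by unfold s1 at h; omega⟩

theorem slot_s2 (J : ℕ) : Slot J (s2 J) := ⟨by unfold s2 nQ; omega, fun _ => frq_s2 J⟩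

theorem legit_of {J η e0 e1 e2 e3 : ℕ} (h0 : Slot J e0) (h1 : Slot J e1) (h2 : Slot J e2)
    (h3 : Slot J e3) (h : |frq J e0 + frq J e1 + frq J e2 + frq J e3| ≤ η) :
    Legit J η e0 e1 e2 e3 :=
  ⟨⟨h0.1, h1.1, h2.1, h3.1⟩, h, h0.2, h1.2, h2.2, h3.2⟩

/-! ### Error propagation -/

theorem quot_err {P T S b : ℂ} {ε d : ℝ} (hT : 0 < ‖T‖) (hd : d < 1) (hS : ‖S - T‖ ≤ d * ‖T‖)
    (hP : ‖P - T * b‖ ≤ ε) : ‖P / S - b‖ * ((1 - d) * ‖T‖) ≤ ε + d * ‖T‖ * ‖b‖ := by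
  have h1 : (1 - d) * ‖T‖ ≤ ‖S‖ := by
    have := norm_sub_norm_le T S
    rw [norm_sub_rev] at this
    linarith
  have h2 : 0 < ‖S‖ := lt_of_lt_of_le (mul_pos (by linarith) hT) h1
  have h3 : S ≠ 0 := norm_pos_iff.1 h2
  have h4 : (P / S - b) * S = (P - T * b) - (S - T) * b := by field_simp; ring
  calc ‖P / S - b‖ * ((1 - d) * ‖T‖) ≤ ‖P / S - b‖ * ‖S‖ :=
        mul_le_mul_of_nonneg_left h1 (norm_nonneg _)
    _ = ‖(P - T * b) - (S - T) * b‖ := by rw [← norm_mul, h4]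
    _ ≤ ‖P - T * b‖ + ‖S - T‖ * ‖b‖ := by rw [← norm_mul]; exact norm_sub_le _ _
    _ ≤ _ := add_le_add hP (mul_le_mul_of_nonneg_right hS (norm_nonneg _))

/-- The hypotheses of the task. -/
structure Hyp (J η K : ℕ) (ε : ℚ) (tab : List GQ) (α : ℤ → ℂ) : Prop where
  hη : 1 ≤ η
  hK : K * η = J
  hε : 0 < ε
  hε' : ε ≤ 1 / 16
  hα : ∀ θ : ℤ, |θ| ≤ J → ‖α θ‖ ≤ 1
  htab : ∀ e0 e1 e2 e3, Legit J η e0 e1 e2 e3 →
    ‖((tab.getD (code4 (nQ J) e0 e1 e2 e3) 0 : GQ) : ℂ) -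
      sv J α e0 * sv J α e1 * sv J α e2 * sv J α e3‖ ≤ ε

variable {J η K : ℕ} {ε : ℚ} {tab : List GQ} {α : ℤ → ℂ}

theorem Hyp.eps (H : Hyp J η K ε tab α) : (0 : ℝ) < ε ∧ (ε : ℝ) ≤ 1 / 16 :=
  ⟨by exact_mod_cast H.hε, by have := (Rat.cast_le (K := ℝ)).2 H.hε'; simpa using this⟩

theorem Hyp.norm_le (H : Hyp J η K ε tab α) {i : ℕ} (hi : i ≤ 2 * J) : ‖α (i - J)‖ ≤ 1 :=
  H.hα _ (abs_le.2 ⟨by omega, by omega⟩)

theorem Hyp.AA_err (H : Hyp J η K ε tab α) {i : ℕ} (hi : i ≤ 2 * J) :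
    |(AA J tab i : ℝ) - ‖α (i - J)‖ ^ 2| ≤ ε := by
  have h := H.htab _ _ _ _ (legit_of (η := η) (slot_s0 hi) (slot_s1 J i) (slot_s2 J) (slot_s2 J)
    (by rw [frq_s0, frq_s1 hi, frq_s2]; simp))
  rw [sv_s0, sv_s1 α hi, sv_s2, mul_one, mul_one, Complex.mul_conj, Complex.normSq_eq_norm_sq] at h
  refine le_trans ?_ ((Complex.abs_re_le_norm _).trans h)
  unfold AA PP
  rw [cast_reQ, Complex.sub_re, Complex.ofReal_re]

theorem Hyp.aa_bd (H : Hyp J η K ε tab α) {i : ℕ} (hi : i ≤ 2 * J) :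
    0 ≤ (aa J ε tab i : ℝ) ∧ (aa J ε tab i : ℝ) ≤ ‖α (i - J)‖ ^ 2 ∧
      ‖α (i - J)‖ ^ 2 ≤ aa J ε tab i + 2 * ε := by
  have h := abs_le.1 (H.AA_err hi)
  unfold aa
  push_cast
  refine ⟨le_max_right _ _, max_le (by linarith [h.2]) (sq_nonneg _), ?_⟩
  have := le_max_left ((AA J tab i : ℝ) - ε) 0
  linarith [h.1]

theorem Hyp.aa_le_one (H : Hyp J η K ε tab α) {i : ℕ} (hi : i ≤ 2 * J) :
    (aa J ε tab i : ℝ) ≤ 1 :=
  (H.aa_bd hi).2.1.trans (pow_le_one₀ (norm_nonneg _) (H.norm_le hi))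

theorem Hyp.UU_bd (H : Hyp J η K ε tab α) {i : ℕ} (hi : i ≤ 2 * J) :
    ‖α (i - J)‖ ^ 2 + ε ≤ UU J ε tab i ∧ (UU J ε tab i : ℝ) ≤ ‖α (i - J)‖ ^ 2 + 3 * ε := by
  have h := abs_le.1 (H.AA_err hi)
  unfold UU
  push_cast
  constructor <;> linarith [h.1, h.2]

theorem Hyp.shift_le (H : Hyp J η K ε tab α) {k : ℕ} (hk : k ≤ K) : k * η ≤ J :=
  H.hK ▸ Nat.mul_le_mul_right η hk

theorem Hyp.jk_le (H : Hyp J η K ε tab α) {k : ℕ} (hk : k ≤ K) :
    jk J η ε tab k + k * η ≤ 2 * J := by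
  have h1 := H.shift_le hk
  have h2 : jk J η ε tab k ≤ 2 * J - k * η := amax_le _ _
  omega

theorem jk_spec (J η : ℕ) (ε : ℚ) (tab : List GQ) (k j : ℕ) (hj : j + k * η ≤ 2 * J) :
    aa J ε tab (j + k * η) * aa J ε tab j ≤ mm J η ε tab k :=
  amax_spec _ (fun j => aa J ε tab (j + k * η) * aa J ε tab j) j (by omega)

theorem km_le (J η : ℕ) (ε : ℚ) (tab : List GQ) (k : ℕ) : km J η ε tab k ≤ k := amax_le _ _

theorem mu2_le (J η : ℕ) (ε : ℚ) (tab : List GQ) {k j : ℕ} (hj : j ≤ k) :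
    mu2 J η ε tab k ≤ mm J η ε tab j := by
  have := amax_spec (k + 1) (fun k' => -mm J η ε tab k') j (by omega)
  exact neg_le_neg_iff.1 this

theorem mu2_anti (J η : ℕ) (ε : ℚ) (tab : List GQ) {k j : ℕ} (hj : j ≤ k) :
    mu2 J η ε tab k ≤ mu2 J η ε tab j :=
  mu2_le J η ε tab ((km_le J η ε tab j).trans hj)

/-- The ideal chain. -/
noncomputable def TI (J η : ℕ) (ε : ℚ) (tab : List GQ) (α : ℤ → ℂ) (k : ℕ) : ℂ :=
  α ((jk J η ε tab k + k * η : ℕ) - J) * (starRingEnd ℂ) (α (jk J η ε tab k - J))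

theorem Hyp.mm_le (H : Hyp J η K ε tab α) {k : ℕ} (hk : k ≤ K) :
    (mm J η ε tab k : ℝ) ≤ ‖TI J η ε tab α k‖ ^ 2 ∧ (mm J η ε tab k : ℝ) ≤ 1 := by
  have h1 := H.jk_le hk
  have h2 : jk J η ε tab k ≤ 2 * J := by omega
  unfold mm TI
  rw [Rat.cast_mul, norm_mul, Complex.norm_conj, mul_pow]
  exact ⟨mul_le_mul (H.aa_bd h1).2.1 (H.aa_bd h2).2.1 (H.aa_bd h2).1 (sq_nonneg _),
    mul_le_one₀ (H.aa_le_one h1) (H.aa_bd h2).1 (H.aa_le_one h2)⟩

theorem Hyp.mu2_le_one (H : Hyp J η K ε tab α) {k : ℕ} (hk : k ≤ K) :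
    (mu2 J η ε tab k : ℝ) ≤ 1 :=
  (H.mm_le ((km_le J η ε tab k).trans hk)).2

theorem Hyp.PC_zero (H : Hyp J η K ε tab α) :
    ‖(PC J η ε tab 0 : ℂ) - TI J η ε tab α 0‖ ≤ ε := by
  have h1 : jk J η ε tab 0 ≤ 2 * J := by simpa using H.jk_le (Nat.zero_le K)
  have h := H.htab _ _ _ _ (legit_of (η := η) (slot_s0 h1) (slot_s1 J (jk J η ε tab 0))
    (slot_s2 J) (slot_s2 J) (by rw [frq_s0, frq_s1 h1, frq_s2]; simp))
  rw [sv_s0, sv_s1 α h1, sv_s2, mul_one, mul_one] at h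
  simpa [PC, PP, TI] using h

theorem Hyp.PC_succ (H : Hyp J η K ε tab α) {k : ℕ} (hk : k + 1 ≤ K) :
    ‖(PC J η ε tab (k + 1) : ℂ) -
      (starRingEnd ℂ) (TI J η ε tab α k) * TI J η ε tab α (k + 1)‖ ≤ ε := by
  have h1 := H.jk_le hk
  have h2 : jk J η ε tab (k + 1) ≤ 2 * J := by omega
  have h3 := H.jk_le (show k ≤ K by omega)
  have h4 : jk J η ε tab k ≤ 2 * J := by omega
  have h := H.htab _ _ _ _ (legit_of (η := η) (slot_s0 h1) (slot_s1 J (jk J η ε tab (k + 1)))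
    (slot_s1 J (jk J η ε tab k + k * η)) (slot_s0 h4) (by
      rw [frq_s0, frq_s1 h2, frq_s1 h3, frq_s0]
      push_cast
      rw [abs_le]
      constructor <;> nlinarith))
  rw [sv_s0, sv_s1 α h2, sv_s1 α h3, sv_s0] at h
  have e1 : PC J η ε tab (k + 1) = tab.getD (code4 (nQ J)
      (s0 (jk J η ε tab (k + 1) + (k + 1) * η)) (s1 J (jk J η ε tab (k + 1)))
      (s1 J (jk J η ε tab k + k * η)) (s0 (jk J η ε tab k))) 0 := by simp [PC, PP]
  rw [e1]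
  convert h using 3
  simp only [TI, map_mul, Complex.conj_conj]
  ring

theorem sq_bd {μ t : ℝ} (hμ : 0 < μ) (hμ1 : μ ≤ 1) (ht : 0 ≤ t) (h : μ ≤ t ^ 2) : μ ≤ t := by
  by_contra hc
  have := not_le.1 hc
  nlinarith

theorem mul_bd {μ s t : ℝ} (hμ : 0 < μ) (hs : 0 ≤ s) (ht : 0 ≤ t) (h1 : μ ≤ s ^ 2)
    (h2 : μ ≤ t ^ 2) : μ ≤ s * t := by
  have : μ ^ 2 ≤ (s * t) ^ 2 := by rw [mul_pow, sq μ]; exact mul_le_mul h1 h2 hμ.le (sq_nonneg _)
  exact (pow_le_pow_iff_left₀ hμ.le (mul_nonneg hs ht) two_ne_zero).1 this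

theorem Hyp.chain (H : Hyp J η K ε tab α) {k : ℕ} (hk : k ≤ K) {μ : ℝ}
    (hg : 16 * ((K : ℝ) + 1) ^ 2 * ε ≤ μ) (hμ : μ ≤ mu2 J η ε tab k) :
    ∀ j ≤ k, ‖(TT J η ε tab j : ℂ) - TI J η ε tab α j‖ ≤
      2 * (j + 1) * (ε / μ) * ‖TI J η ε tab α j‖ := by
  obtain ⟨e0, e1⟩ := H.eps
  have hK0 : (0 : ℝ) ≤ K := Nat.cast_nonneg K
  have hμ0 : 0 < μ := lt_of_lt_of_le (by positivity) hg
  have hμ1 : μ ≤ 1 := hμ.trans (H.mu2_le_one hk)
  have hT : ∀ j ≤ k, μ ≤ ‖TI J η ε tab α j‖ ^ 2 := fun j hj =>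
    hμ.trans (((Rat.cast_le (K := ℝ)).2 (mu2_le J η ε tab hj)).trans (H.mm_le (hj.trans hk)).1)
  set x := (ε : ℝ) / μ with hx
  have hx0 : 0 < x := by positivity
  have hx1 : 16 * ((K : ℝ) + 1) ^ 2 * x ≤ 1 := by
    rw [hx, ← mul_div_assoc, div_le_one hμ0]; exact hg
  have hεx : (ε : ℝ) = x * μ := by rw [hx]; field_simp
  intro j
  induction j with
  | zero =>
    intro hj
    rw [TT_zero]
    have h1 := sq_bd hμ0 hμ1 (norm_nonneg _) (hT 0 hj)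
    have h2 := H.PC_zero
    simp only [Nat.cast_zero, zero_add, mul_one]
    nlinarith
  | succ j ih =>
    intro hj
    have ih' := ih (by omega)
    have hjK : (j : ℝ) + 1 ≤ K := by exact_mod_cast hj.trans hk
    have hj0 : (0 : ℝ) ≤ j := Nat.cast_nonneg j
    have h1 := sq_bd hμ0 hμ1 (norm_nonneg _) (hT j (by omega))
    have h2 := mul_bd hμ0 (norm_nonneg _) (norm_nonneg _) (hT j (by omega)) (hT (j + 1) hj)
    have hd : 4 * (j + 2) * (j + 1) * x ≤ 1 := by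
      refine le_trans (mul_le_mul_of_nonneg_right ?_ hx0.le) hx1
      nlinarith
    have hd' : 2 * (j + 1) * x < 1 := by nlinarith
    have key := quot_err (P := (PC J η ε tab (j + 1) : ℂ))
      (T := (starRingEnd ℂ) (TI J η ε tab α j)) (S := (starRingEnd ℂ) (TT J η ε tab j : ℂ))
      (b := TI J η ε tab α (j + 1)) (ε := ε) (d := 2 * (j + 1) * x)
      (by rw [Complex.norm_conj]; linarith) hd'
      (by rw [← map_sub, Complex.norm_conj, Complex.norm_conj]; exact ih') (H.PC_succ (hj.trans hk))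
    rw [Complex.norm_conj, ← TT_succ] at key
    set s := ‖TI J η ε tab α j‖
    set t := ‖TI J η ε tab α (j + 1)‖
    have hs : 0 < s := by linarith
    have ht : 0 ≤ t := norm_nonneg _
    refine le_of_mul_le_mul_right (key.trans ?_) (mul_pos (by linarith) hs)
    push_cast
    have h3 : (ε : ℝ) ≤ x * (s * t) := by rw [hεx]; exact mul_le_mul_of_nonneg_left h2 hx0.le
    have h4 : 0 ≤ x * (s * t) := by positivity
    have h5 := mul_le_mul_of_nonneg_left hd h4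
    nlinarith

theorem out_err {E s b x μ U ε c : ℝ} (hE : 0 ≤ E) (hμ : 0 < μ) (hs : μ ≤ s ^ 2) (hs0 : 0 < s)
    (hU : b ^ 2 ≤ U) (hε : 0 < ε) (hc : 1 ≤ c) (hx : x = ε / μ)
    (hg : 16 * c ^ 2 * x ≤ 1)
    (key : E * ((1 - 2 * c * x) * s) ≤ ε + 2 * c * x * s * b) :
    E ^ 2 ≤ 16 * c ^ 2 * ε ^ 2 * (μ + U) / μ ^ 2 := by
  have hx0 : 0 < x := by rw [hx]; positivity
  have hεx : ε = x * μ := by rw [hx]; field_simp
  have h1 : 2 * c * x ≤ 1 / 8 := by nlinarith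
  have h2 : E * (7 / 8 * s) ≤ ε + 2 * c * x * s * b := by
    refine le_trans (mul_le_mul_of_nonneg_left ?_ hE) key
    nlinarith
  have h3 : (E * (7 / 8 * s)) ^ 2 ≤ (ε + 2 * c * x * s * b) ^ 2 :=
    pow_le_pow_left₀ (by positivity) h2 2
  have h4 : (ε + 2 * c * x * s * b) ^ 2 ≤ 2 * ε ^ 2 + 2 * (2 * c * x * s * b) ^ 2 := by
    nlinarith [sq_nonneg (ε - 2 * c * x * s * b)]
  have h5 : 16 * c ^ 2 * ε ^ 2 * (μ + U) / μ ^ 2 = 16 * c ^ 2 * x ^ 2 * (μ + U) := by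
    rw [hεx]; field_simp
  rw [h5]
  have h6 : ε ^ 2 ≤ c ^ 2 * x ^ 2 * μ * s ^ 2 := by
    rw [hεx]
    have : 1 ≤ c ^ 2 := one_le_pow₀ hc
    have h7 : x ^ 2 * μ * μ ≤ x ^ 2 * μ * s ^ 2 := mul_le_mul_of_nonneg_left hs (by positivity)
    have h8 : 1 * (x ^ 2 * μ * s ^ 2) ≤ c ^ 2 * (x ^ 2 * μ * s ^ 2) :=
      mul_le_mul_of_nonneg_right this (by positivity)
    nlinarith
  have h9 : (2 * c * x * s * b) ^ 2 ≤ 4 * (c ^ 2 * x ^ 2 * s ^ 2) * U := by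
    have : (2 * c * x * s * b) ^ 2 = 4 * (c ^ 2 * x ^ 2 * s ^ 2) * b ^ 2 := by ring
    rw [this]
    exact mul_le_mul_of_nonneg_left hU (by positivity)
  have hU0 : 0 ≤ U := (sq_nonneg b).trans hU
  refine le_of_mul_le_mul_right ?_ (show 0 < s ^ 2 by positivity)
  have p1 : 0 ≤ c ^ 2 * x ^ 2 * μ * s ^ 2 := by positivity
  have p2 : 0 ≤ (c ^ 2 * x ^ 2 * s ^ 2) * U := by positivity
  nlinarith

theorem Hyp.kk_le (H : Hyp J η K ε tab α) {i : ℕ} (hi : i ≤ 2 * J) : kk J η i ≤ K := by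
  unfold kk
  refine Nat.div_le_of_le_mul ?_
  rw [mul_comm, H.hK]
  split_ifs <;> omega

theorem Hyp.kk_spec (H : Hyp J η K ε tab α) (i : ℕ) :
    kk J η i * η ≤ (if J ≤ i then i - J else J - i) ∧
      (if J ≤ i then i - J else J - i) < kk J η i * η + η :=
  ⟨Nat.div_mul_le_self _ _, Nat.lt_div_mul_add H.hη⟩

theorem Hyp.good (H : Hyp J η K ε tab α) {i : ℕ} (hi : i ≤ 2 * J)
    (hg : 16 * ((K : ℚ) + 1) ^ 2 * ε ≤ mu2 J η ε tab (kk J η i)) :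
    ‖(ah J η K ε tab i : ℂ) - α (i - J)‖ ^ 2 ≤ ee J η K ε tab i := by
  obtain ⟨e0, e1⟩ := H.eps
  have hk := H.kk_le hi
  have hks := H.kk_spec i
  unfold ah ee
  rw [if_pos hg, if_pos hg]
  generalize kk J η i = k at *
  have hg' : 16 * ((K : ℝ) + 1) ^ 2 * ε ≤ mu2 J η ε tab k := by exact_mod_cast hg
  have hK0 : (0 : ℝ) ≤ K := Nat.cast_nonneg K
  have hμ0 : (0 : ℝ) < mu2 J η ε tab k := lt_of_lt_of_le (by positivity) hg'
  have hT : (mu2 J η ε tab k : ℝ) ≤ ‖TI J η ε tab α k‖ ^ 2 :=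
    ((Rat.cast_le (K := ℝ)).2 (mu2_le J η ε tab le_rfl)).trans (H.mm_le hk).1
  have hT0 : 0 < ‖TI J η ε tab α k‖ :=
    lt_of_lt_of_le hμ0 (sq_bd hμ0 (H.mu2_le_one hk) (norm_nonneg _) hT)
  have hx0 : 0 < (ε : ℝ) / mu2 J η ε tab k := by positivity
  have hx1 : 16 * ((K : ℝ) + 1) ^ 2 * (ε / mu2 J η ε tab k) ≤ 1 := by
    rw [← mul_div_assoc, div_le_one hμ0]; exact hg'
  have hch : ‖(TT J η ε tab k : ℂ) - TI J η ε tab α k‖ ≤
      2 * (K + 1) * (ε / mu2 J η ε tab k) * ‖TI J η ε tab α k‖ := by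
    refine (H.chain hk hg' le_rfl k le_rfl).trans ?_
    have : (k : ℝ) ≤ K := by exact_mod_cast hk
    gcongr
  have hd : 2 * ((K : ℝ) + 1) * (ε / mu2 J η ε tab k) < 1 := by nlinarith
  have hU : ‖α (i - J)‖ ^ 2 ≤ UU J ε tab i := by linarith [(H.UU_bd hi).1]
  have h1 := H.jk_le hk
  have h2 : jk J η ε tab k ≤ 2 * J := by omega
  push_cast
  refine out_err (norm_nonneg _) hμ0 hT hT0 hU e0 (by linarith) rfl hx1 ?_
  split_ifs at hks ⊢ with hJ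
  · have h := H.htab _ _ _ _ (legit_of (η := η) (slot_s1 J (jk J η ε tab k + k * η)) (slot_s0 h2)
      (slot_s0 hi) (slot_s2 J) (by
        rw [frq_s1 h1, frq_s0, frq_s0, frq_s2, abs_le]
        constructor <;> omega))
    rw [sv_s1 α h1, sv_s0, sv_s0, sv_s2, mul_one] at h
    have key := quot_err (T := (starRingEnd ℂ) (TI J η ε tab α k))
      (S := (starRingEnd ℂ) (TT J η ε tab k : ℂ)) (b := α (i - J)) (ε := ε)
      (P := (PP J tab (s1 J (jk J η ε tab k + k * η)) (s0 (jk J η ε tab k)) (s0 i) (s2 J) : ℂ))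
      (by rw [Complex.norm_conj]; exact hT0) hd
      (by rw [← map_sub, Complex.norm_conj, Complex.norm_conj]; exact hch)
      (by simpa only [TI, map_mul, Complex.conj_conj, PP] using h)
    rw [Complex.norm_conj] at key
    simpa using key
  · have h := H.htab _ _ _ _ (legit_of (η := η) (slot_s0 h1) (slot_s1 J (jk J η ε tab k))
      (slot_s0 hi) (slot_s2 J) (by
        rw [frq_s1 h2, frq_s0, frq_s0, frq_s2, abs_le]
        constructor <;> omega))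
    rw [sv_s1 α h2, sv_s0, sv_s0, sv_s2, mul_one] at h
    have key := quot_err (T := TI J η ε tab α k) (S := (TT J η ε tab k : ℂ)) (b := α (i - J))
      (ε := ε)
      (P := (PP J tab (s0 (jk J η ε tab k + k * η)) (s1 J (jk J η ε tab k)) (s0 i) (s2 J) : ℂ))
      hT0 hd hch (by simpa only [TI, PP] using h)
    simpa using key

theorem Hyp.part1 (H : Hyp J η K ε tab α) {i : ℕ} (hi : i ≤ 2 * J) :
    (ε : ℝ) ^ 2 ≤ ee J η K ε tab i ∧
    ‖(ah J η K ε tab i : ℂ) - α (i - J)‖ ^ 2 ≤ ee J η K ε tab i ∧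
    (ee J η K ε tab i : ℝ) ≤ 2 * (‖α (i - J)‖ ^ 2 + 3 * ε) := by
  obtain ⟨e0, e1⟩ := H.eps
  obtain ⟨u0, u1⟩ := H.UU_bd hi
  have hb := sq_nonneg ‖α (i - J)‖
  by_cases hg : 16 * ((K : ℚ) + 1) ^ 2 * ε ≤ mu2 J η ε tab (kk J η i)
  · refine ⟨?_, H.good hi hg, ?_⟩
    all_goals
      have hg' : 16 * ((K : ℝ) + 1) ^ 2 * ε ≤ mu2 J η ε tab (kk J η i) := by exact_mod_cast hg
      have hK0 : (0 : ℝ) ≤ K := Nat.cast_nonneg K
      have hμ0 : (0 : ℝ) < mu2 J η ε tab (kk J η i) := lt_of_lt_of_le (by positivity) hg'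
      have hμ1 := H.mu2_le_one (H.kk_le hi)
      have hc : 16 ≤ 16 * ((K : ℝ) + 1) ^ 2 := by nlinarith
      unfold ee
      rw [if_pos hg]
      push_cast
      generalize (mu2 J η ε tab (kk J η i) : ℝ) = μ at *
      generalize 16 * ((K : ℝ) + 1) ^ 2 = c at *
      generalize (UU J ε tab i : ℝ) = U at *
    · rw [le_div_iff₀ (by positivity)]
      have h1 : μ ^ 2 ≤ c * (μ + U) := by nlinarith
      have := mul_le_mul_of_nonneg_left h1 (sq_nonneg (ε : ℝ))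
      linarith
    · rw [div_le_iff₀ (by positivity)]
      have hU : 0 < U := by linarith
      have h0 : (ε : ℝ) ≤ μ := by nlinarith
      have h1 : c * ε * (ε * (μ + U)) ≤ μ * (ε * (μ + U)) :=
        mul_le_mul_of_nonneg_right hg' (by positivity)
      have h2 : ε * μ ≤ U * μ := mul_le_mul_of_nonneg_right (by linarith) hμ0.le
      have h3 : ε * U ≤ μ * U := mul_le_mul_of_nonneg_right h0 hU.le
      have h4 : μ * (ε * (μ + U)) ≤ μ * (2 * U * μ) :=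
        mul_le_mul_of_nonneg_left (by nlinarith) hμ0.le
      have h5 : 2 * U * μ ^ 2 ≤ 2 * (‖α (i - J)‖ ^ 2 + 3 * ε) * μ ^ 2 :=
        mul_le_mul_of_nonneg_right (by linarith) (sq_nonneg _)
      nlinarith
  · unfold ah ee
    rw [if_neg hg, if_neg hg]
    refine ⟨by nlinarith, ?_, by linarith⟩
    simp only [ZeroMemClass.coe_zero, zero_sub, norm_neg]
    linarith

theorem Hyp.part2a (H : Hyp J η K ε tab α) {i kS : ℕ} (hi : i ≤ 2 * J) (hk : kk J η i ≤ kS)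
    {N : ℝ} (hN : N = max (mu2 J η ε tab kS : ℝ) ε) :
    (ee J η K ε tab i : ℝ) ≤
      2 * (16 * (K + 1) ^ 2 * ε / N) ^ 2 * (N + ‖α (i - J)‖ ^ 2 + 3 * ε) := by
  obtain ⟨e0, e1⟩ := H.eps
  obtain ⟨u0, u1⟩ := H.UU_bd hi
  have hb := sq_nonneg ‖α (i - J)‖
  have hK0 : (0 : ℝ) ≤ K := Nat.cast_nonneg K
  have hc : 16 ≤ 16 * ((K : ℝ) + 1) ^ 2 := by nlinarith
  have ha : (mu2 J η ε tab kS : ℝ) ≤ mu2 J η ε tab (kk J η i) :=
    (Rat.cast_le (K := ℝ)).2 (mu2_anti J η ε tab hk)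
  have hN0 : (ε : ℝ) ≤ N := hN ▸ le_max_right _ _
  have hN1 : 0 < N := by linarith
  unfold ee
  split_ifs with hg
  · have hg' : 16 * ((K : ℝ) + 1) ^ 2 * ε ≤ mu2 J η ε tab (kk J η i) := by exact_mod_cast hg
    have hNμ : N ≤ mu2 J η ε tab (kk J η i) := hN ▸ max_le ha (by nlinarith)
    push_cast
    generalize (mu2 J η ε tab (kk J η i) : ℝ) = μ at *
    generalize 16 * ((K : ℝ) + 1) ^ 2 = c at *
    generalize (UU J ε tab i : ℝ) = U at *
    have hμ : 0 < μ := by linarith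
    have hU : 0 < U := by linarith
    have h1 : (μ + U) / μ ^ 2 ≤ (N + U) / N ^ 2 := by
      have a1 : (μ + U) / μ ^ 2 = 1 / μ + U / μ ^ 2 := by field_simp
      have a2 : (N + U) / N ^ 2 = 1 / N + U / N ^ 2 := by field_simp
      rw [a1, a2]
      gcongr
    calc c * ε ^ 2 * (μ + U) / μ ^ 2 = c * ε ^ 2 * ((μ + U) / μ ^ 2) := by ring
      _ ≤ (2 * c ^ 2) * ε ^ 2 * ((N + (‖α (i - J)‖ ^ 2 + 3 * ε)) / N ^ 2) := by
          refine mul_le_mul (mul_le_mul_of_nonneg_right (by nlinarith) (sq_nonneg _))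
            (h1.trans (by gcongr)) (by positivity) (by positivity)
      _ = _ := by ring
  · have hg' : (mu2 J η ε tab (kk J η i) : ℝ) < 16 * ((K : ℝ) + 1) ^ 2 * ε := by
      exact_mod_cast not_le.1 hg
    have hNc : N ≤ 16 * ((K : ℝ) + 1) ^ 2 * ε := hN ▸ max_le (by linarith) (by nlinarith)
    have h1 : 1 ≤ (16 * ((K : ℝ) + 1) ^ 2 * ε / N) ^ 2 :=
      one_le_pow₀ ((one_le_div hN1).2 hNc)
    nlinarith

theorem Hyp.part2b (H : Hyp J η K ε tab α) {j k : ℕ} (hj : j + k * η ≤ 2 * J) {N : ℝ}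
    (h1 : (mm J η ε tab k : ℝ) ≤ N) (h2 : (ε : ℝ) ≤ N) :
    (‖α ((j + k * η : ℕ) - J)‖ ^ 2 + 3 * ε) * (‖α (j - J)‖ ^ 2 + 3 * ε) ≤ 20 * N := by
  obtain ⟨e0, e1⟩ := H.eps
  have hj' : j ≤ 2 * J := by omega
  obtain ⟨a0, -, a1⟩ := H.aa_bd hj
  obtain ⟨b0, -, b1⟩ := H.aa_bd hj'
  have a2 := H.aa_le_one hj
  have b2 := H.aa_le_one hj'
  have h3 : (aa J ε tab (j + k * η) : ℝ) * aa J ε tab j ≤ mm J η ε tab k := by
    exact_mod_cast jk_spec J η ε tab k j hj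
  calc _ ≤ ((aa J ε tab (j + k * η) : ℝ) + 5 * ε) * (aa J ε tab j + 5 * ε) :=
        mul_le_mul (by linarith) (by linarith) (by positivity) (by positivity)
    _ ≤ _ := by nlinarith

theorem Hyp.good_all (H : Hyp J η K ε tab α) :
    PRGood J η K ε α (fun θ => (((pr (J, η, K, ε, tab)).1.getD (θ + J).toNat 0 : GQ) : ℂ))
      (fun θ => (((pr (J, η, K, ε, tab)).2.getD (θ + J).toNat 0 : ℚ) : ℝ)) := by
  obtain ⟨e0, e1⟩ := H.eps
  have idx : ∀ θ : ℤ, |θ| ≤ J → ∃ i : ℕ, i ≤ 2 * J ∧ θ = i - J ∧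
      (pr (J, η, K, ε, tab)).1.getD (θ + J).toNat 0 = ah J η K ε tab i ∧
      (pr (J, η, K, ε, tab)).2.getD (θ + J).toNat 0 = ee J η K ε tab i := by
    intro θ hθ
    have := abs_le.1 hθ
    have h1 : (θ + J).toNat < 2 * J + 1 := by omega
    exact ⟨(θ + J).toNat, by omega, by omega, getD_mkL _ _ h1, getD_mkL _ _ h1⟩
  refine ⟨fun θ hθ => ?_, fun kS hkS => ?_⟩
  · obtain ⟨i, hi, h0, h1, h2⟩ := idx θ hθ
    simp only [h1, h2]
    subst h0
    exact H.part1 hi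
  · set N : ℝ := max (mu2 J η ε tab kS : ℝ) ε with hN
    have hN0 : (ε : ℝ) ≤ N := le_max_right _ _
    have hN1 : 0 < N := by linarith
    have hN2 : N ≤ 1 := max_le (H.mu2_le_one hkS) (by linarith)
    have hsq : √N ^ 2 = N := Real.sq_sqrt hN1.le
    refine ⟨√N, Real.sqrt_pos.2 hN1, Real.sqrt_le_one.2 hN2, by rwa [hsq], km J η ε tab kS,
      km_le _ _ _ _ _, fun θ hθ hθ' => ?_, fun θ hθ hθ' => ?_⟩
    · obtain ⟨i, hi, h0, -, h2⟩ := idx θ hθ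
      simp only [h2]
      subst h0
      rw [hsq]
      refine H.part2a hi ?_ hN
      unfold kk
      refine Nat.lt_succ_iff.1 (Nat.div_lt_of_lt_mul ?_)
      rw [Nat.succ_eq_add_one]
      have h3 : ((η * (kS + 1) : ℕ) : ℤ) = (kS + 1) * η := by push_cast; ring
      have := abs_lt.1 hθ'
      split_ifs <;> omega
    · rw [hsq]
      generalize hk : km J η ε tab kS = k at *
      have h3 : ((k * η : ℕ) : ℤ) = k * η := by push_cast; ring
      obtain ⟨j, hj⟩ : ∃ j : ℕ, θ = (j + k * η : ℕ) - J := ⟨(θ + J - k * η).toNat, by omega⟩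
      have h4 : θ - k * η = j - J := by omega
      rw [h4, hj]
      refine H.part2b (by omega) ?_ hN0
      rw [← hk]
      exact le_max_left _ _

end PR

end Crest.Agent.R300U
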