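import Crest.Agent.R300U.VAL

/-!
Row 300, upper bound: task TRANS, definitions and polynomial time.
-/

set_option autoImplicit false

namespace Crest.Agent.R300U.Trans

open Crest.Agent.PT Crest.Agent.QC Crest.Agent.R317 Finset

variable {α : Type} [Enc α]

/-- `x I + y A`. -/
noncomputable def lin (x y : ℚ) (a : FA) : FA :=
  FA.mk a.d (fun σ i j => (if i = j then (x : GQ) else 0) + (y : GQ) * a.gA σ i j)
    (fun _ => 0) (fun _ => 0)

/-- Matrix product. -/
noncomputable def mul (a b : FA) : FA :=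
  FA.mk a.d (fun σ i j => ∑ l ∈ range a.d, a.gA σ i l * b.gA σ l j) (fun _ => 0) (fun _ => 0)

/-- The automaton from state `j` to state `i`. -/
noncomputable def ent (a : FA) (i j : ℕ) : FA :=
  FA.mk a.d (fun σ s t => a.gA σ s t) (fun l => if l = j then 1 else 0)
    (fun l => if l = i then 1 else 0)

/-- Matrix power. -/
noncomputable def pw (a : FA) (k : ℕ) : FA :=
  FA.mk a.d (fun σ i j => (ent a i j).val (List.replicate k σ)) (fun _ => 0) (fun _ => 0)

/-- Scaled geometric sum. -/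
noncomputable def geo (c : ℚ) (a : FA) (K : ℕ) : FA :=
  FA.mk a.d (fun σ i j => (c : GQ) * ∑ k ∈ range K, (pw a k).gA σ i j) (fun _ => 0) (fun _ => 0)

@[fun_prop] theorem pt_lin {x y : α → ℚ} {a : α → FA} (hx : PT x) (hy : PT y) (ha : PT a) :
    PT (fun z => lin (x z) (y z) (a z)) := by
  unfold lin; fun_prop

@[fun_prop] theorem pt_mul {a b : α → FA} (ha : PT a) (hb : PT b) :
    PT (fun z => mul (a z) (b z)) := by
  unfold mul; fun_prop

@[fun_prop] theorem pt_ent {a : α → FA} {i j : α → ℕ} (ha : PT a) (hi : PT i) (hj : PT j) :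
    PT (fun z => ent (a z) (i z) (j z)) := by
  unfold ent; fun_prop

@[fun_prop] theorem pt_pw {a : α → FA} {k : α → ℕ} (ha : PT a) (hk : PT k) :
    PT (fun z => pw (a z) (k z)) := by
  unfold pw; fun_prop

@[fun_prop] theorem pt_geo {c : α → ℚ} {a : α → FA} {k : α → ℕ} (hc : PT c) (ha : PT a)
    (hk : PT k) : PT (fun z => geo (c z) (a z) (k z)) := by
  unfold geo; fun_prop

/-- `q / p`. -/
def kk (p : ℚ) : ℚ := (1 - p) / p

/-- Ratio of the Neumann series. -/
def gg (p : ℚ) : ℚ := (kk p - 1 / 6) / (kk p + 5 / 6)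

/-- The evaluation point. -/
def ww (p : ℚ) : ℚ := -(kk p - 1 / 6) / (kk p + 1 / 6)

@[fun_prop] theorem pt_kk {p : α → ℚ} (hp : PT p) : PT (fun z => kk (p z)) := by
  unfold kk; fun_prop

@[fun_prop] theorem pt_gg {p : α → ℚ} (hp : PT p) : PT (fun z => gg (p z)) := by
  unfold gg; fun_prop

@[fun_prop] theorem pt_ww {p : α → ℚ} (hp : PT p) : PT (fun z => ww (p z)) := by
  unfold ww; fun_prop

/-- `Δ`. -/
noncomputable def mD (S : ℚ) (a : FA) : FA := lin 1 (-S) a

/-- The approximate inverse. -/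
noncomputable def mG (p S : ℚ) (D : ℕ) (a : FA) : FA :=
  geo (1 - gg p) (lin (gg p) (-gg p) (mD S a)) (D * D)

/-- `E`. -/
noncomputable def mE (p S : ℚ) (D : ℕ) (a : FA) : FA :=
  mul (mG p S D a) (lin 1 (-(kk p + 1 / 6)) (mD S a))

/-- `Δ Eᵉ G`. -/
noncomputable def mB (p S : ℚ) (D : ℕ) (a : FA) (e : ℕ) : FA :=
  mul (mD S a) (mul (pw (mE p S D a) e) (mG p S D a))

@[fun_prop] theorem pt_mD {S : α → ℚ} {a : α → FA} (hS : PT S) (ha : PT a) :
    PT (fun z => mD (S z) (a z)) := by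
  unfold mD; fun_prop

@[fun_prop] theorem pt_mG {p S : α → ℚ} {D : α → ℕ} {a : α → FA} (hp : PT p) (hS : PT S)
    (hD : PT D) (ha : PT a) : PT (fun z => mG (p z) (S z) (D z) (a z)) := by
  unfold mG; fun_prop

@[fun_prop] theorem pt_mE {p S : α → ℚ} {D : α → ℕ} {a : α → FA} (hp : PT p) (hS : PT S)
    (hD : PT D) (ha : PT a) : PT (fun z => mE (p z) (S z) (D z) (a z)) := by
  unfold mE; fun_prop

@[fun_prop] theorem pt_mB {p S : α → ℚ} {D e : α → ℕ} {a : α → FA} (hp : PT p) (hS : PT S)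
    (hD : PT D) (ha : PT a) (he : PT e) : PT (fun z => mB (p z) (S z) (D z) (a z) (e z)) := by
  unfold mB; fun_prop

/-- Block row of the map `x ↦ Δ u j`. -/
noncomputable def bm (p S : ℚ) (D : ℕ) (a : FA) (σ : Bool) (j i t : ℕ) : GQ :=
  if t / a.d < j then (mB p S D a (j - 1 - t / a.d)).gA σ i (t % a.d) else 0

@[fun_prop] theorem pt_bm {p S : α → ℚ} {D j i t : α → ℕ} {a : α → FA} {σ : α → Bool} (hp : PT p)
    (hS : PT S) (hD : PT D) (ha : PT a) (hσ : PT σ) (hj : PT j) (hi : PT i) (ht : PT t) :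
    PT (fun z => bm (p z) (S z) (D z) (a z) (σ z) (j z) (i z) (t z)) := by
  unfold bm; fun_prop

/-- The block Toeplitz automaton. -/
noncomputable def chB (p S : ℚ) (D : ℕ) (a : FA) : FA :=
  FA.mk (D * a.d) (fun σ s t => (if s = t then 1 else 0) - ((1 + kk p : ℚ) : GQ) *
      (bm p S D a σ (s / a.d + 1) (s % a.d) t - bm p S D a σ (s / a.d) (s % a.d) t))
    (fun s => a.gh s) (fun s => ((ww p ^ (s / a.d) : ℚ) : GQ) * a.gc (s % a.d))

/-- The direct inverse of the channel. -/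
noncomputable def chA (p S : ℚ) (a : FA) : FA :=
  FA.mk a.d (fun σ i j => (if i = j then ((-(1 - p) / p : ℚ) : GQ) else 0) +
      ((S / p : ℚ) : GQ) * a.gA σ i j) (fun s => a.gh s) (fun s => a.gc s)

@[fun_prop] theorem pt_chB {p S : α → ℚ} {D : α → ℕ} {a : α → FA} (hp : PT p) (hS : PT S)
    (hD : PT D) (ha : PT a) : PT (fun z => chB (p z) (S z) (D z) (a z)) := by
  unfold chB; fun_prop

@[fun_prop] theorem pt_chA {p S : α → ℚ} {a : α → FA} (hp : PT p) (hS : PT S) (ha : PT a) :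
    PT (fun z => chA (p z) (S z) (a z)) := by
  unfold chA; fun_prop

/-- The channel transfer. -/
noncomputable def chan (x : ℚ × ℚ × ℕ × FA) : FA :=
  if 3 / 4 ≤ x.1 then chA x.1 x.2.1 x.2.2.2 else chB x.1 x.2.1 x.2.2.1 x.2.2.2

theorem pt_chan : PT chan := by
  unfold chan; fun_prop

end Crest.Agent.R300U.Trans
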