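import Mathlib

/-!
Row 300, upper bound: task TRANS, the Hilbert-space estimates.
-/

set_option autoImplicit false
set_option linter.unusedSectionVars false
set_option linter.deprecated false

namespace Crest.Agent.R300U.Trans

open Finset

variable {V : Type} [NormedAddCommGroup V] [InnerProductSpace ℂ V]

/-- Real part of the inner product. -/
noncomputable def ip (u v : V) : ℝ := (inner ℂ u v).re

theorem ip_self (u : V) : ‖u‖ ^ 2 = ip u u := by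
  unfold ip; rw [← @inner_self_eq_norm_sq ℂ]; rfl

theorem ip_symm (u v : V) : ip u v = ip v u := by
  unfold ip; rw [← inner_conj_symm, Complex.conj_re]

theorem ip_add_l (u v w : V) : ip (u + v) w = ip u w + ip v w := by simp [ip]
theorem ip_add_r (u v w : V) : ip w (u + v) = ip w u + ip w v := by simp [ip]
theorem ip_sub_l (u v w : V) : ip (u - v) w = ip u w - ip v w := by simp [ip]
theorem ip_sub_r (u v w : V) : ip w (u - v) = ip w u - ip w v := by simp [ip]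
theorem ip_smul_l (r : ℝ) (u w : V) : ip ((r : ℂ) • u) w = r * ip u w := by
  simp [ip]
theorem ip_smul_r (r : ℝ) (u w : V) : ip w ((r : ℂ) • u) = r * ip w u := by
  simp [ip]

theorem key (y g g' : V) (k s : ℝ) (h : ‖y - ((4 / 3 : ℝ) : ℂ) • (g - g')‖ ≤ ‖y‖) (hs : 0 ≤ s) :
    ‖y + ((k - 1 / 6 : ℝ) : ℂ) • g + ((k + 1 / 6 : ℝ) : ℂ) • g' - (s : ℂ) • (g - g')‖ ^ 2 +
      s * (2 * k * (‖g‖ ^ 2 - ‖g'‖ ^ 2) + (1 - s) * ‖g - g'‖ ^ 2) ≤
    ‖y + ((k - 1 / 6 : ℝ) : ℂ) • g + ((k + 1 / 6 : ℝ) : ℂ) • g'‖ ^ 2 := by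
  have h2 : ‖y - ((4 / 3 : ℝ) : ℂ) • (g - g')‖ ^ 2 ≤ ‖y‖ ^ 2 :=
    pow_le_pow_left₀ (norm_nonneg _) h 2
  simp only [ip_self, ip_add_l, ip_add_r, ip_sub_l, ip_sub_r, ip_smul_l, ip_smul_r] at h2 ⊢
  rw [ip_symm g y, ip_symm g' y, ip_symm g' g] at h2 ⊢
  have := mul_le_mul_of_nonneg_left h2 hs
  nlinarith

theorem sq_add_le (a b : V) {t : ℝ} (ht : 0 < t) :
    ‖a + b‖ ^ 2 ≤ (1 + t) * ‖a‖ ^ 2 + (1 + 1 / t) * ‖b‖ ^ 2 := by
  have h1 : ‖a + b‖ ^ 2 ≤ (‖a‖ + ‖b‖) ^ 2 := pow_le_pow_left₀ (norm_nonneg _) (norm_add_le _ _) 2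
  have h2 : 0 ≤ (t * ‖a‖ - ‖b‖) ^ 2 / t := by positivity
  have h3 : (t * ‖a‖ - ‖b‖) ^ 2 / t = t * ‖a‖ ^ 2 - 2 * ‖a‖ * ‖b‖ + 1 / t * ‖b‖ ^ 2 := by
    field_simp; ring
  nlinarith

/-- Weighted square norm of the first `D` blocks. -/
noncomputable def NN (D : ℕ) (l : ℝ) (x : ℕ → V) : ℝ := ∑ j ∈ range D, l ^ j * ‖x j‖ ^ 2

theorem NN_nonneg (D : ℕ) {l : ℝ} (hl : 0 ≤ l) (x : ℕ → V) : 0 ≤ NN D l x :=
  sum_nonneg fun _ _ => by positivity

theorem le_NN {D : ℕ} {l : ℝ} (hl : 0 ≤ l) (x : ℕ → V) {j : ℕ} (hj : j < D) :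
    l ^ j * ‖x j‖ ^ 2 ≤ NN D l x :=
  single_le_sum (f := fun j => l ^ j * ‖x j‖ ^ 2) (fun _ _ => by positivity) (mem_range.2 hj)

theorem NN_add_le (D : ℕ) {l t : ℝ} (hl : 0 ≤ l) (ht : 0 < t) (a b c : ℕ → V)
    (h : ∀ j < D, c j = a j + b j) :
    NN D l c ≤ (1 + t) * NN D l a + (1 + 1 / t) * NN D l b := by
  unfold NN
  rw [mul_sum, mul_sum, ← sum_add_distrib]
  refine sum_le_sum fun j hj => ?_
  rw [h j (mem_range.1 hj)]
  have := mul_le_mul_of_nonneg_left (sq_add_le (a j) (b j) ht) (pow_nonneg hl j)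
  linarith

/-- Data of one step. -/
structure Dat (V : Type) [NormedAddCommGroup V] [InnerProductSpace ℂ V] (k β ε : ℝ) where
  /-- `I - Ã` -/
  Δ : V →L[ℂ] V
  /-- approximate inverse of `I + τ₁ Δ` -/
  G : V → V
  hΔ : ∀ y, ‖y - ((4 / 3 : ℝ) : ℂ) • Δ y‖ ≤ ‖y‖
  hG : ∀ v, ‖G v‖ ≤ ‖v‖
  hF : ∀ v, ‖G v + ((k - 1 / 6 : ℝ) : ℂ) • Δ (G v) - v‖ ≤ ε * ‖v‖
  hQ : ∀ v, ‖v - ((k + 1 / 6 : ℝ) : ℂ) • Δ v‖ ≤ β * ‖v‖

variable {k β ε : ℝ}

theorem Dat.norm_Δ (A : Dat V k β ε) (y : V) : ‖A.Δ y‖ ≤ 2 * ‖y‖ := by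
  have h := A.hΔ y
  have h2 : ‖((4 / 3 : ℝ) : ℂ) • A.Δ y‖ ≤ ‖y‖ + ‖y - ((4 / 3 : ℝ) : ℂ) • A.Δ y‖ := by
    have := norm_sub_le y (y - ((4 / 3 : ℝ) : ℂ) • A.Δ y)
    rwa [sub_sub_cancel] at this
  rw [norm_smul, Complex.norm_real, Real.norm_eq_abs, abs_of_pos (by norm_num)] at h2
  linarith [norm_nonneg y]

theorem Dat.norm_T (A : Dat V k β ε) (y : V) : ‖y - A.Δ y‖ ≤ ‖y‖ := by
  have h := A.hΔ y
  have e : y - A.Δ y = ((1 / 4 : ℝ) : ℂ) • y +
      ((3 / 4 : ℝ) : ℂ) • (y - ((4 / 3 : ℝ) : ℂ) • A.Δ y) := by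
    push_cast; module
  rw [e]
  refine (norm_add_le _ _).trans ?_
  rw [norm_smul, norm_smul, Complex.norm_real, Complex.norm_real, Real.norm_eq_abs,
    Real.norm_eq_abs, abs_of_pos (by norm_num), abs_of_pos (by norm_num)]
  linarith

/-- The auxiliary sequence. -/
def Dat.Aux (A : Dat V k β ε) (x u : ℕ → V) : Prop :=
  u 0 = 0 ∧ ∀ j, u (j + 1) = A.G (x j + (u j - ((k + 1 / 6 : ℝ) : ℂ) • A.Δ (u j)))

/-- The perturbed input. -/
noncomputable def Dat.xp (A : Dat V k β ε) (u : ℕ → V) (j : ℕ) : V :=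
  (u (j + 1) - u j) + ((k - 1 / 6 : ℝ) : ℂ) • A.Δ (u (j + 1)) + ((k + 1 / 6 : ℝ) : ℂ) • A.Δ (u j)

theorem Dat.err (A : Dat V k β ε) {x u : ℕ → V} (hu : A.Aux x u) {D : ℕ} {l t : ℝ} (hl : 0 ≤ l)
    (hl1 : l ≤ 1) (_hβ : 0 ≤ β) (_hε : 0 ≤ ε) (ht : D * ε ^ 2 * (2 * β ^ 2 + 2) ^ D ≤ t ^ 2) :
    NN D l (fun j => A.xp u j - x j) ≤ t ^ 2 * NN D l x := by
  set W := NN D l x with hW
  have hW0 : 0 ≤ W := NN_nonneg D hl x
  have hb1 : (1 : ℝ) ≤ 2 * β ^ 2 + 2 := by nlinarith [sq_nonneg β]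
  have hin : ∀ j < D, l ^ j * ‖u j‖ ^ 2 ≤ (2 * β ^ 2 + 2) ^ j * W →
      l ^ j * ‖x j + (u j - ((k + 1 / 6 : ℝ) : ℂ) • A.Δ (u j))‖ ^ 2 ≤
        (2 * β ^ 2 + 2) ^ (j + 1) * W := by
    intro j hj ih
    have a1 := sq_add_le (x j) (u j - ((k + 1 / 6 : ℝ) : ℂ) • A.Δ (u j)) one_pos
    have a2 : ‖u j - ((k + 1 / 6 : ℝ) : ℂ) • A.Δ (u j)‖ ^ 2 ≤ (β * ‖u j‖) ^ 2 :=
      pow_le_pow_left₀ (norm_nonneg _) (A.hQ _) 2
    have a3 := le_NN hl x hj
    have a4 : 1 * W ≤ (2 * β ^ 2 + 2) ^ j * W :=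
      mul_le_mul_of_nonneg_right (one_le_pow₀ hb1) hW0
    have a5 := mul_le_mul_of_nonneg_left ih (sq_nonneg β)
    have a6 : 0 ≤ l ^ j := pow_nonneg hl j
    have a7 : ‖x j + (u j - ((k + 1 / 6 : ℝ) : ℂ) • A.Δ (u j))‖ ^ 2 ≤
        2 * ‖x j‖ ^ 2 + 2 * (β ^ 2 * ‖u j‖ ^ 2) := by
      rw [mul_pow] at a2; linarith
    have a8 := mul_le_mul_of_nonneg_left a7 a6
    rw [pow_succ (2 * β ^ 2 + 2), ← hW] at *
    linarith
  have hub : ∀ j ≤ D, l ^ j * ‖u j‖ ^ 2 ≤ (2 * β ^ 2 + 2) ^ j * W := by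
    intro j
    induction j with
    | zero => intro _; simp [hu.1, hW0]
    | succ j ih =>
      intro hj
      have a1 := hin j hj (ih (by omega))
      have a2 : ‖u (j + 1)‖ ^ 2 ≤ ‖x j + (u j - ((k + 1 / 6 : ℝ) : ℂ) • A.Δ (u j))‖ ^ 2 := by
        rw [hu.2 j]; exact pow_le_pow_left₀ (norm_nonneg _) (A.hG _) 2
      have a3 : l ^ (j + 1) ≤ l ^ j := pow_le_pow_of_le_one hl hl1 (by omega)
      exact (mul_le_mul a3 a2 (by positivity) (pow_nonneg hl j)).trans a1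
  have hpt : ∀ j ∈ range D, l ^ j * ‖A.xp u j - x j‖ ^ 2 ≤ ε ^ 2 * (2 * β ^ 2 + 2) ^ D * W := by
    intro j hj
    have hj := mem_range.1 hj
    have a1 := hin j hj (hub j hj.le)
    have a2 := A.hF (x j + (u j - ((k + 1 / 6 : ℝ) : ℂ) • A.Δ (u j)))
    rw [← hu.2 j] at a2
    have e : A.xp u j - x j = u (j + 1) + ((k - 1 / 6 : ℝ) : ℂ) • A.Δ (u (j + 1)) -
        (x j + (u j - ((k + 1 / 6 : ℝ) : ℂ) • A.Δ (u j))) := by
      unfold Dat.xp; abel
    rw [e]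
    have a3 := pow_le_pow_left₀ (norm_nonneg _) a2 2
    rw [mul_pow] at a3
    have a4 : (2 * β ^ 2 + 2) ^ (j + 1) * W ≤ (2 * β ^ 2 + 2) ^ D * W :=
      mul_le_mul_of_nonneg_right (pow_le_pow_right₀ hb1 hj) hW0
    have a5 := mul_le_mul_of_nonneg_left a3 (pow_nonneg hl j)
    have a6 := mul_le_mul_of_nonneg_left (a1.trans a4) (sq_nonneg ε)
    nlinarith
  have := sum_le_card_nsmul _ _ _ hpt
  rw [card_range, nsmul_eq_mul] at this
  refine le_trans this ?_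
  have := mul_le_mul_of_nonneg_right ht hW0
  linarith

theorem Dat.key (A : Dat V k β ε) (u : ℕ → V) (j : ℕ) {s : ℝ} (hs : 0 ≤ s) :
    ‖A.xp u j - (s : ℂ) • A.Δ (u (j + 1) - u j)‖ ^ 2 +
      s * (2 * k * (‖A.Δ (u (j + 1))‖ ^ 2 - ‖A.Δ (u j)‖ ^ 2) +
        (1 - s) * ‖A.Δ (u (j + 1)) - A.Δ (u j)‖ ^ 2) ≤ ‖A.xp u j‖ ^ 2 := by
  have h := A.hΔ (u (j + 1) - u j)
  rw [map_sub] at h ⊢
  exact Trans.key _ _ _ k s h hs

theorem comb {D : ℕ} {l t : ℝ} (hl : 0 ≤ l) (ht : 0 < t) (ht1 : t ≤ 1) {x xp z x' : ℕ → V}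
    (he : NN D l (fun j => xp j - x j) ≤ t ^ 2 * NN D l x) (hz : NN D l z ≤ NN D l xp)
    (hx' : ∀ j < D, x' j = z j - (xp j - x j)) : NN D l x' ≤ (1 + 9 * t) * NN D l x := by
  have h1 := NN_add_le D hl ht x (fun j => xp j - x j) xp (fun j _ => by abel)
  have h2 := NN_add_le D hl ht z (fun j => -(xp j - x j)) x'
    (fun j hj => by rw [hx' j hj]; abel)
  have h3 : NN D l (fun j => -(xp j - x j)) = NN D l (fun j => xp j - x j) := by
    unfold NN; simp only [norm_neg]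
  rw [h3] at h2
  have hW := NN_nonneg D hl x
  have h4 : (1 + 1 / t) * NN D l (fun j => xp j - x j) ≤ (t + t ^ 2) * NN D l x := by
    have := mul_le_mul_of_nonneg_left he (by positivity : 0 ≤ 1 + 1 / t)
    refine this.trans (le_of_eq ?_)
    field_simp; ring
  have h5 : NN D l z ≤ (1 + 3 * t) * NN D l x := by
    have : t ^ 2 * NN D l x ≤ t * NN D l x := mul_le_mul_of_nonneg_right (by nlinarith) hW
    nlinarith
  have h6 := mul_le_mul_of_nonneg_left h5 (by positivity : 0 ≤ 1 + t)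
  have : t ^ 2 * NN D l x ≤ t * NN D l x := mul_le_mul_of_nonneg_right (by nlinarith) hW
  nlinarith

/-- One step of the automaton itself, in the weighted norm. -/
theorem Dat.step1 (A : Dat V k β ε) {x u x' : ℕ → V} (hu : A.Aux x u) {D : ℕ} {t : ℝ}
    (hk : 0 ≤ k) (hβ : 0 ≤ β) (hε : 0 ≤ ε) (ht0 : 0 < t) (ht1 : t ≤ 1)
    (ht : D * ε ^ 2 * (2 * β ^ 2 + 2) ^ D ≤ t ^ 2)
    (hx' : ∀ j < D, x' j = x j - ((1 + k : ℝ) : ℂ) • A.Δ (u (j + 1) - u j)) :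
    NN D (1 / 9) x' ≤ (1 + 9 * t) * NN D (1 / 9) x := by
  refine comb (by norm_num) ht0 ht1 (A.err hu (by norm_num) (by norm_num) hβ hε ht)
    (z := fun j => A.xp u j - ((1 + k : ℝ) : ℂ) • A.Δ (u (j + 1) - u j)) ?_
    (fun j hj => by rw [hx' j hj]; abel)
  have main : ∀ D : ℕ, NN D (1 / 9) (fun j => A.xp u j - ((1 + k : ℝ) : ℂ) • A.Δ (u (j + 1) - u j)) +
      (1 + k) * k * 6 * ((1 / 9) ^ D * ‖A.Δ (u D)‖ ^ 2) ≤ NN D (1 / 9) (A.xp u) := by
    intro D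
    induction D with
    | zero => simp [NN, hu.1]
    | succ D ih =>
      unfold NN at ih ⊢
      rw [sum_range_succ, sum_range_succ]
      have a1 := A.key u D (s := 1 + k) (by linarith)
      have a2 := sq_add_le (A.Δ (u (D + 1))) (-A.Δ (u D)) (t := 1 / 3) (by norm_num)
      rw [← sub_eq_add_neg, norm_neg] at a2
      have a3 : (1 + k) * k * (2 / 3 * ‖A.Δ (u (D + 1))‖ ^ 2 - 6 * ‖A.Δ (u D)‖ ^ 2) ≤
          (1 + k) * (2 * k * (‖A.Δ (u (D + 1))‖ ^ 2 - ‖A.Δ (u D)‖ ^ 2) +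
            (1 - (1 + k)) * ‖A.Δ (u (D + 1)) - A.Δ (u D)‖ ^ 2) := by
        rw [mul_assoc]
        refine mul_le_mul_of_nonneg_left ?_ (by linarith)
        have := mul_le_mul_of_nonneg_left a2 hk
        norm_num at this
        nlinarith
      have a4 := mul_le_mul_of_nonneg_left (le_trans (add_le_add_right a3 _) a1)
        (by positivity : (0 : ℝ) ≤ (1 / 9) ^ D)
      rw [pow_succ (1 / 9 : ℝ)]
      beta_reduce at ih ⊢
      linarith
  have := main D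
  have h0 : 0 ≤ (1 + k) * k * 6 * ((1 / 9) ^ D * ‖A.Δ (u D)‖ ^ 2) := by positivity
  linarith

/-- Evaluation of a block vector at `w`. -/
noncomputable def ev (D : ℕ) (w : ℝ) (x : ℕ → V) : V := ∑ j ∈ range D, ((w ^ j : ℝ) : ℂ) • x j

/-- One step of the mixed automaton. -/
theorem Dat.step2 (A : Dat V k β ε) {x u x' : ℕ → V} (hu : A.Aux x u) {D : ℕ} {t w B : ℝ}
    (hk : 1 / 3 ≤ k) (hβ : 0 ≤ β) (hε : 0 ≤ ε) (ht0 : 0 < t) (ht1 : t ≤ 1)
    (ht : D * ε ^ 2 * (2 * β ^ 2 + 2) ^ D ≤ t ^ 2) (hw : k - 1 / 6 = -w * (k + 1 / 6))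
    (hw1 : |w| ≤ 1) (hB : 0 ≤ B) (hxB : NN D 1 x ≤ B ^ 2)
    (hx' : ∀ j < D, x' j = x j - A.Δ (u (j + 1) - u j)) :
    NN D 1 x' ≤ (1 + 9 * t) * NN D 1 x ∧
    ‖ev D w x' - (ev D w x - A.Δ (ev D w x))‖ ≤ (2 * D * t + 6 * (k + 1 / 6) * |w| ^ D) * B := by
  have he := A.err hu (l := 1) (by norm_num) (by norm_num) hβ hε ht
  have main : ∀ D : ℕ, NN D 1 (fun j => A.xp u j - A.Δ (u (j + 1) - u j)) +
      2 * k * ‖A.Δ (u D)‖ ^ 2 ≤ NN D 1 (A.xp u) := by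
    intro D
    induction D with
    | zero => simp [NN, hu.1]
    | succ D ih =>
      unfold NN at ih ⊢
      rw [sum_range_succ, sum_range_succ]
      have a1 := A.key u D (s := 1) (by linarith)
      simp only [Complex.ofReal_one, one_smul, one_pow, one_mul, sub_self, zero_mul,
        add_zero] at a1 ih ⊢
      linarith
  have hm := main D
  have h0 : 0 ≤ 2 * k * ‖A.Δ (u D)‖ ^ 2 := by positivity
  refine ⟨comb (by norm_num) ht0 ht1 he (z := fun j => A.xp u j - A.Δ (u (j + 1) - u j))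
    (by linarith) (fun j hj => by rw [hx' j hj]; abel), ?_⟩
  have hW := NN_nonneg D zero_le_one x
  have hg : ‖A.Δ (u D)‖ ≤ 3 * B := by
    have h1 := NN_add_le D zero_le_one one_pos x (fun j => A.xp u j - x j) (A.xp u)
      (fun j _ => by abel)
    have h2 := NN_nonneg D zero_le_one (fun j => A.xp u j - A.Δ (u (j + 1) - u j))
    have h3 : t ^ 2 * NN D 1 x ≤ 1 * NN D 1 x := mul_le_mul_of_nonneg_right (by nlinarith) hW
    have h4 := mul_le_mul_of_nonneg_right hk (sq_nonneg ‖A.Δ (u D)‖)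
    apply le_of_sq_le_sq _ (by positivity)
    nlinarith
  have hee : ‖ev D w (fun j => A.xp u j - x j)‖ ≤ D * (t * B) := by
    refine (norm_sum_le _ _).trans ?_
    have : ∀ j ∈ range D, ‖((w ^ j : ℝ) : ℂ) • (A.xp u j - x j)‖ ≤ t * B := by
      intro j hj
      rw [norm_smul, Complex.norm_real, Real.norm_eq_abs, abs_pow]
      have a1 := le_NN zero_le_one (fun j => A.xp u j - x j) (mem_range.1 hj)
      rw [one_pow, one_mul] at a1
      have a2 : ‖A.xp u j - x j‖ ≤ t * B := by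
        apply le_of_sq_le_sq _ (by positivity)
        have := mul_le_mul_of_nonneg_left hxB (sq_nonneg t)
        rw [mul_pow]; linarith
      have a3 : |w| ^ j ≤ 1 := pow_le_one₀ (abs_nonneg _) hw1
      nlinarith [norm_nonneg (A.xp u j - x j)]
    simpa using sum_le_card_nsmul _ _ _ this
  have tel : ∀ D : ℕ, ev D w (A.xp u) - ev D w (fun j => u (j + 1) - u j) =
      -(((k + 1 / 6) * w ^ D : ℝ) : ℂ) • A.Δ (u D) := by
    intro D
    induction D with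
    | zero => simp [ev, hu.1]
    | succ D ih =>
      unfold ev at ih ⊢
      rw [sum_range_succ, sum_range_succ, add_sub_add_comm, ih]
      unfold Dat.xp
      rw [hw]
      push_cast
      module
  have e1 : ev D w x' = ev D w x - A.Δ (ev D w (fun j => u (j + 1) - u j)) := by
    unfold ev
    rw [map_sum, ← sum_sub_distrib]
    refine sum_congr rfl fun j hj => ?_
    rw [hx' j (mem_range.1 hj), map_smul, smul_sub]
  have e2 : ev D w (fun j => A.xp u j - x j) = ev D w (A.xp u) - ev D w x := by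
    unfold ev
    rw [← sum_sub_distrib]
    refine sum_congr rfl fun j _ => ?_
    rw [smul_sub]
  have e3 : ev D w x' - (ev D w x - A.Δ (ev D w x)) = A.Δ (-ev D w (fun j => A.xp u j - x j) +
      -(((k + 1 / 6) * w ^ D : ℝ) : ℂ) • A.Δ (u D)) := by
    rw [e1, e2, ← tel D]
    simp only [map_add, map_sub, map_neg]
    abel
  rw [e3]
  refine (A.norm_Δ _).trans ?_
  have a1 := norm_add_le (-ev D w (fun j => A.xp u j - x j))
    (-(((k + 1 / 6) * w ^ D : ℝ) : ℂ) • A.Δ (u D))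
  rw [norm_neg, norm_smul, norm_neg, Complex.norm_real, Real.norm_eq_abs, abs_mul, abs_pow,
    abs_of_pos (by linarith : 0 < k + 1 / 6)] at a1
  have a2 := mul_le_mul_of_nonneg_left hg (by positivity : 0 ≤ (k + 1 / 6) * |w| ^ D)
  nlinarith

theorem pow_le_four {t : ℝ} {n m : ℕ} (ht : 0 ≤ t) (h : 9 * t * n ≤ 1) (hm : m ≤ n) :
    (1 + 9 * t) ^ m ≤ 4 := by
  have h1 : (1 + 9 * t) ^ m ≤ Real.exp (9 * t) ^ m :=
    pow_le_pow_left₀ (by positivity) (by linarith [Real.add_one_le_exp (9 * t)]) m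
  rw [← Real.exp_nat_mul] at h1
  have h2 : (m : ℝ) * (9 * t) ≤ 1 := by
    have : (m : ℝ) ≤ n := by exact_mod_cast hm
    nlinarith
  have h3 := Real.exp_le_exp.2 h2
  linarith [Real.exp_one_lt_d9]

/-- Many steps of the automaton. -/
theorem run1 (A : Bool → Dat V k β ε) (X : List Bool → ℕ → V) {D n : ℕ} {t H : ℝ}
    (hk : 0 ≤ k) (hβ : 0 ≤ β) (hε : 0 ≤ ε) (ht0 : 0 < t) (ht1 : t ≤ 1)
    (ht : D * ε ^ 2 * (2 * β ^ 2 + 2) ^ D ≤ t ^ 2) (htn : 9 * t * n ≤ 1) (hH : 0 ≤ H)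
    (h0 : NN D (1 / 9) (X []) ≤ H ^ 2)
    (hX : ∀ w σ, ∃ u, (A σ).Aux (X w) u ∧ ∀ j < D,
      X (w ++ [σ]) j = X w j - ((1 + k : ℝ) : ℂ) • (A σ).Δ (u (j + 1) - u j))
    (T : List Bool) (hT : T.length ≤ n) (j : ℕ) (hj : j < D) : ‖X T j‖ ≤ 2 * 3 ^ j * H := by
  have main : ∀ T : List Bool, NN D (1 / 9) (X T) ≤ (1 + 9 * t) ^ T.length * H ^ 2 := by
    intro T
    induction T using List.reverseRecOn with
    | nil => simpa using h0
    | append_singleton w σ ih =>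
      obtain ⟨u, hu, hx⟩ := hX w σ
      refine ((A σ).step1 hu hk hβ hε ht0 ht1 ht hx).trans ?_
      rw [List.length_append, List.length_singleton, pow_succ', mul_assoc]
      exact mul_le_mul_of_nonneg_left ih (by positivity)
  have h1 := (le_NN (by norm_num) (X T) hj).trans (main T)
  have h2 := mul_le_mul_of_nonneg_right (pow_le_four ht0.le htn hT) (sq_nonneg H)
  apply le_of_sq_le_sq _ (by positivity)
  have h3 : (1 / 9 : ℝ) ^ j * (3 ^ j) ^ 2 = 1 := by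
    rw [← pow_mul, mul_comm j 2, pow_mul, ← mul_pow]; norm_num
  have h4 := mul_le_mul_of_nonneg_left (h1.trans h2) (sq_nonneg ((3 : ℝ) ^ j))
  have h5 : ((3 : ℝ) ^ j) ^ 2 * ((1 / 9) ^ j * ‖X T j‖ ^ 2) = ‖X T j‖ ^ 2 := by
    rw [← mul_assoc, mul_comm _ ((1 / 9 : ℝ) ^ j), h3, one_mul]
  rw [h5] at h4
  nlinarith

/-- Many steps of the mixed automaton. -/
theorem run2 (A : Bool → Dat V k β ε) (X : List Bool → ℕ → V) (Y : List Bool → V) {D n : ℕ}
    {t w H : ℝ} (hk : 1 / 3 ≤ k) (hβ : 0 ≤ β) (hε : 0 ≤ ε) (ht0 : 0 < t) (ht1 : t ≤ 1)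
    (ht : D * ε ^ 2 * (2 * β ^ 2 + 2) ^ D ≤ t ^ 2) (htn : 9 * t * n ≤ 1) (hH : 0 ≤ H)
    (hw : k - 1 / 6 = -w * (k + 1 / 6)) (hw1 : |w| ≤ 1)
    (h0 : NN D 1 (X []) ≤ H ^ 2) (h0' : ev D w (X []) = Y [])
    (hX : ∀ w σ, ∃ u, (A σ).Aux (X w) u ∧ ∀ j < D,
      X (w ++ [σ]) j = X w j - (A σ).Δ (u (j + 1) - u j))
    (hY : ∀ w σ, Y (w ++ [σ]) = Y w - (A σ).Δ (Y w))
    (T : List Bool) (hT : T.length ≤ n) :
    ‖ev D w (X T) - Y T‖ ≤ n * ((2 * D * t + 6 * (k + 1 / 6) * |w| ^ D) * (2 * H)) := by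
  have hc : 0 ≤ (2 * D * t + 6 * (k + 1 / 6) * |w| ^ D) * (2 * H) := by positivity
  have main : ∀ T : List Bool, T.length ≤ n → NN D 1 (X T) ≤ (1 + 9 * t) ^ T.length * H ^ 2 ∧
      ‖ev D w (X T) - Y T‖ ≤
        T.length * ((2 * D * t + 6 * (k + 1 / 6) * |w| ^ D) * (2 * H)) := by
    intro T
    induction T using List.reverseRecOn with
    | nil => intro _; exact ⟨by simpa using h0, by simp [h0']⟩
    | append_singleton v σ ih =>
      intro hT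
      rw [List.length_append, List.length_singleton] at hT ⊢
      obtain ⟨ih1, ih2⟩ := ih (by omega)
      obtain ⟨u, hu, hx⟩ := hX v σ
      have h2 := mul_le_mul_of_nonneg_right
        (pow_le_four ht0.le htn (by omega : v.length ≤ n)) (sq_nonneg H)
      obtain ⟨s1, s2⟩ := (A σ).step2 hu (B := 2 * H) hk hβ hε ht0 ht1 ht hw hw1 (by positivity)
        (by rw [mul_pow]; linarith) hx
      refine ⟨s1.trans ?_, ?_⟩
      · rw [pow_succ', mul_assoc]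
        exact mul_le_mul_of_nonneg_left ih1 (by positivity)
      · have e : ev D w (X (v ++ [σ])) - Y (v ++ [σ]) =
            (ev D w (X (v ++ [σ])) - (ev D w (X v) - (A σ).Δ (ev D w (X v)))) +
              ((ev D w (X v) - Y v) - (A σ).Δ (ev D w (X v) - Y v)) := by
          rw [hY, map_sub]; abel
        rw [e]
        refine (norm_add_le _ _).trans ?_
        have := (A σ).norm_T (ev D w (X v) - Y v)
        push_cast
        linarith
  refine (main T hT).2.trans (mul_le_mul_of_nonneg_right ?_ hc)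
  exact_mod_cast hT

/-- The truncated Neumann series. -/
noncomputable def neu (Δ : V →L[ℂ] V) (γ : ℝ) (K : ℕ) : V →L[ℂ] V :=
  ((1 - γ : ℝ) : ℂ) • ∑ i ∈ range K, ((γ : ℂ) • (1 : V →L[ℂ] V) + ((-γ : ℝ) : ℂ) • Δ) ^ i

/-- The data built from the Neumann series. -/
noncomputable def mkDat (Δ : V →L[ℂ] V) (hΔ : ∀ y, ‖y - ((4 / 3 : ℝ) : ℂ) • Δ y‖ ≤ ‖y‖) (k γ : ℝ)
    (K : ℕ) (hk : 1 / 3 ≤ k) (hγ : γ = (k - 1 / 6) / (k + 5 / 6)) :
    Dat V k (1 + 2 * (k + 1 / 6)) (γ ^ K) :=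
  have hT : ∀ y, ‖y - Δ y‖ ≤ ‖y‖ := fun y => by
    have h := hΔ y
    have e : y - Δ y = ((1 / 4 : ℝ) : ℂ) • y +
        ((3 / 4 : ℝ) : ℂ) • (y - ((4 / 3 : ℝ) : ℂ) • Δ y) := by
      push_cast; module
    rw [e]
    refine (norm_add_le _ _).trans ?_
    rw [norm_smul, norm_smul, Complex.norm_real, Complex.norm_real, Real.norm_eq_abs,
      Real.norm_eq_abs, abs_of_pos (by norm_num), abs_of_pos (by norm_num)]
    linarith
  have hγ0 : 0 ≤ γ := by rw [hγ]; apply div_nonneg <;> linarith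
  have hγ1 : γ ≤ 1 := by rw [hγ, div_le_one (by linarith)]; linarith
  have hp : ∀ (i : ℕ) (y : V),
      ‖(((γ : ℂ) • (1 : V →L[ℂ] V) + ((-γ : ℝ) : ℂ) • Δ) ^ i) y‖ ≤ γ ^ i * ‖y‖ := by
    intro i
    induction i with
    | zero => intro y; simp
    | succ i ih =>
      intro y
      rw [pow_succ, ContinuousLinearMap.mul_apply]
      refine (ih _).trans ?_
      have e : ((γ : ℂ) • (1 : V →L[ℂ] V) + ((-γ : ℝ) : ℂ) • Δ) y = (γ : ℂ) • (y - Δ y) := by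
        simp [sub_eq_add_neg]
      rw [e, norm_smul, Complex.norm_real, Real.norm_eq_abs, abs_of_nonneg hγ0, pow_succ, mul_assoc]
      exact mul_le_mul_of_nonneg_left (mul_le_mul_of_nonneg_left (hT y) hγ0) (pow_nonneg hγ0 i)
  { Δ := Δ
    G := neu Δ γ K
    hΔ := hΔ
    hG := fun v => by
      unfold neu
      rw [ContinuousLinearMap.smul_apply, ContinuousLinearMap.sum_apply, norm_smul,
        Complex.norm_real, Real.norm_eq_abs, abs_of_nonneg (by linarith)]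
      have h1 := (norm_sum_le _ _).trans (sum_le_sum fun i (_ : i ∈ range K) => hp i v)
      rw [← sum_mul] at h1
      refine (mul_le_mul_of_nonneg_left h1 (by linarith)).trans ?_
      rw [← mul_assoc, mul_neg_geom_sum]
      nlinarith [norm_nonneg v, pow_nonneg hγ0 K]
    hF := fun v => by
      have h1 := mul_neg_geom_sum ((γ : ℂ) • (1 : V →L[ℂ] V) + ((-γ : ℝ) : ℂ) • Δ) K
      have h2 := congrArg (fun f : V →L[ℂ] V => f v) h1
      simp only [ContinuousLinearMap.mul_apply, ContinuousLinearMap.sub_apply,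
        ContinuousLinearMap.one_apply, ContinuousLinearMap.add_apply,
        ContinuousLinearMap.smul_apply] at h2
      have h3 : (k - 1 / 6) * (1 - γ) = γ := by
        have : k + 5 / 6 ≠ 0 := by linarith
        rw [hγ]; field_simp; ring
      have e : neu Δ γ K v + ((k - 1 / 6 : ℝ) : ℂ) • Δ (neu Δ γ K v) - v =
          -((((γ : ℂ) • (1 : V →L[ℂ] V) + ((-γ : ℝ) : ℂ) • Δ) ^ K) v) := by
        unfold neu
        rw [ContinuousLinearMap.smul_apply, map_smul, smul_smul, ← Complex.ofReal_mul, h3]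
        generalize (∑ i ∈ range K, ((γ : ℂ) • (1 : V →L[ℂ] V) + ((-γ : ℝ) : ℂ) • Δ) ^ i) v = z
          at h2 ⊢
        rw [← sub_sub_cancel_left v ((((γ : ℂ) • (1 : V →L[ℂ] V) + ((-γ : ℝ) : ℂ) • Δ) ^ K) v),
          ← h2]
        push_cast
        module
      rw [e, norm_neg]
      exact hp K v
    hQ := fun v => by
      refine (norm_sub_le _ _).trans ?_
      rw [norm_smul, Complex.norm_real, Real.norm_eq_abs, abs_of_nonneg (by linarith)]
      have h1 : ‖Δ v‖ ≤ 2 * ‖v‖ := by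
        have := norm_sub_le v (v - Δ v)
        rw [sub_sub_cancel] at this
        linarith [hT v]
      nlinarith }

set_option maxHeartbeats 2000000 in
theorem numerics (p : ℝ) (D n : ℕ) (hp : 0 < p) (hp1 : p < 3 / 4) (hn : 2 ≤ n)
    (hpn : 1 ≤ p * n ^ 2) (hD : 24 * (n.size : ℝ) ≤ p * D) (k γ w : ℝ) (hk : k = (1 - p) / p)
    (hγ : γ = (k - 1 / 6) / (k + 5 / 6)) (hw : w = -(k - 1 / 6) / (k + 1 / 6)) :
    ∃ t : ℝ, 0 < t ∧ t ≤ 1 ∧
      D * (γ ^ (D * D)) ^ 2 * (2 * (1 + 2 * (k + 1 / 6)) ^ 2 + 2) ^ D ≤ t ^ 2 ∧ 9 * t * n ≤ 1 ∧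
      n * ((2 * D * t + 6 * (k + 1 / 6) * |w| ^ D) * 2) ≤ (2 : ℝ) ^ (-(p * D / 24)) ∧ 1 ≤ D := by
  set s := n.size with hs
  have hs2 : 2 ≤ s := by
    by_contra h
    have := Nat.size_le.1 (show n.size ≤ 1 by omega)
    omega
  set N : ℝ := 2 ^ s with hN
  have hnN : (n : ℝ) ≤ N := by
    have := (Nat.lt_size_self n).le
    rw [hN]; exact_mod_cast this
  have hN4 : 4 ≤ N := by
    have : (2 : ℝ) ^ 2 ≤ 2 ^ s := pow_le_pow_right₀ (by norm_num) hs2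
    linarith
  have hNe : N ≤ Real.exp s := by
    have h1 : (2 : ℝ) ^ s ≤ Real.exp 1 ^ s :=
      pow_le_pow_left₀ (by norm_num) (by linarith [Real.add_one_le_exp (1 : ℝ)]) s
    rwa [← Real.exp_nat_mul, mul_one] at h1
  have hs2' : (2 : ℝ) ≤ s := by exact_mod_cast hs2
  have hD0 : (0 : ℝ) ≤ D := Nat.cast_nonneg D
  have hD2 : (2 : ℝ) ≤ D := by nlinarith
  have hD2' : 2 ≤ D := by exact_mod_cast hD2
  have hkp : k = 1 / p - 1 := by rw [hk]; field_simp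
  have hip : 4 / 3 < 1 / p := by rw [lt_div_iff₀ hp]; linarith
  have hipn : 1 / p ≤ N ^ 2 := by
    rw [div_le_iff₀ hp]
    have : (n : ℝ) ^ 2 ≤ N ^ 2 := pow_le_pow_left₀ (Nat.cast_nonneg n) hnN 2
    nlinarith
  set m : ℝ := N ^ D with hm
  have hmN : N ^ 2 ≤ m := pow_le_pow_right₀ (by linarith) hD2'
  have hm16 : 16 ≤ m := by nlinarith
  have hnm : (n : ℝ) ≤ m := by nlinarith
  have h2m : (2 : ℝ) ^ D ≤ m := pow_le_pow_left₀ (by norm_num) (by linarith) D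
  have hDm : (D : ℝ) ≤ m := by
    have : (D : ℝ) ≤ 2 ^ D := by exact_mod_cast Nat.lt_two_pow_self.le
    linarith
  have hm0 : 0 < m := by linarith
  have hγ0 : 0 ≤ γ := by rw [hγ]; apply div_nonneg <;> linarith
  have hγ1 : γ ≤ Real.exp (-p) := by
    refine le_trans ?_ (Real.add_one_le_exp (-p))
    rw [hγ, div_le_iff₀ (by linarith), hkp]
    have : p * (1 / p) = 1 := by field_simp
    nlinarith
  have hw1 : |w| ≤ Real.exp (-(p / 3)) := by
    refine le_trans ?_ (Real.add_one_le_exp (-(p / 3)))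
    rw [hw, neg_div, abs_neg, abs_of_nonneg (by apply div_nonneg <;> linarith),
      div_le_iff₀ (by linarith), hkp]
    have : p * (1 / p) = 1 := by field_simp
    nlinarith
  have hε : γ ^ (D * D) * m ^ 24 ≤ 1 := by
    have a1 : γ ^ (D * D) ≤ Real.exp (-p) ^ (D * D) := pow_le_pow_left₀ hγ0 hγ1 _
    have a2 : m ^ 24 ≤ (Real.exp s ^ D) ^ 24 :=
      pow_le_pow_left₀ hm0.le (pow_le_pow_left₀ (by linarith) hNe D) 24
    refine (mul_le_mul a1 a2 (by positivity) (by positivity)).trans ?_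
    rw [← Real.exp_nat_mul, ← Real.exp_nat_mul, ← Real.exp_nat_mul, ← Real.exp_add,
      Real.exp_le_one_iff]
    push_cast
    nlinarith
  have hβ : (2 * (1 + 2 * (k + 1 / 6)) ^ 2 + 2) ^ D ≤ m ^ 6 := by
    rw [hm, ← pow_mul, mul_comm D 6, pow_mul]
    refine pow_le_pow_left₀ (by positivity) ?_ D
    have a1 : 1 + 2 * (k + 1 / 6) ≤ 2 * N ^ 2 := by rw [hkp]; linarith
    have a2 : (1 + 2 * (k + 1 / 6)) ^ 2 ≤ (2 * N ^ 2) ^ 2 :=
      pow_le_pow_left₀ (by rw [hkp]; linarith) a1 2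
    have a3 : 16 ≤ N ^ 2 := by nlinarith
    have a4 : N ^ 6 = N ^ 2 * (N ^ 2) ^ 2 := by ring
    nlinarith
  refine ⟨1 / m ^ 4, by positivity, ?_, ?_, ?_, ?_, by omega⟩
  · rw [div_le_one (by positivity)]; exact one_le_pow₀ (by linarith)
  · have a1 : γ ^ (D * D) ≤ 1 / m ^ 24 := by rw [le_div_iff₀ (by positivity)]; exact hε
    calc (D : ℝ) * (γ ^ (D * D)) ^ 2 * (2 * (1 + 2 * (k + 1 / 6)) ^ 2 + 2) ^ D
        ≤ m * (1 / m ^ 24) ^ 2 * m ^ 6 := by gcongr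
      _ = 1 / m ^ 41 := by field_simp
      _ ≤ 1 / m ^ 8 := one_div_le_one_div_of_le (by positivity)
          (pow_le_pow_right₀ (by linarith) (by norm_num))
      _ = _ := by field_simp
  · calc 9 * (1 / m ^ 4) * n ≤ 9 * (1 / m ^ 4) * m := by gcongr
      _ = 9 / m ^ 3 := by field_simp
      _ ≤ 1 := by
        rw [div_le_one (by positivity)]
        have : m ^ 1 ≤ m ^ 3 := pow_le_pow_right₀ (by linarith) (by norm_num)
        linarith
  · have b1 : (n : ℝ) * (2 * D * (1 / m ^ 4) * 2) ≤ 1 / 2 * (2 : ℝ) ^ (-(p * D / 24)) := by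
      have c1 : 1 / m ≤ (2 : ℝ) ^ (-(p * D / 24)) := by
        have d1 : (2 : ℝ) ^ (-(D : ℝ)) ≤ (2 : ℝ) ^ (-(p * D / 24)) :=
          Real.rpow_le_rpow_of_exponent_le (by norm_num) (by nlinarith)
        refine le_trans ?_ d1
        rw [Real.rpow_neg (by norm_num), Real.rpow_natCast, ← one_div]
        exact one_div_le_one_div_of_le (by positivity) h2m
      calc (n : ℝ) * (2 * D * (1 / m ^ 4) * 2) ≤ m * (2 * m * (1 / m ^ 4) * 2) := by gcongr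
        _ = 4 / m * (1 / m) := by field_simp; norm_num
        _ ≤ 1 / 2 * (1 / m) := by
          refine mul_le_mul_of_nonneg_right ?_ (by positivity)
          rw [div_le_iff₀ hm0]; linarith
        _ ≤ _ := by linarith
    have b2 : (n : ℝ) * (6 * (k + 1 / 6) * |w| ^ D * 2) ≤ 1 / 2 * (2 : ℝ) ^ (-(p * D / 24)) := by
      have c1 : Real.exp (-(p * D / 24)) ≤ (2 : ℝ) ^ (-(p * D / 24)) := by
        rw [Real.rpow_def_of_pos (by norm_num), Real.exp_le_exp]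
        have := Real.log_two_lt_d9
        have : 0 ≤ p * D / 24 := by positivity
        nlinarith
      have c2 : |w| ^ D * N ^ 7 ≤ Real.exp (-(p * D / 24)) := by
        have a1 : |w| ^ D ≤ Real.exp (-(p / 3)) ^ D := pow_le_pow_left₀ (abs_nonneg _) hw1 _
        have a2 : N ^ 7 ≤ Real.exp s ^ 7 := pow_le_pow_left₀ (by linarith) hNe 7
        refine (mul_le_mul a1 a2 (by positivity) (by positivity)).trans ?_
        rw [← Real.exp_nat_mul, ← Real.exp_nat_mul, ← Real.exp_add, Real.exp_le_exp]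
        push_cast
        linarith
      have c3 : k + 1 / 6 ≤ N ^ 2 := by rw [hkp]; linarith
      have c4 : 0 ≤ k + 1 / 6 := by rw [hkp]; linarith
      have c5 : 24 ≤ N ^ 4 := by
        have : (4 : ℝ) ^ 4 ≤ N ^ 4 := pow_le_pow_left₀ (by norm_num) hN4 4
        linarith
      calc (n : ℝ) * (6 * (k + 1 / 6) * |w| ^ D * 2) ≤ N * (6 * N ^ 2 * |w| ^ D * 2) := by gcongr
        _ = 1 / 2 * (|w| ^ D * (N ^ 3 * 24)) := by ring
        _ ≤ 1 / 2 * (|w| ^ D * (N ^ 3 * N ^ 4)) := by gcongr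
        _ = 1 / 2 * (|w| ^ D * N ^ 7) := by ring
        _ ≤ _ := by linarith
    linarith

end Crest.Agent.R300U.Trans
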