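import Crest.Agent.R300U.DefsA
import Crest.Agent.R300U.TRANSa
import Crest.Agent.R300U.TRANSb

/-!
Row 300, upper bound: task TRANS (channel transfer).
-/

set_option autoImplicit false
set_option linter.deprecated false

namespace Crest.Agent.R300U

open Crest.Agent.PT Crest.Agent.QC Crest.Agent.R317 Finset

namespace Trans

/-- The state space. -/
abbrev EV (d : ℕ) : Type := EuclideanSpace ℂ (Fin d)

/-- The matrix of a letter. -/
noncomputable def mat (d : ℕ) (a : FA) (σ : Bool) : Matrix (Fin d) (Fin d) ℂ :=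
  fun i j => (a.gA σ i j : ℂ)

/-- A matrix as an operator. -/
noncomputable abbrev op {d : ℕ} (M : Matrix (Fin d) (Fin d) ℂ) : EV d →L[ℂ] EV d :=
  Matrix.toEuclideanCLM (n := Fin d) (𝕜 := ℂ) M

/-- The operator of a letter. -/
noncomputable def LL (d : ℕ) (a : FA) (σ : Bool) : EV d →L[ℂ] EV d := op (mat d a σ)

/-- A vector. -/
noncomputable def vec (d : ℕ) (v : ℕ → GQ) : EV d := WithLp.toLp 2 (fun i : Fin d => (v i : ℂ))

@[simp] theorem vec_apply (d : ℕ) (v : ℕ → GQ) (i : Fin d) : vec d v i = (v i : ℂ) := rfl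

theorem op_apply {d : ℕ} (M : Matrix (Fin d) (Fin d) ℂ) (x : EV d) (i : Fin d) :
    op M x i = ∑ j, M i j * x j := rfl

theorem coe_sum {ι : Type} (s : Finset ι) (f : ι → GQ) :
    ((∑ i ∈ s, f i : GQ) : ℂ) = ∑ i ∈ s, (f i : ℂ) := by push_cast; rfl

theorem coe_ite (P : Prop) [Decidable P] (x y : GQ) :
    ((if P then x else y : GQ) : ℂ) = if P then (x : ℂ) else (y : ℂ) := by split_ifs <;> rfl

theorem LL_vec (d : ℕ) (a : FA) (σ : Bool) (v : ℕ → GQ) (i : Fin d) :
    LL d a σ (vec d v) i = ((∑ j ∈ range d, a.gA σ i j * v j : GQ) : ℂ) := by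
  rw [coe_sum, Finset.sum_range]
  unfold LL
  rw [op_apply]
  refine sum_congr rfl fun j _ => ?_
  push_cast; rfl

theorem vec_st {d : ℕ} {a : FA} (h : a.d = d) (w : List Bool) (σ : Bool) :
    vec d (a.st (w ++ [σ])) = LL d a σ (vec d (a.st w)) := by
  subst h
  ext i
  rw [LL_vec, vec_apply, FA.st_concat]
  congr 1
  exact sum_congr rfl fun j hj => by rw [FA.gA_lt _ _ i.2 (mem_range.1 hj)]

theorem LL_lin {d : ℕ} {a : FA} (h : a.d = d) (x y : ℚ) (σ : Bool) :
    LL d (lin x y a) σ = ((x : ℝ) : ℂ) • (1 : EV d →L[ℂ] EV d) + ((y : ℝ) : ℂ) • LL d a σ := by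
  subst h
  unfold LL
  rw [← map_one (Matrix.toEuclideanCLM (n := Fin a.d) (𝕜 := ℂ)), ← map_smul, ← map_smul, ← map_add]
  congr 1
  ext i j
  have : (lin x y a).gA σ i j = (if (i : ℕ) = j then (x : GQ) else 0) + (y : GQ) * a.gA σ i j :=
    FA.gA_lt _ _ i.2 j.2
  simp only [mat, this, Matrix.add_apply, Matrix.smul_apply, Matrix.one_apply, smul_eq_mul,
    Fin.ext_iff]
  split_ifs <;> simp

theorem LL_mul {d : ℕ} {a : FA} (h : a.d = d) (b : FA) (σ : Bool) :
    LL d (mul a b) σ = LL d a σ * LL d b σ := by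
  subst h
  unfold LL
  rw [← map_mul]
  congr 1
  ext i j
  have : (mul a b).gA σ i j = ∑ l ∈ range a.d, a.gA σ i l * b.gA σ l j := FA.gA_lt _ _ i.2 j.2
  simp only [mat, this, Matrix.mul_apply]
  rw [coe_sum, Finset.sum_range]
  refine sum_congr rfl fun l _ => ?_
  push_cast; rfl

theorem mat_pw (a : FA) (k : ℕ) (σ : Bool) : mat a.d (pw a k) σ = mat a.d a σ ^ k := by
  ext i j
  have h1 : (pw a k).gA σ i j = (ent a i j).val (List.replicate k σ) := FA.gA_lt _ _ i.2 j.2
  have h2 : ∀ (k : ℕ) (l : Fin a.d),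
      (((ent a i j).st (List.replicate k σ) l : GQ) : ℂ) = (mat a.d a σ ^ k) l j := by
    intro k
    induction k with
    | zero =>
      intro l
      simp only [List.replicate_zero, FA.st_nil, pow_zero, Matrix.one_apply, Fin.ext_iff, ent]
      split_ifs <;> simp
    | succ k ih =>
      intro l
      rw [List.replicate_succ', FA.st_concat, pow_succ', Matrix.mul_apply, coe_sum]
      show ∑ t ∈ range a.d, _ = _
      rw [Finset.sum_range]
      refine sum_congr rfl fun t _ => ?_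
      rw [← ih t]
      push_cast; rfl
  simp only [mat, h1]
  unfold FA.val
  show ((∑ l ∈ range a.d, (if l = (i : ℕ) then (1 : GQ) else 0) *
    (ent a i j).st (List.replicate k σ) l : GQ) : ℂ) = _
  simp only [ite_mul, one_mul, zero_mul, sum_ite_eq', mem_range, i.2, if_true]
  exact h2 k i

theorem LL_pw {d : ℕ} {a : FA} (h : a.d = d) (k : ℕ) (σ : Bool) :
    LL d (pw a k) σ = LL d a σ ^ k := by
  subst h
  unfold LL
  rw [mat_pw]
  exact map_pow (Matrix.toEuclideanCLM (n := Fin a.d) (𝕜 := ℂ)) _ _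

theorem LL_geo {d : ℕ} {a : FA} (h : a.d = d) (c : ℚ) (K : ℕ) (σ : Bool) :
    LL d (geo c a K) σ = ((c : ℝ) : ℂ) • ∑ k ∈ range K, LL d a σ ^ k := by
  subst h
  unfold LL
  simp only [← map_pow, ← mat_pw]
  rw [← map_sum, ← map_smul]
  congr 1
  ext i j
  have : (geo c a K).gA σ i j = (c : GQ) * ∑ k ∈ range K, (pw a k).gA σ i j :=
    FA.gA_lt _ _ i.2 j.2
  simp only [mat, this, Matrix.smul_apply, Matrix.sum_apply, smul_eq_mul]
  push_cast
  simp

theorem contr_norm {d : ℕ} {M : ℕ → ℕ → ℂ} (h : Contr d M) (y : EV d) :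
    ‖op (fun i j : Fin d => M i j) y‖ ≤ ‖y‖ := by
  apply le_of_sq_le_sq _ (norm_nonneg _)
  have := h (fun j => if hj : j < d then y ⟨j, hj⟩ else 0)
  rw [Finset.sum_range, Finset.sum_range] at this
  rw [EuclideanSpace.norm_sq_eq, EuclideanSpace.norm_sq_eq]
  simp only [Finset.sum_range, Fin.is_lt, dite_true, Fin.eta] at this
  exact this

theorem norm_vec_le (d : ℕ) (v : ℕ → GQ) : ‖vec d v‖ ≤ ∑ i ∈ range d, ‖v i‖ := by
  apply le_of_sq_le_sq _ (sum_nonneg fun _ _ => norm_nonneg _)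
  rw [EuclideanSpace.norm_sq_eq, Finset.sum_range]
  exact Finset.sum_sq_le_sq_sum_of_nonneg (fun _ _ => norm_nonneg _)

theorem dot_le (d : ℕ) (c : ℕ → GQ) (x : EV d) :
    ‖∑ i : Fin d, (c i : ℂ) * x i‖ ≤ (∑ i ∈ range d, ‖c i‖) * ‖x‖ := by
  refine (norm_sum_le _ _).trans ?_
  rw [Finset.sum_range, sum_mul]
  refine sum_le_sum fun i _ => ?_
  rw [norm_mul]
  exact mul_le_mul_of_nonneg_left (PiLp.norm_apply_le x i) (norm_nonneg _)

theorem sum_dm {R : Type} [AddCommMonoid R] (m n : ℕ) (F : ℕ → R) :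
    ∑ i ∈ range (m * n), F i = ∑ k ∈ range m, ∑ s ∈ range n, F (k * n + s) := by
  induction m with
  | zero => simp
  | succ m ih => rw [Nat.succ_mul, Finset.sum_range_add, ih, Finset.sum_range_succ]

theorem dm_div {n s : ℕ} (k : ℕ) (h : s < n) : (k * n + s) / n = k := by
  rw [mul_comm, Nat.mul_add_div (by omega), Nat.div_eq_of_lt h, add_zero]

theorem dm_mod {n s : ℕ} (k : ℕ) (h : s < n) : (k * n + s) % n = s := by
  rw [mul_comm, Nat.mul_add_mod, Nat.mod_eq_of_lt h]

theorem dm_lt {m n k s : ℕ} (hk : k < m) (h : s < n) : k * n + s < m * n := by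
  have := Nat.mul_le_mul_right n (Nat.succ_le_of_lt hk)
  rw [Nat.succ_mul] at this
  omega

/-- The block vector of a long vector. -/
noncomputable def blk (d : ℕ) (v : ℕ → GQ) (j : ℕ) : EV d := vec d (fun i => v (j * d + i))

/-- The auxiliary sequence. -/
noncomputable def aux (p S : ℚ) (D : ℕ) (a : FA) (σ : Bool) (x : ℕ → EV a.d) (j : ℕ) : EV a.d :=
  ∑ j' ∈ range j, (LL a.d (mE p S D a) σ ^ (j - 1 - j') * LL a.d (mG p S D a) σ) (x j')

theorem aux_succ (p S : ℚ) (D : ℕ) (a : FA) (σ : Bool) (x : ℕ → EV a.d) (j : ℕ) :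
    aux p S D a σ x (j + 1) = LL a.d (mG p S D a) σ (x j + (aux p S D a σ x j -
      (((kk p : ℝ) + 1 / 6 : ℝ) : ℂ) • LL a.d (mD S a) σ (aux p S D a σ x j))) := by
  have hE : ∀ v, LL a.d (mE p S D a) σ v = LL a.d (mG p S D a) σ (v -
      (((kk p : ℝ) + 1 / 6 : ℝ) : ℂ) • LL a.d (mD S a) σ v) := by
    intro v
    unfold mE
    rw [LL_mul (by rfl), LL_lin (by rfl), ContinuousLinearMap.mul_apply]
    congr 1
    simp [sub_eq_add_neg, add_smul, add_comm]
  rw [map_add, ← hE]
  unfold aux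
  rw [sum_range_succ, map_sum, add_comm]
  congr 1
  · simp
  · refine sum_congr rfl fun j' hj' => ?_
    have := mem_range.1 hj'
    rw [show j + 1 - 1 - j' = (j - 1 - j') + 1 by omega, pow_succ', mul_assoc]
    rfl

theorem bm_sum (p S : ℚ) (D : ℕ) (a : FA) (σ : Bool) (v : ℕ → GQ) {j : ℕ} (hj : j ≤ D)
    (i : Fin a.d) :
    ((∑ t ∈ range (D * a.d), bm p S D a σ j i t * v t : GQ) : ℂ) =
      LL a.d (mD S a) σ (aux p S D a σ (blk a.d v) j) i := by
  unfold aux
  rw [map_sum, sum_dm, WithLp.ofLp_sum, Finset.sum_apply, coe_sum,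
    ← Finset.sum_subset (range_subset_range.2 hj)]
  · refine sum_congr rfl fun j' hj' => ?_
    have e : LL a.d (mD S a) σ ((LL a.d (mE p S D a) σ ^ (j - 1 - j') * LL a.d (mG p S D a) σ)
        (blk a.d v j')) = LL a.d (mB p S D a (j - 1 - j')) σ (blk a.d v j') := by
      unfold mB
      rw [LL_mul (by rfl), LL_mul (by rfl), LL_pw (by rfl)]
      rfl
    rw [e, blk, LL_vec]
    congr 1
    refine sum_congr rfl fun i' hi' => ?_
    have hi' := mem_range.1 hi'
    unfold bm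
    rw [dm_div _ hi', dm_mod _ hi', if_pos (mem_range.1 hj')]
  · intro j' _ hj'
    rw [sum_eq_zero]
    · rfl
    · intro i' hi'
      have hi' := mem_range.1 hi'
      unfold bm
      rw [dm_div _ hi', if_neg (fun h => hj' (mem_range.2 h)), zero_mul]

theorem blk_step (p S : ℚ) (D : ℕ) (a b : FA) (c : ℚ) (hd : b.d = D * a.d)
    (hA : ∀ σ s t, b.A σ s t = (if s = t then 1 else 0) - (c : GQ) *
      (bm p S D a σ (s / a.d + 1) (s % a.d) t - bm p S D a σ (s / a.d) (s % a.d) t))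
    (w : List Bool) (σ : Bool) (j : ℕ) (hj : j < D) :
    blk a.d (b.st (w ++ [σ])) j = blk a.d (b.st w) j - ((c : ℝ) : ℂ) • LL a.d (mD S a) σ
      (aux p S D a σ (blk a.d (b.st w)) (j + 1) - aux p S D a σ (blk a.d (b.st w)) j) := by
  ext i
  rw [map_sub]
  simp only [PiLp.sub_apply, PiLp.smul_apply, smul_eq_mul]
  rw [← bm_sum p S D a σ _ (Nat.succ_le_of_lt hj), ← bm_sum p S D a σ _ hj.le]
  simp only [blk, vec_apply]
  rw [FA.st_concat, hd]
  simp only [hA, dm_div _ i.2, dm_mod _ i.2, sub_mul, mul_sub, sum_sub_distrib, mul_assoc,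
    ← mul_sum, ite_mul, one_mul, zero_mul, sum_ite_eq, mem_range, dm_lt hj i.2, if_true]
  push_cast
  simp

theorem blk_val (D : ℕ) (a b : FA) (w₀ : ℚ) (hd : b.d = D * a.d)
    (hc : ∀ s, b.c s = ((w₀ ^ (s / a.d) : ℚ) : GQ) * a.gc (s % a.d)) (w : List Bool) :
    (b.val w : ℂ) = ∑ i : Fin a.d, (a.c i : ℂ) * ev D (w₀ : ℝ) (blk a.d (b.st w)) i := by
  unfold FA.val ev
  rw [hd, sum_dm, sum_comm, coe_sum, Finset.sum_range]
  refine sum_congr rfl fun i _ => ?_
  rw [WithLp.ofLp_sum, Finset.sum_apply, mul_sum, coe_sum]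
  refine sum_congr rfl fun j _ => ?_
  rw [hc, dm_div _ i.2, dm_mod _ i.2, FA.gc_lt _ i.2]
  simp only [blk, PiLp.smul_apply, vec_apply, smul_eq_mul]
  push_cast
  ring

theorem blk_h (a : FA) (j : ℕ) : blk a.d a.gh j = if j = 0 then vec a.d a.h else 0 := by
  ext i
  split_ifs with h
  · subst h
    simp [blk, FA.gh_lt _ i.2]
  · have : ¬ (j * a.d + i < a.d) := by
      have := Nat.mul_le_mul_right a.d (Nat.one_le_iff_ne_zero.2 h)
      omega
    simp [blk, FA.gh, this]

theorem NN_h (a : FA) {D : ℕ} (hD : 1 ≤ D) (l : ℝ) : NN D l (blk a.d a.gh) = ‖vec a.d a.h‖ ^ 2 := by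
  unfold NN
  rw [sum_eq_single 0]
  · simp [blk_h]
  · intro j _ hj; simp [blk_h, hj]
  · intro h; exact absurd (mem_range.2 hD) h

theorem ev_h (a : FA) {D : ℕ} (hD : 1 ≤ D) (l : ℝ) : ev D l (blk a.d a.gh) = vec a.d a.h := by
  unfold ev
  rw [sum_eq_single 0]
  · simp [blk_h]
  · intro j _ hj; simp [blk_h, hj]
  · intro h; exact absurd (mem_range.2 hD) h

theorem val_eq (a : FA) (w : List Bool) :
    (a.val w : ℂ) = ∑ i : Fin a.d, (a.c i : ℂ) * vec a.d (a.st w) i := by
  unfold FA.val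
  rw [coe_sum, Finset.sum_range]
  refine sum_congr rfl fun i _ => ?_
  push_cast; rfl

theorem accs_norm {S p' : ℝ} {a : FA} (h : Accs S p' a) (σ : Bool) (y : EV a.d) :
    ‖((-(1 - p') / p' : ℝ) : ℂ) • y + ((S / p' : ℝ) : ℂ) • LL a.d a σ y‖ ≤ ‖y‖ := by
  refine le_trans (le_of_eq ?_) (contr_norm (h σ) y)
  congr 1
  ext i
  have e : ∀ j : Fin a.d, (((S : ℂ) * (a.A σ i j : ℂ) - if (i : ℕ) = j then (1 - p' : ℂ) else 0) / p') *
      y j = (if i = j then ((-(1 - p') / p' : ℝ) : ℂ) * y j else 0) +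
        ((S / p' : ℝ) : ℂ) * (mat a.d a σ i j * y j) := by
    intro j
    simp only [mat, FA.gA_lt _ _ i.2 j.2, Fin.ext_iff]
    push_cast
    split_ifs <;> ring
  refine Eq.trans ?_ (op_apply _ _ _).symm
  simp only [e, sum_add_distrib, sum_ite_eq, mem_univ, if_true, ← mul_sum]
  rfl

theorem caseA (p S : ℚ) (a : FA) (H : ℝ) (hp : 0 < p) (hacc : Accs S p a)
    (hc : ∑ i ∈ range a.d, ‖a.c i‖ ≤ H) (hh : ∑ i ∈ range a.d, ‖a.h i‖ ≤ H) :
    (∀ T : List Bool, ‖(chA p S a).val T‖ ≤ H ^ 2) ∧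
    ∀ x : List Bool, (mix p (chA p S a)).val x = (S : GQ) ^ x.length * a.val x := by
  have hH : 0 ≤ H := le_trans (sum_nonneg fun _ _ => norm_nonneg _) hc
  constructor
  · intro T
    have h1 : ∀ T : List Bool, ‖vec a.d ((chA p S a).st T)‖ ≤ H := by
      intro T
      induction T using List.reverseRecOn with
      | nil =>
        refine (norm_vec_le _ _).trans (le_trans (le_of_eq ?_) hh)
        exact sum_congr rfl fun i hi => by
          show ‖a.gh i‖ = _
          rw [FA.gh_lt _ (mem_range.1 hi)]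
      | append_singleton w σ ih =>
        rw [vec_st (by rfl)]
        have e : LL a.d (chA p S a) σ = LL a.d (lin (-(1 - p) / p) (S / p) a) σ := rfl
        rw [e, LL_lin rfl]
        refine le_trans (le_of_eq ?_) ((accs_norm hacc σ _).trans ih)
        congr 1
        simp
    rw [← norm_coe, val_eq]
    refine (dot_le a.d (chA p S a).c _).trans ?_
    rw [sq]
    refine mul_le_mul (le_trans (le_of_eq ?_) hc) (h1 T) (norm_nonneg _) hH
    exact sum_congr rfl fun i hi => by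
      show ‖a.gc i‖ = _
      rw [FA.gc_lt _ (mem_range.1 hi)]
  · intro x
    have h1 : ∀ x : List Bool, ∀ i < a.d,
        (mix p (chA p S a)).st x i = (S : GQ) ^ x.length * a.st x i := by
      intro x
      induction x using List.reverseRecOn with
      | nil =>
        intro i hi
        show a.gh i = _
        simpa using FA.gh_lt a hi
      | append_singleton w σ ih =>
        intro i hi
        rw [FA.st_concat, FA.st_concat, mul_sum]
        refine sum_congr rfl fun j hj => ?_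
        have hj := mem_range.1 hj
        rw [ih j hj, List.length_append, List.length_singleton]
        have hp' : (p : GQ) ≠ 0 := by exact_mod_cast hp.ne'
        show ((if i = j then ((1 - p : ℚ) : GQ) else 0) + (p : GQ) *
          ((if i = j then ((-(1 - p) / p : ℚ) : GQ) else 0) + ((S / p : ℚ) : GQ) * a.gA σ i j)) * _ = _
        rw [FA.gA_lt _ _ hi hj]
        push_cast
        split_ifs <;> field_simp <;> ring
    unfold FA.val
    rw [mul_sum]
    refine sum_congr rfl fun i hi => ?_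
    have hi : i < a.d := mem_range.1 hi
    rw [h1 x i hi]
    show a.gc i * _ = _
    rw [FA.gc_lt _ hi]; ring

theorem caseB (p S : ℚ) (D n : ℕ) (a : FA) (H : ℝ) (hp : 0 < p) (hp1 : p < 3 / 4) (hn : 2 ≤ n)
    (hpn : 1 ≤ p * n ^ 2) (hD : (24 * n.size : ℚ) ≤ p * D) (hacc : Accs S (3 / 4) a)
    (hc : ∑ i ∈ range a.d, ‖a.c i‖ ≤ H) (hh : ∑ i ∈ range a.d, ‖a.h i‖ ≤ H) :
    (∀ T : List Bool, T.length ≤ n → ‖(chB p S D a).val T‖ ≤ 4 ^ (D + 1) * H ^ 2) ∧
    ∀ x : List Bool, x.length ≤ n →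
      ‖(mix p (chB p S D a)).val x - (S : GQ) ^ x.length * a.val x‖ ≤
        (2 : ℝ) ^ (-(p * D / 24 : ℝ)) * H ^ 2 := by
  have hH : 0 ≤ H := le_trans (sum_nonneg fun _ _ => norm_nonneg _) hc
  have hpR : (0 : ℝ) < p := by exact_mod_cast hp
  have hp1R : (p : ℝ) < 3 / 4 := by
    have : (p : ℝ) < ((3 / 4 : ℚ) : ℝ) := by exact_mod_cast hp1
    simpa using this
  have hk : ((kk p : ℚ) : ℝ) = (1 - p) / p := by unfold kk; push_cast; rfl
  have hγ : ((gg p : ℚ) : ℝ) = (kk p - 1 / 6) / (kk p + 5 / 6) := by unfold gg; push_cast; rfl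
  have hw : ((ww p : ℚ) : ℝ) = -(kk p - 1 / 6) / (kk p + 1 / 6) := by unfold ww; push_cast; rfl
  have hk3 : (1 / 3 : ℝ) ≤ kk p := by rw [hk, le_div_iff₀ hpR]; linarith
  obtain ⟨t, ht0, ht1, ht, htn, hb, hD1⟩ := numerics p D n hpR hp1R hn (by exact_mod_cast hpn)
    (by exact_mod_cast hD) (kk p) (gg p) (ww p) hk hγ hw
  have hT : ∀ σ (y : EV a.d), LL a.d (mD S a) σ y = y - ((S : ℝ) : ℂ) • LL a.d a σ y := by
    intro σ y
    unfold mD
    rw [LL_lin rfl]
    simp [sub_eq_add_neg]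
  have hΔ : ∀ σ (y : EV a.d), ‖y - ((4 / 3 : ℝ) : ℂ) • LL a.d (mD S a) σ y‖ ≤ ‖y‖ := by
    intro σ y
    refine le_trans (le_of_eq ?_) (accs_norm hacc σ y)
    congr 1
    rw [hT]
    push_cast
    module
  let A : Bool → Dat (EV a.d) (kk p) (1 + 2 * (kk p + 1 / 6)) ((gg p : ℝ) ^ (D * D)) :=
    fun σ => mkDat (LL a.d (mD S a) σ) (hΔ σ) (kk p) (gg p) (D * D) hk3 hγ
  have hG : ∀ σ, LL a.d (mG p S D a) σ = neu (LL a.d (mD S a) σ) (gg p) (D * D) := by
    intro σ
    unfold mG neu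
    rw [LL_geo (by rfl), LL_lin (by rfl)]
    push_cast
    rfl
  have hAux : ∀ σ (x : ℕ → EV a.d), (A σ).Aux x (aux p S D a σ x) := by
    intro σ x
    refine ⟨by simp [aux], fun j => ?_⟩
    rw [aux_succ, hG]
    rfl
  have hγ0 : (0 : ℝ) ≤ (gg p : ℝ) ^ (D * D) := by
    apply pow_nonneg; rw [hγ]; apply div_nonneg <;> linarith
  have hw1 : |((ww p : ℚ) : ℝ)| ≤ 1 := by
    rw [hw, neg_div, abs_neg, abs_of_nonneg (by apply div_nonneg <;> linarith),
      div_le_one (by linarith)]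
    linarith
  have hvh : ‖vec a.d a.h‖ ≤ H := (norm_vec_le _ _).trans hh
  have hvh2 : ‖vec a.d a.h‖ ^ 2 ≤ H ^ 2 := pow_le_pow_left₀ (norm_nonneg _) hvh 2
  constructor
  · intro T hTn
    have h1 := run1 A (fun w => blk a.d ((chB p S D a).st w)) (D := D) (by linarith) (by linarith)
      hγ0 ht0 ht1 ht htn hH (by
        show NN D (1 / 9) (blk a.d a.gh) ≤ _
        rw [NN_h a hD1]; exact hvh2)
      (fun w σ => ⟨_, hAux σ _, fun j hj => by
        have := blk_step p S D a (chB p S D a) (1 + kk p) rfl (fun _ _ _ => rfl) w σ j hj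
        rw [this]
        push_cast
        rfl⟩) T hTn
    rw [← norm_coe, blk_val D a (chB p S D a) (ww p) rfl (fun _ => rfl)]
    refine (dot_le _ _ _).trans ?_
    have h2 : ‖ev D (ww p : ℝ) (blk a.d ((chB p S D a).st T))‖ ≤ 4 ^ (D + 1) * H := by
      refine (norm_sum_le _ _).trans ?_
      have h3 : ∀ j ∈ range D, ‖((((ww p : ℚ) : ℝ) ^ j : ℝ) : ℂ) • blk a.d ((chB p S D a).st T) j‖ ≤
          2 * 3 ^ j * H := by
        intro j hj
        rw [norm_smul, Complex.norm_real, Real.norm_eq_abs, abs_pow]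
        have a3 : |((ww p : ℚ) : ℝ)| ^ j ≤ 1 := pow_le_one₀ (abs_nonneg _) hw1
        have := h1 j (mem_range.1 hj)
        nlinarith [norm_nonneg (blk a.d ((chB p S D a).st T) j)]
      refine (sum_le_sum h3).trans ?_
      rw [← sum_mul]
      refine mul_le_mul_of_nonneg_right ?_ hH
      have : ∀ D : ℕ, ∑ j ∈ range D, (2 : ℝ) * 3 ^ j ≤ 3 ^ D := by
        intro D
        induction D with
        | zero => simp
        | succ D ih => rw [sum_range_succ, pow_succ]; linarith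
      refine (this D).trans ((pow_le_pow_left₀ (by norm_num) (by norm_num : (3 : ℝ) ≤ 4) D).trans ?_)
      exact pow_le_pow_right₀ (by norm_num) (by omega)
    calc _ ≤ H * (4 ^ (D + 1) * H) := mul_le_mul hc h2 (norm_nonneg _) hH
      _ = _ := by ring
  · intro x hxn
    have h1 := run2 A (fun w => blk a.d ((mix p (chB p S D a)).st w))
      (fun w => (((S : ℝ) : ℂ) ^ w.length) • vec a.d (a.st w)) (D := D) (w := ww p) hk3 (by linarith)
      hγ0 ht0 ht1 ht htn hH (by rw [hw]; field_simp) hw1 (by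
        show NN D 1 (blk a.d a.gh) ≤ _
        rw [NN_h a hD1]; exact hvh2)
      (by
        show ev D _ (blk a.d a.gh) = _
        rw [ev_h a hD1]; simp)
      (fun w σ => ⟨_, hAux σ _, fun j hj => by
        have := blk_step p S D a (mix p (chB p S D a)) 1 rfl (fun σ s t => by
          have hp' : (p : GQ) ≠ 0 := by exact_mod_cast hp.ne'
          show (if s = t then ((1 - p : ℚ) : GQ) else 0) + (p : GQ) *
            ((if s = t then 1 else 0) - ((1 + kk p : ℚ) : GQ) * _) = _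
          unfold kk
          push_cast
          split_ifs <;> field_simp <;> ring) w σ j hj
        rw [this]
        push_cast
        rw [one_smul]
        rfl⟩)
      (fun w σ => by
        show _ = _ - LL a.d (mD S a) σ _
        rw [hT, vec_st rfl, List.length_append, List.length_singleton, map_smul, pow_succ]
        module) x hxn
    rw [← norm_coe]
    push_cast
    rw [blk_val D a (mix p (chB p S D a)) (ww p) rfl (fun _ => rfl), val_eq, mul_sum,
      ← sum_sub_distrib]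
    have e : ∀ i : Fin a.d, (a.c i : ℂ) * ev D (ww p : ℝ) (blk a.d ((mix p (chB p S D a)).st x)) i -
        (S : ℂ) ^ x.length * ((a.c i : ℂ) * vec a.d (a.st x) i) =
        (a.c i : ℂ) * (ev D (ww p : ℝ) (blk a.d ((mix p (chB p S D a)).st x)) -
          (((S : ℝ) : ℂ) ^ x.length) • vec a.d (a.st x)) i := by
      intro i
      simp only [PiLp.sub_apply, PiLp.smul_apply, smul_eq_mul]
      push_cast
      ring
    simp only [e]
    refine (dot_le _ _ _).trans ?_
    have h2 := mul_le_mul_of_nonneg_right hb hH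
    calc _ ≤ H * ((2 : ℝ) ^ (-(p * D / 24 : ℝ)) * H) :=
          mul_le_mul hc (h1.trans (by linarith)) (norm_nonneg _) hH
      _ = _ := by ring

end Trans

open _root_.Crest.Agent.R300U.Trans in
theorem trans_proof : TransStmt := by
  refine ⟨24, by norm_num, chan, pt_chan, ?_⟩
  intro p S D n a H hp hp1 hn hpn hD hS hS1 hacc hc hh
  unfold chan
  by_cases h : 3 / 4 ≤ p
  · simp only [h, if_true]
    have hR : (3 / 4 : ℝ) ≤ p := by
      have : ((3 / 4 : ℚ) : ℝ) ≤ p := by exact_mod_cast h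
      simpa using this
    rw [max_eq_left hR] at hacc
    obtain ⟨h1, h2⟩ := caseA p S a H hp hacc hc hh
    refine ⟨fun T _ => (h1 T).trans ?_, fun x _ => ?_⟩
    · have : (1 : ℝ) ≤ 4 ^ (D + 1) := one_le_pow₀ (by norm_num)
      nlinarith [sq_nonneg H]
    · rw [h2, sub_self, norm_zero]; positivity
  · simp only [h, if_false]
    push Not at h
    have hR : (p : ℝ) ≤ 3 / 4 := by
      have : (p : ℝ) ≤ ((3 / 4 : ℚ) : ℝ) := by exact_mod_cast h.le
      simpa using this
    rw [max_eq_right hR] at hacc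
    simpa using caseB p S D n a H hp h hn hpn (by exact_mod_cast hD) hacc hc hh

end Crest.Agent.R300U
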